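import Crest.Agent.R090.Sp_962

/-!
# Row 90, block (A): classes of locally compact spaces with the two-out-of-three property
(owner helper923)

`Cls P` : the predicate `P` on locally compact Hausdorff spaces contains the cells and is stable
under homeomorphisms, products and two corners of a closed/open decomposition.
Consequences: finite powers, disjoint unions, the complement of the diagonal.
-/

set_option autoImplicit false

open Topology Filter Set

namespace Crest.Agent.R090.AClass923

/-- a predicate on locally compact Hausdorff spaces -/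
abbrev SpPred : Type 1 :=
  ∀ (U : Type) [TopologicalSpace U] [T2Space U] [LocallyCompactSpace U], Prop

/-- `F` closed and `O` its open complement in `U` -/
structure OC {F O U : Type} [TopologicalSpace F] [TopologicalSpace O] [TopologicalSpace U]
    (i : F → U) (e : O → U) : Prop where
  closed : IsClosedEmbedding i
  opn : IsOpenEmbedding e
  compl : range e = (range i)ᶜ

/-- the standard decomposition -/
theorem OC.of_isClosed {U : Type} [TopologicalSpace U] {F : Set U} (hF : IsClosed F) :
    OC ((↑) : F → U) ((↑) : (Fᶜ : Set U) → U) :=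
  ⟨hF.isClosedEmbedding_subtypeVal, hF.isOpen_compl.isOpenEmbedding_subtypeVal, by
    rw [Subtype.range_coe, Subtype.range_coe]⟩

/-- stability properties of a class of spaces -/
structure Cls (P : SpPred) : Prop where
  homeo : ∀ {U V : Type} [TopologicalSpace U] [T2Space U] [LocallyCompactSpace U]
    [TopologicalSpace V] [T2Space V] [LocallyCompactSpace V], (U ≃ₜ V) → P U → P V
  empty : ∀ (U : Type) [TopologicalSpace U] [T2Space U] [LocallyCompactSpace U], IsEmpty U → P U
  cell : ∀ n : ℕ, P (Fin n → ℝ)
  prod : ∀ {U V : Type} [TopologicalSpace U] [T2Space U] [LocallyCompactSpace U]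
    [TopologicalSpace V] [T2Space V] [LocallyCompactSpace V], P U → P V → P (U × V)
  total : ∀ {F O U : Type} [TopologicalSpace F] [T2Space F] [LocallyCompactSpace F]
    [TopologicalSpace O] [T2Space O] [LocallyCompactSpace O]
    [TopologicalSpace U] [T2Space U] [LocallyCompactSpace U] {i : F → U} {e : O → U},
    OC i e → P F → P O → P U
  opn : ∀ {F O U : Type} [TopologicalSpace F] [T2Space F] [LocallyCompactSpace F]
    [TopologicalSpace O] [T2Space O] [LocallyCompactSpace O]
    [TopologicalSpace U] [T2Space U] [LocallyCompactSpace U] {i : F → U} {e : O → U},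
    OC i e → P F → P U → P O


/-- `U × Uⁿ ≃ₜ Uⁿ⁺¹` -/
def consH (U : Type) [TopologicalSpace U] (n : ℕ) : U × (Fin n → U) ≃ₜ (Fin (n + 1) → U) where
  toFun p := Fin.cons p.1 p.2
  invFun x := (x 0, fun i => x i.succ)
  left_inv p := by simp
  right_inv x := by
    funext i
    refine Fin.cases ?_ (fun i => ?_) i <;> simp
  continuous_toFun := by
    refine continuous_pi fun i => ?_
    refine Fin.cases ?_ (fun i => ?_) i
    · simpa using continuous_fst
    · simp only [Fin.cons_succ]
      exact (continuous_apply i).comp continuous_snd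
  continuous_invFun := by fun_prop

namespace Cls

variable {P : SpPred} (h : Cls P)
include h

theorem unit : P Unit :=
  h.homeo (Homeomorph.homeomorphOfUnique (Fin 0 → ℝ) Unit) (h.cell 0)

theorem real : P ℝ :=
  h.homeo (Homeomorph.funUnique (Fin 1) ℝ) (h.cell 1)

theorem sum {U V : Type} [TopologicalSpace U] [T2Space U] [LocallyCompactSpace U]
    [TopologicalSpace V] [T2Space V] [LocallyCompactSpace V] [LocallyCompactSpace (U ⊕ V)]
    (hU : P U) (hV : P V) : P (U ⊕ V) := by
  have hc : OC (Sum.inl : U → U ⊕ V) (Sum.inr : V → U ⊕ V) :=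
    ⟨.inl, .inr, by rw [Set.compl_range_inl]⟩
  exact h.total hc hU hV

theorem fin_pow {U : Type} [TopologicalSpace U] [T2Space U] [LocallyCompactSpace U] (hU : P U)
    (n : ℕ) : P (Fin n → U) := by
  induction n with
  | zero => exact h.homeo (Homeomorph.homeomorphOfUnique Unit (Fin 0 → U)) h.unit
  | succ n ih => exact h.homeo (consH U n) (h.prod hU ih)

theorem pi {ι : Type} [Finite ι] {U : Type} [TopologicalSpace U] [T2Space U]
    [LocallyCompactSpace U] (hU : P U) : P (ι → U) := by
  obtain ⟨n, ⟨e⟩⟩ := Finite.exists_equiv_fin ι
  exact h.homeo (Homeomorph.piCongrLeft (Y := fun _ => U) e.symm) (h.fin_pow hU n)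

/-- the complement of the diagonal -/
theorem offDiag {ι : Type} [Finite ι] [Nonempty ι] {U : Type} [TopologicalSpace U] [T2Space U]
    [LocallyCompactSpace U] (hU : P U) {Q : Type} [TopologicalSpace Q] [T2Space Q]
    [LocallyCompactSpace Q] {i : U → (ι → U)} {e : Q → (ι → U)} (hoc : OC i e) : P Q :=
  h.opn hoc hU (h.pi hU)

/-- finite disjoint unions -/
theorem sigma_fin {U : Type} [TopologicalSpace U] [T2Space U] [LocallyCompactSpace U] (hU : P U)
    (n : ℕ) : P (Fin n × U) := by
  induction n with
  | zero => exact h.empty _ inferInstance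
  | succ n ih =>
    have hoc : OC (fun p : Fin n × U => ((p.1.castSucc, p.2) : Fin (n + 1) × U))
        (fun x : U => ((Fin.last n, x) : Fin (n + 1) × U)) := by
      refine ⟨?_, ?_, ?_⟩
      · have h1 : IsClosedEmbedding (Fin.castSucc : Fin n → Fin (n + 1)) :=
          .of_continuous_injective_isClosedMap continuous_of_discreteTopology
            (Fin.castSucc_injective n) fun s _ => isClosed_discrete _
        exact h1.prodMap .id
      · refine .of_continuous_injective_isOpenMap (by fun_prop) (fun x y hxy => ?_) fun s hs => ?_
        · exact (Prod.ext_iff.1 hxy).2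
        · have : (fun x : U => ((Fin.last n, x) : Fin (n + 1) × U)) '' s
              = ({Fin.last n} : Set (Fin (n + 1))) ×ˢ s := by
            ext ⟨a, b⟩
            simp only [mem_image, Prod.mk.injEq, mem_prod, mem_singleton_iff]
            constructor
            · rintro ⟨x, hx, rfl, rfl⟩; exact ⟨rfl, hx⟩
            · rintro ⟨rfl, hb⟩; exact ⟨b, hb, rfl, rfl⟩
          rw [this]
          exact (isOpen_discrete _).prod hs
      · ext ⟨a, b⟩
        simp only [mem_range, Prod.mk.injEq, mem_compl_iff, not_exists, Prod.exists]
        constructor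
        · rintro ⟨x, rfl, rfl⟩ c d ⟨h1, -⟩
          exact (Fin.castSucc_lt_last c).ne h1
        · intro h'
          refine ⟨b, ?_, rfl⟩
          by_contra hne
          exact h' (a.castPred (Ne.symm hne)) b ⟨Fin.castSucc_castPred a _, rfl⟩
    exact h.total hoc ih hU

end Cls

end Crest.Agent.R090.AClass923
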