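import Mathlib

/-!
# Row 90, block (A): the arithmetic of the power construction `X ↦ (X^{∧q}/Δ)/C_q`

* `Lim q a d` : the integers `a k` tend to `d` in the `q`-adic metric along divisibility;
* `Lim.pow`, `Lim.mul_left`, `Lim.step`, `val_step`: the operations of the power construction;
* `exists_prime_to`: the conclusion.
-/

set_option autoImplicit false

namespace Crest.Agent.R090.PowA253

/-- `a k → d` `q`-adically along divisibility. -/
def Lim (q : ℕ) (a : ℕ → ℤ) (d : ℤ) : Prop :=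
  ∀ M : ℕ, ∃ k : ℕ, 1 ≤ k ∧ ∀ j : ℕ, 1 ≤ j → (q : ℤ) ^ M ∣ a (k * j) - d

theorem Lim.const (q : ℕ) (d : ℤ) : Lim q (fun _ => d) d := fun _ => ⟨1, le_rfl, fun _ _ => by simp⟩

/-- powers of a number prime to `q`, times a constant -/
theorem Lim.pow {q : ℕ} (hq : q.Prime) {n r : ℤ} (hn : ¬ (q : ℤ) ∣ n) :
    Lim q (fun k => n ^ k * r) r := by
  intro M
  refine ⟨Nat.totient (q ^ M), Nat.totient_pos.2 (pow_pos hq.pos M), fun j _ => ?_⟩
  have hc : IsCoprime n ((q ^ M : ℕ) : ℤ) := by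
    have h1 : IsCoprime (q : ℤ) n :=
      ((Nat.prime_iff_prime_int.1 hq).coprime_iff_not_dvd).2 hn
    have := (h1.symm).pow_right (n := M)
    simpa using this
  have hu : ((n : ZMod (q ^ M)) ^ Nat.totient (q ^ M)) = 1 := by
    have hunit : IsUnit (n : ZMod (q ^ M)) := by
      have := (ZMod.coe_int_isUnit_iff_isCoprime n (q ^ M)).2 (by simpa using hc.symm)
      exact this
    obtain ⟨u, hu⟩ := hunit
    rw [← hu, ← Units.val_pow_eq_pow_val, ZMod.pow_totient, Units.val_one]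
  have h2 : ((n ^ (Nat.totient (q ^ M) * j) * r - r : ℤ) : ZMod (q ^ M)) = 0 := by
    push_cast
    rw [pow_mul, hu, one_pow, one_mul, sub_self]
  have := (ZMod.intCast_zmod_eq_zero_iff_dvd _ (q ^ M)).1 h2
  simpa using this

/-- passage to multiples -/
theorem Lim.mul_left {q : ℕ} {a : ℕ → ℤ} {d : ℤ} (h : Lim q a d) {N : ℕ} (hN : 1 ≤ N) :
    Lim q (fun k => a (N * k)) d := by
  intro M
  obtain ⟨k, hk, hj⟩ := h M
  refine ⟨k, hk, fun j hj1 => ?_⟩
  have := hj (N * j) (Nat.mul_pos hN hj1)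
  have e : N * (k * j) = k * (N * j) := by ring
  simpa [e] using this

theorem dvd_pow_sub_self {q : ℕ} (hq : q.Prime) (d : ℤ) : (q : ℤ) ∣ d ^ q - d := by
  haveI := Fact.mk hq
  have : ((d ^ q - d : ℤ) : ZMod q) = 0 := by
    push_cast
    rw [ZMod.pow_card, sub_self]
  exact (ZMod.intCast_zmod_eq_zero_iff_dvd _ q).1 this

/-- the effect of the power construction on the limit -/
theorem Lim.step {q : ℕ} (hq : q.Prime) {a b : ℕ → ℤ} {d d' : ℤ} (h : Lim q a d)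
    (hb : ∀ k, 1 ≤ k → (q : ℤ) * (b k + a k) = a k ^ q + ((q : ℤ) - 1) * a (q * k))
    (hd : (q : ℤ) * d' = d ^ q - d) : Lim q b d' := by
  intro M
  obtain ⟨k, hk, hj⟩ := h (M + 1)
  refine ⟨k, hk, fun j hj1 => ?_⟩
  have h1 := hj j hj1
  have h2 := hj (q * j) (Nat.mul_pos hq.pos hj1)
  have e : q * (k * j) = k * (q * j) := by ring
  have h3 : (q : ℤ) ^ (M + 1) ∣ a (k * j) ^ q - d ^ q :=
    h1.trans (sub_dvd_pow_sub_pow _ _ q)
  have hb' := hb (k * j) (Nat.mul_pos hk hj1)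
  rw [e] at hb'
  have hq0 : (q : ℤ) ≠ 0 := by exact_mod_cast hq.pos.ne'
  have h4 : (q : ℤ) ^ (M + 1) ∣ (q : ℤ) * (b (k * j) + a (k * j) - d' - d) := by
    have : (q : ℤ) * (b (k * j) + a (k * j) - d' - d)
        = (a (k * j) ^ q - d ^ q) + ((q : ℤ) - 1) * (a (k * (q * j)) - d) := by
      linear_combination hb' - hd
    rw [this]
    exact dvd_add h3 (Dvd.dvd.mul_left h2 _)
  rw [pow_succ, mul_comm ((q : ℤ) ^ M)] at h4
  have h5 := (mul_dvd_mul_iff_left hq0).1 h4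
  have h6 : (q : ℤ) ^ M ∣ a (k * j) - d :=
    (pow_dvd_pow _ (Nat.le_succ M)).trans h1
  have : b (k * j) - d' = (b (k * j) + a (k * j) - d' - d) - (a (k * j) - d) := by ring
  rw [this]
  exact dvd_sub h5 h6

/-- the valuation drops by exactly one -/
theorem val_step {q : ℕ} (hq : q.Prime) {d d' : ℤ} {v : ℕ} (hd : (q : ℤ) * d' = d ^ q - d)
    (h1 : (q : ℤ) ^ (v + 1) ∣ d) (h2 : ¬ (q : ℤ) ^ (v + 2) ∣ d) :
    (q : ℤ) ^ v ∣ d' ∧ ¬ (q : ℤ) ^ (v + 1) ∣ d' := by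
  have hq0 : (q : ℤ) ≠ 0 := by exact_mod_cast hq.pos.ne'
  have hqp : Prime (q : ℤ) := Nat.prime_iff_prime_int.1 hq
  have hf : d ^ q - d = d * (d ^ (q - 1) - 1) := by
    have : d ^ q = d * d ^ (q - 1) := by
      rw [← pow_succ']; congr 1; have := hq.pos; omega
    rw [this]; ring
  have hqd : (q : ℤ) ∣ d := (dvd_pow_self _ (Nat.succ_ne_zero v)).trans h1
  have hnd : ¬ (q : ℤ) ∣ (d ^ (q - 1) - 1) := by
    intro h
    have h3 : (q : ℤ) ∣ d ^ (q - 1) := dvd_pow hqd (by have := hq.two_le; omega)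
    have h4 : (q : ℤ) ∣ 1 := by
      have := dvd_sub h3 h
      simpa using this
    exact hqp.not_dvd_one h4
  constructor
  · have : (q : ℤ) ^ (v + 1) ∣ (q : ℤ) * d' := by
      rw [hd, hf]; exact Dvd.dvd.mul_right h1 _
    rw [pow_succ, mul_comm ((q : ℤ) ^ v)] at this
    exact (mul_dvd_mul_iff_left hq0).1 this
  · intro h
    apply h2
    have h3 : (q : ℤ) ^ (v + 2) ∣ d * (d ^ (q - 1) - 1) := by
      rw [← hf, ← hd, pow_succ, mul_comm ((q : ℤ) ^ (v + 1))]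
      exact mul_dvd_mul_left _ h
    exact hqp.pow_dvd_of_dvd_mul_right _ hnd h3

/-- **Conclusion.** A class `C` of sequences (`k ↦ L(φ^k)`, `φ` an endomorphism in the ideal) which
is closed, up to passing to multiples, under the power construction, and which contains a sequence
with a nonzero `q`-adic limit, contains a sequence with a value prime to `q`. -/
theorem exists_prime_to {q : ℕ} (hq : q.Prime) (C : Set (ℕ → ℤ))
    (hC : ∀ a ∈ C, ∃ N : ℕ, 1 ≤ N ∧ ∃ b ∈ C, ∀ k, 1 ≤ k →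
      (q : ℤ) * (b k + a (N * k)) = a (N * k) ^ q + ((q : ℤ) - 1) * a (N * (q * k)))
    {a : ℕ → ℤ} (ha : a ∈ C) {d : ℤ} (hl : Lim q a d) (hd : d ≠ 0) :
    ∃ a ∈ C, ∃ k, 1 ≤ k ∧ ¬ (q : ℤ) ∣ a k := by
  have hq1 : ((q : ℤ)).natAbs ≠ 1 := by
    simpa using hq.one_lt.ne'
  have hfin : FiniteMultiplicity (q : ℤ) d := Int.finiteMultiplicity_iff.2 ⟨hq1, hd⟩
  obtain ⟨v, hv1, hv2⟩ : ∃ v : ℕ, (q : ℤ) ^ v ∣ d ∧ ¬ (q : ℤ) ^ (v + 1) ∣ d :=
    ⟨multiplicity (q : ℤ) d, pow_multiplicity_dvd _ _,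
      fun h => (hfin.not_pow_dvd_of_multiplicity_lt (Nat.lt_succ_self _)) h⟩
  clear hfin
  induction v generalizing a d with
  | zero =>
    obtain ⟨k, hk, hj⟩ := hl 1
    refine ⟨a, ha, k, hk, fun h => hv2 ?_⟩
    have := hj 1 le_rfl
    rw [mul_one, pow_one] at this
    have h' := dvd_sub h this
    simpa using h'
  | succ v ih =>
    obtain ⟨N, hN, b, hb, hrel⟩ := hC a ha
    obtain ⟨d', hd'⟩ := dvd_pow_sub_self hq d
    have hd'' : (q : ℤ) * d' = d ^ q - d := hd'.symm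
    have hval := val_step hq hd'' hv1 hv2
    have hl' : Lim q b d' := (hl.mul_left hN).step hq hrel hd''
    refine ih hb hl' ?_ hval.1 hval.2
    rintro rfl
    exact hval.2 (dvd_zero _)


end Crest.Agent.R090.PowA253
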