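import Crest.Agent.R090.Ho_962

-- ▼ part R090/HMap_255
section

/-!
# Row 90, F2: pointed homotopies as objects, lifting through closed subspaces (owner helper255)
-/

set_option autoImplicit false

open Topology Filter Set

namespace Crest.Agent.R090.Dens255

open OnePoint Sp962
open scoped unitInterval

/-! ## pointed homotopies -/

/-- a pointed homotopy `I × U⁺ → V⁺` -/
structure HMap (U V : Type*) [TopologicalSpace U] [TopologicalSpace V] where
  /-- the map -/
  toFun : I × OnePoint U → OnePoint V
  cont : Continuous toFun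
  map_inf : ∀ t, toFun (t, ∞) = ∞

namespace HMap

variable {U V W : Type*} [TopologicalSpace U] [TopologicalSpace V] [TopologicalSpace W]

instance : CoeFun (HMap U V) (fun _ => I × OnePoint U → OnePoint V) := ⟨HMap.toFun⟩

attribute [simp] HMap.map_inf

theorem continuous (H : HMap U V) : Continuous H := H.cont

/-- the map at time `t` -/
def at' (H : HMap U V) (t : I) : PMap U V :=
  ⟨fun x => H (t, x), H.cont.comp (by fun_prop), H.map_inf t⟩

@[simp] theorem at'_apply (H : HMap U V) (t : I) (x : OnePoint U) : H.at' t x = H (t, x) := rfl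

theorem homotopic (H : HMap U V) : (H.at' 0).Homotopic (H.at' 1) :=
  PMap.Homotopic.of H H.cont (fun _ => rfl) (fun _ => rfl) H.map_inf


/-- constant homotopy -/
def const (f : PMap U V) : HMap U V :=
  ⟨fun p => f p.2, f.cont.comp continuous_snd, fun _ => f.map_inf⟩

@[simp] theorem const_apply (f : PMap U V) (p : I × OnePoint U) : const f p = f p.2 := rfl

/-- postcomposition by a homotopy, precomposition by a homotopy -/
def comp (G : HMap V W) (F : HMap U V) : HMap U W :=
  ⟨fun p => G (p.1, F p), G.cont.comp (continuous_fst.prodMk F.cont), fun t => by simp⟩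

@[simp] theorem comp_apply (G : HMap V W) (F : HMap U V) (p : I × OnePoint U) :
    G.comp F p = G (p.1, F p) := rfl

section smash

variable {U' V' : Type*} [TopologicalSpace U'] [TopologicalSpace V']
  [T2Space U] [LocallyCompactSpace U] [T2Space V]
  [T2Space U'] [LocallyCompactSpace U'] [T2Space V']

/-- smash product of homotopies -/
def smash (F : HMap U V) (G : HMap U' V') : HMap (U × U') (V × V') where
  toFun p := p.2.elim ∞ fun q => sm (F (p.1, (q.1 : OnePoint U))) (G (p.1, (q.2 : OnePoint U')))
  cont := by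
    refine continuous_of_sm' ?_
    have : (fun p : I × (OnePoint U × OnePoint U') =>
        (sm p.2.1 p.2.2).elim ∞ fun q => sm (F (p.1, (q.1 : OnePoint U)))
          (G (p.1, (q.2 : OnePoint U')))) =
        fun p => sm (F (p.1, p.2.1)) (G (p.1, p.2.2)) := by
      funext p
      obtain ⟨t, a, b⟩ := p
      induction a using OnePoint.rec with
      | infty => simp
      | coe a =>
        induction b using OnePoint.rec with
        | infty => simp
        | coe b => rfl
    change Continuous (fun p : I × (OnePoint U × OnePoint U') =>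
        (sm p.2.1 p.2.2).elim ∞ fun q => sm (F (p.1, (q.1 : OnePoint U)))
          (G (p.1, (q.2 : OnePoint U'))))
    rw [this]
    exact (F.cont.comp (by fun_prop)).sm962 (G.cont.comp (by fun_prop))
  map_inf := fun t => rfl

@[simp] theorem smash_coe (F : HMap U V) (G : HMap U' V') (t : I) (x : U) (y : U') :
    F.smash G (t, ((x, y) : U × U')) = sm (F (t, x)) (G (t, y)) := rfl

@[simp] theorem smash_sm (F : HMap U V) (G : HMap U' V') (t : I) (x : OnePoint U)
    (y : OnePoint U') : F.smash G (t, sm x y) = sm (F (t, x)) (G (t, y)) := by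
  induction x using OnePoint.rec with
  | infty => simp
  | coe a =>
    induction y using OnePoint.rec with
    | infty => simp
    | coe b => rfl

end smash

end HMap

/-! ## lifting through a closed embedding -/

section lift

variable {Q Y : Type*} [TopologicalSpace Q] [TopologicalSpace Y] [T2Space Y]
  [LocallyCompactSpace Y]

theorem isClosedEmbedding_map {e : Q → Y} (he : IsClosedEmbedding e) :
    IsClosedEmbedding (OnePoint.map e) := by
  refine Continuous.isClosedEmbedding (PMap.ofClosed e he).cont ?_
  intro a b hab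
  induction a using OnePoint.rec with
  | infty =>
    induction b using OnePoint.rec with
    | infty => rfl
    | coe b => exact absurd hab.symm (coe_ne_infty _)
  | coe a =>
    induction b using OnePoint.rec with
    | infty => exact absurd hab (coe_ne_infty _)
    | coe b => exact congrArg _ (he.injective (coe_injective hab))

theorem exists_lift {T : Type*} [TopologicalSpace T] {e : Q → Y} (he : IsClosedEmbedding e)
    {K : T → OnePoint Y} (hK : Continuous K)
    (hr : ∀ t, K t = ∞ ∨ ∃ q : Q, K t = (e q : OnePoint Y)) :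
    ∃ K' : T → OnePoint Q, Continuous K' ∧ ∀ t, OnePoint.map e (K' t) = K t := by
  have h : ∀ t, ∃ q : OnePoint Q, OnePoint.map e q = K t := by
    intro t
    rcases hr t with h | ⟨q, h⟩
    · exact ⟨∞, h.symm⟩
    · exact ⟨q, h.symm⟩
  choose K' hK' using h
  refine ⟨K', ?_, hK'⟩
  rw [(isClosedEmbedding_map he).isEmbedding.continuous_iff]
  have : OnePoint.map e ∘ K' = K := funext hK'
  rw [this]
  exact hK

theorem map_injective {e : Q → Y} (he : IsClosedEmbedding e) :
    Function.Injective (OnePoint.map e) := (isClosedEmbedding_map he).injective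

variable {P X : Type*} [TopologicalSpace P] [TopologicalSpace X]

/-- restriction of a homotopy to closed subspaces -/
theorem exists_restrict {i : P → X} (hi : IsClosedEmbedding i) {e : Q → Y}
    (he : IsClosedEmbedding e) (K : HMap X Y)
    (hr : ∀ t x, K (t, (i x : OnePoint X)) = ∞ ∨
      ∃ q : Q, K (t, (i x : OnePoint X)) = (e q : OnePoint Y)) :
    ∃ K' : HMap P Q, ∀ t (x : OnePoint P), OnePoint.map e (K' (t, x)) =
      K (t, OnePoint.map i x) := by
  have hc : Continuous (fun p : I × OnePoint P => K (p.1, OnePoint.map i p.2)) :=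
    K.cont.comp (continuous_fst.prodMk ((PMap.ofClosed i hi).cont.comp continuous_snd))
  have hr' : ∀ p : I × OnePoint P, K (p.1, OnePoint.map i p.2) = ∞ ∨
      ∃ q : Q, K (p.1, OnePoint.map i p.2) = (e q : OnePoint Y) := by
    rintro ⟨t, x⟩
    induction x using OnePoint.rec with
    | infty => exact Or.inl (K.map_inf t)
    | coe x => exact hr t x
  obtain ⟨K', hK', h⟩ := exists_lift he hc hr'
  refine ⟨⟨K', hK', fun t => ?_⟩, fun t x => h (t, x)⟩
  refine map_injective he ?_
  rw [h]
  exact K.map_inf t

end lift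

end Crest.Agent.R090.Dens255
end

-- ▼ part R090/Dens_255

/-!
# Row 90, F2: density, the strict null homotopy (owner helper255)
-/

set_option autoImplicit false

open Topology Filter Set

namespace Crest.Agent.R090.Dens255

open OnePoint Sp962
open scoped unitInterval

/-! ## the subspaces `P_{K,s}` -/

section PP

variable {M : Type*} {ι : Type*}

/-- at least `s` coordinates in `Z`, counted in `T` -/
def PL (Z : Set M) (T : Finset ι) (s : ℕ) : Set (ι → M) := {x | s ≤ {i | i ∈ T ∧ x i ∈ Z}.ncard}

/-- at least `s` coordinates in `Z` -/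
def PP (Z : Set M) (ι : Type*) (s : ℕ) : Set (ι → M) := {x | s ≤ {i | x i ∈ Z}.ncard}

theorem mem_PP {Z : Set M} {s : ℕ} {x : ι → M} : x ∈ PP Z ι s ↔ s ≤ {i | x i ∈ Z}.ncard := Iff.rfl

theorem PL_univ [Fintype ι] (Z : Set M) (s : ℕ) : PL Z (Finset.univ : Finset ι) s = PP Z ι s := by
  ext x; simp [PL, PP]

theorem PP_antitone (Z : Set M) : Antitone (PP Z ι) := fun _ _ h _ hx => h.trans hx


variable [Finite ι]

theorem PL_subset_PP (Z : Set M) (T : Finset ι) (s : ℕ) : PL Z T s ⊆ PP Z ι s := by
  intro x hx
  exact le_trans hx (Set.ncard_le_ncard (fun i hi => hi.2) (Set.toFinite _))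

theorem isClosed_PL [TopologicalSpace M] {Z : Set M} (hZ : IsClosed Z) (T : Finset ι) (s : ℕ) :
    IsClosed (PL Z T s) := by
  classical
  have h : PL Z T s = ⋃ S ∈ {S : Finset ι | S ⊆ T ∧ s ≤ S.card}, ⋂ i ∈ S, {x : ι → M | x i ∈ Z} := by
    ext x
    simp only [PL, mem_ofPred_eq, mem_iUnion, mem_iInter, exists_prop]
    constructor
    · intro h
      have hf : {i | i ∈ T ∧ x i ∈ Z}.Finite := Set.toFinite _
      refine ⟨hf.toFinset, ⟨fun i hi => ?_, ?_⟩, fun i hi => ?_⟩
      · exact (hf.mem_toFinset.1 hi).1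
      · rwa [← Set.ncard_eq_toFinset_card _ hf]
      · exact (hf.mem_toFinset.1 hi).2
    · rintro ⟨S, ⟨hST, hS⟩, h⟩
      refine hS.trans ?_
      rw [← Set.ncard_coe_finset]
      exact Set.ncard_le_ncard (fun i hi => ⟨hST hi, h i hi⟩) (Set.toFinite _)
  rw [h]
  have : Fintype ι := Fintype.ofFinite ι
  refine Set.Finite.isClosed_biUnion (Set.toFinite _) fun S _ => ?_
  exact isClosed_biInter fun i _ => hZ.preimage (continuous_apply i)

theorem isClosed_PP [TopologicalSpace M] {Z : Set M} (hZ : IsClosed Z) (s : ℕ) :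
    IsClosed (PP Z ι s) := by
  have : Fintype ι := Fintype.ofFinite ι
  rw [← PL_univ]
  exact isClosed_PL hZ _ _

instance instLcPL [TopologicalSpace M] [T2Space M] [LocallyCompactSpace M] {Z : Set M}
    [hZ : Fact (IsClosed Z)] (T : Finset ι) (s : ℕ) : LocallyCompactSpace (PL Z T s) :=
  (isClosed_PL hZ.out T s).isClosedEmbedding_subtypeVal.locallyCompactSpace

instance instLcPP [TopologicalSpace M] [T2Space M] [LocallyCompactSpace M] {Z : Set M}
    [hZ : Fact (IsClosed Z)] (s : ℕ) : LocallyCompactSpace (PP Z ι s) :=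
  (isClosed_PP (ι := ι) hZ.out s).isClosedEmbedding_subtypeVal.locallyCompactSpace

theorem PL_insert [DecidableEq ι] {Z : Set M} {T : Finset ι} {i : ι} {s : ℕ}
    {x : ι → M} (hx : x ∈ PL Z (insert i T) s) {y : ι → M} (hy : ∀ j, j ≠ i → y j = x j)
    (hi : i ∉ T) : y ∈ PL Z T (s - 1) := by
  simp only [PL, mem_ofPred_eq] at hx ⊢
  have h1 : {j | j ∈ insert i T ∧ x j ∈ Z} ⊆ insert i {j | j ∈ T ∧ y j ∈ Z} := by
    rintro j ⟨hj, hxj⟩
    rcases Finset.mem_insert.1 hj with rfl | hj
    · exact Or.inl rfl
    · right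
      have : j ≠ i := fun h => hi (h ▸ hj)
      exact ⟨hj, by rw [hy j this]; exact hxj⟩
  have h2 := (Set.ncard_le_ncard h1 (Set.toFinite _)).trans (Set.ncard_insert_le _ _)
  omega

theorem PL_insert' [DecidableEq ι] {Z : Set M} {T : Finset ι} {i : ι} {s : ℕ}
    {x : ι → M} (hx : x ∈ PL Z (insert i T) s) (hxi : x i ∉ Z) {y : ι → M}
    (hy : ∀ j, j ≠ i → y j = x j) (hi : i ∉ T) : y ∈ PL Z T s := by
  simp only [PL, mem_ofPred_eq] at hx ⊢
  have h1 : {j | j ∈ insert i T ∧ x j ∈ Z} ⊆ {j | j ∈ T ∧ y j ∈ Z} := by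
    rintro j ⟨hj, hxj⟩
    rcases Finset.mem_insert.1 hj with rfl | hj
    · exact absurd hxj hxi
    · have : j ≠ i := fun h => hi (h ▸ hj)
      exact ⟨hj, by rw [hy j this]; exact hxj⟩
  exact hx.trans (Set.ncard_le_ncard h1 (Set.toFinite _))

end PP

/-! ## action on one coordinate -/

section act

variable {M W ι : Type*} [TopologicalSpace M] [TopologicalSpace W] [DecidableEq ι]

/-- `(ι → M) × W ≃ (M × W) × (the other coordinates)` -/
def spl (M W : Type*) [TopologicalSpace M] [TopologicalSpace W] (i : ι) :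
    (ι → M) × W ≃ₜ (M × W) × ({j // j ≠ i} → M) where
  toFun p := ((p.1 i, p.2), fun j => p.1 j)
  invFun q := (fun j => if h : j = i then q.1.1 else q.2 ⟨j, h⟩, q.1.2)
  left_inv p := by
    refine Prod.ext (funext fun j => ?_) rfl
    by_cases h : j = i
    · subst h; simp
    · simp [h]
  right_inv q := by
    refine Prod.ext (Prod.ext (by simp) rfl) (funext fun j => ?_)
    simp [j.2]
  continuous_toFun := by fun_prop
  continuous_invFun := by
    refine Continuous.prodMk (continuous_pi fun j => ?_) (by fun_prop)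
    by_cases h : j = i
    · simp only [h, dif_pos]; fun_prop
    · simp only [h, dif_neg, not_false_eq_true]; fun_prop

theorem spl_symm_apply (i : ι) (x : ι → M) (m : M) (w : W) :
    (spl M W i).symm ((m, w), fun j : {j // j ≠ i} => x j) = (Function.update x i m, w) := by
  refine Prod.ext (funext fun j => ?_) rfl
  by_cases h : j = i
  · subst h; simp [spl]
  · simp [spl, h]

variable [T2Space M] [LocallyCompactSpace M] [T2Space W] [LocallyCompactSpace W] [Finite ι]

/-- a homotopy of `M × W` acting on the coordinate `i` -/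
def act (i : ι) (H : HMap (M × W) (M × W)) : HMap ((ι → M) × W) ((ι → M) × W) :=
  (HMap.const (PMap.ofHomeo (spl M W i).symm)).comp
    ((H.smash (HMap.const (PMap.id ({j // j ≠ i} → M)))).comp
      (HMap.const (PMap.ofHomeo (spl M W i))))

theorem act_coe_of_inf (i : ι) (H : HMap (M × W) (M × W)) {t : I} {x : ι → M} {w : W}
    (h : H (t, ((x i, w) : M × W)) = ∞) : act i H (t, ((x, w) : (ι → M) × W)) = ∞ := by
  change (PMap.ofHomeo (spl M W i).symm) (sm (H (t, ((x i, w) : M × W)))
    (PMap.id ({j // j ≠ i} → M) ((fun j : {j // j ≠ i} => x j : {j // j ≠ i} → M)))) = ∞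
  rw [h]
  rfl

theorem act_coe_of_coe (i : ι) (H : HMap (M × W) (M × W)) {t : I} {x : ι → M} {w : W}
    {m : M} {w' : W} (h : H (t, ((x i, w) : M × W)) = ((m, w') : M × W)) :
    act i H (t, ((x, w) : (ι → M) × W)) = ((Function.update x i m, w') : (ι → M) × W) := by
  change (PMap.ofHomeo (spl M W i).symm) (sm (H (t, ((x i, w) : M × W)))
    (PMap.id ({j // j ≠ i} → M) ((fun j : {j // j ≠ i} => x j : {j // j ≠ i} → M)))) = _
  rw [h]
  change (((spl M W i).symm ((m, w'), fun j : {j // j ≠ i} => x j) : (ι → M) × W) :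
    OnePoint ((ι → M) × W)) = _
  rw [spl_symm_apply]

theorem act_cases (i : ι) (H : HMap (M × W) (M × W)) (t : I) (x : ι → M) (w : W) :
    act i H (t, ((x, w) : (ι → M) × W)) = ∞ ∨ ∃ m w',
      H (t, ((x i, w) : M × W)) = ((m, w') : M × W) ∧
      act i H (t, ((x, w) : (ι → M) × W)) = ((Function.update x i m, w') : (ι → M) × W) := by
  cases h : H (t, ((x i, w) : M × W)) using OnePoint.rec with
  | infty => exact Or.inl (act_coe_of_inf i H h)
  | coe p =>
    obtain ⟨m, w'⟩ := p
    exact Or.inr ⟨m, w', rfl, act_coe_of_coe i H h⟩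

end act

/-! ## powers of a self map -/

/-- iterates of a pointed self map -/
def iter {W : Type*} [TopologicalSpace W] (a : PMap W W) : ℕ → PMap W W
  | 0 => PMap.id W
  | n + 1 => (iter a n).comp a

@[simp] theorem iter_zero {W : Type*} [TopologicalSpace W] (a : PMap W W) :
    iter a 0 = PMap.id W := rfl

theorem iter_succ {W : Type*} [TopologicalSpace W] (a : PMap W W) (n : ℕ) :
    iter a (n + 1) = (iter a n).comp a := rfl


/-! ## the density homotopy -/

/-- inclusion of a smaller closed subspace -/
def inclS {X : Type*} [TopologicalSpace X] {A B : Set X} (hA : IsClosed A) (h : A ⊆ B) :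
    PMap A B :=
  PMap.ofClosed (Set.inclusion h)
    (IsClosedEmbedding.inclusion h (hA.preimage continuous_subtype_val))

@[simp] theorem inclS_coe {X : Type*} [TopologicalSpace X] {A B : Set X} (hA : IsClosed A)
    (h : A ⊆ B) (x : A) : inclS hA h x = (Set.inclusion h x : OnePoint B) := rfl

section dens

variable {M W ι : Type*}

/-- the closed embedding `P × W → (ι → M) × W` -/
def jE {X : Type*} (P : Set X) (W : Type*) : P × W → X × W := Prod.map Subtype.val id

theorem isClosedEmbedding_jE [TopologicalSpace W] {X : Type*} [TopologicalSpace X] {P : Set X}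
    (hP : IsClosed P) :
    IsClosedEmbedding (jE P W) :=
  hP.isClosedEmbedding_subtypeVal.prodMap IsClosedEmbedding.id

theorem map_jE_sm {X : Type*} (P : Set X) (x : P) (w : OnePoint W) :
    OnePoint.map (jE P W) (sm (x : OnePoint P) w) = sm ((x : X) : OnePoint X) w := by
  induction w using OnePoint.rec with
  | infty => rfl
  | coe w => rfl

variable [TopologicalSpace M] [TopologicalSpace W] [Fintype ι] [DecidableEq ι]
  [T2Space M] [LocallyCompactSpace M] [T2Space W] [LocallyCompactSpace W]

theorem act_zero {a : PMap W W} {A : HMap (M × W) (M × W)}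
    (h0 : A.at' 0 = (PMap.id M).smash a) (i : ι) (x : ι → M) (w : W) :
    act i A (0, ((x, w) : (ι → M) × W)) = sm (x : OnePoint (ι → M)) (a w) := by
  have h : A (0, ((x i, w) : M × W)) = sm (x i : OnePoint M) (a w) :=
    congrArg (fun f : PMap (M × W) (M × W) => f ((x i, w) : M × W)) h0
  cases hw : a w using OnePoint.rec with
  | infty =>
    rw [act_coe_of_inf]
    · simp
    · rw [h, hw]; simp
  | coe w' =>
    rw [act_coe_of_coe (m := x i) (w' := w')]
    · rw [Function.update_eq_self]; rfl
    · rw [h, hw]; rfl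

theorem dens_aux {Z : Set M} [hZ' : Fact (IsClosed Z)] (a : PMap W W)
    (A : HMap (M × W) (M × W)) (h0 : A.at' 0 = (PMap.id M).smash a)
    (h1 : ∀ x ∈ Z, ∀ w : W, A (1, ((x, w) : M × W)) = ∞) (T : Finset ι) :
    ∀ s, 1 ≤ s → ∀ h : PL Z T s ⊆ PP Z ι (s - 1),
      ((inclS (isClosed_PL hZ'.out T s) h).smash (iter a T.card)).Null := by
  have hZ := hZ'.out
  induction T using Finset.induction_on with
  | empty =>
    intro s hs h
    refine PMap.Homotopic.of_eq (PMap.ext ?_)
    rintro ⟨⟨x, hx⟩, w⟩
    exfalso
    simp [PL] at hx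
    omega
  | insert i T hi ih =>
    intro s hs h
    set n := T.card with hn
    have hcard : (insert i T).card = n + 1 := Finset.card_insert_of_notMem hi
    rw [hcard]
    have hT : PL Z T s ⊆ PP Z ι (s - 1) :=
      (PL_subset_PP Z T s).trans (PP_antitone Z (Nat.sub_le _ _))
    -- the restriction of the moving map
    obtain ⟨R, hR⟩ := exists_restrict (isClosedEmbedding_jE (W := W) (isClosed_PL hZ (insert i T) s))
      (isClosedEmbedding_jE (W := W) (isClosed_PL hZ T s)) (HMap.const ((act i A).at' 1)) (by
        rintro t ⟨⟨x, hx⟩, w⟩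
        by_cases hxi : x i ∈ Z
        · exact Or.inl (act_coe_of_inf i A (h1 _ hxi w))
        · rcases act_cases i A 1 x w with h | ⟨m, w', -, h⟩
          · exact Or.inl h
          · refine Or.inr ⟨(⟨Function.update x i m, ?_⟩, w'), h⟩
            exact PL_insert' hx hxi (fun j hj => Function.update_of_ne hj _ _) hi)
    obtain ⟨K, hK⟩ := exists_restrict (isClosedEmbedding_jE (W := W) (isClosed_PL hZ (insert i T) s))
      (isClosedEmbedding_jE (W := W) (isClosed_PP (ι := ι) hZ (s - 1)))
      ((HMap.const ((PMap.id (ι → M)).smash (iter a n))).comp (act i A)) (by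
        rintro t ⟨⟨x, hx⟩, w⟩
        rcases act_cases i A t x w with h | ⟨m, w', -, h⟩
        · left
          change ((PMap.id (ι → M)).smash (iter a n)) (act i A (t, ((x, w) : (ι → M) × W))) = ∞
          rw [h]; rfl
        · have h2 : ((HMap.const ((PMap.id (ι → M)).smash (iter a n))).comp (act i A))
              (t, ((jE (PL Z (insert i T) s) W (⟨x, hx⟩, w)) : OnePoint ((ι → M) × W))) =
              sm ((Function.update x i m : ι → M) : OnePoint (ι → M)) (iter a n w') := by
            change ((PMap.id (ι → M)).smash (iter a n)) (act i A (t, ((x, w) : (ι → M) × W))) = _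
            rw [h]; rfl
          rw [h2]
          cases hw : iter a n w' using OnePoint.rec with
          | infty => left; simp
          | coe w'' =>
            right
            refine ⟨(⟨Function.update x i m, ?_⟩, w''), rfl⟩
            exact PL_subset_PP Z T (s - 1)
              (PL_insert hx (fun j hj => Function.update_of_ne hj _ _) hi))
    have e0 : K.at' 0 = (inclS (isClosed_PL hZ (insert i T) s) h).smash (iter a (n + 1)) := by
      refine PMap.ext ?_
      rintro ⟨⟨x, hx⟩, w⟩
      refine map_injective (isClosedEmbedding_jE (W := W) (isClosed_PP (ι := ι) hZ (s - 1))) ?_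
      rw [HMap.at'_apply, hK, PMap.smash_coe, inclS_coe, map_jE_sm]
      change ((PMap.id (ι → M)).smash (iter a n)) (act i A (0, ((x, w) : (ι → M) × W))) = _
      rw [act_zero h0]
      simp [iter_succ]
    have e1 : K.at' 1 = ((inclS (isClosed_PL hZ T s) hT).smash (iter a n)).comp (R.at' 1) := by
      refine PMap.ext ?_
      rintro ⟨⟨x, hx⟩, w⟩
      refine map_injective (isClosedEmbedding_jE (W := W) (isClosed_PP (ι := ι) hZ (s - 1))) ?_
      rw [HMap.at'_apply, hK, PMap.comp_apply, HMap.at'_apply]
      change ((PMap.id (ι → M)).smash (iter a n)) (act i A (1, ((x, w) : (ι → M) × W))) = _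
      have hR1 := hR 1 (((⟨x, hx⟩, w) : (PL Z (insert i T) s) × W) :
        OnePoint ((PL Z (insert i T) s) × W))
      change OnePoint.map (jE (PL Z T s) W) (R (1, (((⟨x, hx⟩, w) : (PL Z (insert i T) s) × W) :
        OnePoint ((PL Z (insert i T) s) × W)))) = act i A (1, ((x, w) : (ι → M) × W)) at hR1
      rw [← hR1]
      generalize R (1, (((⟨x, hx⟩, w) : (PL Z (insert i T) s) × W) :
        OnePoint ((PL Z (insert i T) s) × W))) = q
      induction q using OnePoint.rec with
      | infty => rfl
      | coe q =>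
        obtain ⟨y, w'⟩ := q
        rw [PMap.smash_coe, inclS_coe, map_jE_sm]
        rfl
    have := K.homotopic
    rw [e0, e1] at this
    exact this.trans ((ih s hs hT).comp_right _)

/-- **(D1), density**: `P_{K,s} × W → P_{K,s-1} × W`, inclusion smash `a^K`, is null -/
theorem dens {Z : Set M} [hZ' : Fact (IsClosed Z)] (a : PMap W W)
    (A : HMap (M × W) (M × W)) (h0 : A.at' 0 = (PMap.id M).smash a)
    (h1 : ∀ x ∈ Z, ∀ w : W, A (1, ((x, w) : M × W)) = ∞) {s s' : ℕ} (hs : s' < s) :
    ((inclS (isClosed_PP (ι := ι) hZ'.out s) (PP_antitone Z hs.le)).smash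
      (iter a (Fintype.card ι))).Null := by
  have hZ := hZ'.out
  have h : PL Z (Finset.univ : Finset ι) s ⊆ PP Z ι (s - 1) := by
    rw [PL_univ]; exact PP_antitone Z (Nat.sub_le _ _)
  have h2 := dens_aux (ι := ι) a A h0 h1 Finset.univ s (by omega) h
  have h3 : PP Z ι s ⊆ PL Z (Finset.univ : Finset ι) s := by rw [PL_univ]
  have h4 := (h2.comp_left ((inclS (isClosed_PP (ι := ι) hZ (s - 1))
    (PP_antitone Z (by omega : s' ≤ s - 1))).smash (PMap.id W))).comp_right
    ((inclS (isClosed_PP (ι := ι) hZ s) h3).smash (PMap.id W))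
  refine (PMap.Homotopic.of_eq (PMap.ext ?_)).trans h4
  rintro ⟨x, w⟩
  simp only [PMap.comp_apply, PMap.smash_coe, PMap.smash_sm, inclS_coe, PMap.id_apply]
  rfl

end dens

end Crest.Agent.R090.Dens255
private theorem rz_dd6390fade : type_of% @_root_.Crest.Agent.R090.Dens255.iter.eq_def := @_root_.Crest.Agent.R090.Dens255.iter.eq_def -- L181
private theorem rz_a97fddd3f1 : type_of% @_root_.Crest.Agent.R090.Dens255.iter.eq_1 := @_root_.Crest.Agent.R090.Dens255.iter.eq_1 -- L181
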