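import Crest.Agent.R090.PiNat_568
import Crest.Agent.R090.Dens_255

/-!
# Row 90, D6: block counting (owner helper568)

`P_{K r, m'}` maps into `P_{K,l}` of (`M^r`, `P_{r,m}`) as soon as `K (m-1) + (l-1) (r+1-m) < m'`,
compatibly with all smash powers.
-/

set_option autoImplicit false
set_option linter.unusedSectionVars false

open Topology Filter Set

namespace Crest.Agent.R090.Block568

open OnePoint
open Crest.Agent.R090.Sp962
open Crest.Agent.R090.Dens255
open Crest.Agent.R090.Pi568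

universe u v w

/-! ## counting -/

section count

variable {M : Type*} {κ ι : Type*} [Fintype κ] [Fintype ι]

theorem ncard_prod_le (Z : Set M) (x : κ × ι → M) (m : ℕ) (hm : 1 ≤ m)
    (hr : m ≤ Fintype.card ι + 1) :
    {p | x p ∈ Z}.ncard ≤ Fintype.card κ * (m - 1) +
      {k | (fun i => x (k, i)) ∈ PP Z ι m}.ncard * (Fintype.card ι + 1 - m) := by
  classical
  have h1 : {p | x p ∈ Z}.ncard = ∑ k : κ, {i | x (k, i) ∈ Z}.ncard := by
    rw [Set.ncard_eq_toFinset_card']
    simp only [Set.ncard_eq_toFinset_card']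
    rw [Finset.card_eq_sum_card_fiberwise (f := Prod.fst) (t := Finset.univ)
      (fun _ _ => Finset.mem_univ _)]
    refine Finset.sum_congr rfl fun k _ => ?_
    refine Finset.card_bij' (fun p _ => p.2) (fun i _ => (k, i)) ?_ ?_ ?_ ?_
    · rintro ⟨k', i⟩ hp
      simp only [Finset.mem_filter, Set.mem_toFinset, Set.mem_ofPred_eq] at hp ⊢
      obtain ⟨h, rfl⟩ := hp
      exact h
    · intro i hi
      simp only [Finset.mem_filter, Set.mem_toFinset, Set.mem_ofPred_eq] at hi ⊢
      exact ⟨hi, trivial⟩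
    · rintro ⟨k', i⟩ hp
      simp only [Finset.mem_filter, Set.mem_toFinset, Set.mem_ofPred_eq] at hp
      obtain ⟨h, rfl⟩ := hp
      rfl
    · intro i hi
      rfl
  have h2 : ∀ k : κ, {i | x (k, i) ∈ Z}.ncard ≤ (m - 1) +
      (if (fun i => x (k, i)) ∈ PP Z ι m then (Fintype.card ι + 1 - m) else 0) := by
    intro k
    split_ifs with h
    · have h3 : {i | x (k, i) ∈ Z}.ncard ≤ Fintype.card ι := by
        rw [Set.ncard_eq_toFinset_card']
        exact Finset.card_le_univ _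
      omega
    · have h3 : ¬ m ≤ {i | x (k, i) ∈ Z}.ncard := h
      omega
  rw [h1]
  refine (Finset.sum_le_sum fun k _ => h2 k).trans ?_
  rw [Finset.sum_add_distrib, Finset.sum_const, ← Finset.sum_filter, Finset.sum_const,
    Finset.card_univ, smul_eq_mul, smul_eq_mul]
  refine Nat.add_le_add_left (Nat.mul_le_mul_right _ (le_of_eq ?_)) _
  rw [Set.ncard_eq_toFinset_card']
  congr 1
  ext k
  simp

/-- the counting lemma, sharp form -/
theorem curry_mem_PP {Z : Set M} {x : κ × ι → M} {m m' l : ℕ} (hm : 1 ≤ m)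
    (hr : m ≤ Fintype.card ι + 1)
    (h : Fintype.card κ * (m - 1) + (l - 1) * (Fintype.card ι + 1 - m) < m')
    (hx : x ∈ PP Z (κ × ι) m') : (fun k i => x (k, i)) ∈ PP (PP Z ι m) κ l := by
  have h1 : m' ≤ {p | x p ∈ Z}.ncard := hx
  have h2 := ncard_prod_le Z x m hm hr
  change l ≤ {k | (fun i => x (k, i)) ∈ PP Z ι m}.ncard
  by_contra hc
  have h3 : {k | (fun i => x (k, i)) ∈ PP Z ι m}.ncard ≤ l - 1 := by omega
  have h4 := Nat.mul_le_mul_right (Fintype.card ι + 1 - m) h3
  omega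

theorem PP_reindex {κ' : Type*} {Z : Set M} {s : ℕ} (e : κ' ≃ κ) (x : κ → M) :
    (fun i => x (e i)) ∈ PP Z κ' s ↔ x ∈ PP Z κ s := by
  have : {i | x (e i) ∈ Z}.ncard = {i | x i ∈ Z}.ncard := by
    have h : {i | x (e i) ∈ Z} = e ⁻¹' {i | x i ∈ Z} := rfl
    rw [h, ← Set.ncard_image_of_injective _ e.injective, Set.image_preimage_eq _ e.surjective]
  simp only [mem_PP, this]

/-- **(D6)**, sharp form -/
theorem blk_mem_PP {Z : Set M} [TopologicalSpace M] {K r m m' l : ℕ} (hm : 1 ≤ m) (hr : m ≤ r + 1)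
    (h : K * (m - 1) + (l - 1) * (r + 1 - m) < m') {x : Fin (K * r) → M}
    (hx : x ∈ PP Z (Fin (K * r)) m') :
    blk M K r x ∈ PP (PP Z (Fin r) m) (Fin K) l := by
  have hx' : (fun p => x (finProdFinEquiv p)) ∈ PP Z (Fin K × Fin r) m' :=
    (PP_reindex (finProdFinEquiv : Fin K × Fin r ≃ Fin (K * r)) x).2 hx
  have h1 : m ≤ Fintype.card (Fin r) + 1 := by rw [Fintype.card_fin]; exact hr
  have h2 : Fintype.card (Fin K) * (m - 1) + (l - 1) * (Fintype.card (Fin r) + 1 - m) < m' := by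
    rw [Fintype.card_fin, Fintype.card_fin]; exact h
  have h3 := curry_mem_PP (x := fun p => x (finProdFinEquiv p)) hm h1 h2 hx'
  have h4 : blk M K r x = fun k i => x (finProdFinEquiv (k, i)) := rfl
  rw [h4]
  exact h3




end count

/-! ## the map of pairs -/

section maps

variable {M : Type*} [TopologicalSpace M]

/-- inclusion of a closed subset as a pointed map -/
def incl {X : Type*} [TopologicalSpace X] {A : Set X} (hA : IsClosed A) : PMap A X :=
  PMap.ofClosed Subtype.val hA.isClosedEmbedding_subtypeVal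

@[simp] theorem incl_coe {X : Type*} [TopologicalSpace X] {A : Set X} (hA : IsClosed A) (x : A) :
    incl hA x = ((x : X) : OnePoint X) := rfl

/-- the homeomorphism `blk` restricted to `P_{K r, m'}` -/
def blkF {Z : Set M} {K r m m' l : ℕ} (hm : 1 ≤ m) (hr : m ≤ r + 1)
    (h : K * (m - 1) + (l - 1) * (r + 1 - m) < m') :
    (PP Z (Fin (K * r)) m') → (PP (PP Z (Fin r) m) (Fin K) l) :=
  fun x => ⟨blk M K r x, blk_mem_PP hm hr h x.2⟩

theorem isClosedEmbedding_blkF {Z : Set M} (hZ : IsClosed Z) {K r m m' l : ℕ} (hm : 1 ≤ m)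
    (hr : m ≤ r + 1) (h : K * (m - 1) + (l - 1) * (r + 1 - m) < m') :
    IsClosedEmbedding (blkF (M := M) (Z := Z) hm hr h) := by
  have h1 : IsClosedEmbedding (fun x : PP Z (Fin (K * r)) m' => blk M K r (x : Fin (K * r) → M)) :=
    (blk M K r).isClosedEmbedding.comp (isClosed_PP hZ m').isClosedEmbedding_subtypeVal
  refine ⟨IsEmbedding.of_comp (((blk M K r).continuous.comp continuous_subtype_val).subtype_mk _)
    continuous_subtype_val (g := Subtype.val) h1.isEmbedding, ?_⟩
  have h2 : range (blkF (M := M) (Z := Z) hm hr h) = Subtype.val ⁻¹'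
      (range (fun x : PP Z (Fin (K * r)) m' => blk M K r (x : Fin (K * r) → M))) := by
    ext y
    constructor
    · rintro ⟨x, rfl⟩
      exact ⟨x, rfl⟩
    · rintro ⟨x, hx⟩
      exact ⟨x, Subtype.ext hx⟩
  rw [h2]
  exact h1.isClosed_range.preimage continuous_subtype_val

/-- `P_{K r, m'} → P_{K,l}(M^r, P_{r,m})` -/
def blkP {Z : Set M} (hZ : IsClosed Z) {K r m m' l : ℕ} (hm : 1 ≤ m)
    (hr : m ≤ r + 1) (h : K * (m - 1) + (l - 1) * (r + 1 - m) < m') :
    PMap (PP Z (Fin (K * r)) m') (PP (PP Z (Fin r) m) (Fin K) l) :=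
  PMap.ofClosed _ (isClosedEmbedding_blkF hZ hm hr h)

theorem blkP_incl {Z : Set M} (hZ : IsClosed Z) {K r m m' l : ℕ} (hm : 1 ≤ m)
    (hr : m ≤ r + 1) (h : K * (m - 1) + (l - 1) * (r + 1 - m) < m') :
    (incl (isClosed_PP (isClosed_PP hZ m) l)).comp (blkP hZ hm hr h) =
      (PMap.ofHomeo (blk M K r)).comp (incl (isClosed_PP hZ m')) := PMap.ext fun _ => rfl

variable {S : Type*} [TopologicalSpace S] [T2Space M] [LocallyCompactSpace M] [T2Space S]

/-- the power of a map on `P_{K r, m'}` factors through `P_{K,l}(M^r, P_{r,m})` -/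
theorem pow_incl_factor {Z : Set M} (hZ : IsClosed Z) {K r m m' l : ℕ} (hm : 1 ≤ m)
    (hr : m ≤ r + 1) (h : K * (m - 1) + (l - 1) * (r + 1 - m) < m') (ρ : PMap M S) :
    (pow (Fin (K * r)) ρ).comp (incl (isClosed_PP hZ m')) =
      (PMap.ofHomeo (blk S K r).symm).comp ((pow (Fin K) (pow (Fin r) ρ)).comp
        ((incl (isClosed_PP (isClosed_PP hZ m) l)).comp (blkP hZ hm hr h))) := by
  rw [blkP_incl, ← PMap.comp_assoc (pow (Fin K) (pow (Fin r) ρ)), ← blk_pow,
    PMap.comp_assoc (PMap.ofHomeo (blk S K r)), ← PMap.comp_assoc,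
    PMap.ofHomeo_symm_comp, PMap.id_comp]

end maps

/-! ## numerics -/


end Crest.Agent.R090.Block568
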