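import Crest.Agent.R090.Cone_962

/-!
# Row 90, leaf D3: mapping cylinders (owner helper349)

`Cyl f` for `f : PMap U V` (`U, V` locally compact Hausdorff): the mapping cylinder of
`f : OnePoint U → OnePoint V` without its base point, `(U × [0,1)) ⊕ V`; `U` sits at height `0`,
`V` at height `1`.

* `Cyl.q f a t : OnePoint (Cyl f)` the point of height `t` over `a` (`t` is clamped to `[0,1]`),
* `Cyl.i f : PMap V (Cyl f)`, `Cyl.iV : V → Cyl f` closed embedding,
* `Cyl.top f : PMap U (Cyl f)`, `Cyl.iU : U → Cyl f` closed embedding,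
* `Cyl.ret f : PMap (Cyl f) V`, `ret_comp_i`, `ret_comp_top`, `i_comp_ret` (homotopic to `id`),
* `Cyl.ht f : Cyl f → ℝ` the height, `Cyl.push` the NDR homotopy.
-/

set_option autoImplicit false
set_option linter.unusedSectionVars false

open Topology Filter Set

namespace Crest.Agent.R090.Cyl349

open OnePoint Sp962
open scoped unitInterval

universe u v w x

/-- the cylinder coordinate -/
abbrev Ih : Type := Ico (0 : ℝ) 1

instance : LocallyCompactSpace Ih :=
  (isClosed_Ici.isLocallyClosed.inter isOpen_Iio.isLocallyClosed).locallyCompactSpace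

open Classical in
/-- collapse of the real line onto the cylinder coordinate -/
noncomputable def qH (t : ℝ) : OnePoint Ih :=
  if h : t < 1 then ((⟨max t 0, le_max_right _ _, max_lt h one_pos⟩ : Ih) : OnePoint Ih) else ∞

theorem qH_of_lt {t : ℝ} (h : t < 1) :
    qH t = ((⟨max t 0, le_max_right _ _, max_lt h one_pos⟩ : Ih) : OnePoint Ih) := dif_pos h

theorem qH_of_mem {t : ℝ} (h : t ∈ Ico (0 : ℝ) 1) : qH t = ((⟨t, h⟩ : Ih) : OnePoint Ih) := by
  rw [qH_of_lt h.2, coe_eq_coe]
  exact Subtype.ext (max_eq_left h.1)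

@[simp] theorem qH_coe (t : Ih) : qH (t : ℝ) = (t : OnePoint Ih) := qH_of_mem t.2

theorem qH_of_ge {t : ℝ} (h : 1 ≤ t) : qH t = ∞ := dif_neg (not_lt.2 h)

@[simp] theorem qH_one : qH 1 = ∞ := qH_of_ge le_rfl

/-- the initial point of the cylinder coordinate -/
def zero' : Ih := ⟨0, le_rfl, one_pos⟩

theorem qH_of_le {t : ℝ} (h : t ≤ 0) : qH t = (zero' : OnePoint Ih) := by
  rw [qH_of_lt (lt_of_le_of_lt h one_pos), coe_eq_coe]
  exact Subtype.ext (max_eq_right h)

@[simp] theorem qH_zero : qH 0 = (zero' : OnePoint Ih) := qH_of_le le_rfl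


@[fun_prop] theorem continuous_qH : Continuous qH := by
  rw [continuous_iff_continuousAt]
  intro t
  rcases le_or_gt 1 t with h | h
  · rw [ContinuousAt, qH_of_ge h, hasBasis_nhds_infty.tendsto_right_iff]
    rintro K ⟨_, hK⟩
    have hK' : IsCompact ((↑) '' K : Set ℝ) := hK.image continuous_subtype_val
    have h0 : t ∉ ((↑) '' K : Set ℝ) := by
      rintro ⟨s, _, rfl⟩
      exact absurd s.2.2 (not_lt.2 h)
    filter_upwards [hK'.isClosed.isOpen_compl.mem_nhds h0, lt_mem_nhds (show 0 < t by linarith)]
      with s hs hs1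
    rcases le_or_gt 1 s with h' | h'
    · right; exact qH_of_ge h'
    · left
      refine ⟨⟨s, hs1.le, h'⟩, ?_, (qH_of_mem ⟨hs1.le, h'⟩).symm⟩
      intro hsK
      exact hs ⟨_, hsK, rfl⟩
  · have hopen : Iio (1 : ℝ) ∈ 𝓝 t := isOpen_Iio.mem_nhds h
    have hc : ContinuousOn qH (Iio 1) := by
      rw [continuousOn_iff_continuous_domRestrict]
      have : (Iio (1 : ℝ)).domRestrict qH = fun s : Iio (1 : ℝ) =>
          ((⟨max s.1 0, le_max_right _ _, max_lt s.2 one_pos⟩ : Ih) : OnePoint Ih) := by
        funext s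
        exact qH_of_lt s.2
      rw [this]
      exact continuous_coe.comp (Continuous.subtype_mk (by fun_prop) _)
    exact hc.continuousAt hopen

/-! ## mapping cylinders -/

variable {U : Type u} {V : Type v} {W : Type w} {X : Type x}
variable [TopologicalSpace U] [TopologicalSpace V] [TopologicalSpace W] [TopologicalSpace X]

/-- criterion for closed embeddings through the one point compactifications -/
theorem isClosedEmbedding_of_pmap {M : Type*} [TopologicalSpace M] [T2Space M]
    [LocallyCompactSpace M] {e : U → M} (T : PMap U M) (hT : ∀ a : U, T a = (e a : OnePoint M))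
    (he : Function.Injective e) : IsClosedEmbedding e := by
  have hinj : Function.Injective T := by
    intro a b h
    induction a using OnePoint.rec with
    | infty =>
      induction b using OnePoint.rec with
      | infty => rfl
      | coe b => rw [PMap.map_inf, hT] at h; exact absurd h (infty_ne_coe _)
    | coe a =>
      induction b using OnePoint.rec with
      | infty => rw [PMap.map_inf, hT] at h; exact absurd h (coe_ne_infty _)
      | coe b => rw [hT, hT, coe_eq_coe] at h; rw [he h]
  have hTc : IsClosedEmbedding T := T.cont.isClosedEmbedding hinj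
  have hcomp : ((↑) : M → OnePoint M) ∘ e = T ∘ ((↑) : U → OnePoint U) := funext fun a => (hT a).symm
  have hemb : IsEmbedding (((↑) : M → OnePoint M) ∘ e) := by
    rw [hcomp]
    exact hTc.isEmbedding.comp isOpenEmbedding_coe.isEmbedding
  have hece : Continuous e := by
    rw [isOpenEmbedding_coe.isEmbedding.continuous_iff]
    exact hemb.continuous
  refine ⟨IsEmbedding.of_comp hece continuous_coe hemb, ?_⟩
  have : range e = ((↑) : M → OnePoint M) ⁻¹' (range T) := by
    ext m
    constructor
    · rintro ⟨a, rfl⟩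
      exact ⟨a, hT a⟩
    · rintro ⟨a, ha⟩
      induction a using OnePoint.rec with
      | infty => rw [PMap.map_inf] at ha; exact absurd ha (infty_ne_coe _)
      | coe a => rw [hT, coe_eq_coe] at ha; exact ⟨a, ha⟩
  rw [this]
  exact hTc.isClosed_range.preimage continuous_coe

/-- the mapping cylinder of `f : OnePoint U → OnePoint V`, without its base point; the end `t → 1`
of `(a, t)` is glued to `f a` -/
inductive Cyl (f : PMap U V) : Type (max u v)
  | inl : U × Ih → Cyl f
  | inr : V → Cyl f

namespace Cyl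

/-- the defining injection -/
noncomputable def j (f : PMap U V) : Cyl f → OnePoint (U × Ih) × OnePoint (V × Ic)
  | .inl p => ((p : OnePoint (U × Ih)), sm (f p.1) (qC p.2))
  | .inr y => (∞, sm (y : OnePoint V) (one' : OnePoint Ic))

noncomputable instance (f : PMap U V) : TopologicalSpace (Cyl f) :=
  TopologicalSpace.induced (j f) inferInstance

theorem j_injective (f : PMap U V) : Function.Injective (j f) := by
  rintro (p | y) (p' | y') h
  · have := congrArg Prod.fst h
    simp only [j] at this
    rw [coe_injective this]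
  · have := congrArg Prod.fst h
    simp only [j] at this
    exact absurd this (coe_ne_infty _)
  · have := congrArg Prod.fst h
    simp only [j] at this
    exact absurd this (infty_ne_coe _)
  · have := congrArg Prod.snd h
    simp only [j, sm_coe] at this
    have := (Prod.ext_iff.1 (coe_injective this)).1
    simp only at this
    rw [this]

theorem isEmbedding_j (f : PMap U V) : IsEmbedding (j f) := ⟨⟨rfl⟩, j_injective f⟩

theorem j_ne (f : PMap U V) (z : Cyl f) : j f z ≠ (∞, ∞) := by
  rcases z with p | y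
  · intro h
    have := congrArg Prod.fst h
    exact coe_ne_infty _ this
  · intro h
    have := congrArg Prod.snd h
    exact coe_ne_infty _ this

variable [T2Space U] [T2Space V] [LocallyCompactSpace U] [LocallyCompactSpace V]

instance (f : PMap U V) : T2Space (Cyl f) := (isEmbedding_j f).t2Space

/-- the closed image of the cylinder -/
theorem range_j (f : PMap U V) : range (j f) = (range (fun p : OnePoint U × I =>
    ((sm p.1 (qH p.2), sm (f p.1) (qC p.2)) : OnePoint (U × Ih) × OnePoint (V × Ic))) ∪
    range (fun y : OnePoint V => ((∞, sm y (one' : OnePoint Ic)) :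
      OnePoint (U × Ih) × OnePoint (V × Ic)))) \ {(∞, ∞)} := by
  ext z
  constructor
  · rintro ⟨c, rfl⟩
    refine ⟨?_, j_ne f c⟩
    rcases c with p | y
    · left
      obtain ⟨a, t⟩ := p
      refine ⟨((a : OnePoint U), ⟨t, t.2.1, t.2.2.le⟩), ?_⟩
      simp only [j]
      rw [qH_coe, sm_coe]
    · right
      exact ⟨y, rfl⟩
  · rintro ⟨h | h, hne⟩
    · obtain ⟨⟨a, t⟩, rfl⟩ := h
      induction a using OnePoint.rec with
      | infty => exact absurd (by simp) hne
      | coe a =>
        rcases eq_or_lt_of_le t.2.2 with h1 | h1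
        · have ht : (t : ℝ) = 1 := h1
          simp only [ht, qH_one, sm_inf_right, qC_one] at hne ⊢
          generalize f (a : OnePoint U) = b at hne ⊢
          induction b using OnePoint.rec with
          | infty => exact absurd (by simp) hne
          | coe b => exact ⟨.inr b, rfl⟩
        · refine ⟨.inl (a, ⟨t, t.2.1, h1⟩), ?_⟩
          simp only [j]
          rw [qH_of_mem (mem_Ico.2 ⟨t.2.1, h1⟩), sm_coe]
    · obtain ⟨y, rfl⟩ := h
      induction y using OnePoint.rec with
      | infty => exact absurd (by simp) hne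
      | coe y => exact ⟨.inr y, rfl⟩

theorem continuous_aux1 (f : PMap U V) : Continuous (fun p : OnePoint U × I =>
    ((sm p.1 (qH p.2), sm (f p.1) (qC p.2)) : OnePoint (U × Ih) × OnePoint (V × Ic))) := by
  refine Continuous.prodMk ?_ ?_
  · exact continuous_fst.sm962 (continuous_qH.comp (by fun_prop))
  · exact (f.cont.comp continuous_fst).sm962 (continuous_qC.comp (by fun_prop))

theorem continuous_aux2 (_f : PMap U V) : Continuous (fun y : OnePoint V =>
    ((∞, sm y (one' : OnePoint Ic)) : OnePoint (U × Ih) × OnePoint (V × Ic))) :=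
  continuous_const.prodMk (continuous_id.sm962 continuous_const)

theorem isClosed_aux (f : PMap U V) : IsClosed (range (fun p : OnePoint U × I =>
    ((sm p.1 (qH p.2), sm (f p.1) (qC p.2)) : OnePoint (U × Ih) × OnePoint (V × Ic))) ∪
    range (fun y : OnePoint V => ((∞, sm y (one' : OnePoint Ic)) :
      OnePoint (U × Ih) × OnePoint (V × Ic)))) :=
  (isCompact_range (continuous_aux1 f)).isClosed.union (isCompact_range (continuous_aux2 f)).isClosed

instance (f : PMap U V) : LocallyCompactSpace (Cyl f) := by
  refine (isEmbedding_j f).isInducing.locallyCompactSpace ?_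
  rw [range_j]
  exact (isClosed_aux f).isLocallyClosed.inter
    (isOpen_compl_singleton (x := ((∞, ∞) : OnePoint (U × Ih) × OnePoint (V × Ic)))).isLocallyClosed

/-- the extension of `j` to the one point compactification -/
noncomputable def J (f : PMap U V) (z : OnePoint (Cyl f)) : OnePoint (U × Ih) × OnePoint (V × Ic) :=
  z.elim (∞, ∞) (j f)

@[simp] theorem J_inf (f : PMap U V) : J f ∞ = (∞, ∞) := rfl
@[simp] theorem J_coe (f : PMap U V) (z : Cyl f) : J f z = j f z := rfl

theorem continuous_J (f : PMap U V) : Continuous (J f) := by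
  rw [OnePoint.continuous_iff]
  refine ⟨?_, (isEmbedding_j f).continuous⟩
  rw [hasBasis_coclosedCompact.tendsto_left_iff]
  intro N hN
  obtain ⟨O, hO, hOo, hmem⟩ := mem_nhds_iff.mp hN
  refine ⟨(j f) ⁻¹' Oᶜ, ?_, fun z hz => hO (by simpa using hz)⟩
  have hcl : IsClosed ((j f) ⁻¹' Oᶜ) := hOo.isClosed_compl.preimage (isEmbedding_j f).continuous
  refine ⟨hcl, ?_⟩
  rw [(isEmbedding_j f).isCompact_iff, image_preimage_eq_inter_range, range_j]
  have : Oᶜ ∩ ((range (fun p : OnePoint U × I =>
    ((sm p.1 (qH p.2), sm (f p.1) (qC p.2)) : OnePoint (U × Ih) × OnePoint (V × Ic))) ∪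
    range (fun y : OnePoint V => ((∞, sm y (one' : OnePoint Ic)) :
      OnePoint (U × Ih) × OnePoint (V × Ic)))) \ {(∞, ∞)}) = Oᶜ ∩ (range (fun p : OnePoint U × I =>
    ((sm p.1 (qH p.2), sm (f p.1) (qC p.2)) : OnePoint (U × Ih) × OnePoint (V × Ic))) ∪
    range (fun y : OnePoint V => ((∞, sm y (one' : OnePoint Ic)) :
      OnePoint (U × Ih) × OnePoint (V × Ic)))) := by
    ext z
    simp only [mem_inter_iff, mem_compl_iff, Set.mem_sdiff, mem_singleton_iff]
    constructor
    · rintro ⟨h1, h2, _⟩; exact ⟨h1, h2⟩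
    · rintro ⟨h1, h2⟩
      refine ⟨h1, h2, ?_⟩
      rintro rfl
      exact h1 hmem
  rw [this]
  exact (hOo.isClosed_compl.inter (isClosed_aux f)).isCompact

theorem J_injective (f : PMap U V) : Function.Injective (J f) := by
  intro z z' h
  induction z using OnePoint.rec with
  | infty =>
    induction z' using OnePoint.rec with
    | infty => rfl
    | coe z' => exact absurd h.symm (j_ne f z')
  | coe z =>
    induction z' using OnePoint.rec with
    | infty => exact absurd h (j_ne f z)
    | coe z' => rw [j_injective f h]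

theorem isClosedEmbedding_J (f : PMap U V) : IsClosedEmbedding (J f) :=
  (continuous_J f).isClosedEmbedding (J_injective f)

theorem continuous_iff_J {Z : Type*} [TopologicalSpace Z] (f : PMap U V)
    {g : Z → OnePoint (Cyl f)} : Continuous g ↔ Continuous (fun z => J f (g z)) :=
  (isClosedEmbedding_J f).isEmbedding.continuous_iff

/-- point of the cylinder with real coordinate `t`: `(a,0)` for `t ≤ 0`, `f a` for `t ≥ 1` -/
noncomputable def q (f : PMap U V) (a : OnePoint U) (t : ℝ) : OnePoint (Cyl f) :=
  if 1 ≤ t then (f a).elim ∞ fun y => ((Cyl.inr y : Cyl f) : OnePoint (Cyl f))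
  else (sm a (qH t)).elim ∞ fun p => ((Cyl.inl p : Cyl f) : OnePoint (Cyl f))

theorem J_q_of_mem (f : PMap U V) (a : OnePoint U) {t : ℝ} (h : t ∈ Icc (0 : ℝ) 1) :
    J f (q f a t) = (sm a (qH t), sm (f a) (qC t)) := by
  rw [q]
  split_ifs with h1
  · rw [qH_of_ge h1, qC_of_ge h1, sm_inf_right]
    generalize f a = b
    induction b using OnePoint.rec with
    | infty => rfl
    | coe b => rfl
  · push Not at h1
    induction a using OnePoint.rec with
    | infty => simp
    | coe a =>
      rw [qH_of_mem (mem_Ico.2 ⟨h.1, h1⟩), sm_coe]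
      rfl

theorem J_q (f : PMap U V) (a : OnePoint U) (t : ℝ) :
    J f (q f a t) = (sm a (qH t), sm (f a) (qC t)) := by
  rcases le_or_gt t 1 with h1 | h1
  · rcases le_or_gt 0 t with h0 | h0
    · exact J_q_of_mem f a ⟨h0, h1⟩
    · have e : q f a t = q f a 0 := by
        rw [q, q, if_neg (by linarith), if_neg (by linarith), qH_of_le h0.le, qH_zero]
      rw [e, J_q_of_mem f a ⟨le_rfl, zero_le_one⟩, qH_of_le h0.le, qH_zero, qC_of_le h0.le, qC_zero]
  · have e : q f a t = q f a 1 := by
      rw [q, q, if_pos h1.le, if_pos le_rfl]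
    rw [e, J_q_of_mem f a ⟨zero_le_one, le_rfl⟩, qH_of_ge h1.le, qH_one, qC_of_ge h1.le, qC_one]

theorem continuous_q (f : PMap U V) : Continuous (fun p : OnePoint U × ℝ => q f p.1 p.2) := by
  rw [continuous_iff_J]
  have : (fun p : OnePoint U × ℝ => J f (q f p.1 p.2)) =
      fun p => (sm p.1 (qH p.2), sm (f p.1) (qC p.2)) := funext fun p => J_q f p.1 p.2
  rw [this]
  refine Continuous.prodMk ?_ ?_
  · exact continuous_fst.sm962 (continuous_qH.comp continuous_snd)
  · exact (f.cont.comp continuous_fst).sm962 (continuous_qC.comp continuous_snd)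

@[simp] theorem q_inf (f : PMap U V) (t : ℝ) : q f ∞ t = ∞ := by
  rw [q]; split_ifs <;> simp

theorem q_of_mem (f : PMap U V) (a : U) {t : ℝ} (h : t ∈ Ico (0 : ℝ) 1) :
    q f a t = ((Cyl.inl (a, ⟨t, h⟩) : Cyl f) : OnePoint (Cyl f)) := by
  rw [q, if_neg (not_le.2 h.2), qH_of_mem h]; rfl

theorem q_of_le (f : PMap U V) (a : OnePoint U) {t : ℝ} (h : t ≤ 0) : q f a t = q f a 0 := by
  rw [q, q, if_neg (by linarith), if_neg (by linarith), qH_of_le h, qH_zero]

theorem q_coe_zero (f : PMap U V) (a : U) :
    q f a 0 = ((Cyl.inl (a, zero') : Cyl f) : OnePoint (Cyl f)) :=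
  q_of_mem f a ⟨le_rfl, one_pos⟩

/-- inclusion of the target into the cylinder -/
noncomputable def i (f : PMap U V) : PMap V (Cyl f) where
  toFun y := y.elim ∞ fun y => ((Cyl.inr y : Cyl f) : OnePoint (Cyl f))
  cont := by
    rw [continuous_iff_J]
    have : (fun y : OnePoint V => J f (y.elim ∞ fun y => ((Cyl.inr y : Cyl f) :
        OnePoint (Cyl f)))) = fun y => (∞, sm y (one' : OnePoint Ic)) := by
      funext y
      induction y using OnePoint.rec with
      | infty => rfl
      | coe y => rfl
    rw [this]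
    exact continuous_aux2 f
  map_inf := rfl

@[simp] theorem i_coe (f : PMap U V) (y : V) :
    i f y = ((Cyl.inr y : Cyl f) : OnePoint (Cyl f)) := rfl

theorem q_of_ge (f : PMap U V) (a : OnePoint U) {t : ℝ} (h : 1 ≤ t) : q f a t = i f (f a) := by
  rw [q, if_pos h]; rfl

@[simp] theorem q_one (f : PMap U V) (a : OnePoint U) : q f a 1 = i f (f a) := q_of_ge f a le_rfl

/-- inclusion of the source into the cylinder -/
noncomputable def top (f : PMap U V) : PMap U (Cyl f) where
  toFun a := q f a 0
  cont := (continuous_q f).comp (continuous_id.prodMk continuous_const)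
  map_inf := q_inf f 0

theorem top_apply (f : PMap U V) (a : OnePoint U) : top f a = q f a 0 := rfl

/-- the closed embedding of the source -/
def iU (f : PMap U V) (a : U) : Cyl f := .inl (a, zero')

/-- the closed embedding of the target -/
def iV (f : PMap U V) (y : V) : Cyl f := .inr y

@[simp] theorem top_coe (f : PMap U V) (a : U) : top f a = (iU f a : OnePoint (Cyl f)) :=
  q_coe_zero f a

@[simp] theorem i_coe' (f : PMap U V) (y : V) : i f y = (iV f y : OnePoint (Cyl f)) := rfl

theorem iU_injective (f : PMap U V) : Function.Injective (iU f) := by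
  intro a b h
  have := Cyl.inl.inj h
  exact (Prod.ext_iff.1 this).1


theorem isClosedEmbedding_iU (f : PMap U V) : IsClosedEmbedding (iU f) :=
  isClosedEmbedding_of_pmap (top f) (top_coe f) (iU_injective f)




/-- induction principle -/
theorem cases (f : PMap U V) {P : OnePoint (Cyl f) → Prop}
    (h1 : ∀ (a : OnePoint U) (t : ℝ), t ∈ Icc (0 : ℝ) 1 → P (q f a t)) (h2 : ∀ y, P (i f y))
    (z : OnePoint (Cyl f)) : P z := by
  induction z using OnePoint.rec with
  | infty => exact h2 ∞
  | coe z =>
    rcases z with p | y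
    · have := h1 p.1 p.2 ⟨p.2.2.1, p.2.2.2.le⟩
      rw [q_of_mem f p.1 p.2.2] at this
      exact this
    · exact h2 y

/-- continuity of maps out of the cylinder (with a compact parameter) -/
theorem continuous_of (f : PMap U V) {K : Type*} [TopologicalSpace K] [CompactSpace K] [T2Space K]
    {Z : Type*} [TopologicalSpace Z] {g : K × OnePoint (Cyl f) → Z}
    (h1 : Continuous (fun p : K × (OnePoint U × I) => g (p.1, q f p.2.1 p.2.2)))
    (h2 : Continuous (fun p : K × OnePoint V => g (p.1, i f p.2))) : Continuous g := by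
  let φ : (K × (OnePoint U × I)) ⊕ (K × OnePoint V) → K × OnePoint (Cyl f) :=
    Sum.elim (fun p => (p.1, q f p.2.1 p.2.2)) (fun p => (p.1, i f p.2))
  have hφ : Continuous φ := by
    refine Continuous.sumElim ?_ ?_
    · exact continuous_fst.prodMk ((continuous_q f).comp
        ((continuous_fst.comp continuous_snd).prodMk
          (continuous_subtype_val.comp (continuous_snd.comp continuous_snd))))
    · exact continuous_fst.prodMk ((i f).cont.comp continuous_snd)
  have hs : Function.Surjective φ := by
    rintro ⟨k, z⟩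
    revert z
    refine Cyl.cases f ?_ ?_
    · intro a t ht
      exact ⟨Sum.inl (k, (a, ⟨t, ht⟩)), rfl⟩
    · intro y
      exact ⟨Sum.inr (k, y), rfl⟩
  refine (hφ.isClosedMap.isQuotientMap hφ hs).continuous_iff.2 ?_
  have : g ∘ φ = Sum.elim (fun p : K × (OnePoint U × I) => g (p.1, q f p.2.1 p.2.2))
      (fun p : K × OnePoint V => g (p.1, i f p.2)) := by
    funext z
    rcases z with z | z <;> rfl
  rw [this]
  exact Continuous.sumElim h1 h2

theorem continuous_of' (f : PMap U V) {Z : Type*} [TopologicalSpace Z] {g : OnePoint (Cyl f) → Z}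
    (h1 : Continuous (fun p : OnePoint U × I => g (q f p.1 p.2)))
    (h2 : Continuous (fun p : OnePoint V => g (i f p))) : Continuous g := by
  have := continuous_of f (K := Unit) (g := fun p => g p.2) (h1.comp continuous_snd)
    (h2.comp continuous_snd)
  exact this.comp ((continuous_const (y := ())).prodMk continuous_id)

/-- raw map out of the cylinder -/
noncomputable def lift {Z : Type*} (f : PMap U V) (H : OnePoint U → ℝ → Z) (g : OnePoint V → Z)
    (z : OnePoint (Cyl f)) : Z :=
  z.elim (g ∞) fun c => match c with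
    | .inl p => H p.1 p.2
    | .inr y => g y

@[simp] theorem lift_i {Z : Type*} (f : PMap U V) (H : OnePoint U → ℝ → Z) (g : OnePoint V → Z)
    (y : OnePoint V) : lift f H g (i f y) = g y := by
  induction y using OnePoint.rec with
  | infty => rfl
  | coe y => rfl

theorem lift_q {Z : Type*} (f : PMap U V) (H : OnePoint U → ℝ → Z) (g : OnePoint V → Z)
    (hinf : ∀ t, H ∞ t = g ∞) (h1 : ∀ a, H a 1 = g (f a))
    (a : OnePoint U) {t : ℝ} (ht : t ∈ Icc (0 : ℝ) 1) : lift f H g (q f a t) = H a t := by
  rcases eq_or_lt_of_le ht.2 with h' | h'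
  · rw [h', q_one, lift_i, h1]
  induction a using OnePoint.rec with
  | infty => rw [q_inf, hinf]; rfl
  | coe a => rw [q_of_mem f a ⟨ht.1, h'⟩]; rfl

theorem continuous_lift {Z : Type*} [TopologicalSpace Z] (f : PMap U V) (H : OnePoint U → ℝ → Z)
    (g : OnePoint V → Z) (hH : Continuous (fun p : OnePoint U × I => H p.1 p.2))
    (hg : Continuous g)
    (hinf : ∀ t, H ∞ t = g ∞) (h1 : ∀ a, H a 1 = g (f a)) :
    Continuous (lift f H g) := by
  refine continuous_of' f ?_ (by simpa using hg)
  have : (fun p : OnePoint U × I => lift f H g (q f p.1 p.2)) = fun p => H p.1 p.2 := by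
    funext p
    exact lift_q f H g hinf h1 p.1 p.2.2
  rw [this]
  exact hH

/-- pointed map out of the cylinder from `g` on the target and a homotopy `H` on the source ending
in `g ∘ f` -/
noncomputable def desc (f : PMap U V) (g : PMap V W) (H : OnePoint U → ℝ → OnePoint W)
    (hH : Continuous (fun p : OnePoint U × I => H p.1 p.2))
    (hinf : ∀ t, H ∞ t = ∞) (h1 : ∀ a, H a 1 = g (f a)) :
    PMap (Cyl f) W where
  toFun := lift f H g
  cont := continuous_lift f H g hH g.cont (by simpa using hinf) h1
  map_inf := g.map_inf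

@[simp] theorem desc_i (f : PMap U V) (g : PMap V W) (H : OnePoint U → ℝ → OnePoint W)
    (hH : Continuous (fun p : OnePoint U × I => H p.1 p.2))
    (hinf : ∀ t, H ∞ t = ∞) (h1 : ∀ a, H a 1 = g (f a)) (y : OnePoint V) :
    desc f g H hH hinf h1 (i f y) = g y := lift_i f H g y

theorem desc_q (f : PMap U V) (g : PMap V W) (H : OnePoint U → ℝ → OnePoint W)
    (hH : Continuous (fun p : OnePoint U × I => H p.1 p.2))
    (hinf : ∀ t, H ∞ t = ∞) (h1 : ∀ a, H a 1 = g (f a)) (a : OnePoint U)
    {t : ℝ} (ht : t ∈ Icc (0 : ℝ) 1) :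
    desc f g H hH hinf h1 (q f a t) = H a t :=
  lift_q f H g (by simpa using hinf) h1 a ht

/-- the retraction onto the target -/
noncomputable def ret (f : PMap U V) : PMap (Cyl f) V :=
  desc f (PMap.id V) (fun a _ => f a) (f.cont.comp continuous_fst) (fun _ => f.map_inf)
    (fun _ => rfl)

@[simp] theorem ret_i (f : PMap U V) (y : OnePoint V) : ret f (i f y) = y :=
  desc_i f (PMap.id V) _ _ _ _ y

theorem ret_q_of_mem (f : PMap U V) (a : OnePoint U) {t : ℝ} (ht : t ∈ Icc (0 : ℝ) 1) :
    ret f (q f a t) = f a :=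
  desc_q f (PMap.id V) _ _ _ _ a ht

@[simp] theorem ret_q (f : PMap U V) (a : OnePoint U) (t : ℝ) : ret f (q f a t) = f a := by
  rcases le_or_gt t 1 with h1 | h1
  · rcases le_or_gt 0 t with h0 | h0
    · exact ret_q_of_mem f a ⟨h0, h1⟩
    · rw [q_of_le f a h0.le]
      exact ret_q_of_mem f a ⟨le_rfl, zero_le_one⟩
  · rw [q_of_ge f a h1.le, ret_i]

@[simp] theorem ret_iU (f : PMap U V) (a : U) : ret f (iU f a : OnePoint (Cyl f)) = f a := by
  rw [← top_coe, top_apply, ret_q]

@[simp] theorem ret_iV (f : PMap U V) (y : V) :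
    ret f (iV f y : OnePoint (Cyl f)) = (y : OnePoint V) := ret_i f y



/-- reparametrisation of the heights: for `r : I → ℝ → ℝ` with `r s 1 = 1` -/
noncomputable def move (f : PMap U V) (r : I → ℝ → ℝ) (p : I × OnePoint (Cyl f)) :
    OnePoint (Cyl f) :=
  lift f (fun a t => q f a (r p.1 t)) (i f) p.2

@[simp] theorem move_i (f : PMap U V) (r : I → ℝ → ℝ) (s : I) (y : OnePoint V) :
    move f r (s, i f y) = i f y := lift_i f _ _ y

theorem move_q (f : PMap U V) (r : I → ℝ → ℝ) (hr : ∀ s, r s 1 = 1) (s : I) (a : OnePoint U)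
    {t : ℝ} (ht : t ∈ Icc (0 : ℝ) 1) : move f r (s, q f a t) = q f a (r s t) := by
  refine lift_q f (fun a t => q f a (r s t)) (i f) ?_ ?_ a ht
  · intro t; rw [q_inf, PMap.map_inf]
  · intro a; rw [hr, q_one]

@[simp] theorem move_inf (f : PMap U V) (r : I → ℝ → ℝ) (s : I) : move f r (s, ∞) = ∞ := rfl

theorem continuous_move (f : PMap U V) (r : I → ℝ → ℝ)
    (hrc : Continuous fun p : I × ℝ => r p.1 p.2) (hr : ∀ s, r s 1 = 1) :
    Continuous (move f r) := by
  refine continuous_of f ?_ ?_
  · have : (fun p : I × (OnePoint U × I) => move f r (p.1, q f p.2.1 p.2.2)) =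
        fun p => q f p.2.1 (r p.1 p.2.2) := by
      funext p
      exact move_q f r hr p.1 p.2.1 p.2.2.2
    rw [this]
    exact (continuous_q f).comp ((continuous_fst.comp continuous_snd).prodMk
      (hrc.comp (continuous_fst.prodMk
        (continuous_subtype_val.comp (continuous_snd.comp continuous_snd)))))
  · have : (fun p : I × OnePoint V => move f r (p.1, i f p.2)) = fun p => i f p.2 := by
      funext p
      exact move_i f r p.1 p.2
    rw [this]
    exact (i f).cont.comp continuous_snd

/-- the target is a deformation retract -/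
theorem i_comp_ret (f : PMap U V) : ((i f).comp (ret f)).Homotopic (PMap.id (Cyl f)) := by
  symm
  set r : I → ℝ → ℝ := fun s t => t + s * (1 - t) with hrdef
  have hr : ∀ s, r s 1 = 1 := fun s => by simp [hrdef]
  have hrc : Continuous fun p : I × ℝ => r p.1 p.2 := by simp only [hrdef]; fun_prop
  have key0 : ∀ z, move f r (0, z) = z := by
    refine Cyl.cases f ?_ ?_
    · intro a t ht
      rw [move_q f r hr 0 a ht]
      simp [hrdef]
    · intro y; rw [move_i]
  have key1 : ∀ z, move f r (1, z) = i f (ret f z) := by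
    refine Cyl.cases f ?_ ?_
    · intro a t ht
      rw [move_q f r hr 1 a ht, ret_q]
      have : r 1 t = 1 := by simp [hrdef]
      rw [this, q_one]
    · intro y; rw [move_i, ret_i]
  exact PMap.Homotopic.of (move f r) (continuous_move f r hrc hr) (fun z => key0 z)
    (fun z => key1 z) (fun t => rfl)

/-! ### the height function and the NDR homotopy -/

/-- the height -/
def ht (f : PMap U V) : Cyl f → ℝ
  | .inl p => p.2
  | .inr _ => 1

@[simp] theorem ht_inl (f : PMap U V) (p : U × Ih) : ht f (.inl p) = p.2 := rfl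
@[simp] theorem ht_inr (f : PMap U V) (y : V) : ht f (.inr y) = 1 := rfl
@[simp] theorem ht_iU (f : PMap U V) (a : U) : ht f (iU f a) = 0 := rfl
@[simp] theorem ht_iV (f : PMap U V) (y : V) : ht f (iV f y) = 1 := rfl

theorem ht_nonneg (f : PMap U V) (z : Cyl f) : 0 ≤ ht f z := by
  rcases z with p | y
  · exact p.2.2.1
  · exact zero_le_one


theorem ht_eq_zero (f : PMap U V) (z : Cyl f) : ht f z = 0 ↔ z ∈ range (iU f) := by
  constructor
  · intro h
    rcases z with ⟨a, t⟩ | y
    · refine ⟨a, ?_⟩
      have : t = zero' := Subtype.ext h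
      rw [this]; rfl
    · exact absurd h one_ne_zero
  · rintro ⟨a, rfl⟩; rfl



theorem continuous_ht (f : PMap U V) : Continuous (ht f) := by
  rw [continuous_iff_continuousAt]
  have hj := (isEmbedding_j f).continuous
  have e1 : IsOpenEmbedding ((↑) : U × Ih → OnePoint (U × Ih)) := isOpenEmbedding_coe
  have e2 : IsOpenEmbedding ((↑) : V × Ic → OnePoint (V × Ic)) := isOpenEmbedding_coe
  rintro (⟨a, t⟩ | y)
  · -- near a point of the source part
    set F : OnePoint (U × Ih) → ℝ := fun z => z.elim 0 fun p => (p.2 : ℝ) with hF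
    have hFc : ContinuousAt F ((a, t) : U × Ih) := by
      rw [← e1.continuousAt_iff]
      have : F ∘ ((↑) : U × Ih → OnePoint (U × Ih)) = fun p => (p.2 : ℝ) := rfl
      rw [this]
      fun_prop
    have h1 : ContinuousAt (fun z => F (j f z).1) (Cyl.inl (a, t)) := by
      refine ContinuousAt.comp (g := F) (f := fun z => (j f z).1) ?_ ?_
      · exact hFc
      · exact hj.fst.continuousAt
    refine h1.congr ?_
    have hopen : IsOpen ((fun z => (j f z).1) ⁻¹' (range ((↑) : U × Ih → OnePoint (U × Ih)))) :=
      e1.isOpen_range.preimage hj.fst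
    filter_upwards [hopen.mem_nhds (show (Cyl.inl (a, t)) ∈ _ from ⟨(a, t), rfl⟩)] with z hz
    rcases z with p | y
    · rfl
    · obtain ⟨p, hp⟩ := hz
      exact absurd hp (coe_ne_infty _)
  · set F : OnePoint (V × Ic) → ℝ := fun z => z.elim 0 fun p => (p.2 : ℝ) with hF
    have hFc : ContinuousAt F ((y, one') : V × Ic) := by
      rw [← e2.continuousAt_iff]
      have : F ∘ ((↑) : V × Ic → OnePoint (V × Ic)) = fun p => (p.2 : ℝ) := rfl
      rw [this]
      fun_prop
    have h1 : ContinuousAt (fun z => F (j f z).2) (Cyl.inr y) := by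
      refine ContinuousAt.comp (g := F) (f := fun z => (j f z).2) ?_ ?_
      · exact hFc
      · exact hj.snd.continuousAt
    refine h1.congr ?_
    have hopen : IsOpen ((fun z => (j f z).2) ⁻¹' (range ((↑) : V × Ic → OnePoint (V × Ic)))) :=
      e2.isOpen_range.preimage hj.snd
    filter_upwards [hopen.mem_nhds (show (Cyl.inr y) ∈ _ from ⟨(y, one'), rfl⟩)] with z hz
    rcases z with ⟨a, t⟩ | y'
    · obtain ⟨p, hp⟩ := hz
      have hp' : sm (f (a : OnePoint U)) (qC (t : ℝ)) = (p : OnePoint (V × Ic)) := hp.symm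
      obtain ⟨h3, h4⟩ := sm_eq_coe.1 hp'
      change F (sm (f (a : OnePoint U)) (qC (t : ℝ))) = t
      rw [hp']
      change ((p.2 : Ic) : ℝ) = t
      have h5 : 0 < (t : ℝ) := by
        by_contra hn
        rw [qC_of_le (not_lt.1 hn)] at h4
        exact infty_ne_coe _ h4
      rw [qC_of_mem ⟨h5, t.2.2.le⟩, coe_eq_coe] at h4
      rw [← h4]
    · rfl

/-- the NDR homotopy: the heights `≤ 1/2` are pushed to `0` -/
noncomputable def push (f : PMap U V) : I × OnePoint (Cyl f) → OnePoint (Cyl f) :=
  move f fun s t => (1 - s) * t + s * (2 * t - 1)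

theorem push_r_one (s : I) : (1 - (s : ℝ)) * 1 + s * (2 * 1 - 1) = 1 := by ring


@[simp] theorem push_inf (f : PMap U V) (s : I) : push f (s, ∞) = ∞ := rfl

@[simp] theorem push_i (f : PMap U V) (s : I) (y : OnePoint V) : push f (s, i f y) = i f y :=
  move_i f _ s y

theorem push_q (f : PMap U V) (s : I) (a : OnePoint U) {t : ℝ} (ht : t ∈ Icc (0 : ℝ) 1) :
    push f (s, q f a t) = q f a ((1 - s) * t + s * (2 * t - 1)) :=
  move_q f _ push_r_one s a ht

@[simp] theorem push_zero (f : PMap U V) (z : OnePoint (Cyl f)) : push f (0, z) = z := by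
  revert z
  refine Cyl.cases f ?_ ?_
  · intro a t ht
    rw [push_q f 0 a ht]
    simp
  · intro y; rw [push_i]

@[simp] theorem push_top (f : PMap U V) (s : I) (a : OnePoint U) :
    push f (s, top f a) = top f a := by
  rw [top_apply, push_q f s a ⟨le_rfl, zero_le_one⟩]
  refine q_of_le f a ?_
  have := s.2.1
  simp only [mul_zero, zero_sub, zero_add, mul_neg, mul_one, Left.neg_nonpos_iff]
  exact this

@[simp] theorem push_iU (f : PMap U V) (s : I) (a : U) :
    push f (s, (iU f a : OnePoint (Cyl f))) = (iU f a : OnePoint (Cyl f)) := by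
  rw [← top_coe, push_top]


end Cyl

end Crest.Agent.R090.Cyl349
private theorem rz_a920d72470 : type_of% @_root_.Crest.Agent.R090.Cyl349.Cyl.j.eq_1 := @_root_.Crest.Agent.R090.Cyl349.Cyl.j.eq_1 -- L149
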