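import Crest.Agent.R090.Sm_202

/-!
# Row 90, T1: maps `X × E → Y × E`, interchange, external product (owner helper202)

* `St.lev E a : St X Y` for `a : HC (X × E) (Y × E)`, `E` a finite dimensional complex space;
* `St.prod a b : St (X × X') (Y × Y')`.
-/

set_option autoImplicit false
set_option linter.unusedSectionVars false
set_option linter.style.haveILetI false

open Topology Filter Set

noncomputable section

namespace Crest.Agent.R090.Sm202

open OnePoint Crest.Agent.R090.Sp962 Crest.Agent.R090.Grp528 Crest.Agent.R090.St528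

universe u v w x u' v' w' x' u'' v'' a' b'

/-! ## charts -/

/-- the linear isomorphism `ℂ^n × ℂ ≃ ℂ^(n+1)` -/
def snocL (n : ℕ) : ((Fin n → ℂ) × ℂ) ≃L[ℂ] (Fin (n + 1) → ℂ) :=
  LinearEquiv.toContinuousLinearEquiv
    { toFun := fun p => Fin.snoc (α := fun _ => ℂ) p.1 p.2
      invFun := fun v => (fun i => v i.castSucc, v (Fin.last n))
      left_inv := fun p => by simp
      right_inv := fun v => by exact Fin.snoc_init_self v
      map_add' := fun p q => by
        funext i
        refine Fin.lastCases ?_ (fun j => ?_) i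
        · simp
        · simp
      map_smul' := fun c p => by
        funext i
        refine Fin.lastCases ?_ (fun j => ?_) i
        · simp
        · simp }



section chart

variable (X : Type u) [TopologicalSpace X]
variable {E : Type v} [NormedAddCommGroup E] [NormedSpace ℂ E]
variable {F : Type w} [NormedAddCommGroup F] [NormedSpace ℂ F]

/-- `1_X × A` -/
def rl (A : E ≃L[ℂ] F) : X × E ≃ₜ X × F := (Homeomorph.refl X).prodCongr A.toHomeomorph

@[simp] theorem rl_apply (A : E ≃L[ℂ] F) (p : X × E) : rl X A p = (p.1, A p.2) := rfl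
@[simp] theorem rl_symm_apply (A : E ≃L[ℂ] F) (p : X × F) : (rl X A).symm p = (p.1, A.symm p.2) := rfl


end chart

variable {X : Type u} {Y : Type v} {Z : Type w} {W : Type x}
variable [TopologicalSpace X] [TopologicalSpace Y] [TopologicalSpace Z] [TopologicalSpace W]
variable [T2Space X] [T2Space Y] [T2Space Z] [T2Space W]
variable [LocallyCompactSpace X] [LocallyCompactSpace Y] [LocallyCompactSpace Z]
variable [LocallyCompactSpace W]
variable {E : Type u'} [NormedAddCommGroup E] [NormedSpace ℂ E] [FiniteDimensional ℂ E]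
variable {F : Type v'} [NormedAddCommGroup F] [NormedSpace ℂ F] [FiniteDimensional ℂ F]
variable {G : Type w'} [NormedAddCommGroup G] [NormedSpace ℂ G] [FiniteDimensional ℂ G]

theorem hh_rl (X : Type u) [TopologicalSpace X] [T2Space X] [LocallyCompactSpace X]
    (A B : E ≃L[ℂ] F) : hh (rl X A) = hh (rl X B) := hh_lin_right A B

/-- stable map from a class `X × E → Y × E` and a linear isomorphism `ℂ^n ≃ E` -/
def levN {n : ℕ} (φ : (Fin n → ℂ) ≃L[ℂ] E) (a : HC (X × E) (Y × E)) : St X Y :=
  St.of n (a.conj (rl X φ).symm (rl Y φ).symm)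

theorem levN_eq {m n : ℕ} (φ : (Fin m → ℂ) ≃L[ℂ] E) (ψ : (Fin n → ℂ) ≃L[ℂ] E)
    (a : HC (X × E) (Y × E)) : levN φ a = levN ψ a := by
  obtain rfl : m = n := by
    have := (φ.trans ψ.symm).toLinearEquiv.finrank_eq
    simpa using this
  rw [levN, levN, conj_congr (hh_symm_congr (hh_rl X φ ψ)) (hh_symm_congr (hh_rl Y φ ψ))]

variable (E) in
/-- the chosen isomorphism -/
def phi : (Fin (Module.finrank ℂ E) → ℂ) ≃L[ℂ] E := ContinuousLinearEquiv.ofFinrankEq (by simp)

variable (E) in
/-- stable map from a class `X × E → Y × E` -/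
def _root_.Crest.Agent.R090.St528.St.lev (a : HC (X × E) (Y × E)) : St X Y := levN (phi E) a

theorem lev_eq_levN {n : ℕ} (φ : (Fin n → ℂ) ≃L[ℂ] E) (a : HC (X × E) (Y × E)) :
    St.lev E a = levN φ a := levN_eq _ _ _

theorem lev_fin_eq_of (n : ℕ) (a : HC (S X n) (S Y n)) : St.lev (Fin n → ℂ) a = St.of n a := by
  rw [lev_eq_levN (ContinuousLinearEquiv.refl ℂ (Fin n → ℂ)), levN]
  exact congrArg (St.of n) (conj_refl a)

/-- independence of linear isomorphisms -/
theorem lev_conj (A B : E ≃L[ℂ] F) (a : HC (X × E) (Y × E)) :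
    St.lev F (a.conj (rl X A) (rl Y B)) = St.lev E a := by
  rw [conj_congr (f := rl X A) (f' := rl Y A) rfl (hh_rl Y B A)]
  rw [lev_eq_levN ((phi E).trans A), St.lev, levN, levN, conj_conj]
  congr 1
  refine conj_ext ?_ ?_ _
  · rintro ⟨x, e⟩
    change (x, (phi E).symm (A.symm (A e))) = (x, (phi E).symm e)
    rw [ContinuousLinearEquiv.symm_apply_apply]
  · rintro ⟨x, e⟩
    change (x, (phi E).symm (A.symm (A e))) = (x, (phi E).symm e)
    rw [ContinuousLinearEquiv.symm_apply_apply]

theorem lev_smash_complex (a : HC (X × E) (Y × E)) :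
    St.lev (E × ℂ) ((a.smash (h1 ℂ)).conj (asC X E ℂ) (asC Y E ℂ)) = St.lev E a := by
  rw [lev_eq_levN ((snocL _).symm.trans ((phi E).prodCongr (ContinuousLinearEquiv.refl ℂ ℂ))),
    St.lev, levN, levN, ← St.of_st (HC.conj (rl X (phi E)).symm (rl Y (phi E)).symm a), st_conj,
    conj_smash_h1, conj_conj, conj_conj]
  congr 1

theorem lev_comp (b : HC (Y × E) (Z × E)) (a : HC (X × E) (Y × E)) :
    St.lev E (b.comp a) = (St.lev E b).comp (St.lev E a) := by
  rw [St.lev, St.lev, St.lev, levN, levN, levN, St.of_comp_of, conj_comp_conj]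

theorem lev_fin_zero (a : HC (X × E) (Y × E)) :
    St.lev (E × (Fin 0 → ℂ)) ((a.smash (h1 (Fin 0 → ℂ))).conj
      (asC X E (Fin 0 → ℂ)) (asC Y E (Fin 0 → ℂ))) = St.lev E a := by
  let B : E ≃L[ℂ] (E × (Fin 0 → ℂ)) :=
    { toFun := fun e => (e, 0)
      invFun := fun p => p.1
      left_inv := fun _ => rfl
      right_inv := fun p => Prod.ext rfl (Subsingleton.elim _ _)
      map_add' := fun x y => by simp
      map_smul' := fun c x => by simp
      continuous_toFun := by fun_prop
      continuous_invFun := by fun_prop }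
  rw [← lev_conj B B a]
  congr 1
  obtain ⟨f, rfl⟩ := HC.mk_surj a
  refine congrArg HC.mk (PMap.ext fun p => ?_)
  obtain ⟨x, e, o⟩ := p
  obtain rfl : o = 0 := Subsingleton.elim _ _
  change PMap.ofHomeo (asC Y E (Fin 0 → ℂ)) (sm (f ((x, e) : X × E))
    ((0 : Fin 0 → ℂ) : OnePoint (Fin 0 → ℂ))) = PMap.ofHomeo
      (rl Y B) (f ((x, e) : X × E))
  generalize f ((x, e) : X × E) = q
  induction q using OnePoint.rec with
  | infty => simp [PMap.map_inf]
  | coe q => rfl

theorem lev_fin (m : ℕ) : ∀ {E : Type u'} [NormedAddCommGroup E] [NormedSpace ℂ E]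
    [FiniteDimensional ℂ E] (a : HC (X × E) (Y × E)),
    St.lev (E × (Fin m → ℂ)) ((a.smash (h1 (Fin m → ℂ))).conj
      (asC X E (Fin m → ℂ)) (asC Y E (Fin m → ℂ))) = St.lev E a := by
  induction m with
  | zero => intro E _ _ _ a; exact lev_fin_zero a
  | succ m ih =>
    intro E _ _ _ a
    let A : ((E × (Fin m → ℂ)) × ℂ) ≃L[ℂ] (E × (Fin (m + 1) → ℂ)) :=
      (ContinuousLinearEquiv.prodAssoc ℂ E (Fin m → ℂ) ℂ).trans
        ((ContinuousLinearEquiv.refl ℂ E).prodCongr (snocL m))
    conv_rhs => rw [← ih a, ← lev_smash_complex, ← lev_conj A A]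
    refine congrArg (St.lev (E × (Fin (m + 1) → ℂ))) ?_
    rw [conj_conj, conj_smash_h1, conj_conj]
    have e1 : h1 (Fin (m + 1) → ℂ) =
        ((h1 (Fin m → ℂ)).smash (h1 ℂ)).conj
          (snocL m).toHomeomorph (snocL m).toHomeomorph := by
      rw [h1_smash_h1, conj_h1]
    have e2 : a.smash (h1 (Fin (m + 1) → ℂ)) =
        (a.smash ((h1 (Fin m → ℂ)).smash (h1 ℂ))).conj
          ((Homeomorph.refl (X × E)).prodCongr (snocL m).toHomeomorph)
          ((Homeomorph.refl (Y × E)).prodCongr (snocL m).toHomeomorph) := by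
      rw [e1, ← conj_smash, conj_refl]
    rw [e2, ← conj_asC, conj_conj, conj_conj]
    rfl

/-- stabilisation by an arbitrary finite dimensional space -/
theorem lev_smash (a : HC (X × E) (Y × E)) :
    St.lev (E × F) ((a.smash (h1 F)).conj (asC X E F) (asC Y E F)) = St.lev E a := by
  rw [← lev_fin (Module.finrank ℂ F) a]
  let A : (E × (Fin (Module.finrank ℂ F) → ℂ)) ≃L[ℂ] (E × F) :=
    (ContinuousLinearEquiv.refl ℂ E).prodCongr (phi F)
  rw [← lev_conj A A]
  congr 1
  have e1 : h1 F = (h1 (Fin (Module.finrank ℂ F) → ℂ)).conj (phi F).toHomeomorph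
      (phi F).toHomeomorph := by
    rw [conj_h1]
  have e2 : a.smash (h1 F) = (a.smash (h1 (Fin (Module.finrank ℂ F) → ℂ))).conj
      ((Homeomorph.refl (X × E)).prodCongr (phi F).toHomeomorph)
      ((Homeomorph.refl (Y × E)).prodCongr (phi F).toHomeomorph) := by
    rw [e1, ← conj_smash, conj_refl]
  rw [e2, conj_conj, conj_conj]
  rfl

theorem lev_smash' (a : HC (X × F) (Y × F)) :
    St.lev (E × F) (((h1 E).smash a).conj
      ((asC E X F).symm.trans (((Homeomorph.prodComm E X).prodCongr (Homeomorph.refl F)).trans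
        (asC X E F)))
      ((asC E Y F).symm.trans (((Homeomorph.prodComm E Y).prodCongr (Homeomorph.refl F)).trans
        (asC Y E F)))) = St.lev F a := by
  rw [← lev_smash (F := E) a]
  let A : (F × E) ≃L[ℂ] (E × F) := ContinuousLinearEquiv.prodComm ℂ F E
  rw [← lev_conj A A]
  congr 1
  rw [← conj_prodComm a (h1 E), conj_conj, conj_conj]
  rfl

/-! ## existence of representatives -/

/-- every pair of stable maps is represented at a common level `ℂ^n` -/
theorem exists_lev (a : St X Y) (M : ℕ) : ∃ n, M ≤ n ∧ ∃ b, a = St.lev (Fin n → ℂ) b := by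
  obtain ⟨n, hn, b, rfl⟩ := a.exists_of_ge M
  exact ⟨n, hn, b, (lev_fin_eq_of n b).symm⟩

/-- smash product with `W` on the right in terms of `lev` -/
theorem smR_lev (a : HC (X × E) (Y × E)) :
    (St.lev E a).smR W = St.lev E ((a.smash (h1 W)).conj (swR X E W) (swR Y E W)) := by
  rw [St.lev, St.lev, levN, levN, smR_of, levR, conj_smash_h1, conj_conj, conj_conj]
  rfl

theorem smL_lev (a : HC (X × E) (Y × E)) :
    (St.lev E a).smL W = St.lev E (((h1 W).smash a).conj (asC W X E).symm (asC W Y E).symm) := by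
  rw [St.lev, St.lev, levN, levN, smL_of, levL, conj_h1_smash, conj_conj, conj_conj]
  rfl

/-- a map smashed with `E` represents the stable class of the map -/
theorem lev_map (a : HC X Y) : St.lev E (a.smash (h1 E)) = St.map a := by
  rw [St.lev, levN, St.map_eq_of a (Module.finrank ℂ E)]
  congr 1
  have e1 : h1 (Fin (Module.finrank ℂ E) → ℂ) = (h1 E).conj (phi E).symm.toHomeomorph
      (phi E).symm.toHomeomorph := by
    rw [conj_h1]
  rw [e1]
  have := conj_smash (Homeomorph.refl X) (Homeomorph.refl Y) a (phi E).symm.toHomeomorph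
      (phi E).symm.toHomeomorph (h1 E)
  rw [conj_refl] at this
  rw [this]
  rfl

/-! ## external product -/

/-- `(A × B) × (C × D) ≃ (A × C) × (B × D)` -/
@[simps] def shf (A : Type u) (B : Type v) (C : Type w) (D : Type x) [TopologicalSpace A]
    [TopologicalSpace B] [TopologicalSpace C] [TopologicalSpace D] :
    (A × B) × (C × D) ≃ₜ (A × C) × (B × D) where
  toFun p := ((p.1.1, p.2.1), (p.1.2, p.2.2))
  invFun p := ((p.1.1, p.2.1), (p.1.2, p.2.2))
  left_inv _ := rfl
  right_inv _ := rfl
  continuous_toFun := by fun_prop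
  continuous_invFun := by fun_prop

variable {X' : Type u''} {Y' : Type v''} {Z' : Type w'}
variable [TopologicalSpace X'] [TopologicalSpace Y'] [TopologicalSpace Z']
variable [T2Space X'] [T2Space Y'] [T2Space Z']
variable [LocallyCompactSpace X'] [LocallyCompactSpace Y'] [LocallyCompactSpace Z']

/-- external product -/
def _root_.Crest.Agent.R090.St528.St.prod (a : St X Y) (b : St X' Y') : St (X × X') (Y × Y') :=
  (a.smR Y').comp (b.smL X)

theorem aux_prod1 (a : HC (X × E) (Y × E)) :
    (((a.smash (h1 F)).conj (asC X E F) (asC Y E F)).smash (h1 W)).conj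
      (swR X (E × F) W) (swR Y (E × F) W) =
    (a.smash (h1 (W × F))).conj (shf X E W F) (shf Y E W F) := by
  rw [← h1_smash_h1 (U := W) (U' := F), ← conj_asC a (h1 W) (h1 F), ← conj_swR a (h1 F) (h1 W),
    conj_smash_h1, conj_conj, conj_conj, conj_conj]
  rfl

theorem aux_prod2 (b : HC (X' × F) (Y' × F)) :
    ((h1 W).smash (((h1 E).smash b).conj
      ((asC E X' F).symm.trans (((Homeomorph.prodComm E X').prodCongr (Homeomorph.refl F)).trans
        (asC X' E F)))
      ((asC E Y' F).symm.trans (((Homeomorph.prodComm E Y').prodCongr (Homeomorph.refl F)).trans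
        (asC Y' E F))))).conj (asC W X' (E × F)).symm (asC W Y' (E × F)).symm =
    ((h1 (W × E)).smash b).conj (shf W E X' F) (shf W E Y' F) := by
  rw [conj_h1_smash, conj_conj, ← h1_smash_h1 (U := W) (U' := E),
    ← conj_asC (h1 W) (h1 E) b, conj_conj]
  rfl

theorem smR_lev' (a : HC (X × E) (Y × E)) :
    (St.lev E a).smR W = St.lev (E × F)
      ((a.smash (h1 (W × F))).conj (shf X E W F) (shf Y E W F)) := by
  rw [← lev_smash (F := F) a, smR_lev, aux_prod1]

theorem smL_lev' (b : HC (X' × F) (Y' × F)) :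
    (St.lev F b).smL W = St.lev (E × F)
      (((h1 (W × E)).smash b).conj (shf W E X' F) (shf W E Y' F)) := by
  rw [← lev_smash' (E := E) b, smL_lev, aux_prod2]

/-- external product in terms of representatives -/
theorem prod_lev (a : HC (X × E) (Y × E)) (b : HC (X' × F) (Y' × F)) :
    (St.lev E a).prod (St.lev F b) =
      St.lev (E × F) ((a.smash b).conj (shf X E X' F) (shf Y E Y' F)) := by
  rw [St.prod, smR_lev' (F := F) a, smL_lev' (E := E) b, ← lev_comp, conj_comp_conj,
    HC.smash_comp, comp_h1, h1_comp]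

theorem prod_lev' (a : HC (X × E) (Y × E)) (b : HC (X' × F) (Y' × F)) :
    ((St.lev F b).smL Y).comp ((St.lev E a).smR X') =
      St.lev (E × F) ((a.smash b).conj (shf X E X' F) (shf Y E Y' F)) := by
  rw [smR_lev' (F := F) a, smL_lev' (E := E) b, ← lev_comp, conj_comp_conj,
    HC.smash_comp, comp_h1, h1_comp]

/-- **interchange** -/
theorem interchange (a : St X Y) (b : St X' Y') :
    (a.smR Y').comp (b.smL X) = (b.smL Y).comp (a.smR X') := by
  obtain ⟨n, -, a, rfl⟩ := exists_lev a 0
  obtain ⟨m, -, b, rfl⟩ := exists_lev b 0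
  rw [prod_lev', ← prod_lev, St.prod]

theorem prod_eq (a : St X Y) (b : St X' Y') : a.prod b = (a.smR Y').comp (b.smL X) := rfl

theorem prod_eq' (a : St X Y) (b : St X' Y') : a.prod b = (b.smL Y).comp (a.smR X') :=
  interchange a b

theorem prod_comp (b : St Y Z) (a : St X Y) (b' : St Y' Z') (a' : St X' Y') :
    (b.comp a).prod (b'.comp a') = (b.prod b').comp (a.prod a') := by
  rw [prod_eq, prod_eq, prod_eq, smR_comp, smL_comp]
  simp only [St.comp_assoc]
  congr 1
  rw [← St.comp_assoc, ← St.comp_assoc, interchange]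

theorem prod_id_right (a : St X Y) (W : Type x) [TopologicalSpace W] [T2Space W]
    [LocallyCompactSpace W] : a.prod (St.id W) = a.smR W := by
  rw [prod_eq, smL_id, St.comp_id]

theorem prod_id_left (a : St X Y) (W : Type x) [TopologicalSpace W] [T2Space W]
    [LocallyCompactSpace W] : (St.id W).prod a = a.smL W := by
  rw [prod_eq, smR_id, St.id_comp]

@[simp] theorem prod_id_id : (St.id X).prod (St.id W) = St.id (X × W) := by
  rw [prod_id_left, smL_id]

theorem prod_add (a : St X Y) (b c : St X' Y') : a.prod (b + c) = a.prod b + a.prod c := by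
  rw [prod_eq, prod_eq, prod_eq, smL_add, St.comp_add]

theorem add_prod (a b : St X Y) (c : St X' Y') : (a + b).prod c = a.prod c + b.prod c := by
  rw [prod_eq, prod_eq, prod_eq, smR_add, St.add_comp]

/-- external product as a homomorphism in the second variable -/
def prodHomR (X' : Type u'') (Y' : Type v'') [TopologicalSpace X'] [TopologicalSpace Y']
    [T2Space X'] [T2Space Y'] [LocallyCompactSpace X'] [LocallyCompactSpace Y'] (a : St X Y) :
    St X' Y' →+ St (X × X') (Y × Y') := AddMonoidHom.mk' (fun b => a.prod b) (prod_add a)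

/-- external product as a homomorphism in the first variable -/
def prodHomL (X : Type u) (Y : Type v) [TopologicalSpace X] [TopologicalSpace Y]
    [T2Space X] [T2Space Y] [LocallyCompactSpace X] [LocallyCompactSpace Y] (b : St X' Y') :
    St X Y →+ St (X × X') (Y × Y') := AddMonoidHom.mk' (fun a => a.prod b) (fun a c => add_prod a c b)

@[simp] theorem prod_zero (a : St X Y) : a.prod (0 : St X' Y') = 0 := (prodHomR X' Y' a).map_zero
@[simp] theorem zero_prod (b : St X' Y') : (0 : St X Y).prod b = 0 := (prodHomL X Y b).map_zero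
theorem prod_zsmul (n : ℤ) (a : St X Y) (b : St X' Y') : a.prod (n • b) = n • a.prod b :=
  (prodHomR X' Y' a).map_zsmul n b
theorem prod_sum {ι : Type*} (J : Finset ι) (a : St X Y) (b : ι → St X' Y') :
    a.prod (∑ i ∈ J, b i) = ∑ i ∈ J, a.prod (b i) := map_sum (prodHomR X' Y' a) b J

theorem prod_map (a : HC X Y) (b : HC X' Y') : (St.map a).prod (St.map b) = St.map (a.smash b) := by
  rw [prod_eq, smR_map, smL_map, ← St.map_comp, HC.smash_comp, comp_h1, h1_comp]

theorem prod_ofP (f : PMap X Y) (g : PMap X' Y') :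
    (St.ofP f).prod (St.ofP g) = St.ofP (f.smash g) := prod_map _ _


/-! ## coherence -/

/-- conjugation of `lev` by homeomorphisms -/
theorem sh_lev_sh {X₁ : Type u''} {Y₁ : Type v''} [TopologicalSpace X₁] [TopologicalSpace Y₁]
    [T2Space X₁] [T2Space Y₁] [LocallyCompactSpace X₁] [LocallyCompactSpace Y₁]
    (e : X ≃ₜ X₁) (e' : Y ≃ₜ Y₁) (a : HC (X × E) (Y × E)) :
    (sh e').comp ((St.lev E a).comp (sh e.symm)) =
      St.lev E (a.conj (e.prodCongr (Homeomorph.refl E)) (e'.prodCongr (Homeomorph.refl E))) := by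
  rw [sh_eq, sh_eq, ← lev_map (E := E), ← lev_map (E := E), ← lev_comp, ← lev_comp, hh_smash_h1,
    hh_smash_h1]
  rfl

theorem prod_assoc {X₁ : Type a'} {Y₁ : Type b'} [TopologicalSpace X₁] [TopologicalSpace Y₁]
    [T2Space X₁] [T2Space Y₁] [LocallyCompactSpace X₁] [LocallyCompactSpace Y₁]
    (a : St X Y) (b : St X' Y') (c : St X₁ Y₁) :
    (sh (asC Y Y' Y₁)).comp (((a.prod b).prod c).comp (sh (asC X X' X₁).symm)) =
      a.prod (b.prod c) := by
  obtain ⟨n, -, a, rfl⟩ := exists_lev a 0
  obtain ⟨m, -, b, rfl⟩ := exists_lev b 0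
  obtain ⟨k, -, c, rfl⟩ := exists_lev c 0
  rw [prod_lev, prod_lev, prod_lev, prod_lev, sh_lev_sh]
  let A : (((Fin n → ℂ) × (Fin m → ℂ)) × (Fin k → ℂ)) ≃L[ℂ]
    ((Fin n → ℂ) × ((Fin m → ℂ) × (Fin k → ℂ))) := ContinuousLinearEquiv.prodAssoc ℂ _ _ _
  rw [← lev_conj A A]
  congr 1
  have e1 := conj_smash (shf X (Fin n → ℂ) X' (Fin m → ℂ)) (shf Y (Fin n → ℂ) Y' (Fin m → ℂ))
    (a.smash b) (Homeomorph.refl _) (Homeomorph.refl _) c
  rw [conj_refl] at e1
  have e2 := conj_smash (Homeomorph.refl _) (Homeomorph.refl _) a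
    (shf X' (Fin m → ℂ) X₁ (Fin k → ℂ)) (shf Y' (Fin m → ℂ) Y₁ (Fin k → ℂ)) (b.smash c)
  rw [conj_refl] at e2
  rw [e1, e2, ← conj_asC a b c, conj_conj, conj_conj, conj_conj, conj_conj, conj_conj]
  rfl


end Crest.Agent.R090.Sm202
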