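import Mathlib

/-!
# Row 90, F1c (STRATA, point set): owner helper973

Mathlib only.  `C : Chain X` is a closed chain `∅ = G 0 ⊆ G 1 ⊆ … ⊆ G L = X`;
`C.ind x` is the least `j` with `x ∈ G j`; `C.Pt j = {x // ind x = j}`, `Pt (j+1) ≃ₜ G (j+1) \ G j`.

For a finite type `κ` and `x : κ → X`: `C.wd x : κ → ℕ` (the word), `C.sm x = ∑ i, wd x i`.

* `perm σ : (κ → X) ≃ₜ (κ → X)`, `perm σ x i = x (σ⁻¹ i)`; `wd (perm σ x) = wd x ∘ σ⁻¹`;
* `PP C κ u m = {x : κ → X // m ≤ #{i | ind (x i) ≤ u}}` (closed subset of `κ → X`), `permP σ`;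
* `Fl l : Set (PP C κ u m)`, `= {sm ≤ l}`: closed, monotone, perm-stable, `Fl 0 = ∅` (κ nonempty),
  `Fl (card κ * L) = univ`, `Fl (l+1) \ Fl l = {sm = l + 1}`;
* `Lay l = {x : PP // sm x = l}`, `layDiff l : Lay (l+1) ≃ₜ Fl (l+1) \ Fl l`, `permL σ`;
* `Wd κ L n m l` the finite type of words (letters in `[1,L]`, sum `l`, at least `m` letters
  `≤ n`), `Str w = ∀ i, C.Pt (w i)`, `layIn w : Str w → Lay l` open and closed embedding,
  `layHomeo : (Σ w : Wd, Str w) ≃ₜ Lay l`;
* `permL σ (layIn w y) = layIn (permW σ w) (permS σ w y)`, `permFix` (σ fixes the word),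
  `swapS` (swap of two equal letters), `split2' : Str w ≃ₜ (Pt (w i) × Pt (w i)) × Rest`,
  `split2'_swapS` : in these coordinates the swap is `Prod.swap` on the first factor.
-/

set_option autoImplicit false
set_option linter.unusedSectionVars false

open Set Function Topology

namespace Crest.Agent.R090.Strata973

universe u v

/-- A closed chain `∅ = G 0 ⊆ G 1 ⊆ … ⊆ G L = X`. -/
structure Chain (X : Type u) [TopologicalSpace X] where
  /-- length -/
  L : ℕ
  /-- the members -/
  G : ℕ → Set X
  mono : Monotone G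
  closed : ∀ j, IsClosed (G j)
  zero : G 0 = ∅
  top : G L = univ

namespace Chain

variable {X : Type u} [TopologicalSpace X] (C : Chain X)

theorem exists_mem (x : X) : ∃ j, x ∈ C.G j := ⟨C.L, by rw [C.top]; trivial⟩

open Classical in
/-- The index of a point: the least `j` with `x ∈ G j`. -/
noncomputable def ind (x : X) : ℕ := Nat.find (C.exists_mem x)

theorem ind_le_iff {x : X} {j : ℕ} : C.ind x ≤ j ↔ x ∈ C.G j := by
  classical
  constructor
  · intro h
    exact C.mono h (Nat.find_spec (C.exists_mem x))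
  · intro h
    exact Nat.find_min' _ h

theorem mem_ind (x : X) : x ∈ C.G (C.ind x) := C.ind_le_iff.1 le_rfl

theorem lt_ind_iff {x : X} {j : ℕ} : j < C.ind x ↔ x ∉ C.G j := by
  rw [← not_le, C.ind_le_iff]

theorem ind_pos (x : X) : 0 < C.ind x := by
  rw [C.lt_ind_iff, C.zero]; exact fun h => h

theorem ind_le_L (x : X) : C.ind x ≤ C.L := by
  rw [C.ind_le_iff, C.top]; trivial

theorem ind_eq_succ_iff {x : X} {j : ℕ} : C.ind x = j + 1 ↔ x ∈ C.G (j + 1) \ C.G j := by
  rw [mem_sdiff, ← C.ind_le_iff, ← C.ind_le_iff]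
  omega

theorem isClosed_ind_le (j : ℕ) : IsClosed {x | C.ind x ≤ j} := by
  have : {x | C.ind x ≤ j} = C.G j := by ext x; exact C.ind_le_iff
  rw [this]; exact C.closed j

/-- the points of index `j` -/
abbrev Pt (j : ℕ) : Type u := {x : X // C.ind x = j}

/-- `Pt (j+1)` is the difference of two consecutive members of the chain -/
def ptHomeo (j : ℕ) : C.Pt (j + 1) ≃ₜ ↥(C.G (j + 1) \ C.G j) :=
  Homeomorph.setCongr (s := {x | C.ind x = j + 1}) (by ext x; exact C.ind_eq_succ_iff)

@[simp] theorem ptHomeo_coe (j : ℕ) (x : C.Pt (j + 1)) : ((C.ptHomeo j x : _) : X) = x := rfl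

@[simp] theorem ptHomeo_symm_coe (j : ℕ) (x : ↥(C.G (j + 1) \ C.G j)) :
    (((C.ptHomeo j).symm x : _) : X) = x := rfl

theorem isLocallyClosed_ind_eq (j : ℕ) : IsLocallyClosed {x | C.ind x = j} := by
  refine ⟨{x | C.ind x ≤ j - 1}ᶜ, {x | C.ind x ≤ j}, (C.isClosed_ind_le _).isOpen_compl,
    C.isClosed_ind_le _, ?_⟩
  ext x
  have := C.ind_pos x
  simp only [mem_ofPred_eq, mem_inter_iff, mem_compl_iff]
  omega

instance (j : ℕ) [LocallyCompactSpace X] [T2Space X] : LocallyCompactSpace (C.Pt j) :=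
  (C.isLocallyClosed_ind_eq j).locallyCompactSpace

instance : IsEmpty (C.Pt 0) := ⟨fun x => (C.ind_pos x.1).ne' x.2⟩


/-- the chain of a level function with closed sublevel sets -/
def ofLev (lev : X → ℕ) (L : ℕ) (hpos : ∀ x, 0 < lev x) (hL : ∀ x, lev x ≤ L)
    (hc : ∀ i, IsClosed {x | lev x ≤ i}) : Chain X where
  L := L
  G i := {x | lev x ≤ i}
  mono _ _ h _ hx := le_trans hx h
  closed := hc
  zero := eq_empty_of_forall_notMem fun x hx => (hpos x).ne' (Nat.le_zero.1 hx)
  top := eq_univ_of_forall hL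

@[simp] theorem ind_ofLev (lev : X → ℕ) (L : ℕ) (hpos : ∀ x, 0 < lev x) (hL : ∀ x, lev x ≤ L)
    (hc : ∀ i, IsClosed {x | lev x ≤ i}) (x : X) :
    (ofLev lev L hpos hL hc).ind x = lev x := by
  refine le_antisymm ?_ ?_
  · rw [ind_le_iff]; exact le_refl (lev x)
  · exact mem_ind (ofLev lev L hpos hL hc) x

variable {κ : Type v} [Fintype κ]

/-- the word of a point of `X^κ` -/
noncomputable def wd (x : κ → X) : κ → ℕ := fun i => C.ind (x i)

@[simp] theorem wd_apply (x : κ → X) (i : κ) : C.wd x i = C.ind (x i) := rfl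

/-- the sum of the indices -/
noncomputable def sm (x : κ → X) : ℕ := ∑ i, C.ind (x i)

theorem sm_eq (x : κ → X) : C.sm x = ∑ i, C.wd x i := rfl

/-- the points of `X^κ` of index sum at most `l` -/
def Qle (κ : Type v) [Fintype κ] (l : ℕ) : Set (κ → X) := {x | C.sm x ≤ l}

theorem mem_Qle {l : ℕ} {x : κ → X} : x ∈ C.Qle κ l ↔ C.sm x ≤ l := Iff.rfl

theorem isClosed_box (w : κ → ℕ) : IsClosed {x : κ → X | ∀ i, C.ind (x i) ≤ w i} := by
  have : {x : κ → X | ∀ i, C.ind (x i) ≤ w i} = ⋂ i, (fun x : κ → X => x i) ⁻¹' {x | C.ind x ≤ w i} := by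
    ext x; simp
  rw [this]
  exact isClosed_iInter fun i => (C.isClosed_ind_le (w i)).preimage (continuous_apply i)

theorem isClosed_Qle (l : ℕ) : IsClosed (C.Qle κ l) := by
  classical
  have : C.Qle κ l = ⋃ w ∈ ((Fintype.piFinset fun _ : κ => Finset.range (C.L + 1)).filter
      fun w => ∑ i, w i ≤ l), {x : κ → X | ∀ i, C.ind (x i) ≤ w i} := by
    ext x
    simp only [mem_Qle, Finset.mem_filter, Fintype.mem_piFinset, Finset.mem_range, mem_iUnion,
      mem_ofPred_eq, exists_prop]
    constructor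
    · intro h
      exact ⟨C.wd x, ⟨fun i => Nat.lt_succ_of_le (C.ind_le_L _), h⟩, fun i => le_rfl⟩
    · rintro ⟨w, ⟨_, h⟩, hw⟩
      exact (Finset.sum_le_sum fun i _ => hw i).trans h
  rw [this]
  exact isClosed_biUnion_finset fun w _ => C.isClosed_box w








/-- on a layer, the word is determined by an inequality -/
theorem wd_eq_iff {l : ℕ} {w : κ → ℕ} (hw : ∑ i, w i = l) {x : κ → X} (hx : C.sm x = l) :
    C.wd x = w ↔ ∀ i, C.ind (x i) ≤ w i := by
  constructor
  · rintro rfl i; exact le_rfl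
  · intro h
    have := (Finset.sum_eq_sum_iff_of_le (s := Finset.univ) (f := fun i => C.ind (x i)) (g := w)
      fun i _ => h i).1 (by rw [hw]; exact hx)
    funext i
    exact this i (Finset.mem_univ i)

end Chain

/-! ## permutations -/

section perm

variable {X : Type u} [TopologicalSpace X] {κ : Type v}

/-- the permutation action `(perm σ x) i = x (σ⁻¹ i)` on `X^κ` -/
def perm (σ : Equiv.Perm κ) : (κ → X) ≃ₜ (κ → X) where
  toFun x := fun i => x (σ.symm i)
  invFun x := fun i => x (σ i)
  left_inv x := by funext i; simp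
  right_inv x := by funext i; simp
  continuous_toFun := continuous_pi fun i => continuous_apply _
  continuous_invFun := continuous_pi fun i => continuous_apply _

@[simp] theorem perm_apply (σ : Equiv.Perm κ) (x : κ → X) (i : κ) : perm σ x i = x (σ.symm i) := rfl

@[simp] theorem perm_symm_apply (σ : Equiv.Perm κ) (x : κ → X) (i : κ) :
    (perm σ).symm x i = x (σ i) := rfl

@[simp] theorem perm_one : perm (X := X) (1 : Equiv.Perm κ) = Homeomorph.refl _ := rfl


variable [Fintype κ] (C : Chain X)

theorem wd_perm (σ : Equiv.Perm κ) (x : κ → X) : C.wd (perm σ x) = C.wd x ∘ σ.symm := rfl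

@[simp] theorem sm_perm (σ : Equiv.Perm κ) (x : κ → X) : C.sm (perm σ x) = C.sm x :=
  Equiv.sum_comp σ.symm fun i => C.ind (x i)

/-- number of coordinates in `G u` -/
noncomputable def cnt (u : ℕ) (x : κ → X) : ℕ := (Finset.univ.filter fun i => C.ind (x i) ≤ u).card

/-- number of letters at most `u` of a word -/
def cntW (u : ℕ) (w : κ → ℕ) : ℕ := (Finset.univ.filter fun i => w i ≤ u).card

theorem cnt_eq (u : ℕ) (x : κ → X) : cnt C u x = cntW u (C.wd x) := rfl

theorem cntW_comp (u : ℕ) (w : κ → ℕ) (σ : Equiv.Perm κ) : cntW u (w ∘ σ) = cntW u w := by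
  refine Finset.card_bij (fun i _ => σ i) ?_ (fun i _ j _ h => σ.injective h) ?_
  · intro i hi; simpa using hi
  · intro j hj; exact ⟨σ.symm j, by simpa using hj, by simp⟩

@[simp] theorem cnt_perm (u : ℕ) (σ : Equiv.Perm κ) (x : κ → X) :
    cnt C u (perm σ x) = cnt C u x := by
  rw [cnt_eq, cnt_eq, wd_perm, cntW_comp]

theorem isClosed_cnt (u m : ℕ) : IsClosed {x : κ → X | m ≤ cnt C u x} := by
  classical
  have : {x : κ → X | m ≤ cnt C u x} = ⋃ S ∈ ((Finset.univ : Finset (Finset κ)).filter
      fun S => m ≤ S.card), ⋂ i ∈ S, (fun x : κ → X => x i) ⁻¹' {x | C.ind x ≤ u} := by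
    ext x
    simp only [mem_ofPred_eq, Finset.mem_filter, Finset.mem_univ, true_and, mem_iUnion, mem_iInter,
      mem_preimage, exists_prop]
    constructor
    · intro h
      exact ⟨Finset.univ.filter fun i => C.ind (x i) ≤ u, h, fun i hi => (Finset.mem_filter.1 hi).2⟩
    · rintro ⟨S, h, hS⟩
      exact h.trans (Finset.card_le_card fun i hi => Finset.mem_filter.2 ⟨Finset.mem_univ i, hS i hi⟩)
  rw [this]
  exact isClosed_biUnion_finset fun S _ => isClosed_biInter fun i _ =>
    (C.isClosed_ind_le u).preimage (continuous_apply i)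


end perm

/-! ## the space `P_{κ,m}(X, G u)` and its filtration -/

section PP

variable {X : Type u} [TopologicalSpace X] (C : Chain X) (κ : Type v) [Fintype κ] (n m : ℕ)

/-- points of `X^κ` with at least `m` coordinates in `G n` -/
abbrev PP : Type (max u v) := {x : κ → X // m ≤ cnt C n x}

variable {κ n m}

theorem isClosedEmbedding_val : IsClosedEmbedding (Subtype.val : PP C κ n m → (κ → X)) :=
  (isClosed_cnt C n m).isClosedEmbedding_subtypeVal

instance [LocallyCompactSpace X] : LocallyCompactSpace (PP C κ n m) :=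
  (isClosedEmbedding_val C).locallyCompactSpace



theorem le_cnt_perm (σ : Equiv.Perm κ) {x : κ → X} (h : m ≤ cnt C n x) :
    m ≤ cnt C n (perm σ x) := h.trans_eq (cnt_perm C n σ x).symm

theorem le_cnt_perm_symm (σ : Equiv.Perm κ) {x : κ → X} (h : m ≤ cnt C n x) :
    m ≤ cnt C n ((perm σ).symm x) := by
  have h' := cnt_perm C n σ ((perm σ).symm x)
  rw [Homeomorph.apply_symm_apply] at h'
  rw [← h']; exact h

/-- the permutation action on `PP` -/
def permP (σ : Equiv.Perm κ) : PP C κ n m ≃ₜ PP C κ n m where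
  toFun x := ⟨perm σ x.1, le_cnt_perm C σ x.2⟩
  invFun x := ⟨(perm σ).symm x.1, le_cnt_perm_symm C σ x.2⟩
  left_inv x := Subtype.ext ((perm σ).symm_apply_apply x.1)
  right_inv x := Subtype.ext ((perm σ).apply_symm_apply x.1)
  continuous_toFun := ((perm σ).continuous.comp continuous_subtype_val).subtype_mk _
  continuous_invFun := ((perm σ).symm.continuous.comp continuous_subtype_val).subtype_mk _

@[simp] theorem permP_val (σ : Equiv.Perm κ) (x : PP C κ n m) :
    (permP C σ x).1 = perm σ x.1 := rfl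

@[simp] theorem permP_one : permP C (n := n) (m := m) (1 : Equiv.Perm κ) = Homeomorph.refl _ := rfl



/-- for `m = 0` this is the whole power -/
def ppZero : PP C κ n 0 ≃ₜ (κ → X) where
  toFun x := x.1
  invFun x := ⟨x, Nat.zero_le _⟩
  left_inv _ := rfl
  right_inv _ := rfl
  continuous_toFun := continuous_subtype_val
  continuous_invFun := continuous_id.subtype_mk _

@[simp] theorem ppZero_apply (x : PP C κ n 0) : ppZero C x = x.1 := rfl

@[simp] theorem ppZero_symm_val (x : κ → X) : ((ppZero C (n := n)).symm x).1 = x := rfl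

/-- the filtration of `PP` by the sum of the indices -/
def Fl (l : ℕ) : Set (PP C κ n m) := {x | C.sm x.1 ≤ l}

theorem mem_Fl {l : ℕ} {x : PP C κ n m} : x ∈ Fl C l ↔ C.sm x.1 ≤ l := Iff.rfl

theorem isClosed_Fl (l : ℕ) : IsClosed (Fl C l : Set (PP C κ n m)) :=
  (C.isClosed_Qle l).preimage continuous_subtype_val




theorem Fl_diff (l : ℕ) : (Fl C (l + 1) \ Fl C l : Set (PP C κ n m)) = {x | C.sm x.1 = l + 1} := by
  ext x
  simp only [mem_sdiff, mem_Fl, mem_ofPred_eq]
  omega

@[simp] theorem permP_mem_Fl {l : ℕ} {σ : Equiv.Perm κ} {x : PP C κ n m} :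
    permP C σ x ∈ Fl C l ↔ x ∈ Fl C l := by
  rw [mem_Fl, mem_Fl, permP_val, sm_perm]



/-! ### layers and strata -/

variable (κ n m) in
/-- the layer `sm = l` of `PP` -/
abbrev Lay (l : ℕ) : Type (max u v) := {x : PP C κ n m // C.sm x.1 = l}

/-- the layer as a difference -/
def layDiff (l : ℕ) : Lay C κ n m (l + 1) ≃ₜ ↥(Fl C (l + 1) \ Fl C l : Set (PP C κ n m)) :=
  Homeomorph.setCongr (s := {x : PP C κ n m | C.sm x.1 = l + 1}) (Fl_diff C l).symm

@[simp] theorem layDiff_coe (l : ℕ) (x : Lay C κ n m (l + 1)) :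
    (layDiff C l x : PP C κ n m) = x.1 := rfl

@[simp] theorem layDiff_symm_coe (l : ℕ) (x : ↥(Fl C (l + 1) \ Fl C l : Set (PP C κ n m))) :
    (((layDiff C l).symm x).1 : PP C κ n m) = x := rfl

theorem isLocallyClosed_lay (l : ℕ) : IsLocallyClosed {x : PP C κ n m | C.sm x.1 = l} := by
  cases l with
  | zero =>
    have : {x : PP C κ n m | C.sm x.1 = 0} = Fl C 0 := by
      ext x; rw [mem_ofPred_eq, mem_Fl]; omega
    rw [this]; exact (isClosed_Fl C 0).isLocallyClosed
  | succ l =>
    rw [← Fl_diff, sdiff_eq]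
    exact (isClosed_Fl C _).isLocallyClosed.inter (isClosed_Fl C _).isOpen_compl.isLocallyClosed

instance (l : ℕ) [LocallyCompactSpace X] [T2Space X] : LocallyCompactSpace (Lay C κ n m l) :=
  (isLocallyClosed_lay C l).locallyCompactSpace

theorem sm_permP_symm (σ : Equiv.Perm κ) (x : PP C κ n m) :
    C.sm ((permP C σ).symm x).1 = C.sm x.1 := by
  have h := sm_perm C σ ((permP C σ).symm x).1
  rw [← permP_val, Homeomorph.apply_symm_apply] at h
  exact h.symm

/-- the permutation action on a layer -/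
def permL {l : ℕ} (σ : Equiv.Perm κ) : Lay C κ n m l ≃ₜ Lay C κ n m l where
  toFun x := ⟨permP C σ x.1, (sm_perm C σ x.1.1).trans x.2⟩
  invFun x := ⟨(permP C σ).symm x.1, (sm_permP_symm C σ x.1).trans x.2⟩
  left_inv x := Subtype.ext ((permP C σ).symm_apply_apply x.1)
  right_inv x := Subtype.ext ((permP C σ).apply_symm_apply x.1)
  continuous_toFun := ((permP C σ).continuous.comp continuous_subtype_val).subtype_mk _
  continuous_invFun := ((permP C σ).symm.continuous.comp continuous_subtype_val).subtype_mk _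

@[simp] theorem permL_val {l : ℕ} (σ : Equiv.Perm κ) (x : Lay C κ n m l) :
    (permL C σ x).1 = permP C σ x.1 := rfl

@[simp] theorem permL_one {l : ℕ} :
    permL C (n := n) (m := m) (l := l) (1 : Equiv.Perm κ) = Homeomorph.refl _ := rfl


/-- The words: letters in `[1, L]`, sum `l`, at least `m` letters at most `n`. -/
def Wd (κ : Type v) [Fintype κ] (L n m l : ℕ) : Type v :=
  {w : κ → ℕ // (∀ i, 1 ≤ w i ∧ w i ≤ L) ∧ ∑ i, w i = l ∧ m ≤ cntW n w}

noncomputable instance (L l : ℕ) : Fintype (Wd κ L n m l) := by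
  classical
  have : Finite (Wd κ L n m l) := by
    refine Finite.of_injective
      (fun w : Wd κ L n m l => fun i => (⟨w.1 i, Nat.lt_succ_of_le (w.2.1 i).2⟩ : Fin (L + 1))) ?_
    intro w w' h
    refine Subtype.ext (funext fun i => ?_)
    exact congrArg Fin.val (congrFun h i)
  exact Fintype.ofFinite _

noncomputable instance (L l : ℕ) : DecidableEq (Wd κ L n m l) := Classical.decEq _



/-- the word of a point of the layer -/
noncomputable def layWd {l : ℕ} (x : Lay C κ n m l) : Wd κ C.L n m l :=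
  ⟨C.wd x.1.1, fun _ => ⟨C.ind_pos _, C.ind_le_L _⟩, x.2, x.1.2⟩

@[simp] theorem layWd_val {l : ℕ} (x : Lay C κ n m l) : (layWd C x).1 = C.wd x.1.1 := rfl

theorem isClosed_layWd {l : ℕ} (w : Wd κ C.L n m l) :
    IsClosed {x : Lay C κ n m l | layWd C x = w} := by
  have : {x : Lay C κ n m l | layWd C x = w} =
      (fun x : Lay C κ n m l => x.1.1) ⁻¹' {x : κ → X | ∀ i, C.ind (x i) ≤ w.1 i} := by
    ext x
    rw [mem_ofPred_eq, mem_preimage, mem_ofPred_eq, ← C.wd_eq_iff w.2.2.1 x.2]
    exact Subtype.ext_iff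
  rw [this]
  exact (C.isClosed_box w.1).preimage (continuous_subtype_val.comp continuous_subtype_val)

/-- on a layer the word is locally constant: every stratum is clopen -/
theorem isClopen_layWd {l : ℕ} (w : Wd κ C.L n m l) :
    IsClopen {x : Lay C κ n m l | layWd C x = w} := by
  refine ⟨isClosed_layWd C w, ?_⟩
  have : {x : Lay C κ n m l | layWd C x = w} =
      (⋃ w' ∈ (Finset.univ.erase w : Finset (Wd κ C.L n m l)),
        {x : Lay C κ n m l | layWd C x = w'})ᶜ := by
    ext x
    simp only [mem_ofPred_eq, Finset.mem_erase, Finset.mem_univ, and_true, mem_compl_iff,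
      mem_iUnion, exists_prop, exists_eq_right', not_not]
  rw [this]
  exact (isClosed_biUnion_finset fun w' _ => isClosed_layWd C w').isOpen_compl


/-- the stratum of a word: the product of the cells -/
abbrev Str (w : κ → ℕ) : Type (max u v) := ∀ i, C.Pt (w i)

/-- the inclusion of a stratum in `X^κ` -/
def strX (w : κ → ℕ) (y : Str C w) : κ → X := fun i => (y i).1

theorem continuous_strX (w : κ → ℕ) : Continuous (strX C w) :=
  continuous_pi fun i => continuous_subtype_val.comp (continuous_apply i)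

theorem wd_strX (w : κ → ℕ) (y : Str C w) : C.wd (strX C w y) = w := funext fun i => (y i).2

theorem sm_strX (w : κ → ℕ) (y : Str C w) : C.sm (strX C w y) = ∑ i, w i := by
  rw [Chain.sm_eq, wd_strX]

theorem cnt_strX (w : κ → ℕ) (y : Str C w) : cnt C n (strX C w y) = cntW n w := by
  rw [cnt_eq, wd_strX]


/-- the stratum as a subtype of `X^κ` -/
def strSub (w : κ → ℕ) : Str C w ≃ₜ {x : κ → X // ∀ i, C.ind (x i) = w i} where
  toFun y := ⟨strX C w y, fun i => (y i).2⟩
  invFun x := fun i => ⟨x.1 i, x.2 i⟩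
  left_inv _ := rfl
  right_inv _ := rfl
  continuous_toFun := (continuous_strX C w).subtype_mk _
  continuous_invFun := continuous_pi fun i =>
    ((continuous_apply i).comp continuous_subtype_val).subtype_mk _

@[simp] theorem strSub_val (w : κ → ℕ) (y : Str C w) : (strSub C w y).1 = strX C w y := rfl

@[simp] theorem strSub_symm_val (w : κ → ℕ) (x : {x : κ → X // ∀ i, C.ind (x i) = w i}) (i : κ) :
    ((strSub C w).symm x i).1 = x.1 i := rfl

/-- the inclusion of a stratum in the layer -/
def layIn {l : ℕ} (w : Wd κ C.L n m l) (y : Str C w.1) : Lay C κ n m l :=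
  ⟨⟨strX C w.1 y, by rw [cnt_strX]; exact w.2.2.2⟩, by
    change C.sm (strX C w.1 y) = l
    rw [sm_strX]; exact w.2.2.1⟩

@[simp] theorem layIn_val {l : ℕ} (w : Wd κ C.L n m l) (y : Str C w.1) :
    (layIn C w y).1.1 = strX C w.1 y := rfl

theorem continuous_layIn {l : ℕ} (w : Wd κ C.L n m l) : Continuous (layIn C w) :=
  ((continuous_strX C w.1).subtype_mk _).subtype_mk _

@[simp] theorem layWd_layIn {l : ℕ} (w : Wd κ C.L n m l) (y : Str C w.1) :
    layWd C (layIn C w y) = w := Subtype.ext (wd_strX C w.1 y)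

/-- the coordinates of a point of a stratum -/
noncomputable def layOut {l : ℕ} (w : Wd κ C.L n m l) (x : Lay C κ n m l) (h : layWd C x = w) :
    Str C w.1 := fun i => ⟨x.1.1 i, by rw [← h]; rfl⟩

@[simp] theorem layIn_layOut {l : ℕ} (w : Wd κ C.L n m l) (x : Lay C κ n m l)
    (h : layWd C x = w) : layIn C w (layOut C w x h) = x := rfl

/-- the stratum as a subset of the layer -/
noncomputable def strHomeo {l : ℕ} (w : Wd κ C.L n m l) :
    Str C w.1 ≃ₜ {x : Lay C κ n m l // layWd C x = w} where
  toFun y := ⟨layIn C w y, layWd_layIn C w y⟩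
  invFun x := layOut C w x.1 x.2
  left_inv _ := rfl
  right_inv _ := rfl
  continuous_toFun := (continuous_layIn C w).subtype_mk _
  continuous_invFun := continuous_pi fun i =>
    ((continuous_apply i).comp (continuous_subtype_val.comp
      (continuous_subtype_val.comp continuous_subtype_val))).subtype_mk _

@[simp] theorem strHomeo_coe {l : ℕ} (w : Wd κ C.L n m l) (y : Str C w.1) :
    (strHomeo C w y).1 = layIn C w y := rfl

theorem layIn_eq {l : ℕ} (w : Wd κ C.L n m l) :
    layIn C w = (Subtype.val : {x : Lay C κ n m l // layWd C x = w} → _) ∘ strHomeo C w := rfl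

theorem isOpenEmbedding_layIn {l : ℕ} (w : Wd κ C.L n m l) : IsOpenEmbedding (layIn C w) := by
  rw [layIn_eq]
  exact ((isClopen_layWd C w).isOpen.isOpenEmbedding_subtypeVal).comp
    (strHomeo C w).isOpenEmbedding





/-- the layer is the disjoint union of its strata -/
noncomputable def layHomeo (l : ℕ) : (Σ w : Wd κ C.L n m l, Str C w.1) ≃ₜ Lay C κ n m l :=
  (Equiv.ofBijective (fun p : Σ w : Wd κ C.L n m l, Str C w.1 => layIn C p.1 p.2) (by
    constructor
    · intro p p' h
      obtain ⟨w, y⟩ := p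
      obtain ⟨w', y'⟩ := p'
      have h : layIn C w y = layIn C w' y' := h
      have hw : w = w' := by rw [← layWd_layIn C w y, h, layWd_layIn]
      subst hw
      rw [(isOpenEmbedding_layIn C w).injective h]
    · intro x
      exact ⟨⟨layWd C x, layOut C _ x rfl⟩, rfl⟩)).toHomeomorphOfContinuousOpen
    (continuous_sigma fun w => continuous_layIn C w)
    (isOpenMap_sigma.2 fun w => (isOpenEmbedding_layIn C w).isOpenMap)

@[simp] theorem layHomeo_mk (l : ℕ) (w : Wd κ C.L n m l) (y : Str C w.1) :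
    layHomeo C l ⟨w, y⟩ = layIn C w y := rfl

/-! ### permutations and strata -/

/-- the permutation action on words: `(permW σ w) i = w (σ⁻¹ i)` -/
def permW {L l : ℕ} (σ : Equiv.Perm κ) (w : Wd κ L n m l) : Wd κ L n m l :=
  ⟨w.1 ∘ σ.symm, fun _ => w.2.1 _, (Equiv.sum_comp σ.symm w.1).trans w.2.2.1, by
    rw [cntW_comp]; exact w.2.2.2⟩

@[simp] theorem permW_val {L l : ℕ} (σ : Equiv.Perm κ) (w : Wd κ L n m l) :
    (permW σ w).1 = w.1 ∘ σ.symm := rfl



/-- the homeomorphism of strata given by a permutation -/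
def permS (σ : Equiv.Perm κ) (w : κ → ℕ) : Str C w ≃ₜ Str C (w ∘ σ.symm) where
  toFun y := fun i => y (σ.symm i)
  invFun y := fun i => ⟨(y (σ i)).1, (y (σ i)).2.trans (congrArg w (σ.symm_apply_apply i))⟩
  left_inv y := by
    funext i
    refine Subtype.ext ?_
    have : ∀ j, j = i → (y j).1 = (y i).1 := by rintro j rfl; rfl
    exact this _ (σ.symm_apply_apply i)
  right_inv y := by
    funext i
    refine Subtype.ext ?_
    have : ∀ j, j = i → (y j).1 = (y i).1 := by rintro j rfl; rfl
    exact this _ (σ.apply_symm_apply i)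
  continuous_toFun := continuous_pi fun i => continuous_apply (σ.symm i)
  continuous_invFun := continuous_pi fun i =>
    (continuous_subtype_val.comp (continuous_apply (σ i))).subtype_mk _

@[simp] theorem permS_apply (σ : Equiv.Perm κ) (w : κ → ℕ) (y : Str C w) (i : κ) :
    permS C σ w y i = y (σ.symm i) := rfl




/-- a permutation which fixes the word acts on the stratum -/
def permFix (σ : Equiv.Perm κ) (w : κ → ℕ) (h : w ∘ σ.symm = w) : Str C w ≃ₜ Str C w where
  toFun y := fun i => ⟨(y (σ.symm i)).1, (y (σ.symm i)).2.trans (congrFun h i)⟩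
  invFun y := fun i => ⟨(y (σ i)).1, (y (σ i)).2.trans (by
    have := congrFun h (σ i)
    rw [comp_apply, Equiv.symm_apply_apply] at this
    exact this.symm)⟩
  left_inv y := by
    funext i
    refine Subtype.ext ?_
    have : ∀ j, j = i → (y j).1 = (y i).1 := by rintro j rfl; rfl
    exact this _ (σ.symm_apply_apply i)
  right_inv y := by
    funext i
    refine Subtype.ext ?_
    have : ∀ j, j = i → (y j).1 = (y i).1 := by rintro j rfl; rfl
    exact this _ (σ.apply_symm_apply i)
  continuous_toFun := continuous_pi fun i =>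
    (continuous_subtype_val.comp (continuous_apply (σ.symm i))).subtype_mk _
  continuous_invFun := continuous_pi fun i =>
    (continuous_subtype_val.comp (continuous_apply (σ i))).subtype_mk _

@[simp] theorem permFix_val (σ : Equiv.Perm κ) (w : κ → ℕ) (h : w ∘ σ.symm = w) (y : Str C w)
    (i : κ) : (permFix C σ w h y i).1 = (y (σ.symm i)).1 := rfl



variable [DecidableEq κ]







/-- the complementary coordinates -/
abbrev Rest (w : κ → ℕ) (i j : κ) : Type (max u v) :=
  ∀ k : {k : κ // k ≠ i ∧ k ≠ j}, C.Pt (w k.1)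

/-- split off the coordinates `i ≠ j` of a stratum -/
def split2 (w : κ → ℕ) {i j : κ} (hij : i ≠ j) :
    Str C w ≃ₜ (C.Pt (w i) × C.Pt (w j)) × Rest C w i j where
  toFun y := ((y i, y j), fun k => y k.1)
  invFun p := fun k =>
    if hi : k = i then ⟨p.1.1.1, by rw [hi]; exact p.1.1.2⟩
    else if hj : k = j then ⟨p.1.2.1, by rw [hj]; exact p.1.2.2⟩
    else p.2 ⟨k, hi, hj⟩
  left_inv y := by
    funext k
    by_cases hi : k = i
    · subst hi; simp
    · by_cases hj : k = j
      · subst hj; simp [hi]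
      · simp [hi, hj]
  right_inv p := by
    refine Prod.ext (Prod.ext ?_ ?_) ?_
    · simp
    · simp [hij.symm]
    · funext k
      simp [k.2.1, k.2.2]
  continuous_toFun := by
    refine ((continuous_apply i).prodMk (continuous_apply j)).prodMk ?_
    exact continuous_pi fun k => continuous_apply k.1
  continuous_invFun := by
    refine continuous_pi fun k => ?_
    by_cases hi : k = i
    · subst hi
      simp only [dif_pos]
      exact continuous_fst.comp continuous_fst
    · by_cases hj : k = j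
      · subst hj
        simp only [hi, dif_pos, dif_neg, not_false_iff]
        exact continuous_snd.comp continuous_fst
      · simp only [hi, hj, dif_neg, not_false_iff]
        exact (continuous_apply _).comp continuous_snd

@[simp] theorem split2_apply (w : κ → ℕ) {i j : κ} (hij : i ≠ j) (y : Str C w) :
    split2 C w hij y = ((y i, y j), fun k : {k : κ // k ≠ i ∧ k ≠ j} => y k.1) := rfl

/-- the identification of the cells of two equal letters -/
def ptCast {a b : ℕ} (h : a = b) : C.Pt a ≃ₜ C.Pt b where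
  toFun x := ⟨x.1, x.2.trans h⟩
  invFun x := ⟨x.1, x.2.trans h.symm⟩
  left_inv _ := rfl
  right_inv _ := rfl
  continuous_toFun := continuous_subtype_val.subtype_mk _
  continuous_invFun := continuous_subtype_val.subtype_mk _

@[simp] theorem ptCast_val {a b : ℕ} (h : a = b) (x : C.Pt a) : (ptCast C h x).1 = x.1 := rfl

@[simp] theorem ptCast_symm_val {a b : ℕ} (h : a = b) (x : C.Pt b) :
    ((ptCast C h).symm x).1 = x.1 := rfl




end PP

end Crest.Agent.R090.Strata973
namespace Crest.Agent.R090.Strata973.Wd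
end Crest.Agent.R090.Strata973.Wd
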