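import Crest.Agent.R090.T5Defs_758
import Crest.Agent.R090.Deg_513
import Mathlib
import Crest.Prelude.Def_TorusSlots
import Crest.Agent.R090.HepCut_865
import Crest.Agent.R090.Prod_202
import Crest.Agent.R090.Block_568
import Crest.Agent.R090.Cyl_349
import Crest.Agent.R090.Strata_973
import Crest.Agent.R090.HasCells_933
import Crest.Agent.R090.Young_152
import Crest.Agent.R090.GlueC_264

-- ▼ part R090/T5Phi_758
section

/-!
# Row 90, T5-2: `ThetaInput → PhiInput` (typed by helper758)
-/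

set_option autoImplicit false

open Topology Filter Set

namespace Crest.Agent.R090.T5

open OnePoint Crest.Agent.R090.Sp962 Crest.OpAlg

/-- extension of a family `K × U → V⁺`, tending to `∞` at infinity, to `K × U⁺` -/
def pext {K U V : Type*} (f : K × U → OnePoint V) : K × OnePoint U → OnePoint V :=
  fun q => q.2.elim ∞ fun x => f (q.1, x)

theorem pext_continuous {K U V : Type*} [TopologicalSpace K] [TopologicalSpace U]
    [TopologicalSpace V] [T2Space U] {f : K × U → OnePoint V} (hf : Continuous f)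
    (h : Tendsto f (cocompact (K × U)) (𝓝 ∞)) : Continuous (pext f) := by
  rw [continuous_iff_continuousAt]
  rintro ⟨k, x⟩
  induction x using OnePoint.rec with
  | infty =>
    change Tendsto (pext f) (𝓝 (k, ∞)) (𝓝 ∞)
    intro N hN
    have h1 := h hN
    rw [mem_map, mem_cocompact] at h1
    obtain ⟨C, hC, hC2⟩ := h1
    have hC3 : IsCompact (Prod.snd '' C) := hC.image continuous_snd
    have ho : IsOpen ((↑) '' (Prod.snd '' C) : Set (OnePoint U))ᶜ :=
      isOpen_compl_image_coe.2 ⟨hC3.isClosed, hC3⟩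
    have hm : (∞ : OnePoint U) ∈ ((↑) '' (Prod.snd '' C) : Set (OnePoint U))ᶜ :=
      infty_notMem_image_coe
    rw [mem_map]
    filter_upwards [(ho.preimage (continuous_snd (X := K))).mem_nhds (x := (k, (∞ : OnePoint U))) hm]
      with q hq
    obtain ⟨k', x'⟩ := q
    induction x' using OnePoint.rec with
    | infty =>
      change (∞ : OnePoint V) ∈ N
      exact mem_of_mem_nhds hN
    | coe x' =>
      have : (k', x') ∉ C := fun hc => hq ⟨x', ⟨(k', x'), hc, rfl⟩, rfl⟩
      exact hC2 this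
  | coe x =>
    have he : IsOpenEmbedding (Prod.map (id : K → K) ((↑) : U → OnePoint U)) :=
      IsOpenEmbedding.id.prodMap isOpenEmbedding_coe
    have : ContinuousAt (pext f ∘ (Prod.map (id : K → K) ((↑) : U → OnePoint U))) (k, x) :=
      hf.continuousAt
    exact he.continuousAt_iff.1 this

/-- the homeomorphism `((ℝ^ι × L) × ℝ^ι) ≃ ℂ^ι × L` -/
def hJ (ι L : Type*) [TopologicalSpace L] : ((ι → ℝ) × L) × (ι → ℝ) ≃ₜ (ι → ℂ) × L where
  toFun q := (fun i => ⟨q.2 i, q.1.1 i⟩, q.1.2)
  invFun v := ((fun i => (v.1 i).im, v.2), fun i => (v.1 i).re)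
  left_inv q := rfl
  right_inv v := rfl
  continuous_toFun := by
    refine Continuous.prodMk (continuous_pi fun i => ?_) (by fun_prop)
    have : (fun q : ((ι → ℝ) × L) × (ι → ℝ) => (⟨q.2 i, q.1.1 i⟩ : ℂ)) =
        fun q => Complex.equivRealProdCLM.symm (q.2 i, q.1.1 i) := rfl
    rw [this]
    exact Complex.equivRealProdCLM.symm.continuous.comp (by fun_prop)
  continuous_invFun := by
    refine Continuous.prodMk (Continuous.prodMk (continuous_pi fun i => ?_) (by fun_prop))
      (continuous_pi fun i => ?_)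
    · exact Complex.continuous_im.comp (by fun_prop)
    · exact Complex.continuous_re.comp (by fun_prop)

/-- the pairing `(θ, z'), s ↦ (s + i θ, z')` -/
def JJ {ι L : Type*} (t : OnePoint ((ι → ℝ) × L)) (s : ι → ℝ) : OnePoint ((ι → ℂ) × L) :=
  t.elim ∞ fun q => (((fun i => ⟨s i, q.1 i⟩ : ι → ℂ), q.2) : (ι → ℂ) × L)

theorem JJ_continuous {ι L : Type*} [Finite ι] [TopologicalSpace L] [T2Space L]
    {Z : Type*} [TopologicalSpace Z] {t : Z → OnePoint ((ι → ℝ) × L)} {s : Z → (ι → ℝ)} {z : Z}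
    (ht : ContinuousAt t z) (hs : ContinuousAt s z) : ContinuousAt (fun z => JJ (t z) (s z)) z := by
  have h1 : ContinuousAt (fun z => sm (t z) ((s z : ι → ℝ) : OnePoint (ι → ℝ))) z :=
    ContinuousAt.comp (g := fun p : OnePoint ((ι → ℝ) × L) × OnePoint (ι → ℝ) => sm p.1 p.2)
      (f := fun z => (t z, ((s z : ι → ℝ) : OnePoint (ι → ℝ)))) continuous_sm.continuousAt
      (ht.prodMk (continuous_coe.continuousAt.comp hs))
  have h2 : ContinuousAt (fun z => PMap.ofHomeo (hJ ι L)
      (sm (t z) ((s z : ι → ℝ) : OnePoint (ι → ℝ)))) z :=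
    ContinuousAt.comp (g := PMap.ofHomeo (hJ ι L)) (PMap.ofHomeo (hJ ι L)).cont.continuousAt h1
  refine h2.congr (Eventually.of_forall fun z => ?_)
  change PMap.ofHomeo (hJ ι L) (sm (t z) ((s z : ι → ℝ) : OnePoint (ι → ℝ))) = JJ (t z) (s z)
  induction t z using OnePoint.rec with
  | infty => rfl
  | coe q => rfl

section phi

variable {p n u l : ℕ} {Y : Type*} [TopologicalSpace Y]

/-- the finite part of the group map -/
noncomputable def phf (Θ : (Fin u → Y) × (Idx p n u → Circle) × (Fin l → ℝ) × unitInterval →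
    OnePoint ((Idx p n u → ℝ) × (Fin l → ℝ))) :
    ((Fin u → Y) × unitInterval) × EE p n u l → OnePoint (EE p n u l) := fun q =>
  open Classical in
  if ∃ i, q.2.1 i = 0 then ∞ else
    JJ (Θ (q.1.1, (fun i => rad (q.2.1 i)), q.2.2, q.1.2)) (fun i => Real.log ‖q.2.1 i‖)

theorem rad_cont : ContinuousOn rad {w : ℂ | w ≠ 0} := by
  rw [continuousOn_iff_continuous_restrict]
  have hr : ∀ {w : ℂ} (_ : w ≠ 0), (rad w : ℂ) = w / (‖w‖ : ℂ) := fun {w} h => by
    rw [rad, dif_neg h]
  refine Continuous.subtype_mk (p := fun x : ℂ => x ∈ Submonoid.unitSphere ℂ)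
    (f := fun w : {w : ℂ | w ≠ 0} => (w : ℂ) / (‖(w : ℂ)‖ : ℂ)) ?_ ?_ |>.congr ?_
  · refine Continuous.div continuous_subtype_val
      (Complex.continuous_ofReal.comp (continuous_norm.comp continuous_subtype_val)) ?_
    rintro ⟨w, hw⟩
    simpa using hw
  · rintro ⟨w, hw⟩
    rw [← hr hw]
    exact (rad w).2
  · rintro ⟨w, hw⟩
    apply Subtype.ext
    exact (hr hw).symm

/-- a compact set of values forces bounds -/
theorem phf_bound {Θ : (Fin u → Y) × (Idx p n u → Circle) × (Fin l → ℝ) × unitInterval →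
    OnePoint ((Idx p n u → ℝ) × (Fin l → ℝ))} {C : Set (EE p n u l)} {B : ℝ}
    (hB : ∀ v ∈ C, ‖v‖ ≤ B) {q : ((Fin u → Y) × unitInterval) × EE p n u l}
    (hq : phf Θ q ∈ ((↑) '' C : Set (OnePoint (EE p n u l)))) :
    (∀ i, q.2.1 i ≠ 0) ∧ (∀ i, |Real.log ‖q.2.1 i‖| ≤ B) ∧
      Θ (q.1.1, (fun i => rad (q.2.1 i)), q.2.2, q.1.2) ∈
        ((↑) '' (Metric.closedBall (0 : (Idx p n u → ℝ) × (Fin l → ℝ)) B) :
          Set (OnePoint ((Idx p n u → ℝ) × (Fin l → ℝ)))) := by
  obtain ⟨v, hv, hvq⟩ := hq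
  unfold phf at hvq
  split_ifs at hvq with h
  · exact absurd hvq (coe_ne_infty _)
  · push Not at h
    generalize hT : Θ (q.1.1, (fun i => rad (q.2.1 i)), q.2.2, q.1.2) = t at hvq ⊢
    induction t using OnePoint.rec with
    | infty => exact absurd hvq (coe_ne_infty _)
    | coe t =>
      have hv2 : v = ((fun i => ⟨Real.log ‖q.2.1 i‖, t.1 i⟩, t.2) : EE p n u l) :=
        coe_injective hvq
      have hvB := hB v hv
      rw [hv2, Prod.norm_def] at hvB
      have hv1 := (le_max_left _ _).trans hvB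
      have hv3 := (le_max_right _ _).trans hvB
      have hB0 : 0 ≤ B := (norm_nonneg _).trans hv3
      have hcoord : ∀ i, ‖(⟨Real.log ‖q.2.1 i‖, t.1 i⟩ : ℂ)‖ ≤ B := fun i =>
        (norm_le_pi_norm (fun i => (⟨Real.log ‖q.2.1 i‖, t.1 i⟩ : ℂ)) i).trans hv1
      refine ⟨h, fun i => (Complex.abs_re_le_norm _).trans (hcoord i), ⟨t, ?_, rfl⟩⟩
      rw [mem_closedBall_zero_iff, Prod.norm_def]
      refine max_le ?_ hv3
      rw [pi_norm_le_iff_of_nonneg hB0]
      intro i
      exact (Complex.abs_im_le_norm _).trans (hcoord i)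

theorem phf_continuous {Θ : (Fin u → Y) × (Idx p n u → Circle) × (Fin l → ℝ) × unitInterval →
    OnePoint ((Idx p n u → ℝ) × (Fin l → ℝ))} (hΘ : Continuous Θ) : Continuous (phf Θ) := by
  rw [continuous_iff_continuousAt]
  intro q
  have hproj : ∀ i, Continuous (fun q : ((Fin u → Y) × unitInterval) × EE p n u l => q.2.1 i) :=
    fun i => by fun_prop
  by_cases h : ∃ i, q.2.1 i = 0
  · obtain ⟨i, hi⟩ := h
    have hval : phf Θ q = ∞ := by
      unfold phf; rw [if_pos ⟨i, hi⟩]
    rw [ContinuousAt, hval, hasBasis_nhds_infty.tendsto_right_iff]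
    rintro C ⟨_, hC⟩
    obtain ⟨B, hB⟩ := hC.isBounded.exists_norm_le
    have hev : ∀ᶠ q' in 𝓝 q, ‖q'.2.1 i‖ < Real.exp (-B) := by
      have hc : ContinuousAt (fun q : ((Fin u → Y) × unitInterval) × EE p n u l => ‖q.2.1 i‖) q :=
        (hproj i).norm.continuousAt
      refine hc.eventually_lt continuousAt_const ?_
      rw [hi, norm_zero]
      exact Real.exp_pos _
    filter_upwards [hev] with q' hq'
    by_contra hcon
    have hin : phf Θ q' ∈ ((↑) '' C : Set (OnePoint (EE p n u l))) := by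
      by_contra hno
      apply hcon
      generalize phf Θ q' = t at hno ⊢
      induction t using OnePoint.rec with
      | infty => right; rfl
      | coe t => left; exact ⟨t, fun ht => hno ⟨t, ht, rfl⟩, rfl⟩
    obtain ⟨h1, h2, -⟩ := phf_bound hB hin
    have h3 := (abs_le.1 (h2 i)).1
    have h4 : Real.exp (-B) ≤ ‖q'.2.1 i‖ := by
      rw [← Real.exp_log (norm_pos_iff.2 (h1 i))]
      exact Real.exp_le_exp.2 h3
    exact absurd hq' (not_lt.2 h4)
  · push Not at h
    have hopen : ∀ᶠ q' in 𝓝 q, ∀ i, q'.2.1 i ≠ 0 := by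
      rw [eventually_all]
      intro i
      exact (hproj i).continuousAt.eventually_ne (h i)
    have hcongr : (fun q' : ((Fin u → Y) × unitInterval) × EE p n u l =>
        JJ (Θ (q'.1.1, (fun i => rad (q'.2.1 i)), q'.2.2, q'.1.2))
          (fun i => Real.log ‖q'.2.1 i‖)) =ᶠ[𝓝 q] phf Θ := by
      filter_upwards [hopen] with q' hq'
      unfold phf
      rw [if_neg (by push Not; exact hq')]
    refine ContinuousAt.congr ?_ hcongr
    refine JJ_continuous ?_ ?_
    · refine ContinuousAt.comp (g := Θ) (f := fun q' : ((Fin u → Y) × unitInterval) ×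
        EE p n u l => (q'.1.1, (fun i => rad (q'.2.1 i)), q'.2.2, q'.1.2)) hΘ.continuousAt ?_
      refine ContinuousAt.prodMk (by fun_prop) (ContinuousAt.prodMk ?_
        (ContinuousAt.prodMk (by fun_prop) (by fun_prop)))
      refine continuousAt_pi.2 fun i => ?_
      have hr : ContinuousAt rad (q.2.1 i) :=
        rad_cont.continuousAt (isOpen_ne.mem_nhds (h i))
      exact ContinuousAt.comp (g := rad) (f := fun q' : ((Fin u → Y) × unitInterval) ×
        EE p n u l => q'.2.1 i) hr (hproj i).continuousAt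
    · refine continuousAt_pi.2 fun i => ?_
      exact (hproj i).norm.continuousAt.log (norm_ne_zero_iff.2 (h i))

theorem phf_tendsto [CompactSpace Y]
    {Θ : (Fin u → Y) × (Idx p n u → Circle) × (Fin l → ℝ) × unitInterval →
    OnePoint ((Idx p n u → ℝ) × (Fin l → ℝ))} (hT : Tendsto Θ (cocompact _) (𝓝 ∞)) :
    Tendsto (phf Θ) (cocompact _) (𝓝 ∞) := by
  rw [hasBasis_nhds_infty.tendsto_right_iff]
  rintro C ⟨_, hC⟩
  obtain ⟨B, hB⟩ := hC.isBounded.exists_norm_le
  have hball : IsCompact (Metric.closedBall (0 : (Idx p n u → ℝ) × (Fin l → ℝ)) B) :=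
    isCompact_closedBall _ _
  have h1 := (hasBasis_nhds_infty.tendsto_right_iff.1 hT) _ ⟨hball.isClosed, hball⟩
  rw [Filter.Eventually, mem_cocompact] at h1
  obtain ⟨D, hD, hD2⟩ := h1
  have hD3 : IsCompact ((fun z : (Fin u → Y) × (Idx p n u → Circle) × (Fin l → ℝ) ×
      unitInterval => z.2.2.1) '' D) := hD.image (by fun_prop)
  rw [Filter.Eventually, mem_cocompact]
  refine ⟨(univ : Set ((Fin u → Y) × unitInterval)) ×ˢ
    ((Metric.closedBall (0 : Idx p n u → ℂ) (Real.exp B)) ×ˢ
      ((fun z : (Fin u → Y) × (Idx p n u → Circle) × (Fin l → ℝ) ×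
        unitInterval => z.2.2.1) '' D)), isCompact_univ.prod
        ((isCompact_closedBall _ _).prod hD3), ?_⟩
  intro q hq
  rw [mem_setOf_eq]
  by_contra hcon
  apply hq
  have hin : phf Θ q ∈ ((↑) '' C : Set (OnePoint (EE p n u l))) := by
    by_contra hno
    apply hcon
    generalize phf Θ q = t at hno ⊢
    induction t using OnePoint.rec with
    | infty => right; rfl
    | coe t => left; exact ⟨t, fun ht => hno ⟨t, ht, rfl⟩, rfl⟩
  obtain ⟨h1, h2, h3⟩ := phf_bound hB hin
  refine ⟨mem_univ _, ?_, ?_⟩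
  · rw [mem_closedBall_zero_iff, pi_norm_le_iff_of_nonneg (Real.exp_pos _).le]
    intro i
    rw [← Real.exp_log (norm_pos_iff.2 (h1 i))]
    exact Real.exp_le_exp.2 (abs_le.1 (h2 i)).2
  · by_contra hno
    have : (q.1.1, (fun i => rad (q.2.1 i)), q.2.2, q.1.2) ∉ D := fun hd =>
      hno ⟨_, hd, rfl⟩
    have h5 := hD2 this
    obtain ⟨t, ht, ht2⟩ := h3
    rw [mem_setOf_eq, ← ht2] at h5
    rcases h5 with ⟨t', ht', h6⟩ | h6
    · rw [coe_injective h6] at ht'
      exact ht' ht
    · exact coe_ne_infty _ h6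

end phi

/-- **T5-2** -/
theorem phiInput_of_thetaInput {p n : ℕ} {a : ℝ} {Y : Type*} [TopologicalSpace Y]
    [CompactSpace Y] {f : Y → Fin n → Fin (2 * p + 1) → ℝ} {u m l : ℕ}
    (h : ThetaInput p n a f u m l) : PhiInput p n a f u m l := by
  obtain ⟨Θ, hΘ, hT, h0, h1⟩ := h
  have hc := pext_continuous (phf_continuous hΘ) (phf_tendsto hT)
  refine ⟨fun q => pext (phf Θ) ((q.1, q.2.1), q.2.2), ?_, ?_, ?_, ?_⟩
  · exact hc.comp (by fun_prop)
  · intro y τ; rfl
  · intro y x
    change phf Θ ((y, 0), x) = _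
    unfold phf
    by_cases hz : ∃ i, x.1 i = 0
    · rw [if_pos hz, if_pos]
      obtain ⟨i, hi⟩ := hz
      exact ⟨i, Or.inl hi⟩
    · rw [if_neg hz, h0]
      unfold tc
      by_cases hm : ∃ i, (rad (x.1 i) : ℂ) = -1
      · rw [if_pos hm, if_pos]
        · rfl
        · obtain ⟨i, hi⟩ := hm
          exact ⟨i, Or.inr hi⟩
      · rw [if_neg hm, if_neg]
        · rfl
        · rintro ⟨i, hi | hi⟩
          · exact hz ⟨i, hi⟩
          · exact hm ⟨i, hi⟩
  · intro y x hx
    have hx' : phf Θ ((y, 1), x) ≠ ∞ := hx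
    by_cases hz : ∃ i, x.1 i = 0
    · exfalso; apply hx'
      unfold phf
      rw [if_pos hz]
    · refine ⟨by push Not at hz; exact hz, ?_⟩
      by_contra hlt
      push Not at hlt
      apply hx'
      unfold phf
      rw [if_neg hz]
      have := h1 y (fun i => rad (x.1 i)) x.2 hlt
      simp only at this ⊢
      rw [this]
      rfl

end Crest.Agent.R090.T5
end

-- ▼ part R090/T5c_513
section

/-!
# Row 90, leaf T5-3 (helper513): `PhiInput → GroupMap`

`φ₀` (logarithm / tangent in each coordinate) has the single zero `(1, 0)` and has the same signs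
as `x - (1, 0)` near it, so it is based-homotopic to the identity of `E⁺`.
-/

set_option autoImplicit false

open Topology Filter Set

namespace Crest.Agent.R090.T5

open OnePoint Crest.Agent.R090.Sp962 Crest.OpAlg Crest.Agent.R090.Deg513

theorem coe_rad {w : ℂ} (hw : w ≠ 0) : (rad w : ℂ) = w / (‖w‖ : ℂ) := by
  have h : rad w = (⟨w / (‖w‖ : ℂ), by
      change w / (‖w‖ : ℂ) ∈ Metric.sphere (0 : ℂ) 1
      rw [mem_sphere_zero_iff_norm, norm_div, Complex.norm_real, norm_norm]
      exact div_self (norm_ne_zero_iff.2 hw)⟩ : Circle) := dif_neg hw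
  rw [h]

theorem rad_re {w : ℂ} (hw : w ≠ 0) : (rad w : ℂ).re = w.re / ‖w‖ := by
  rw [coe_rad hw, Complex.div_ofReal_re]

theorem rad_im {w : ℂ} (hw : w ≠ 0) : (rad w : ℂ).im = w.im / ‖w‖ := by
  rw [coe_rad hw, Complex.div_ofReal_im]

theorem circle_eq_neg_one {z : Circle} (h : (z : ℂ).re = -1) : (z : ℂ) = -1 := by
  have h1 : ‖(z : ℂ)‖ = 1 := Circle.norm_coe z
  have h2 := Complex.sq_norm (z : ℂ)
  rw [h1, Complex.normSq_apply, h] at h2
  have h3 : (z : ℂ).im = 0 := by nlinarith
  exact Complex.ext (by simpa using h) (by simpa using h3)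

theorem one_add_re_pos {z : Circle} (h : (z : ℂ) ≠ -1) : 0 < 1 + (z : ℂ).re := by
  have h1 : ‖(z : ℂ)‖ = 1 := Circle.norm_coe z
  have h2 := Complex.abs_re_le_norm (z : ℂ)
  rw [h1] at h2
  have h3 := (abs_le.1 h2).1
  rcases eq_or_lt_of_le h3 with h4 | h4
  · exact absurd (circle_eq_neg_one h4.symm) h
  · linarith

/-- the finite part of `φ₀` -/
noncomputable def gPhi {ι κ : Type*} (x : (ι → ℂ) × (κ → ℝ)) : (ι → ℂ) × (κ → ℝ) :=
  ((fun i => ⟨Real.log ‖x.1 i‖, (rad (x.1 i) : ℂ).im / (1 + (rad (x.1 i) : ℂ).re)⟩), x.2)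

theorem norm_eq_one_of_log {w : ℂ} (hw : w ≠ 0) (h : Real.log ‖w‖ = 0) : ‖w‖ = 1 := by
  have h0 := norm_pos_iff.2 hw
  exact Real.eq_one_of_pos_of_log_eq_zero h0 h

theorem eq_one_of_gPhi {w : ℂ} (hw : w ≠ 0) (hr : (rad w : ℂ) ≠ -1) (h1 : Real.log ‖w‖ = 0)
    (h2 : (rad w : ℂ).im / (1 + (rad w : ℂ).re) = 0) : w = 1 := by
  have hn := norm_eq_one_of_log hw h1
  have hp := one_add_re_pos hr
  have him : (rad w : ℂ).im = 0 := by
    rcases div_eq_zero_iff.1 h2 with h | h
    · exact h
    · exact absurd h hp.ne'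
  rw [rad_im hw, hn, div_one] at him
  have h3 : ‖w‖ ^ 2 = 1 := by rw [hn]; norm_num
  rw [Complex.sq_norm, Complex.normSq_apply, him] at h3
  have h4 : w.re = 1 := by
    rw [rad_re hw, hn, div_one] at hp
    nlinarith
  exact Complex.ext (by simpa using h4) (by simpa using him)

theorem eq_one_of_seg {w : ℂ} (hre : 0 < w.re) {t : ℝ} (ht : t ∈ Icc (0 : ℝ) 1)
    (h1 : (1 - t) * Real.log ‖w‖ + t * (w.re - 1) = 0)
    (h2 : (1 - t) * ((rad w : ℂ).im / (1 + (rad w : ℂ).re)) + t * w.im = 0) : w = 1 := by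
  have hw : w ≠ 0 := by rintro rfl; simp at hre
  have hn := norm_pos_iff.2 hw
  have hr : (rad w : ℂ) ≠ -1 := by
    intro h
    have : (rad w : ℂ).re = -1 := by rw [h]; simp
    rw [rad_re hw] at this
    have h3 : 0 < w.re / ‖w‖ := by positivity
    linarith
  have hp := one_add_re_pos hr
  have him : w.im = 0 := by
    rw [rad_im hw] at h2
    have h3 : w.im * ((1 - t) / (‖w‖ * (1 + (rad w : ℂ).re)) + t) = 0 := by
      rw [← h2]
      field_simp
    rcases mul_eq_zero.1 h3 with h | h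
    · exact h
    · exfalso
      have h4 : 0 ≤ (1 - t) / (‖w‖ * (1 + (rad w : ℂ).re)) :=
        div_nonneg (by linarith [ht.2]) (by positivity)
      have h5 : t = 0 := le_antisymm (by linarith) ht.1
      rw [h5] at h
      have h6 : 0 < (1 - (0 : ℝ)) / (‖w‖ * (1 + (rad w : ℂ).re)) := by
        rw [sub_zero]; positivity
      linarith
  have hnr : ‖w‖ = w.re := by
    have : w = (w.re : ℂ) := Complex.ext (by simp) (by simpa using him)
    rw [this, Complex.norm_real, Real.norm_eq_abs, abs_of_pos hre]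
    simp
  rw [hnr] at h1
  have hone : w.re = 1 := by
    rcases lt_trichotomy w.re 1 with h | h | h
    · exfalso
      have h3 : Real.log w.re < 0 := Real.log_neg hre h
      have h4 : (1 - t) * Real.log w.re ≤ 0 :=
        mul_nonpos_of_nonneg_of_nonpos (by linarith [ht.2]) h3.le
      have h5 : t * (w.re - 1) ≤ 0 := mul_nonpos_of_nonneg_of_nonpos ht.1 (by linarith)
      have h6 : t * (w.re - 1) = 0 := by linarith
      have h7 : (1 - t) * Real.log w.re = 0 := by linarith
      rcases mul_eq_zero.1 h6 with h8 | h8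
      · rw [h8] at h7; linarith
      · linarith
    · exact h
    · exfalso
      have h3 : 0 < Real.log w.re := Real.log_pos h
      have h4 : 0 ≤ (1 - t) * Real.log w.re := mul_nonneg (by linarith [ht.2]) h3.le
      have h5 : 0 ≤ t * (w.re - 1) := mul_nonneg ht.1 (by linarith)
      have h6 : t * (w.re - 1) = 0 := by linarith
      have h7 : (1 - t) * Real.log w.re = 0 := by linarith
      rcases mul_eq_zero.1 h6 with h8 | h8
      · rw [h8] at h7; linarith
      · linarith
  exact Complex.ext (by simpa using hone) (by simpa using him)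

/-- `φ₀` is based-homotopic to the identity. -/
theorem phi0_homotopic {ι κ : Type*} [Fintype ι] [Fintype κ]
    (f : C(OnePoint ((ι → ℂ) × (κ → ℝ)), OnePoint ((ι → ℂ) × (κ → ℝ)))) (hinf : f ∞ = ∞)
    (h1 : ∀ x : (ι → ℂ) × (κ → ℝ), (∃ i, x.1 i = 0 ∨ (rad (x.1 i) : ℂ) = -1) → f x = ∞)
    (h2 : ∀ x : (ι → ℂ) × (κ → ℝ), (¬ ∃ i, x.1 i = 0 ∨ (rad (x.1 i) : ℂ) = -1) →
      f x = (gPhi x : (ι → ℂ) × (κ → ℝ))) :
    f.HomotopicRel (ContinuousMap.id _) {∞} := by
  set x0 : (ι → ℂ) × (κ → ℝ) := (fun _ => 1, 0) with hx0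
  have hball : ∀ v : (ι → ℂ) × (κ → ℝ), ‖v - x0‖ ≤ 1 / 2 → ∀ i, 0 < (v.1 i).re := by
    intro v hv i
    have h3 : ‖v.1 i - 1‖ ≤ 1 / 2 := by
      calc ‖v.1 i - 1‖ = ‖(v - x0).1 i‖ := by simp [hx0]
        _ ≤ ‖(v - x0).1‖ := norm_le_pi_norm _ i
        _ ≤ ‖v - x0‖ := norm_fst_le _
        _ ≤ 1 / 2 := hv
    have h4 := (abs_le.1 ((Complex.abs_re_le_norm (v.1 i - 1)).trans h3)).1
    simp at h4
    linarith
  have hgood : ∀ v : (ι → ℂ) × (κ → ℝ), (∀ i, 0 < (v.1 i).re) →
      ¬ ∃ i, v.1 i = 0 ∨ (rad (v.1 i) : ℂ) = -1 := by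
    rintro v hv ⟨i, h | h⟩
    · have := hv i
      rw [h] at this
      simp at this
    · have h0 : v.1 i ≠ 0 := by
        intro h0
        have := hv i
        rw [h0] at this
        simp at this
      have h3 : (rad (v.1 i) : ℂ).re = -1 := by rw [h]; simp
      rw [rad_re h0] at h3
      have h4 : 0 < (v.1 i).re / ‖v.1 i‖ := div_pos (hv i) (norm_pos_iff.2 h0)
      linarith
  have huniq : ∀ x, f x = ((0 : (ι → ℂ) × (κ → ℝ)) : OnePoint ((ι → ℂ) × (κ → ℝ))) →
      x = (x0 : OnePoint ((ι → ℂ) × (κ → ℝ))) := by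
    intro x hx
    induction x using OnePoint.rec with
    | infty => rw [hinf] at hx; exact absurd hx (OnePoint.infty_ne_coe _)
    | coe v =>
      by_cases hv : ∃ i, v.1 i = 0 ∨ (rad (v.1 i) : ℂ) = -1
      · rw [h1 v hv] at hx; exact absurd hx (OnePoint.infty_ne_coe _)
      · rw [h2 v hv, OnePoint.coe_eq_coe] at hx
        rw [OnePoint.coe_eq_coe]
        push Not at hv
        refine Prod.ext (funext fun i => ?_) ?_
        · have h3 : (gPhi v).1 i = 0 := by rw [hx]; rfl
          have h4 := congrArg Complex.re h3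
          have h5 := congrArg Complex.im h3
          exact eq_one_of_gPhi (hv i).1 (hv i).2 (by simpa [gPhi] using h4) (by
            simpa only [gPhi, Complex.zero_im] using h5)
        · have h3 : (gPhi v).2 = 0 := by rw [hx]; rfl
          exact h3
  have key := deg_homotopic f hinf x0 huniq (ContinuousLinearEquiv.refl ℝ ((ι → ℂ) × (κ → ℝ)))
    (δ := 1 / 2) (by norm_num) gPhi (fun v hv => h2 v (hgood v (hball v hv))) ?_
  · have : affC (ContinuousLinearEquiv.refl ℝ ((ι → ℂ) × (κ → ℝ))) 0 = ContinuousMap.id _ := by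
      ext x
      have h3 : (fun v : (ι → ℂ) × (κ → ℝ) =>
        (ContinuousLinearEquiv.refl ℝ ((ι → ℂ) × (κ → ℝ))) (v - 0)) = id := by
        funext v; simp
      rw [affC_apply, h3, OnePoint.map_id]
      rfl
    rw [this] at key
    exact key
  · intro v hvne hv t ht h0
    apply hvne
    have hre := hball v hv
    refine Prod.ext (funext fun i => ?_) (funext fun j => ?_)
    · have h3 := congrFun (congrArg Prod.fst h0) i
      have h4 := congrArg Complex.re h3
      have h5 := congrArg Complex.im h3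
      simp only [gPhi, hx0, ContinuousLinearEquiv.refl_apply, Prod.fst_add, Prod.smul_fst,
        Prod.fst_sub, Pi.add_apply, Pi.smul_apply, Pi.sub_apply, Complex.add_re, Complex.add_im,
        Complex.real_smul, Complex.re_ofReal_mul, Complex.im_ofReal_mul, Complex.sub_re,
        Complex.sub_im, Complex.one_re, Complex.one_im, Prod.fst_zero, Pi.zero_apply,
        Complex.zero_re, Complex.zero_im, sub_zero] at h4 h5
      exact eq_one_of_seg (hre i) ht h4 h5
    · have h3 := congrFun (congrArg Prod.snd h0) j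
      simp only [gPhi, hx0, ContinuousLinearEquiv.refl_apply, Prod.snd_add, Prod.smul_snd,
        Prod.snd_sub, Pi.add_apply, Pi.smul_apply, smul_eq_mul, Prod.snd_zero,
        Pi.zero_apply, sub_zero] at h3
      have : v.2 j = 0 := by linarith
      simpa [hx0] using this

/-- **Leaf T5-3.** -/
theorem groupMap_of_phiInput {p n : ℕ} {a : ℝ} {Y : Type*} [TopologicalSpace Y]
    {f : Y → Fin n → Fin (2 * p + 1) → ℝ} {u m l : ℕ} (h : PhiInput p n a f u m l) :
    GroupMap p n a f u m l := by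
  obtain ⟨φ, hφ, hφinf, hφ0, hφ1⟩ := h
  rcases isEmpty_or_nonempty (Fin u → Y) with hP | ⟨⟨y0⟩⟩
  · refine ⟨fun q => q.2.2, by fun_prop, fun y => (hP.false y).elim, fun y => (hP.false y).elim,
      fun y => (hP.false y).elim⟩
  · classical
    let F : C(OnePoint (EE p n u l), OnePoint (EE p n u l)) :=
      ⟨fun x => φ (y0, 0, x), by fun_prop⟩
    have hF : F.HomotopicRel (ContinuousMap.id _) {∞} := by
      refine phi0_homotopic F (hφinf y0 0) (fun x hx => ?_) (fun x hx => ?_)
      · show φ (y0, 0, (x : OnePoint (EE p n u l))) = ∞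
        rw [hφ0]
        exact if_pos hx
      · show φ (y0, 0, (x : OnePoint (EE p n u l))) = _
        rw [hφ0]
        exact if_neg hx
    obtain ⟨K⟩ := hF
    have hφ0' : ∀ y x, φ (y, 0, x) = F x := by
      intro y x
      induction x using OnePoint.rec with
      | infty => exact (hφinf y 0).trans (hφinf y0 0).symm
      | coe x =>
        show φ (y, 0, (x : OnePoint (EE p n u l))) = φ (y0, 0, (x : OnePoint (EE p n u l)))
        rw [hφ0, hφ0]
    refine ⟨fun q => if (q.2.1 : ℝ) ≤ 1 / 2 then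
        φ (q.1, Set.projIcc 0 1 zero_le_one (1 - 2 * (q.2.1 : ℝ)), q.2.2)
      else K (Set.projIcc 0 1 zero_le_one (2 * (q.2.1 : ℝ) - 1), q.2.2), ?_, ?_, ?_, ?_⟩
    · refine Continuous.if_le ?_ ?_ (by fun_prop) continuous_const ?_
      · refine hφ.comp (continuous_fst.prodMk (Continuous.prodMk ?_ (by fun_prop)))
        exact continuous_projIcc.comp (by fun_prop)
      · refine K.continuous.comp (Continuous.prodMk ?_ (by fun_prop))
        exact continuous_projIcc.comp (by fun_prop)
      · rintro ⟨y, τ, x⟩ hτ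
        simp only at hτ ⊢
        rw [hτ]
        have e1 : (1 - 2 * (1 / 2) : ℝ) = 0 := by norm_num
        have e2 : (2 * (1 / 2) - 1 : ℝ) = 0 := by norm_num
        rw [e1, e2, Set.projIcc_left]
        have := K.apply_zero x
        exact (hφ0' y x).trans this.symm
    · intro y τ
      simp only
      split_ifs
      · exact hφinf _ _
      · have h1 := K.eq_fst (Set.projIcc 0 1 zero_le_one (2 * (τ : ℝ) - 1))
          (x := (∞ : OnePoint (EE p n u l))) (by simp)
        rw [h1]
        exact hφinf y0 0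
    · intro y x
      simp only
      rw [if_neg (by norm_num)]
      have e2 : (2 * ((1 : unitInterval) : ℝ) - 1 : ℝ) = 1 := by norm_num
      rw [e2, Set.projIcc_right]
      exact K.apply_one x
    · intro y x hx
      simp only at hx
      rw [if_pos (by norm_num)] at hx
      have e1 : (1 - 2 * ((0 : unitInterval) : ℝ) : ℝ) = 1 := by norm_num
      rw [e1, Set.projIcc_right] at hx
      exact hφ1 y x hx

end Crest.Agent.R090.T5
end

-- ▼ part R090/T5Comp_758
section

/-!
# Row 90, T5-4: composition of group maps (owner helper758)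
-/

set_option autoImplicit false

open Topology Filter Set

namespace Crest.Agent.R090.T5

open OnePoint Crest.Agent.R090.Sp962 Crest.OpAlg

section comp

variable {Yg E M : Type*} [TopologicalSpace Yg] [TopologicalSpace E] [TopologicalSpace M]

/-- iterated composition of the self maps `H (y i, τ, ·)` -/
def HR (H : Yg × unitInterval × OnePoint E → OnePoint E) :
    (R : ℕ) → (Fin R → Yg) × unitInterval × OnePoint E → OnePoint E
  | 0, q => q.2.2
  | R + 1, q => HR H R (Fin.tail q.1, q.2.1, H (q.1 0, q.2.1, q.2.2))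

theorem HR_continuous {H : Yg × unitInterval × OnePoint E → OnePoint E} (hH : Continuous H)
    (R : ℕ) : Continuous (HR H R) := by
  induction R with
  | zero => exact continuous_snd.comp continuous_snd
  | succ R ih =>
    refine ih.comp ?_
    refine Continuous.prodMk ?_ (Continuous.prodMk (continuous_fst.comp continuous_snd) ?_)
    · exact continuous_pi fun i => (continuous_apply (Fin.succ i)).comp continuous_fst
    · exact hH.comp (((continuous_apply 0).comp continuous_fst).prodMk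
        ((continuous_fst.comp continuous_snd).prodMk (continuous_snd.comp continuous_snd)))

theorem HR_inf {H : Yg × unitInterval × OnePoint E → OnePoint E}
    (hi : ∀ y τ, H (y, τ, ∞) = ∞) (R : ℕ) (y : Fin R → Yg) (τ : unitInterval) :
    HR H R (y, τ, ∞) = ∞ := by
  induction R with
  | zero => rfl
  | succ R ih =>
    change HR H R (Fin.tail y, τ, H (y 0, τ, ∞)) = ∞
    rw [hi, ih]

theorem HR_one {H : Yg × unitInterval × OnePoint E → OnePoint E}
    (h1 : ∀ y x, H (y, 1, x) = x) (R : ℕ) (y : Fin R → Yg) (x : OnePoint E) :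
    HR H R (y, 1, x) = x := by
  induction R generalizing x with
  | zero => rfl
  | succ R ih =>
    change HR H R (Fin.tail y, 1, H (y 0, 1, x)) = x
    rw [h1, ih]

/-- the extension of `W` by a junk value at `∞` -/
def Wext [Inhabited M] (W : E → M) : OnePoint E → M := fun x => x.elim default W

/-- the torus points of the groups -/
def cR [Inhabited M] (H : Yg × unitInterval × OnePoint E → OnePoint E) (W : E → M) :
    (R : ℕ) → (Fin R → Yg) × OnePoint E → (Fin R → M)
  | 0, _ => Fin.elim0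
  | R + 1, q => Fin.cons (Wext W q.2) (cR H W R (Fin.tail q.1, H (q.1 0, 0, q.2)))

theorem cR_good [Inhabited M] {H : Yg × unitInterval × OnePoint E → OnePoint E} {W : E → M}
    (hi : ∀ y τ, H (y, τ, ∞) = ∞) {Good : Yg → M → Prop}
    (hG : ∀ y (x : E), H (y, 0, x) ≠ ∞ → Good y (W x)) (R : ℕ) (y : Fin R → Yg)
    (x : OnePoint E) (hx : HR H R (y, 0, x) ≠ ∞) (i : Fin R) : Good (y i) (cR H W R (y, x) i) := by
  induction R generalizing x with
  | zero => exact i.elim0
  | succ R ih =>
    have h2 : H (y 0, 0, x) ≠ ∞ := by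
      intro h
      apply hx
      change HR H R (Fin.tail y, 0, H (y 0, 0, x)) = ∞
      rw [h, HR_inf hi]
    refine Fin.cases ?_ (fun j => ?_) i
    · change Good (y 0) (Wext W x)
      induction x using OnePoint.rec with
      | infty => exact absurd (hi _ _) h2
      | coe x => exact hG _ _ h2
    · exact ih (Fin.tail y) (H (y 0, 0, x)) hx j

theorem Wext_continuousAt [Inhabited M] {W : E → M} {D : Set E} (hD : IsOpen D)
    (hW : ContinuousOn W D) {x : E} (hx : x ∈ D) : ContinuousAt (Wext W) (x : OnePoint E) := by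
  have h : ContinuousAt W x := hW.continuousAt (hD.mem_nhds hx)
  exact (isOpenEmbedding_coe (X := E)).continuousAt_iff.1 h

theorem cR_continuousAt [Inhabited M] {H : Yg × unitInterval × OnePoint E → OnePoint E}
    (hH : Continuous H) {W : E → M}
    (hi : ∀ y τ, H (y, τ, ∞) = ∞) {D : Set E} (hD : IsOpen D) (hW : ContinuousOn W D)
    (hG : ∀ y (x : E), H (y, 0, x) ≠ ∞ → x ∈ D) (R : ℕ) (q : (Fin R → Yg) × OnePoint E)
    (hx : HR H R (q.1, 0, q.2) ≠ ∞) : ContinuousAt (cR H W R) q := by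
  induction R with
  | zero =>
    have : cR H W 0 = fun _ => Fin.elim0 := rfl
    rw [this]
    exact continuousAt_const
  | succ R ih =>
    have h2 : H (q.1 0, 0, q.2) ≠ ∞ := by
      intro h
      apply hx
      change HR H R (Fin.tail q.1, 0, H (q.1 0, 0, q.2)) = ∞
      rw [h, HR_inf hi]
    have hc : Continuous (fun q : (Fin (R + 1) → Yg) × OnePoint E =>
        ((Fin.tail q.1 : Fin R → Yg), H (q.1 0, 0, q.2))) := by
      refine Continuous.prodMk ?_ ?_
      · exact continuous_pi fun i => (continuous_apply (Fin.succ i)).comp continuous_fst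
      · exact hH.comp (((continuous_apply 0).comp continuous_fst).prodMk
          (continuous_const.prodMk continuous_snd))
    rw [continuousAt_pi]
    intro i
    refine Fin.cases ?_ (fun j => ?_) i
    · change ContinuousAt (fun q : (Fin (R + 1) → Yg) × OnePoint E => Wext W q.2) q
      obtain ⟨y, x⟩ := q
      induction x using OnePoint.rec with
      | infty => exact absurd (hi _ _) h2
      | coe x =>
        have : ContinuousAt (Wext W) (x : OnePoint E) := Wext_continuousAt hD hW (hG _ _ h2)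
        exact ContinuousAt.comp (g := Wext W) (f := Prod.snd) (x := (y, (x : OnePoint E)))
          this continuousAt_snd
    · change ContinuousAt (fun q : (Fin (R + 1) → Yg) × OnePoint E =>
        cR H W R (Fin.tail q.1, H (q.1 0, 0, q.2)) j) q
      have h3 : ContinuousAt (cR H W R) ((Fin.tail q.1 : Fin R → Yg), H (q.1 0, 0, q.2)) :=
        ih _ hx
      have h4 : ContinuousAt (fun q : (Fin (R + 1) → Yg) × OnePoint E =>
        cR H W R (Fin.tail q.1, H (q.1 0, 0, q.2))) q :=
        ContinuousAt.comp (g := cR H W R) (f := fun q : (Fin (R + 1) → Yg) × OnePoint E =>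
          ((Fin.tail q.1 : Fin R → Yg), H (q.1 0, 0, q.2))) h3 hc.continuousAt
      exact (continuousAt_pi.1 h4) j

end comp

/-! ### continuity of `rad` and `wpt` -/

theorem rad_coe {w : ℂ} (h : w ≠ 0) : (rad w : ℂ) = w / (‖w‖ : ℂ) := by
  rw [rad, dif_neg h]

theorem rad_continuousOn : ContinuousOn rad {w : ℂ | w ≠ 0} := by
  rw [continuousOn_iff_continuous_restrict]
  refine Continuous.subtype_mk (p := fun x : ℂ => x ∈ Submonoid.unitSphere ℂ)
    (f := fun w : {w : ℂ | w ≠ 0} => (w : ℂ) / (‖(w : ℂ)‖ : ℂ)) ?_ ?_ |>.congr ?_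
  · refine Continuous.div continuous_subtype_val
      (Complex.continuous_ofReal.comp (continuous_norm.comp continuous_subtype_val)) ?_
    rintro ⟨w, hw⟩
    simpa using hw
  · rintro ⟨w, hw⟩
    rw [← rad_coe hw]
    exact (rad w).2
  · rintro ⟨w, hw⟩
    apply Subtype.ext
    exact (rad_coe hw).symm

theorem wpt_continuousOn {p n u l : ℕ} :
    ContinuousOn (wpt : EE p n u l → Fin u → TT p n) {x | ∀ i, x.1 i ≠ 0} := by
  refine continuousOn_pi.2 fun b => continuousOn_pi.2 fun j => continuousOn_pi.2 fun k => ?_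
  refine rad_continuousOn.comp (t := {w : ℂ | w ≠ 0}) (s := {x : EE p n u l | ∀ i, x.1 i ≠ 0})
    (f := fun x : EE p n u l => x.1 (b, j, k)) ?_ ?_
  · exact ((continuous_apply _).comp continuous_fst).continuousOn
  · intro x hx
    exact hx _

theorem isOpen_dom {p n u l : ℕ} : IsOpen {x : EE p n u l | ∀ i, x.1 i ≠ 0} := by
  simp only [setOf_forall]
  refine isOpen_iInter_of_finite fun i => ?_
  exact isOpen_ne.preimage ((continuous_apply i).comp continuous_fst)

end Crest.Agent.R090.T5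
end

-- ▼ part R090/T5Field_758
section

/-!
# Row 90, T5-5: from a self map of `E⁺` homotopic to the identity to a vector field on `E × ℝ`
(owner helper758)
-/

set_option autoImplicit false

open Topology Filter Set

namespace Crest.Agent.R090.T5

open OnePoint Crest.Agent.R090.Sp962

section field

variable {E : Type*} [NormedAddCommGroup E] [NormedSpace ℝ E]

/-- an embedding of `E⁺` in `(E × ℝ) \ 0` with `∞ ↦ (0,-1)`, `0 ↦ (0,1)` -/
noncomputable def sig : OnePoint E → E × ℝ := fun x =>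
  x.elim (0, -1) fun v => ((1 / (1 + ‖v‖ ^ 2)) • v, (1 - ‖v‖ ^ 2) / (1 + ‖v‖ ^ 2))

@[simp] theorem sig_inf : sig (∞ : OnePoint E) = (0, -1) := rfl

@[simp] theorem sig_coe (v : E) : sig (v : OnePoint E) =
    ((1 / (1 + ‖v‖ ^ 2)) • v, (1 - ‖v‖ ^ 2) / (1 + ‖v‖ ^ 2)) := rfl

theorem one_add_pos (v : E) : 0 < 1 + ‖v‖ ^ 2 := by positivity

theorem sig_ne_zero (x : OnePoint E) : sig x ≠ 0 := by
  induction x using OnePoint.rec with
  | infty =>
    intro h
    have := congrArg Prod.snd h
    simp at this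
  | coe v =>
    intro h
    have h1 := congrArg Prod.fst h
    have h2 := congrArg Prod.snd h
    simp only [sig_coe, Prod.fst_zero, Prod.snd_zero, smul_eq_zero] at h1 h2
    have hp := one_add_pos v
    rcases h1 with h1 | h1
    · exact absurd h1 (by positivity)
    · subst h1
      simp at h2

theorem sig_continuous [ProperSpace E] : Continuous (sig : OnePoint E → E × ℝ) := by
  rw [OnePoint.continuous_iff]
  constructor
  · rw [coclosedCompact_eq_cocompact]
    change Tendsto (fun v : E => ((1 / (1 + ‖v‖ ^ 2)) • v, (1 - ‖v‖ ^ 2) / (1 + ‖v‖ ^ 2)))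
      (cocompact E) (𝓝 ((0 : E), (-1 : ℝ)))
    have hn : Tendsto (fun v : E => ‖v‖) (cocompact E) atTop := tendsto_norm_cocompact_atTop
    refine Tendsto.prodMk_nhds ?_ ?_
    · rw [tendsto_zero_iff_norm_tendsto_zero]
      have : (fun v : E => ‖(1 / (1 + ‖v‖ ^ 2)) • v‖) = (fun r : ℝ => r / (1 + r ^ 2)) ∘
          (fun v : E => ‖v‖) := by
        funext v
        have := one_add_pos v
        simp only [norm_smul, Function.comp_apply, norm_div, norm_one, Real.norm_eq_abs,
          abs_of_pos this]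
        ring
      rw [this]
      refine Tendsto.comp ?_ hn
      refine squeeze_zero' (g := fun r : ℝ => 1 / r) ?_ ?_ ?_
      · filter_upwards [eventually_ge_atTop (0 : ℝ)] with r hr
        positivity
      · filter_upwards [eventually_gt_atTop (0 : ℝ)] with r hr
        rw [div_le_div_iff₀ (by positivity) hr]
        nlinarith
      · simpa using tendsto_inv_atTop_zero (𝕜 := ℝ)
    · have : (fun v : E => (1 - ‖v‖ ^ 2) / (1 + ‖v‖ ^ 2)) = (fun r : ℝ => 2 / (1 + r ^ 2) - 1) ∘
          (fun v : E => ‖v‖) := by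
        funext v
        have := one_add_pos v
        simp only [Function.comp_apply]
        field_simp
        ring
      rw [this]
      refine Tendsto.comp ?_ hn
      have h2 : Tendsto (fun r : ℝ => 2 / (1 + r ^ 2)) atTop (𝓝 0) := by
        refine Tendsto.div_atTop tendsto_const_nhds ?_
        exact tendsto_atTop_add_const_left _ _ (tendsto_pow_atTop (by norm_num))
      simpa using h2.sub_const 1
  · change Continuous (fun v : E => ((1 / (1 + ‖v‖ ^ 2)) • v, (1 - ‖v‖ ^ 2) / (1 + ‖v‖ ^ 2)))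
    have h0 : Continuous (fun v : E => 1 + ‖v‖ ^ 2) :=
      continuous_const.add (continuous_norm.pow 2)
    refine Continuous.prodMk ?_ ?_
    · exact (continuous_const.div h0 fun v => (one_add_pos v).ne').smul continuous_id
    · exact (continuous_const.sub (continuous_norm.pow 2)).div h0 fun v => (one_add_pos v).ne'

variable {P : Type*}

/-- clamp to `[0,1]` -/
noncomputable def cl (r : ℝ) : ℝ := max 0 (min 1 r)

theorem cl_continuous : Continuous cl := continuous_const.max (continuous_const.min continuous_id)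

theorem cl_mem (r : ℝ) : cl r ∈ unitInterval :=
  ⟨le_max_left _ _, max_le zero_le_one (min_le_left _ _)⟩

theorem cl_of_nonpos {r : ℝ} (h : r ≤ 0) : cl r = 0 := by
  rw [cl, max_eq_left]; exact (min_le_right _ _).trans h

theorem cl_of_ge_one {r : ℝ} (h : 1 ≤ r) : cl r = 1 := by
  rw [cl, min_eq_left h]; exact max_eq_right zero_le_one


/-- radial variable -/
noncomputable def qv (R0 : ℝ) (v : E × ℝ) : ℝ := max (‖v.1‖ / R0) |v.2|

/-- clamp to `[-1,1]` -/
noncomputable def tb (t : ℝ) : ℝ := max (-1) (min 1 t)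

theorem tb_of_abs {t : ℝ} (h : |t| ≤ 1) : tb t = t := by
  rw [abs_le] at h
  rw [tb, min_eq_right h.2, max_eq_right h.1]

theorem tb_of_le {t : ℝ} (h : t ≤ -1) : tb t = -1 := by
  rw [tb, max_eq_left]; exact (min_le_right _ _).trans h

theorem tb_of_ge {t : ℝ} (h : 1 ≤ t) : tb t = 1 := by
  rw [tb, min_eq_left h]; exact max_eq_right (by norm_num)

/-- the vector field -/
noncomputable def fld (H : P × unitInterval × OnePoint E → OnePoint E) (R0 : ℝ) :
    P × (E × ℝ) → E × ℝ := fun z =>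
  (1 - cl (qv R0 z.2 - 2)) •
      (((1 + tb z.2.2) / 2) •
        sig (H (z.1, ⟨cl (qv R0 z.2 - 1), cl_mem _⟩, (z.2.1 : OnePoint E))) -
        ((1 - tb z.2.2) / 2) • ((0 : E), (1 : ℝ))) +
    cl (qv R0 z.2 - 2) • z.2

theorem fld_continuous [TopologicalSpace P] [ProperSpace E]
    {H : P × unitInterval × OnePoint E → OnePoint E} (hH : Continuous H) (R0 : ℝ) :
    Continuous (fld H R0) := by
  have hq : Continuous (fun z : P × (E × ℝ) => qv R0 z.2) := by
    unfold qv
    exact ((continuous_norm.comp (continuous_fst.comp continuous_snd)).div_const _).max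
      (continuous_abs.comp (continuous_snd.comp continuous_snd))
  have ht : Continuous (fun z : P × (E × ℝ) => tb z.2.2) := by
    unfold tb
    exact continuous_const.max (continuous_const.min (continuous_snd.comp continuous_snd))
  have h2 : Continuous (fun z : P × (E × ℝ) => cl (qv R0 z.2 - 2)) :=
    cl_continuous.comp (hq.sub continuous_const)
  have h1 : Continuous (fun z : P × (E × ℝ) =>
      (⟨cl (qv R0 z.2 - 1), cl_mem _⟩ : unitInterval)) :=
    Continuous.subtype_mk (cl_continuous.comp (hq.sub continuous_const)) _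
  have hs : Continuous (fun z : P × (E × ℝ) =>
      sig (H (z.1, ⟨cl (qv R0 z.2 - 1), cl_mem _⟩, (z.2.1 : OnePoint E)))) :=
    sig_continuous.comp (hH.comp (continuous_fst.prodMk (h1.prodMk
      (continuous_coe.comp (continuous_fst.comp continuous_snd)))))
  unfold fld
  refine ((continuous_const.sub h2).smul ((((continuous_const.add ht).div_const _).smul hs).sub
    (((continuous_const.sub ht).div_const _).smul continuous_const))).add
    (h2.smul continuous_snd)

theorem fld_eq_of_ge {H : P × unitInterval × OnePoint E → OnePoint E} {R0 : ℝ} (p : P)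
    {v : E × ℝ} (hv : 3 ≤ qv R0 v) : fld H R0 (p, v) = v := by
  have h2 : cl (qv R0 v - 2) = 1 := cl_of_ge_one (by linarith)
  simp only [fld, h2]
  simp

/-- key algebraic step -/
theorem key_zero {t : ℝ} (ht : -1 ≤ t) {x : OnePoint E}
    (h : ((1 + t) / 2) • sig x - ((1 - t) / 2) • ((0 : E), (1 : ℝ)) = 0) :
    x = ((0 : E) : OnePoint E) := by
  have h1 := congrArg Prod.fst h
  have h2 := congrArg Prod.snd h
  induction x using OnePoint.rec with
  | infty =>
    simp only [sig_inf, Prod.snd_sub, Prod.smul_snd, smul_eq_mul, Prod.snd_zero] at h2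
    exfalso; linarith
  | coe v =>
    simp only [sig_coe, Prod.fst_sub, Prod.smul_fst, smul_zero, sub_zero, Prod.fst_zero,
      smul_eq_zero, Prod.snd_sub, Prod.smul_snd, smul_eq_mul, Prod.snd_zero] at h1 h2
    rcases h1 with h1 | h1 | h1
    · have : t = -1 := by linarith
      subst this
      norm_num at h2
    · have := one_add_pos v
      exact absurd h1 (by positivity)
    · rw [h1]

theorem fld_zero {H : P × unitInterval × OnePoint E → OnePoint E} {R0 : ℝ} (hR0 : 0 < R0)
    (h1 : ∀ p x, H (p, 1, x) = x)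
    (hR : ∀ p τ (x : E), R0 ≤ ‖x‖ → H (p, τ, (x : OnePoint E)) ≠ ((0 : E) : OnePoint E))
    {p : P} {v : E × ℝ} (h : fld H R0 (p, v) = 0) :
    H (p, 0, (v.1 : OnePoint E)) = ((0 : E) : OnePoint E) := by
  obtain ⟨x, t⟩ := v
  have hq1 : ‖x‖ / R0 ≤ qv R0 (x, t) := le_max_left _ _
  have hq2 : |t| ≤ qv R0 (x, t) := le_max_right _ _
  by_cases hq : qv R0 (x, t) ≤ 1
  · -- inner region
    have e1 : cl (qv R0 (x, t) - 1) = 0 := cl_of_nonpos (by linarith)
    have e2 : cl (qv R0 (x, t) - 2) = 0 := cl_of_nonpos (by linarith)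
    have e3 : tb t = t := tb_of_abs (hq2.trans hq)
    have e4 : (⟨cl (qv R0 (x, t) - 1), cl_mem _⟩ : unitInterval) = 0 := Subtype.ext e1
    simp only [fld, e2, e3, e4, sub_zero, one_smul, zero_smul, add_zero] at h
    exact key_zero (abs_le.1 (hq2.trans hq)).1 h
  · exfalso
    push Not at hq
    -- value of `H` when `τ₂ > 0`
    have hτ : 0 < cl (qv R0 (x, t) - 2) →
        (⟨cl (qv R0 (x, t) - 1), cl_mem _⟩ : unitInterval) = 1 := by
      intro h0
      have : 2 < qv R0 (x, t) := by
        by_contra h'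
        rw [cl_of_nonpos (by linarith)] at h0
        exact lt_irrefl _ h0
      exact Subtype.ext (cl_of_ge_one (by linarith))
    have hc2 := cl_mem (qv R0 (x, t) - 2)
    set c2 := cl (qv R0 (x, t) - 2) with hc2def
    rcases le_or_gt t (-1) with ht | ht
    · -- t ≤ -1
      have e3 : tb t = -1 := tb_of_le ht
      have h2 := congrArg Prod.snd h
      simp only [fld, e3, ← hc2def] at h2
      norm_num at h2
      have := hc2.1
      have := hc2.2
      nlinarith
    rcases le_or_gt 1 t with ht' | ht'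
    · -- t ≥ 1
      have e3 : tb t = 1 := tb_of_ge ht'
      rcases hc2.1.eq_or_lt with h0 | h0
      · simp only [fld, e3, ← hc2def, ← h0] at h
        norm_num at h
        exact sig_ne_zero _ h
      · have e4 := hτ h0
        have hx := congrArg Prod.fst h
        have hy := congrArg Prod.snd h
        simp only [fld, e3, ← hc2def, e4, h1, sig_coe] at hx hy
        norm_num at hx hy
        rw [smul_smul, ← add_smul, smul_eq_zero] at hx
        have hp := one_add_pos x
        have h5 : 0 ≤ (1 - c2) * (1 + ‖x‖ ^ 2)⁻¹ :=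
          mul_nonneg (by linarith [hc2.2]) (by positivity)
        rcases hx with hx | hx
        · linarith
        · subst hx
          norm_num at hy
          nlinarith [hc2.2]
    · -- |t| < 1
      have hxR : R0 < ‖x‖ := by
        have : 1 < ‖x‖ / R0 := by
          rcases lt_max_iff.1 hq with h' | h'
          · exact h'
          · exact absurd h' (by rw [not_lt]; exact abs_le.2 ⟨by linarith, ht'.le⟩)
        rwa [lt_div_iff₀ hR0, one_mul] at this
      have e3 : tb t = t := tb_of_abs (abs_le.2 ⟨by linarith, ht'.le⟩)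
      rcases hc2.1.eq_or_lt with h0 | h0
      · simp only [fld, e3, ← hc2def, ← h0, sub_zero, one_smul, zero_smul, add_zero] at h
        exact hR _ _ _ hxR.le (key_zero ht.le h)
      · have e4 := hτ h0
        have hx := congrArg Prod.fst h
        simp only [fld, e3, ← hc2def, e4, h1, sig_coe] at hx
        simp only [Prod.fst_add, Prod.smul_fst, Prod.fst_sub, smul_zero, sub_zero,
          Prod.fst_zero, smul_smul, ← add_smul, smul_eq_zero] at hx
        have hp := one_add_pos x
        have h5 : 0 ≤ (1 - c2) * ((1 + t) / 2 * (1 / (1 + ‖x‖ ^ 2))) :=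
          mul_nonneg (by linarith [hc2.2]) (mul_nonneg (by linarith) (by positivity))
        rcases hx with hx | hx
        · linarith
        · rw [hx, norm_zero] at hxR
          linarith

theorem exists_R0 [TopologicalSpace P] [CompactSpace P]
    {H : P × unitInterval × OnePoint E → OnePoint E} (hH : Continuous H)
    (hi : ∀ p τ, H (p, τ, ∞) = ∞) : ∃ R0 : ℝ, 0 < R0 ∧
      ∀ p τ (x : E), R0 ≤ ‖x‖ → H (p, τ, (x : OnePoint E)) ≠ ((0 : E) : OnePoint E) := by
  have hcl : IsClosed (H ⁻¹' {((0 : E) : OnePoint E)}) := by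
    have : IsClosed ({((0 : E) : OnePoint E)} : Set (OnePoint E)) := by
      rw [← image_singleton]
      exact isClosed_image_coe.2 ⟨isClosed_singleton, isCompact_singleton⟩
    exact this.preimage hH
  have hco : IsCompact (H ⁻¹' {((0 : E) : OnePoint E)}) := hcl.isCompact
  have h2 : IsCompact ((fun z : P × unitInterval × OnePoint E => z.2.2) ''
      (H ⁻¹' {((0 : E) : OnePoint E)})) := hco.image (continuous_snd.comp continuous_snd)
  have h3 : (fun z : P × unitInterval × OnePoint E => z.2.2) ''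
      (H ⁻¹' {((0 : E) : OnePoint E)}) ⊆ range ((↑) : E → OnePoint E) := by
    rintro _ ⟨⟨p, τ, x⟩, hz, rfl⟩
    induction x using OnePoint.rec with
    | infty =>
      simp only [mem_preimage, hi, mem_singleton_iff] at hz
      exact absurd hz (infty_ne_coe _)
    | coe x => exact ⟨x, rfl⟩
  have h4 : IsCompact (((↑) : E → OnePoint E) ⁻¹' ((fun z : P × unitInterval × OnePoint E =>
      z.2.2) '' (H ⁻¹' {((0 : E) : OnePoint E)}))) :=
    (isOpenEmbedding_coe.isInducing.isCompact_preimage_iff h3).2 h2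
  obtain ⟨R, hR⟩ := h4.isBounded.exists_norm_le
  refine ⟨max R 0 + 1, by positivity, fun p τ x hx h => ?_⟩
  have : ‖x‖ ≤ R := hR x ⟨(p, τ, (x : OnePoint E)), h, rfl⟩
  have := le_max_left R 0
  linarith

/-- **T5-5** -/
theorem exists_field [TopologicalSpace P] [CompactSpace P] [ProperSpace E]
    {H : P × unitInterval × OnePoint E → OnePoint E} (hH : Continuous H)
    (hi : ∀ p τ, H (p, τ, ∞) = ∞) (h1 : ∀ p x, H (p, 1, x) = x) :
    ∃ g : P × (E × ℝ) → E × ℝ, Continuous g ∧ (∃ R : ℝ, 0 < R ∧ ∀ p v, R ≤ ‖v‖ → g (p, v) = v) ∧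
      (∀ p v, g (p, v) = 0 → H (p, 0, (v.1 : OnePoint E)) = ((0 : E) : OnePoint E)) ∧
      ∃ δ : ℝ, 0 < δ ∧ ∀ p v, ‖g (p, v)‖ < δ → H (p, 0, (v.1 : OnePoint E)) ≠ ∞ := by
  obtain ⟨R0, hR0, hR⟩ := exists_R0 hH hi
  have hg := fld_continuous hH R0
  have hz : ∀ p v, fld H R0 (p, v) = 0 → H (p, 0, (v.1 : OnePoint E)) = ((0 : E) : OnePoint E) :=
    fun p v h => fld_zero hR0 h1 hR h
  have hbig : ∀ p (v : E × ℝ), 3 * (R0 + 1) ≤ ‖v‖ → fld H R0 (p, v) = v := by
    intro p v hv
    refine fld_eq_of_ge p ?_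
    rw [Prod.norm_def] at hv
    rcases le_max_iff.1 hv with h | h
    · refine le_trans ?_ (le_max_left _ _)
      rw [le_div_iff₀ hR0]
      linarith
    · refine le_trans ?_ (le_max_right _ _)
      rw [Real.norm_eq_abs] at h
      linarith
  refine ⟨fld H R0, hg, ⟨3 * (R0 + 1), by positivity, hbig⟩, hz, ?_⟩
  -- compactness
  set K : Set (P × (E × ℝ)) := {z | z.2 ∈ Metric.closedBall (0 : E × ℝ) (3 * (R0 + 1)) ∧
    H (z.1, 0, (z.2.1 : OnePoint E)) = ∞} with hK
  have hKc : IsCompact K := by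
    have hA : IsCompact ((univ : Set P) ×ˢ (Metric.closedBall (0 : E × ℝ) (3 * (R0 + 1)))) :=
      isCompact_univ.prod (isCompact_closedBall _ _)
    refine hA.of_isClosed_subset ?_ (fun z hz => ⟨mem_univ _, hz.1⟩)
    refine (Metric.isClosed_closedBall.preimage continuous_snd).inter ?_
    have hc : Continuous (fun z : P × (E × ℝ) => H (z.1, 0, (z.2.1 : OnePoint E))) :=
      hH.comp (continuous_fst.prodMk (continuous_const.prodMk
        (continuous_coe.comp (continuous_fst.comp continuous_snd))))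
    exact (isClosed_singleton (x := (∞ : OnePoint E))).preimage hc
  have hne : ∀ z ∈ K, fld H R0 z ≠ 0 := by
    rintro ⟨p, v⟩ ⟨-, h⟩ h0
    have := hz p v h0
    rw [h] at this
    exact infty_ne_coe _ this
  rcases K.eq_empty_or_nonempty with hemp | hnon
  · refine ⟨3 * (R0 + 1), by positivity, fun p v h hinf => ?_⟩
    rcases le_or_gt (3 * (R0 + 1)) ‖v‖ with hv | hv
    · rw [hbig p v hv] at h
      linarith
    · have : (p, v) ∈ K := ⟨by rw [mem_closedBall_zero_iff]; exact hv.le, hinf⟩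
      rw [hemp] at this
      exact this
  · obtain ⟨z0, hz0, hmin⟩ := hKc.exists_isMinOn hnon (hg.norm.continuousOn)
    have hpos : 0 < ‖fld H R0 z0‖ := norm_pos_iff.2 (hne z0 hz0)
    refine ⟨min (3 * (R0 + 1)) ‖fld H R0 z0‖, lt_min (by positivity) hpos,
      fun p v h hinf => ?_⟩
    rcases le_or_gt (3 * (R0 + 1)) ‖v‖ with hv | hv
    · rw [hbig p v hv] at h
      exact absurd (h.trans_le (min_le_left _ _)) (not_lt.2 hv)
    · have hm : (p, v) ∈ K := ⟨by rw [mem_closedBall_zero_iff]; exact hv.le, hinf⟩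
      have := hmin hm
      simp only [mem_setOf_eq] at this
      exact absurd (h.trans_le (min_le_right _ _)) (not_lt.2 this)

end field

end Crest.Agent.R090.T5
end

-- ▼ part R090/T5Out_758
section

/-!
# Row 90, T5-6: `GroupMap → UnstableInput` (owner helper758)
-/

set_option autoImplicit false

open Topology Filter Set

namespace Crest.Agent.R090.T5

open OnePoint Crest.Agent.R090.Sp962 Crest.OpAlg

theorem ncard_prod_le {R u m : ℕ} (Q : Fin R → Fin u → Prop)
    (h : ∀ i, ({b | Q i b} : Set (Fin u)).ncard ≤ m) :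
    ({β : Fin (R * u) | Q (finProdFinEquiv.symm β).1 (finProdFinEquiv.symm β).2} :
      Set (Fin (R * u))).ncard ≤ R * m := by
  classical
  have e1 : ({β : Fin (R * u) | Q (finProdFinEquiv.symm β).1 (finProdFinEquiv.symm β).2} :
      Set (Fin (R * u))) = finProdFinEquiv '' {q : Fin R × Fin u | Q q.1 q.2} := by
    ext β
    simp only [mem_setOf_eq, mem_image]
    constructor
    · intro hβ
      exact ⟨finProdFinEquiv.symm β, hβ, finProdFinEquiv.apply_symm_apply β⟩
    · rintro ⟨q, hq, rfl⟩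
      rw [Equiv.symm_apply_apply]
      exact hq
  rw [e1, Set.ncard_image_of_injective _ finProdFinEquiv.injective]
  have e2 : ({q : Fin R × Fin u | Q q.1 q.2} : Set (Fin R × Fin u)) =
      ((Finset.univ.filter fun q : Fin R × Fin u => Q q.1 q.2 : Finset (Fin R × Fin u)) :
        Set (Fin R × Fin u)) := by ext; simp
  rw [e2, Set.ncard_coe_finset, Finset.card_filter, ← Finset.univ_product_univ,
    Finset.sum_product]
  calc ∑ i : Fin R, ∑ b : Fin u, (if Q i b then 1 else 0)
      ≤ ∑ _i : Fin R, m := by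
        refine Finset.sum_le_sum fun i _ => ?_
        rw [← Finset.card_filter]
        have := h i
        have e3 : ({b | Q i b} : Set (Fin u)) =
          ((Finset.univ.filter fun b : Fin u => Q i b : Finset (Fin u)) : Set (Fin u)) := by
          ext; simp
        rwa [e3, Set.ncard_coe_finset] at this
    _ = R * m := by simp

/-- **T5-4/5/6** -/
theorem unstableInput_of_groupMap {p n : ℕ} {a : ℝ} {Y : Type*} [TopologicalSpace Y]
    [CompactSpace Y] {f : Y → Fin n → Fin (2 * p + 1) → ℝ} {u m l : ℕ} (hu : 0 < u)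
    (hm : 2 * m ≤ u) (h : GroupMap p n a f u m l) : UnstableInput p n a f := by
  obtain ⟨H, hH, hi, h1, hG⟩ := h
  -- coordinates
  set F : Type := EE p n u l × ℝ with hF
  let k : ℕ := Module.finrank ℝ F
  have hk : Module.finrank ℝ (Fin k → ℝ) = Module.finrank ℝ F := by simp [k]
  let e : (Fin k → ℝ) ≃L[ℝ] F := ContinuousLinearEquiv.ofFinrankEq hk
  refine ⟨k, fun U => ⟨U * u, Nat.le_mul_of_pos_right U hu, k, Nat.le_add_left _ _, ?_⟩⟩
  have : Inhabited (Fin u → TT p n) := ⟨fun _ _ _ => 1⟩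
  set P : Type _ := Fin U → (Fin u → Y) with hP
  have hHR := HR_continuous hH U
  obtain ⟨g, hg, ⟨R, hR, hgR⟩, hg0, δ, hδ, hgδ⟩ :=
    exists_field (P := P) (E := EE p n u l) (H := HR H U) hHR
      (fun y τ => HR_inf hi U y τ) (fun y x => HR_one h1 U y x)
  -- reindexing
  let yy : (Fin (U * u) → Y) → P := fun y i b => y (finProdFinEquiv (i, b))
  have hyy : Continuous yy :=
    continuous_pi fun i => continuous_pi fun b => continuous_apply _
  let c : (Fin (U * u) → Y) × (Fin k → ℝ) → (Fin (U * u) → Fin n → Fin (2 * p) → Circle) :=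
    fun q β => cR H (wpt : EE p n u l → Fin u → TT p n) U
      (yy q.1, ((e q.2).1 : OnePoint (EE p n u l))) (finProdFinEquiv.symm β).1
        (finProdFinEquiv.symm β).2
  have hmap : Continuous (fun q : (Fin (U * u) → Y) × (Fin k → ℝ) => (yy q.1, e q.2)) :=
    (hyy.comp continuous_fst).prodMk (e.continuous.comp continuous_snd)
  refine ⟨fun q => e.symm (g (yy q.1, e q.2)), c, ?_, ?_, ?_, ?_⟩
  · exact e.symm.continuous.comp (hg.comp hmap)
  · refine ⟨(‖(e.symm : F →L[ℝ] (Fin k → ℝ))‖ + 1) * R, fun y x hx => ?_⟩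
    have : R ≤ ‖e x‖ := by
      by_contra hlt
      push Not at hlt
      have h2 : ‖x‖ ≤ ‖(e.symm : F →L[ℝ] (Fin k → ℝ))‖ * ‖e x‖ := by
        have := (e.symm : F →L[ℝ] (Fin k → ℝ)).le_opNorm (e x)
        simpa using this
      have h3 : ‖(e.symm : F →L[ℝ] (Fin k → ℝ))‖ * ‖e x‖ ≤
          ‖(e.symm : F →L[ℝ] (Fin k → ℝ))‖ * R :=
        mul_le_mul_of_nonneg_left hlt.le (norm_nonneg _)
      linarith
    simp only [hgR _ _ this]
    simp
  · refine ⟨δ / (‖(e : (Fin k → ℝ) →L[ℝ] F)‖ + 1), by positivity, ?_⟩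
    intro q hq
    refine ContinuousAt.continuousWithinAt ?_
    have hlt : ‖g (yy q.1, e q.2)‖ < δ := by
      have h2 : ‖g (yy q.1, e q.2)‖ ≤ ‖(e : (Fin k → ℝ) →L[ℝ] F)‖ *
          ‖e.symm (g (yy q.1, e q.2))‖ := by
        have := (e : (Fin k → ℝ) →L[ℝ] F).le_opNorm (e.symm (g (yy q.1, e q.2)))
        simpa using this
      have h3 : ‖e.symm (g (yy q.1, e q.2))‖ < δ / (‖(e : (Fin k → ℝ) →L[ℝ] F)‖ + 1) := hq
      rw [lt_div_iff₀ (by positivity)] at h3
      nlinarith [norm_nonneg (e.symm (g (yy q.1, e q.2))),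
        norm_nonneg (e : (Fin k → ℝ) →L[ℝ] F)]
    have hne := hgδ _ _ hlt
    have hc : ContinuousAt (cR H (wpt : EE p n u l → Fin u → TT p n) U)
        (yy q.1, ((e q.2).1 : OnePoint (EE p n u l))) :=
      cR_continuousAt hH hi isOpen_dom wpt_continuousOn (fun y x hx => (hG y x hx).1) U _ hne
    have hc2 : ContinuousAt (fun q : (Fin (U * u) → Y) × (Fin k → ℝ) =>
        cR H (wpt : EE p n u l → Fin u → TT p n) U
          (yy q.1, ((e q.2).1 : OnePoint (EE p n u l)))) q := by
      refine ContinuousAt.comp (g := cR H (wpt : EE p n u l → Fin u → TT p n) U)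
        (f := fun q : (Fin (U * u) → Y) × (Fin k → ℝ) =>
          (yy q.1, ((e q.2).1 : OnePoint (EE p n u l)))) hc ?_
      exact ((hyy.comp continuous_fst).prodMk (continuous_coe.comp
        (continuous_fst.comp (e.continuous.comp continuous_snd)))).continuousAt
    refine continuousAt_pi.2 fun β => ?_
    exact continuousAt_pi.1 (continuousAt_pi.1 hc2 (finProdFinEquiv.symm β).1)
      (finProdFinEquiv.symm β).2
  · intro y x hx
    have h0 : g (yy y, e x) = 0 := by
      have := congrArg e hx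
      simpa using this
    have hfin : HR H U (yy y, 0, ((e x).1 : OnePoint (EE p n u l))) ≠ ∞ := by
      rw [hg0 _ _ h0]
      exact coe_ne_infty _
    have hgood : ∀ i, ({b | (yy y i b, cR H (wpt : EE p n u l → Fin u → TT p n) U
        (yy y, ((e x).1 : OnePoint (EE p n u l))) i b) ∈ torusLocus p n (a * n) f} :
          Set (Fin u)).ncard ≤ m := fun i =>
      (cR_good hi (Good := fun (y : Fin u → Y) (w : Fin u → TT p n) =>
        ({b | (y b, w b) ∈ torusLocus p n (a * n) f} : Set (Fin u)).ncard < m)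
        (fun y x hx => (hG y x hx).2) U _ _ hfin i).le
    have hbad := ncard_prod_le (fun i b => (yy y i b, cR H (wpt : EE p n u l → Fin u → TT p n) U
        (yy y, ((e x).1 : OnePoint (EE p n u l))) i b) ∈ torusLocus p n (a * n) f) hgood
    have hset : ({β | (y β, c (y, x) β) ∉ torusLocus p n (a * n) f} : Set (Fin (U * u))) =
        ({β : Fin (U * u) | (yy y (finProdFinEquiv.symm β).1 (finProdFinEquiv.symm β).2,
          cR H (wpt : EE p n u l → Fin u → TT p n) U
            (yy y, ((e x).1 : OnePoint (EE p n u l))) (finProdFinEquiv.symm β).1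
              (finProdFinEquiv.symm β).2) ∈ torusLocus p n (a * n) f} : Set (Fin (U * u)))ᶜ := by
      ext β
      have : yy y (finProdFinEquiv.symm β).1 (finProdFinEquiv.symm β).2 = y β :=
        congrArg y (finProdFinEquiv.apply_symm_apply β)
      simp only [mem_compl_iff, mem_setOf_eq, this, c]
    rw [hset]
    set B := ({β : Fin (U * u) | (yy y (finProdFinEquiv.symm β).1 (finProdFinEquiv.symm β).2,
          cR H (wpt : EE p n u l → Fin u → TT p n) U
            (yy y, ((e x).1 : OnePoint (EE p n u l))) (finProdFinEquiv.symm β).1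
              (finProdFinEquiv.symm β).2) ∈ torusLocus p n (a * n) f} : Set (Fin (U * u)))
    have hsum : B.ncard + Bᶜ.ncard = U * u := by
      rw [Set.ncard_add_ncard_compl]
      simp
    have h5 : B.ncard ≤ U * m := hbad
    have h6 : (B.ncard : ℝ) + (Bᶜ.ncard : ℝ) = U * u := by exact_mod_cast hsum
    have h7 : (B.ncard : ℝ) ≤ U * m := by exact_mod_cast h5
    have h8 : 2 * (m : ℝ) ≤ u := by exact_mod_cast hm
    have h9 : (U : ℝ) * (2 * m) ≤ U * u := mul_le_mul_of_nonneg_left h8 (Nat.cast_nonneg _)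
    push_cast
    linarith

end Crest.Agent.R090.T5
end

-- ▼ part R090/Code_843
section

/-!
Row 90 (S0119), leaf CODE: real MDS codes, block counting, and the slot normalisation
`v ↦ v / max (‖v‖, ε)`.
-/

set_option autoImplicit false

namespace Crest.Agent.R090.Code_843

open Finset

/-! ### MDS matrices -/

/-- every `k` rows are linearly independent. -/
def MDS {k N : ℕ} (C : Matrix (Fin N) (Fin k) ℝ) : Prop :=
  ∀ s : Fin k → Fin N, Function.Injective s → (C.submatrix s id).det ≠ 0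

/-- Vandermonde generator matrix. -/
noncomputable def vdm (k N : ℕ) : Matrix (Fin N) (Fin k) ℝ := fun j i => ((j : ℕ) : ℝ) ^ (i : ℕ)

theorem mds_vdm (k N : ℕ) : MDS (vdm k N) := by
  intro s hs
  have h : (vdm k N).submatrix s id = Matrix.vandermonde (fun a : Fin k => (((s a : Fin N) : ℕ) : ℝ)) := by
    ext a i
    simp [vdm, Matrix.vandermonde_apply]
  rw [h, Matrix.det_vandermonde_ne_zero_iff]
  intro a b hab
  have hab' : (((s a : Fin N) : ℕ) : ℝ) = (((s b : Fin N) : ℕ) : ℝ) := hab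
  have : ((s a : Fin N) : ℕ) = ((s b : Fin N) : ℕ) := by exact_mod_cast hab'
  exact hs (Fin.ext this)

section encode

variable {V : Type*} [AddCommGroup V] [Module ℝ V]

/-- the encoder of the code with generator matrix `C`, for `V`-valued words. -/
def enc {k N : ℕ} (C : Matrix (Fin N) (Fin k) ℝ) : (Fin k → V) →ₗ[ℝ] (Fin N → V) where
  toFun x := fun j => ∑ i, C j i • x i
  map_add' x y := by
    funext j
    simp [smul_add, Finset.sum_add_distrib]
  map_smul' c x := by
    funext j
    simp only [Pi.smul_apply, RingHom.id_apply, Finset.smul_sum]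
    exact Finset.sum_congr rfl fun i _ => smul_comm _ _ _

theorem enc_apply {k N : ℕ} (C : Matrix (Fin N) (Fin k) ℝ) (x : Fin k → V) (j : Fin N) :
    enc C x j = ∑ i, C j i • x i := rfl

theorem eq_zero_of_rows {k N : ℕ} {C : Matrix (Fin N) (Fin k) ℝ} (s : Fin k → Fin N)
    (hdet : (C.submatrix s id).det ≠ 0) (x : Fin k → V) (hx : ∀ a, enc C x (s a) = 0) : x = 0 := by
  set M := C.submatrix s id with hM
  have hu : IsUnit M.det := isUnit_iff_ne_zero.mpr hdet
  have hinv : M⁻¹ * M = 1 := Matrix.nonsing_inv_mul M hu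
  funext i
  have h1 : ∑ a, M⁻¹ i a • enc C x (s a) = 0 := by
    refine Finset.sum_eq_zero fun a _ => ?_
    rw [hx a, smul_zero]
  have h2 : ∑ a, M⁻¹ i a • enc C x (s a) = ∑ l, (M⁻¹ * M) i l • x l := by
    have e1 : ∀ a, M⁻¹ i a • enc C x (s a) = ∑ l, (M⁻¹ i a * M a l) • x l := by
      intro a
      rw [enc_apply, Finset.smul_sum]
      refine Finset.sum_congr rfl fun l _ => ?_
      rw [smul_smul]
      rfl
    rw [Finset.sum_congr rfl fun a _ => e1 a, Finset.sum_comm]
    refine Finset.sum_congr rfl fun l _ => ?_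
    rw [← Finset.sum_smul]
    rfl
  rw [h1, hinv] at h2
  have h3 : ∑ l, (1 : Matrix (Fin k) (Fin k) ℝ) i l • x l = x i := by
    rw [Finset.sum_eq_single i]
    · simp
    · intro b _ hb
      rw [Matrix.one_apply_ne (Ne.symm hb), zero_smul]
    · intro h
      exact absurd (Finset.mem_univ i) h
  rw [h3] at h2
  exact h2.symm

open Classical in
/-- a non-zero word has fewer than `k` zero coordinates. -/
theorem card_zero_lt {k N : ℕ} {C : Matrix (Fin N) (Fin k) ℝ} (hC : MDS C) (x : Fin k → V)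
    (hx : x ≠ 0) : (Finset.univ.filter fun j => enc C x j = 0).card < k := by
  by_contra hcon
  push Not at hcon
  obtain ⟨T, hT, hTc⟩ := Finset.exists_subset_card_eq hcon
  let e : Fin k ≃ T := (Fintype.equivFinOfCardEq (by simp [hTc])).symm
  let s : Fin k → Fin N := fun a => (e a : Fin N)
  have hs : Function.Injective s := Subtype.val_injective.comp e.injective
  apply hx
  refine eq_zero_of_rows s (hC s hs) x fun a => ?_
  have := hT (e a).2
  simpa using this

open Classical in
/-- a non-zero word has at least `N - k + 1` non-zero coordinates. -/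
theorem le_card_ne_zero {k N : ℕ} {C : Matrix (Fin N) (Fin k) ℝ} (hC : MDS C) (x : Fin k → V)
    (hx : x ≠ 0) : N + 1 ≤ (Finset.univ.filter fun j => enc C x j ≠ 0).card + k := by
  have h1 := card_zero_lt hC x hx
  have h2 : (Finset.univ.filter fun j => enc C x j = 0).card
      + (Finset.univ.filter fun j => enc C x j ≠ 0).card = N := by
    have := Finset.card_filter_add_card_filter_not (s := (Finset.univ : Finset (Fin N)))
      (fun j => enc C x j = 0)
    simpa using this
  omega



end encode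


/-! ### Counting in blocks -/

open Classical in
/-- few blocks carry many elements. -/
theorem card_big_blocks {ι κ : Type*} [Fintype ι] [Fintype κ] (S : Finset (ι × κ)) (A : ℝ)
    (hA : 0 ≤ A) :
    ((Finset.univ.filter fun b : ι => A ≤ ((Finset.univ.filter fun j : κ => (b, j) ∈ S).card : ℝ)).card : ℝ)
      * A ≤ (S.card : ℝ) := by
  set B := Finset.univ.filter fun b : ι => A ≤ ((Finset.univ.filter fun j : κ => (b, j) ∈ S).card : ℝ)
    with hB
  have h1 : (B.card : ℝ) * A ≤ ∑ b ∈ B, ((Finset.univ.filter fun j : κ => (b, j) ∈ S).card : ℝ) := by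
    rw [← nsmul_eq_mul]
    refine Finset.card_nsmul_le_sum _ _ _ fun b hb => ?_
    exact (Finset.mem_filter.mp hb).2
  have h2 : ∑ b ∈ B, (Finset.univ.filter fun j : κ => (b, j) ∈ S).card ≤ S.card := by
    calc ∑ b ∈ B, (Finset.univ.filter fun j : κ => (b, j) ∈ S).card
        ≤ ∑ b, (Finset.univ.filter fun j : κ => (b, j) ∈ S).card :=
          Finset.sum_le_sum_of_subset (Finset.subset_univ _)
      _ = S.card := by
          have h3 : S.card = ∑ b : ι, (S.filter fun q => q.1 = b).card :=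
            Finset.card_eq_sum_card_fiberwise fun q _ => Finset.mem_coe.mpr (Finset.mem_univ q.1)
          rw [h3]
          refine Finset.sum_congr rfl fun b _ => ?_
          refine Finset.card_bij (fun j _ => (b, j)) ?_ ?_ ?_
          · intro j hj
            simpa using (Finset.mem_filter.mp hj).2
          · intro j _ j' _ h
            exact (Prod.ext_iff.mp h).2
          · rintro ⟨b', j⟩ hq
            simp only [Finset.mem_filter] at hq
            obtain ⟨hq1, rfl⟩ := hq
            exact ⟨j, by simpa using hq1, rfl⟩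
  refine h1.trans ?_
  exact_mod_cast h2

open Classical in
/-- the version with a strict threshold. -/
theorem card_big_blocks' {ι κ : Type*} [Fintype ι] [Fintype κ] (S : Finset (ι × κ)) (A : ℝ)
    (hA : 0 ≤ A) :
    ((Finset.univ.filter fun b : ι => A < ((Finset.univ.filter fun j : κ => (b, j) ∈ S).card : ℝ)).card : ℝ)
      * A ≤ (S.card : ℝ) := by
  refine le_trans ?_ (card_big_blocks S A hA)
  refine mul_le_mul_of_nonneg_right ?_ hA
  exact_mod_cast Finset.card_le_card fun b hb => by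
    simp only [Finset.mem_filter, Finset.mem_univ, true_and] at hb ⊢
    exact hb.le

/-! ### Normalisation of slots -/

section norm

variable {t : ℕ}

/-- `v ↦ v / max (‖v‖, ε)` -/
noncomputable def nrm (ε : ℝ) (v : Fin t → ℝ) : Fin t → ℝ := (max ‖v‖ ε)⁻¹ • v

theorem continuous_nrm {ε : ℝ} (hε : 0 < ε) : Continuous (nrm ε : (Fin t → ℝ) → _) := by
  unfold nrm
  refine Continuous.smul (Continuous.inv₀ (continuous_norm.max continuous_const) fun v => ?_)
    continuous_id
  exact (lt_of_lt_of_le hε (le_max_right _ _)).ne'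

theorem norm_nrm_le {ε : ℝ} (hε : 0 < ε) (v : Fin t → ℝ) : ‖nrm ε v‖ ≤ 1 := by
  unfold nrm
  have hpos : 0 < max ‖v‖ ε := lt_of_lt_of_le hε (le_max_right _ _)
  rw [norm_smul, norm_inv, Real.norm_of_nonneg hpos.le, inv_mul_le_iff₀ hpos, mul_one]
  exact le_max_left _ _

theorem norm_nrm_eq {ε : ℝ} (hε : 0 < ε) (v : Fin t → ℝ) (hv : ε ≤ ‖v‖) : ‖nrm ε v‖ = 1 := by
  unfold nrm
  have hpos : 0 < ‖v‖ := lt_of_lt_of_le hε hv
  rw [max_eq_left hv, norm_smul, norm_inv, Real.norm_of_nonneg hpos.le, inv_mul_cancel₀ hpos.ne']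

theorem nrm_of_norm_one {ε : ℝ} (hε1 : ε ≤ 1) (v : Fin t → ℝ) (hv : ‖v‖ = 1) : nrm ε v = v := by
  unfold nrm
  rw [hv, max_eq_left hε1, inv_one, one_smul]

theorem isBoundary_of_norm {v : Fin t → ℝ} (hv : ‖v‖ = 1) : Crest.OpAlg.IsBoundarySlot v := by
  have ht : Nonempty (Fin t) := by
    by_contra h
    rw [not_nonempty_iff] at h
    have : v = 0 := Subsingleton.elim _ _
    rw [this, norm_zero] at hv
    exact zero_ne_one hv
  obtain ⟨k, -, hk⟩ := Finset.exists_mem_eq_sup' (Finset.univ_nonempty (α := Fin t)) fun k => ‖v k‖₊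
  refine ⟨k, ?_⟩
  have h2 : ‖v‖₊ = ‖v k‖₊ := by
    rw [Pi.nnnorm_def, ← Finset.sup'_eq_sup (Finset.univ_nonempty (α := Fin t)), hk]
  have h3 : ‖v‖ = ‖v k‖ := congrArg NNReal.toReal h2
  rw [← Real.norm_eq_abs, ← h3, hv]

theorem norm_of_isBoundary {v : Fin t → ℝ} (h1 : ∀ k, |v k| ≤ 1)
    (hb : Crest.OpAlg.IsBoundarySlot v) : ‖v‖ = 1 := by
  refine le_antisymm ?_ ?_
  · rw [pi_norm_le_iff_of_nonneg zero_le_one]
    intro k
    rw [Real.norm_eq_abs]
    exact h1 k
  · obtain ⟨k, hk⟩ := hb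
    calc (1 : ℝ) = ‖v k‖ := by rw [Real.norm_eq_abs, hk]
      _ ≤ ‖v‖ := norm_le_pi_norm v k

theorem abs_le_of_norm {v : Fin t → ℝ} (h : ‖v‖ ≤ 1) (k : Fin t) : |v k| ≤ 1 := by
  rw [← Real.norm_eq_abs]
  exact (norm_le_pi_norm v k).trans h

/-- uniform positivity of the non-zero slots on a compact space. -/
theorem exists_eps {X ι : Type*} [TopologicalSpace X] [CompactSpace X] [Finite ι]
    (G : X → ι → Fin t → ℝ) (hG : Continuous G) (m : ℝ)
    (hm : ∀ x, m ≤ (({s | G x s ≠ 0} : Set ι).ncard : ℝ)) :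
    ∃ ε : ℝ, 0 < ε ∧ ε ≤ 1 ∧ ∀ x, m ≤ (({s | ε ≤ ‖G x s‖} : Set ι).ncard : ℝ) := by
  classical
  have : Fintype ι := Fintype.ofFinite ι
  -- local thresholds
  have hloc : ∀ x : X, ∃ ε : ℝ, 0 < ε ∧ ε ≤ 1 ∧ ∀ s, G x s ≠ 0 → ε < ‖G x s‖ := by
    intro x
    have h1 : ∀ s : ι, ∃ ε : ℝ, 0 < ε ∧ ε ≤ 1 ∧ (G x s ≠ 0 → ε < ‖G x s‖) := by
      intro s
      by_cases hs : G x s = 0
      · exact ⟨1, one_pos, le_rfl, fun h => absurd hs h⟩
      · refine ⟨min 1 (‖G x s‖ / 2), lt_min one_pos (half_pos (norm_pos_iff.mpr hs)), min_le_left _ _,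
          fun _ => lt_of_le_of_lt (min_le_right _ _) (half_lt_self (norm_pos_iff.mpr hs))⟩
    choose e he0 he1 he using h1
    by_cases hne : Nonempty ι
    · obtain ⟨s0, -, hs0⟩ := Finset.exists_mem_eq_inf' (Finset.univ_nonempty (α := ι)) e
      refine ⟨e s0, he0 s0, he1 s0, fun s hs => lt_of_le_of_lt ?_ (he s hs)⟩
      rw [← hs0]
      exact Finset.inf'_le _ (Finset.mem_univ s)
    · exact ⟨1, one_pos, le_rfl, fun s => absurd ⟨s⟩ hne⟩
  choose e he0 he1 he using hloc
  let W : X → Set X := fun x => {y | ∀ s, G x s ≠ 0 → e x < ‖G y s‖}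
  have hWo : ∀ x, IsOpen (W x) := by
    intro x
    have : W x = ⋂ s : ι, {y | G x s ≠ 0 → e x < ‖G y s‖} := by
      ext y; simp [W]
    rw [this]
    refine isOpen_iInter_of_finite fun s => ?_
    by_cases hs : G x s = 0
    · have : {y | G x s ≠ 0 → e x < ‖G y s‖} = Set.univ := by
        ext y; simp [hs]
      rw [this]; exact isOpen_univ
    · have : {y | G x s ≠ 0 → e x < ‖G y s‖} = {y | e x < ‖G y s‖} := by
        ext y; simp [hs]
      rw [this]
      exact isOpen_lt continuous_const (((continuous_apply s).comp hG).norm)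
  have hcov : ∀ x ∈ (Set.univ : Set X), W x ∈ nhds x := fun x _ =>
    (hWo x).mem_nhds fun s hs => he x s hs
  obtain ⟨T, -, hT⟩ := isCompact_univ.elim_nhds_subcover W hcov
  have hmin : ∃ ε : ℝ, 0 < ε ∧ ε ≤ 1 ∧ ∀ x ∈ T, ε ≤ e x := by
    by_cases hne : T.Nonempty
    · obtain ⟨x0, hx0, hx0'⟩ := Finset.exists_mem_eq_inf' hne e
      refine ⟨e x0, he0 x0, he1 x0, fun x hx => ?_⟩
      rw [← hx0']
      exact Finset.inf'_le _ hx
    · rw [Finset.not_nonempty_iff_eq_empty] at hne
      exact ⟨1, one_pos, le_rfl, fun x hx => by simp [hne] at hx⟩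
  obtain ⟨ε, hε0, hε1, hε⟩ := hmin
  refine ⟨ε, hε0, hε1, fun y => ?_⟩
  obtain ⟨x, hxT, hyx⟩ : ∃ x ∈ T, y ∈ W x := by
    have := hT (Set.mem_univ y)
    simpa using this
  refine (hm x).trans ?_
  exact_mod_cast Set.ncard_le_ncard (fun s hs => ((hε x hxT).trans (hyx s hs).le : ε ≤ ‖G y s‖))
    (Set.toFinite _)

end norm

/-! ### (I4): the equivariant retraction -/

section equivariant

variable {ι : Type*} [Fintype ι]

open Classical in
/-- the equivariant retraction `e`: continuous, `e (w + L v) = e w + v`, zero on `Bad`. -/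
theorem exists_e {k : ℕ} (L : (Fin k → ℝ) →ₗ[ℝ] (ι → ℝ)) (d : ℕ)
    (hLd : ∀ x, x ≠ 0 → d < (Finset.univ.filter fun i => L x i ≠ 0).card)
    (Bad : Set (ι → ℝ)) (hBc : IsClosed Bad)
    (hBad : ∀ w ∈ Bad, ∀ w' ∈ Bad, (Finset.univ.filter fun i => w i - w' i ≠ 0).card ≤ d) :
    ∃ e : (ι → ℝ) → (Fin k → ℝ), Continuous e ∧ (∀ w v, e (w + L v) = e w + v) ∧
      ∀ w ∈ Bad, e w = 0 := by
  have hLinj : Function.Injective L := by
    rw [← LinearMap.ker_eq_bot, LinearMap.ker_eq_bot']
    intro x hx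
    by_contra hne
    have := hLd x hne
    rw [hx] at this
    simp at this
  obtain ⟨π, hπ⟩ := L.exists_leftInverse_of_injective (LinearMap.ker_eq_bot.mpr hLinj)
  have hπ' : ∀ v, π (L v) = v := fun v => by
    have := congrArg (fun φ => φ v) hπ
    simpa using this
  let ρ : (ι → ℝ) →ₗ[ℝ] (ι → ℝ) := LinearMap.id - L ∘ₗ π
  have hρ : ∀ w, ρ w = w - L (π w) := fun w => rfl
  have hρL : ∀ w v, ρ (w + L v) = ρ w := by
    intro w v
    rw [hρ, hρ, map_add, hπ', map_add]
    abel
  -- antilipschitz on each small coordinate subspace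
  let S : Finset ι → Submodule ℝ (ι → ℝ) := fun J =>
    { carrier := {w | ∀ i, i ∉ J → w i = 0}
      add_mem' := by
        intro w w' hw hw' i hi
        rw [Pi.add_apply, hw i hi, hw' i hi, add_zero]
      zero_mem' := fun i _ => rfl
      smul_mem' := by
        intro c w hw i hi
        rw [Pi.smul_apply, hw i hi, smul_zero] }
  have hS : ∀ J : Finset ι, ∃ K : ℝ, 0 ≤ K ∧ (J.card ≤ d → ∀ w ∈ S J, ‖w‖ ≤ K * ‖ρ w‖) := by
    intro J
    by_cases hJ : J.card ≤ d
    · have hker : LinearMap.ker (ρ ∘ₗ (S J).subtype) = ⊥ := by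
        rw [LinearMap.ker_eq_bot']
        rintro ⟨w, hw⟩ h0
        have h1 : ρ w = 0 := h0
        rw [hρ, sub_eq_zero] at h1
        have h2 : π w = 0 := by
          by_contra hne
          have h3 := hLd _ hne
          have h4 : (Finset.univ.filter fun i => L (π w) i ≠ 0) ⊆ J := by
            intro i hi
            by_contra hiJ
            have h5 : w i = 0 := hw i hiJ
            rw [h1] at h5
            exact (Finset.mem_filter.mp hi).2 h5
          have h5 := Finset.card_le_card h4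
          omega
        rw [h2, map_zero] at h1
        exact Subtype.ext h1
      obtain ⟨K, -, hK⟩ := (ρ ∘ₗ (S J).subtype).exists_antilipschitzWith hker
      refine ⟨K, K.coe_nonneg, fun _ w hw => ?_⟩
      have h6 := hK.le_mul_dist ⟨w, hw⟩ 0
      rw [dist_zero_right, map_zero, dist_zero_right] at h6
      exact h6
    · exact ⟨0, le_rfl, fun h => absurd h hJ⟩
  choose K hK0 hK using hS
  obtain ⟨M, hM⟩ : ∃ M : ℝ, ∀ J, K J ≤ M := by
    refine ⟨∑ J, K J, fun J => ?_⟩
    exact Finset.single_le_sum (fun J _ => hK0 J) (Finset.mem_univ J)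
  have hM0 : 0 ≤ M := (hK0 ∅).trans (hM ∅)
  have hanti : ∀ w ∈ Bad, ∀ w' ∈ Bad, ‖w - w'‖ ≤ M * ‖ρ w - ρ w'‖ := by
    intro w hw w' hw'
    rw [← map_sub]
    refine (hK _ (hBad w hw w' hw') (w - w') ?_).trans
      (mul_le_mul_of_nonneg_right (hM _) (norm_nonneg _))
    intro i hi
    have : ¬ (w i - w' i ≠ 0) := fun h => hi (Finset.mem_filter.mpr ⟨Finset.mem_univ i, h⟩)
    exact not_not.mp this
  let r : Bad → (ι → ℝ) := fun w => ρ w
  have hρc : Continuous ρ := LinearMap.continuous_of_finiteDimensional ρ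
  have hπc : Continuous π := LinearMap.continuous_of_finiteDimensional π
  have hanti' : AntilipschitzWith (Real.toNNReal M) r := by
    refine AntilipschitzWith.of_le_mul_dist fun w w' => ?_
    rw [Subtype.dist_eq, dist_eq_norm, dist_eq_norm, Real.coe_toNNReal _ hM0]
    exact hanti w w.2 w' w'.2
  have : CompleteSpace Bad := hBc.completeSpace_coe
  have hru : UniformContinuous r := by
    have h1 : UniformContinuous ρ := by
      have := (LinearMap.toContinuousLinearMap ρ).uniformContinuous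
      exact this
    exact h1.comp uniformContinuous_subtype_val
  have hce : Topology.IsClosedEmbedding r := hanti'.isClosedEmbedding hru
  obtain ⟨h, hh⟩ := ContinuousMap.exists_extension hce
    (⟨fun w : Bad => -π w, (hπc.comp continuous_subtype_val).neg⟩ : C(Bad, Fin k → ℝ))
  refine ⟨fun w => π w + h (ρ w), hπc.add (h.continuous.comp hρc), ?_, ?_⟩
  · intro w v
    show π (w + L v) + h (ρ (w + L v)) = π w + h (ρ w) + v
    rw [hρL, map_add, hπ']
    abel
  · intro w hw
    have h7 : h (r ⟨w, hw⟩) = -π w := by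
      have := congrArg (fun φ : C(Bad, Fin k → ℝ) => φ ⟨w, hw⟩) hh
      exact this
    show π w + h (ρ w) = 0
    have h8 : h (ρ w) = -π w := h7
    rw [h8, add_neg_cancel]

end equivariant

/-! ### The torus -/

theorem continuous_torusData (m : ℕ) : Continuous (Crest.OpAlg.torusData m) := by
  induction m with
  | zero => exact continuous_const
  | succ m ih =>
    have h1 : Continuous fun w : Fin (m + 1) → Circle => Crest.OpAlg.torusData m (Fin.init w) :=
      ih.comp (continuous_pi fun i => continuous_apply _)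
    have hz : Continuous fun w : Fin (m + 1) → Circle => ((w (Fin.last m) : Circle) : ℂ) :=
      continuous_subtype_val.comp (continuous_apply _)
    have hre : Continuous fun w : Fin (m + 1) → Circle => ((w (Fin.last m) : Circle) : ℂ).re :=
      Complex.continuous_re.comp hz
    have him : Continuous fun w : Fin (m + 1) → Circle => ((w (Fin.last m) : Circle) : ℂ).im :=
      Complex.continuous_im.comp hz
    have hsnoc : ∀ (F : (Fin (m + 1) → Circle) → (Fin (m + 1) → ℝ)) (g : (Fin (m + 1) → Circle) → ℝ),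
        Continuous F → Continuous g →
        Continuous fun w => (Fin.snoc (F w) (g w) : Fin (m + 1 + 1) → ℝ) := by
      intro F g hF hg
      refine continuous_pi fun i => ?_
      refine Fin.lastCases ?_ (fun j => ?_) i
      · simpa using hg
      · simp only [Fin.snoc_castSucc]
        exact (continuous_apply j).comp hF
    show Continuous fun w : Fin (m + 1) → Circle =>
      ((Fin.snoc ((Crest.OpAlg.torusData m (Fin.init w)).1 +
          (Crest.OpAlg.radius (m + 1) * ((w (Fin.last m) : Circle) : ℂ).re) •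
            (Crest.OpAlg.torusData m (Fin.init w)).2)
          (Crest.OpAlg.radius (m + 1) * ((w (Fin.last m) : Circle) : ℂ).im) : Fin (m + 1 + 1) → ℝ),
        (Fin.snoc (((w (Fin.last m) : Circle) : ℂ).re • (Crest.OpAlg.torusData m (Fin.init w)).2)
          ((w (Fin.last m) : Circle) : ℂ).im : Fin (m + 1 + 1) → ℝ))
    refine Continuous.prodMk ?_ ?_
    · exact hsnoc _ _ (h1.fst.add ((continuous_const.mul hre).smul h1.snd)) (continuous_const.mul him)
    · exact hsnoc _ _ (hre.smul h1.snd) him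

theorem torusData_bound (m : ℕ) (w : Fin m → Circle) :
    (∀ i, |(Crest.OpAlg.torusData m w).1 i| ≤ 1 / 64 - (1 / 4 : ℝ) ^ (m + 3)) ∧
      ∀ i, |(Crest.OpAlg.torusData m w).2 i| ≤ 1 := by
  induction m with
  | zero =>
    refine ⟨fun i => ?_, fun i => ?_⟩
    · show |(0 : ℝ)| ≤ _
      norm_num
    · show |(1 : ℝ)| ≤ 1
      norm_num
  | succ m ih =>
    obtain ⟨h1, h2⟩ := ih (Fin.init w)
    have hz : ‖((w (Fin.last m) : Circle) : ℂ)‖ = 1 := Circle.norm_coe _
    have hre : |((w (Fin.last m) : Circle) : ℂ).re| ≤ 1 := by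
      rw [← hz]; exact Complex.abs_re_le_norm _
    have him : |((w (Fin.last m) : Circle) : ℂ).im| ≤ 1 := by
      rw [← hz]; exact Complex.abs_im_le_norm _
    have hr : Crest.OpAlg.radius (m + 1) = (1 / 4 : ℝ) ^ (m + 1 + 3) := rfl
    have hr0 : 0 < Crest.OpAlg.radius (m + 1) := by rw [hr]; positivity
    have hpow : (1 / 4 : ℝ) ^ (m + 3) = 4 * Crest.OpAlg.radius (m + 1) := by
      rw [hr, show m + 1 + 3 = (m + 3) + 1 from by ring, pow_succ]; ring
    have hpow1 : Crest.OpAlg.radius (m + 1) ≤ (1 / 4 : ℝ) ^ 4 := by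
      rw [hr]
      exact pow_le_pow_of_le_one (by norm_num) (by norm_num) (by omega)
    refine ⟨fun i => ?_, fun i => ?_⟩
    · show |(Fin.snoc ((Crest.OpAlg.torusData m (Fin.init w)).1 +
          (Crest.OpAlg.radius (m + 1) * ((w (Fin.last m) : Circle) : ℂ).re) •
            (Crest.OpAlg.torusData m (Fin.init w)).2)
          (Crest.OpAlg.radius (m + 1) * ((w (Fin.last m) : Circle) : ℂ).im) : Fin (m + 1 + 1) → ℝ) i|
          ≤ 1 / 64 - (1 / 4 : ℝ) ^ (m + 1 + 3)
      rw [← hr]
      refine Fin.lastCases ?_ (fun j => ?_) i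
      · rw [Fin.snoc_last, abs_mul, abs_of_pos hr0]
        have : Crest.OpAlg.radius (m + 1) * |((w (Fin.last m) : Circle) : ℂ).im|
            ≤ Crest.OpAlg.radius (m + 1) * 1 := mul_le_mul_of_nonneg_left him hr0.le
        norm_num at hpow1 ⊢
        linarith
      · rw [Fin.snoc_castSucc, Pi.add_apply, Pi.smul_apply, smul_eq_mul]
        refine (abs_add_le _ _).trans ?_
        rw [abs_mul, abs_mul, abs_of_pos hr0]
        have h3 := h1 j
        rw [hpow] at h3
        have h4 : Crest.OpAlg.radius (m + 1) * |((w (Fin.last m) : Circle) : ℂ).re| *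
            |(Crest.OpAlg.torusData m (Fin.init w)).2 j| ≤ Crest.OpAlg.radius (m + 1) * 1 * 1 := by
          refine mul_le_mul (mul_le_mul_of_nonneg_left hre hr0.le) (h2 j) (abs_nonneg _) ?_
          positivity
        linarith
    · show |(Fin.snoc (((w (Fin.last m) : Circle) : ℂ).re • (Crest.OpAlg.torusData m (Fin.init w)).2)
          ((w (Fin.last m) : Circle) : ℂ).im : Fin (m + 1 + 1) → ℝ) i| ≤ 1
      refine Fin.lastCases ?_ (fun j => ?_) i
      · rw [Fin.snoc_last]; exact him
      · rw [Fin.snoc_castSucc, Pi.smul_apply, smul_eq_mul, abs_mul]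
        exact mul_le_one₀ hre (abs_nonneg _) (h2 j)

theorem continuous_torusEmb (p : ℕ) : Continuous (Crest.OpAlg.torusEmb p) :=
  (continuous_torusData (2 * p)).fst

theorem torusEmb_bound (p : ℕ) (w : Fin (2 * p) → Circle) (k : Fin (2 * p + 1)) :
    |Crest.OpAlg.torusEmb p w k| ≤ 1 / 64 := by
  refine ((torusData_bound (2 * p) w).1 k).trans ?_
  have : (0 : ℝ) ≤ (1 / 4 : ℝ) ^ (2 * p + 3) := by positivity
  linarith

/-! ### Clamping and pushing -/

section push

variable {t : ℕ}

/-- coordinatewise clamp to `[-1,1]`. -/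
def clampV (z : Fin t → ℝ) : Fin t → ℝ := fun k => max (-1) (min 1 (z k))

theorem continuous_clampV : Continuous (clampV : (Fin t → ℝ) → _) :=
  continuous_pi fun k => continuous_const.max (continuous_const.min (continuous_apply k))

theorem abs_clampV_le (z : Fin t → ℝ) (k : Fin t) : |clampV z k| ≤ 1 := by
  unfold clampV
  rw [abs_le]
  exact ⟨le_max_left _ _, max_le (by norm_num) (min_le_left _ _)⟩

theorem clampV_of_le {z : Fin t → ℝ} (h : ∀ k, |z k| ≤ 1) : clampV z = z := by
  funext k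
  have := abs_le.mp (h k)
  unfold clampV
  rw [min_eq_right this.2, max_eq_right this.1]

theorem isBoundary_clampV {z : Fin t → ℝ} (k : Fin t) (h : 1 ≤ |z k|) :
    Crest.OpAlg.IsBoundarySlot (clampV z) := by
  refine ⟨k, ?_⟩
  unfold clampV
  rcases le_abs'.mp h with h | h
  · rw [min_eq_right (by linarith), max_eq_left h, abs_neg, abs_one]
  · rw [min_eq_left h, max_eq_right (by norm_num), abs_one]

theorem exists_norm_eq {v : Fin t → ℝ} (hv : 0 < ‖v‖) : ∃ k, |v k| = ‖v‖ := by
  have ht : Nonempty (Fin t) := by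
    by_contra h
    rw [not_nonempty_iff] at h
    have : v = 0 := Subsingleton.elim _ _
    rw [this, norm_zero] at hv
    exact lt_irrefl _ hv
  obtain ⟨k, -, hk⟩ := Finset.exists_mem_eq_sup' (Finset.univ_nonempty (α := Fin t)) fun k => ‖v k‖₊
  refine ⟨k, ?_⟩
  have h2 : ‖v‖₊ = ‖v k‖₊ := by
    rw [Pi.nnnorm_def, ← Finset.sup'_eq_sup (Finset.univ_nonempty (α := Fin t)), hk]
  have h3 : ‖v‖ = ‖v k‖ := congrArg NNReal.toReal h2
  rw [← Real.norm_eq_abs, ← h3]

theorem push_boundary (x τ : Fin t → ℝ) (Λ ε : ℝ) (hx : ‖x‖ ≤ 1) (hτ : ∀ k, |τ k| ≤ 1 / 4)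
    (hΛ0 : 0 ≤ Λ) (hε : 0 < ε) (h : ε ≤ ‖Λ • (x - τ)‖) :
    Crest.OpAlg.IsBoundarySlot (clampV (x + (8 / ε * (1 - ‖x‖)) • (Λ • (x - τ)))) := by
  have hτn : ‖τ‖ ≤ 1 / 4 := by
    rw [pi_norm_le_iff_of_nonneg (by norm_num)]
    intro k
    rw [Real.norm_eq_abs]
    exact hτ k
  have hxt : ‖x - τ‖ ≤ 5 / 4 := (norm_sub_le _ _).trans (by linarith)
  have hΛε : ε ≤ Λ * (5 / 4) := by
    rw [norm_smul, Real.norm_of_nonneg hΛ0] at h
    exact h.trans (mul_le_mul_of_nonneg_left hxt hΛ0)
  have h1x : 0 ≤ 1 - ‖x‖ := by linarith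
  rcases le_or_gt (1 / 2) ‖x‖ with hx2 | hx2
  · obtain ⟨k, hk⟩ := exists_norm_eq (v := x) (by linarith)
    refine isBoundary_clampV k ?_
    rw [Pi.add_apply, Pi.smul_apply, Pi.smul_apply, Pi.sub_apply, smul_eq_mul, smul_eq_mul]
    have hkτ := abs_le.mp (hτ k)
    -- the factor
    have hfac : 1 - ‖x‖ ≤ 8 / ε * (1 - ‖x‖) * (Λ * (1 / 4)) := by
      have h5 : 1 ≤ 8 / ε * (Λ * (1 / 4)) := by
        rw [div_mul_eq_mul_div, le_div_iff₀ hε]
        linarith
      calc 1 - ‖x‖ = (1 - ‖x‖) * 1 := by ring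
        _ ≤ (1 - ‖x‖) * (8 / ε * (Λ * (1 / 4))) := mul_le_mul_of_nonneg_left h5 h1x
        _ = _ := by ring
    have hc : 0 ≤ 8 / ε * (1 - ‖x‖) := mul_nonneg (by positivity) h1x
    rcases le_total 0 (x k) with h0 | h0
    · rw [abs_of_nonneg h0] at hk
      have h6 : 1 / 4 ≤ x k - τ k := by linarith
      have h7 : 8 / ε * (1 - ‖x‖) * (Λ * (1 / 4)) ≤ 8 / ε * (1 - ‖x‖) * (Λ * (x k - τ k)) :=
        mul_le_mul_of_nonneg_left (mul_le_mul_of_nonneg_left h6 hΛ0) hc
      refine le_trans ?_ (le_abs_self _)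
      linarith
    · rw [abs_of_nonpos h0] at hk
      have h6 : 1 / 4 ≤ -(x k - τ k) := by linarith
      have h7 : 8 / ε * (1 - ‖x‖) * (Λ * (1 / 4)) ≤ 8 / ε * (1 - ‖x‖) * (Λ * (-(x k - τ k))) :=
        mul_le_mul_of_nonneg_left (mul_le_mul_of_nonneg_left h6 hΛ0) hc
      refine le_trans ?_ (neg_le_abs _)
      have h8 : 8 / ε * (1 - ‖x‖) * (Λ * (-(x k - τ k))) = -(8 / ε * (1 - ‖x‖) * (Λ * (x k - τ k))) := by
        ring
      linarith
  · obtain ⟨k, hk⟩ := exists_norm_eq (v := Λ • (x - τ)) (by linarith)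
    refine isBoundary_clampV k ?_
    rw [Pi.add_apply, Pi.smul_apply, smul_eq_mul]
    have hxk : |x k| ≤ 1 / 2 := by
      have := norm_le_pi_norm x k
      rw [Real.norm_eq_abs] at this
      linarith
    have h9 : 4 ≤ |8 / ε * (1 - ‖x‖) * (Λ • (x - τ)) k| := by
      rw [abs_mul, hk, abs_of_nonneg (mul_nonneg (by positivity) h1x)]
      calc (4 : ℝ) = 8 / ε * (1 / 2) * ε := by field_simp; norm_num
        _ ≤ 8 / ε * (1 - ‖x‖) * ‖Λ • (x - τ)‖ := by
          refine mul_le_mul ?_ h hε.le (mul_nonneg (by positivity) h1x)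
          exact mul_le_mul_of_nonneg_left (by linarith) (by positivity)
    have h10 := abs_sub_abs_le_abs_sub (8 / ε * (1 - ‖x‖) * (Λ • (x - τ)) k) (-(x k))
    rw [abs_neg, sub_neg_eq_add, add_comm (8 / ε * (1 - ‖x‖) * (Λ • (x - τ)) k) (x k)] at h10
    linarith

end push

end Crest.Agent.R090.Code_843
end

-- ▼ part R090/Asm_843
section

/-!
Row 90 (S0119), leaf T5-7: from `UnstableInput` to the conclusion of S0119.
-/

set_option autoImplicit false

namespace Crest.Agent.R090.Asm_843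

open Crest.Agent.R090.Code_843

/-- The input of the final assembly (output of the stable part, after the vector-field trick). -/
def UnstableInput (p n : ℕ) (a : ℝ) {Y : Type*} [TopologicalSpace Y]
    (f : Y → Fin n → Fin (2 * p + 1) → ℝ) : Prop :=
  ∃ l : ℕ, ∀ U : ℕ, ∃ u : ℕ, U ≤ u ∧ ∃ k : ℕ, k ≤ (2 * p + 1) * n * u + l ∧
    ∃ (g : (Fin u → Y) × (Fin k → ℝ) → (Fin k → ℝ))
      (c : (Fin u → Y) × (Fin k → ℝ) → (Fin u → Fin n → Fin (2 * p) → Circle)),
      Continuous g ∧ (∃ R : ℝ, ∀ y x, R ≤ ‖x‖ → g (y, x) = x) ∧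
      (∃ δ : ℝ, 0 < δ ∧ ContinuousOn c {q | ‖g q‖ < δ}) ∧
      ∀ y x, g (y, x) = 0 →
        (u : ℝ) / 2 ≤
          (({b | (y b, c (y, x) b) ∉ Crest.OpAlg.torusLocus p n (a * n) f} : Set (Fin u)).ncard : ℝ)

section shift

variable {t : ℕ}

/-- the cut-off: `1` for `‖X‖ ≤ 1/4`, `0` for `‖X‖ ≥ 1/2`. -/
noncomputable def lam (X : Fin (t + 1) → ℝ) : ℝ := max 0 (min 1 (2 - 4 * ‖X‖))

theorem continuous_lam : Continuous (lam : (Fin (t + 1) → ℝ) → ℝ) :=
  continuous_const.max (continuous_const.min (continuous_const.sub (continuous_const.mul continuous_norm)))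

theorem lam_nonneg (X : Fin (t + 1) → ℝ) : 0 ≤ lam X := le_max_left _ _

theorem lam_le_one (X : Fin (t + 1) → ℝ) : lam X ≤ 1 := max_le zero_le_one (min_le_left _ _)

theorem lam_eq_one {X : Fin (t + 1) → ℝ} (h : ‖X‖ ≤ 1 / 4) : lam X = 1 := by
  unfold lam
  rw [min_eq_left (by linarith), max_eq_right zero_le_one]

theorem lam_eq_zero {X : Fin (t + 1) → ℝ} (h : 1 / 2 ≤ ‖X‖) : lam X = 0 := by
  unfold lam
  exact max_eq_left ((min_le_right _ _).trans (by linarith))

/-- shift of the tangential coordinates. -/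
noncomputable def shift (X : Fin (t + 1) → ℝ) (v : Fin t → ℝ) : Fin (t + 1) → ℝ :=
  Fin.snoc (fun c => X (Fin.castSucc c) + lam X * v c) (X (Fin.last t))

theorem shift_castSucc (X : Fin (t + 1) → ℝ) (v : Fin t → ℝ) (c : Fin t) :
    shift X v (Fin.castSucc c) = X (Fin.castSucc c) + lam X * v c := by
  unfold shift
  rw [Fin.snoc_castSucc (α := fun _ => ℝ)]

theorem shift_last (X : Fin (t + 1) → ℝ) (v : Fin t → ℝ) :
    shift X v (Fin.last t) = X (Fin.last t) := by
  unfold shift
  rw [Fin.snoc_last (α := fun _ => ℝ)]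

theorem shift_of_lam_zero {X : Fin (t + 1) → ℝ} (h : lam X = 0) (v : Fin t → ℝ) :
    shift X v = X := by
  funext i
  refine Fin.lastCases ?_ (fun c => ?_) i
  · rw [shift_last]
  · rw [shift_castSucc, h, zero_mul, add_zero]

theorem continuous_shift {A : Type*} [TopologicalSpace A] {X : A → Fin (t + 1) → ℝ}
    {v : A → Fin t → ℝ} (hX : Continuous X) (hv : Continuous v) :
    Continuous fun x => shift (X x) (v x) := by
  refine continuous_pi fun i => ?_
  refine Fin.lastCases ?_ (fun c => ?_) i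
  · simp only [shift_last]
    exact (continuous_apply (Fin.last t)).comp hX
  · simp only [shift_castSucc]
    exact ((continuous_apply (Fin.castSucc c)).comp hX).add
      ((continuous_lam.comp hX).mul ((continuous_apply c).comp hv))

/-- at a zero of the shift the tangential coordinates are `-v`. -/
theorem shift_eq_zero {X : Fin (t + 1) → ℝ} {v : Fin t → ℝ} (hv : ∀ c, |v c| ≤ 1 / 4)
    (h : shift X v = 0) (c : Fin t) : X (Fin.castSucc c) + v c = 0 := by
  have h1 : ∀ c, X (Fin.castSucc c) + lam X * v c = 0 := fun c => by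
    rw [← shift_castSucc, h, Pi.zero_apply]
  have h2 : X (Fin.last t) = 0 := by rw [← shift_last X v, h, Pi.zero_apply]
  have h3 : ‖X‖ ≤ 1 / 4 := by
    rw [pi_norm_le_iff_of_nonneg (by norm_num)]
    intro i
    refine Fin.lastCases ?_ (fun c => ?_) i
    · rw [h2, norm_zero]; norm_num
    · have h4 : X (Fin.castSucc c) = -(lam X * v c) := by linarith [h1 c]
      rw [h4, norm_neg, Real.norm_eq_abs, abs_mul, abs_of_nonneg (lam_nonneg X)]
      calc lam X * |v c| ≤ 1 * (1 / 4) :=
            mul_le_mul (lam_le_one X) (hv c) (abs_nonneg _) zero_le_one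
        _ = 1 / 4 := one_mul _
  have h5 := h1 c
  rwa [lam_eq_one h3, one_mul] at h5

end shift

/-- a continuous cut-off makes a partially continuous function continuous. -/
theorem continuous_cutoff {A E F : Type*} [TopologicalSpace A] [NormedAddCommGroup E]
    [NormedAddCommGroup F] [NormedSpace ℝ F] (g : A → E) (hg : Continuous g) (δ : ℝ) (hδ : 0 < δ)
    (w : A → F) (hw : ContinuousOn w {q | ‖g q‖ < δ}) :
    Continuous fun q => (max 0 (1 - 2 * ‖g q‖ / δ)) • w q := by
  have hΛ : Continuous fun q => max 0 (1 - 2 * ‖g q‖ / δ) :=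
    continuous_const.max (continuous_const.sub ((continuous_const.mul hg.norm).div_const _))
  rw [continuous_iff_continuousAt]
  intro q
  by_cases hq : ‖g q‖ < δ
  · have ho : IsOpen {q | ‖g q‖ < δ} := isOpen_lt hg.norm continuous_const
    exact hΛ.continuousAt.smul (hw.continuousAt (ho.mem_nhds hq))
  · have ho : IsOpen {q | δ / 2 < ‖g q‖} := isOpen_lt continuous_const hg.norm
    have hmem : q ∈ {q | δ / 2 < ‖g q‖} := by
      show δ / 2 < ‖g q‖
      push Not at hq
      linarith
    have hev : (fun q => (max 0 (1 - 2 * ‖g q‖ / δ)) • w q) =ᶠ[nhds q] fun _ => (0 : F) := by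
      filter_upwards [ho.mem_nhds hmem] with r hr
      have h1 : 1 - 2 * ‖g r‖ / δ ≤ 0 := by
        have hr' : δ / 2 < ‖g r‖ := hr
        rw [sub_nonpos, le_div_iff₀ hδ]
        linarith
      rw [max_eq_left h1, zero_smul]
    exact continuousAt_const.congr hev.symm

theorem norm_le_one_of_cube {p n : ℕ} {Y : Type*} {f : Y → Fin n → Fin (2 * p + 1) → ℝ}
    (hfC : ∀ y, f y ∈ Crest.OpAlg.cube (2 * p + 1) n) (y : Y) (j : Fin n) : ‖f y j‖ ≤ 1 := by
  rw [pi_norm_le_iff_of_nonneg zero_le_one]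
  intro k
  rw [Real.norm_eq_abs]
  exact hfC y j k

/-- a good block has more than `a n` pushable slots. -/
theorem good_block {p n : ℕ} {a : ℝ} {Y : Type*} {f : Y → Fin n → Fin (2 * p + 1) → ℝ}
    (hfC : ∀ y, f y ∈ Crest.OpAlg.cube (2 * p + 1) n) (y : Y) (W : Fin n → Fin (2 * p) → Circle)
    (h : (y, W) ∉ Crest.OpAlg.torusLocus p n (a * n) f) :
    a * n < (({j | f y j - Crest.OpAlg.torusEmb p (W j) ≠ 0} : Set (Fin n)).ncard : ℝ) := by
  by_contra hcon
  push Not at hcon
  refine h ⟨fun j k => ?_, hcon⟩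
  have h1 := abs_sub (f y j k) (Crest.OpAlg.torusEmb p (W j) k)
  have h2 := hfC y j k
  have h3 := torusEmb_bound p (W j) k
  show |f y j k - Crest.OpAlg.torusEmb p (W j) k| ≤ 2
  linarith

section main

open Classical in
/-- the linear code with real coordinates indexed by any finite type. -/
theorem exists_code {ι : Type*} [Fintype ι] (k d : ℕ) (h : k + d ≤ Fintype.card ι) :
    ∃ L : (Fin k → ℝ) →ₗ[ℝ] (ι → ℝ),
      ∀ x, x ≠ 0 → d < (Finset.univ.filter fun i => L x i ≠ 0).card := by
  let eq : ι ≃ Fin (Fintype.card ι) := Fintype.equivFin ι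
  refine ⟨(LinearMap.funLeft ℝ ℝ eq) ∘ₗ enc (vdm k (Fintype.card ι)), fun x hx => ?_⟩
  have h1 := le_card_ne_zero (mds_vdm k (Fintype.card ι)) x hx
  have h2 : (Finset.univ.filter fun i =>
      ((LinearMap.funLeft ℝ ℝ eq) ∘ₗ (enc (vdm k (Fintype.card ι)) : (Fin k → ℝ) →ₗ[ℝ] _)) x i ≠ 0).card
      = (Finset.univ.filter fun j => enc (vdm k (Fintype.card ι)) x j ≠ 0).card := by
    refine Finset.card_equiv eq fun i => ?_
    simp only [Finset.mem_filter, Finset.mem_univ, true_and]
    exact Iff.rfl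
  rw [h2]
  omega

/-- the words with few non-zero slots. -/
def Bad {σ κ : Type*} (q0 : ℕ) : Set (σ × κ → ℝ) :=
  {w | ∃ J : Finset σ, J.card < q0 ∧ ∀ s, s ∉ J → ∀ c, w (s, c) = 0}

theorem isClosed_Bad {σ κ : Type*} [Finite σ] (q0 : ℕ) :
    IsClosed (Bad q0 : Set (σ × κ → ℝ)) := by
  classical
  have := Fintype.ofFinite σ
  have h : (Bad q0 : Set (σ × κ → ℝ)) =
      ⋃ J : Finset σ, {w | J.card < q0 ∧ ∀ s, s ∉ J → ∀ c, w (s, c) = 0} := by
    ext w; simp [Bad]
  rw [h]
  refine isClosed_iUnion_of_finite fun J => ?_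
  by_cases hJ : J.card < q0
  · have h2 : {w : σ × κ → ℝ | J.card < q0 ∧ ∀ s, s ∉ J → ∀ c, w (s, c) = 0} =
        ⋂ s : σ, ⋂ _ : s ∉ J, ⋂ c : κ, {w | w (s, c) = 0} := by
      ext w; simp [hJ]
    rw [h2]
    refine isClosed_iInter fun s => isClosed_iInter fun _ => isClosed_iInter fun c => ?_
    exact isClosed_eq (continuous_apply _) continuous_const
  · have h2 : {w : σ × κ → ℝ | J.card < q0 ∧ ∀ s, s ∉ J → ∀ c, w (s, c) = 0} = ∅ := by
      ext w; simp [hJ]
    rw [h2]
    exact isClosed_empty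

open Classical in
theorem Bad_sub {σ κ : Type*} [Fintype σ] [Fintype κ] (q0 : ℕ) (w w' : σ × κ → ℝ)
    (hw : w ∈ (Bad q0 : Set (σ × κ → ℝ))) (hw' : w' ∈ (Bad q0 : Set (σ × κ → ℝ))) :
    (Finset.univ.filter fun i => w i - w' i ≠ 0).card ≤ 2 * (q0 - 1) * Fintype.card κ := by
  obtain ⟨J, hJ, hJw⟩ := hw
  obtain ⟨J', hJ', hJw'⟩ := hw'
  have h1 : (Finset.univ.filter fun i => w i - w' i ≠ 0) ⊆
      (J ∪ J') ×ˢ (Finset.univ : Finset κ) := by
    rintro ⟨s, c⟩ hi
    have hi' := (Finset.mem_filter.mp hi).2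
    refine Finset.mem_product.mpr ⟨?_, Finset.mem_univ _⟩
    by_contra hs
    rw [Finset.mem_union, not_or] at hs
    apply hi'
    rw [hJw s hs.1, hJw' s hs.2, sub_zero]
  refine (Finset.card_le_card h1).trans ?_
  rw [Finset.card_product, Finset.card_univ]
  refine Nat.mul_le_mul_right _ ?_
  have := Finset.card_union_le J J'
  omega

/-- boundedness of `g (y,x) - x`. -/
theorem exists_bound {A : Type*} [TopologicalSpace A] [CompactSpace A] {k : ℕ}
    (g : A × (Fin k → ℝ) → (Fin k → ℝ)) (hg : Continuous g) (R : ℝ)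
    (hR : ∀ y x, R ≤ ‖x‖ → g (y, x) = x) : ∃ C : ℝ, 0 ≤ C ∧ ∀ y x, ‖g (y, x) - x‖ ≤ C := by
  have hK : IsCompact ((Set.univ : Set A) ×ˢ Metric.closedBall (0 : Fin k → ℝ) R) :=
    isCompact_univ.prod (isCompact_closedBall _ _)
  obtain ⟨C, hC⟩ := hK.exists_bound_of_continuousOn (f := fun q : A × (Fin k → ℝ) => g q - q.2)
    (hg.sub continuous_snd).continuousOn
  refine ⟨max C 0, le_max_right _ _, fun y x => ?_⟩
  rcases le_or_gt R ‖x‖ with h | h
  · rw [hR y x h, sub_self, norm_zero]
    exact le_max_right _ _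
  · exact (hC (y, x) ⟨Set.mem_univ _, by simpa using h.le⟩).trans (le_max_left _ _)

set_option maxHeartbeats 2000000 in
theorem result_of_unstableInput (p n : ℕ) (hp : 1 ≤ p) (hn : 1 ≤ n) (a : ℝ) (ha : 0 < a)
    (ha' : a < 1 / 16) {Y : Type*} [TopologicalSpace Y] [CompactSpace Y]
    (f : Y → Fin n → Fin (2 * p + 1) → ℝ) (hf : Continuous f)
    (hfC : ∀ y, f y ∈ Crest.OpAlg.cube (2 * p + 1) n)
    (hJ : UnstableInput p n a f) (U : ℕ) :
    ∃ u : ℕ, U ≤ u ∧ ∃ G : (Fin u → Y) → (Fin u × Fin n → Fin (2 * p + 1) → ℝ),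
      Continuous G ∧ (∀ y s k, |G y s k| ≤ 1) ∧
      (∀ y, a / 8 * (u * n : ℝ) ≤ (({s | Crest.OpAlg.IsBoundarySlot (G y s)} : Set (Fin u × Fin n)).ncard : ℝ)) ∧
      ∀ y (b : Fin u) (j : Fin n), Crest.OpAlg.IsBoundarySlot (f (y b) j) → G y (b, j) = f (y b) j := by
  classical
  obtain ⟨l, hl⟩ := hJ
  obtain ⟨u1, hu1, k, hk, g, c, hg, ⟨R, hR⟩, ⟨δ, hδ, hc⟩, hgood⟩ := hl (max U (l + 1))
  have hUu1 : U ≤ u1 := (le_max_left _ _).trans hu1
  have hlu1 : l + 1 ≤ u1 := (le_max_right _ _).trans hu1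
  set u2 : ℕ := 3 * u1 with hu2
  set q0 : ℕ := ⌈a / 8 * ((u1 + u2 : ℕ) * n : ℝ)⌉₊ with hq0
  have hm0 : (0 : ℝ) < a / 8 * ((u1 + u2 : ℕ) * n : ℝ) := by
    have h1 : (0 : ℝ) < ((u1 + u2 : ℕ) : ℝ) := by
      have : 0 < u1 + u2 := by omega
      exact_mod_cast this
    have h2 : (0 : ℝ) < (n : ℝ) := by exact_mod_cast hn
    positivity
  have hq0pos : 0 < q0 := Nat.ceil_pos.mpr hm0
  have hq0lt : (q0 : ℝ) < a / 8 * ((u1 + u2 : ℕ) * n : ℝ) + 1 := Nat.ceil_lt_add_one hm0.le
  have hq0le : a / 8 * ((u1 + u2 : ℕ) * n : ℝ) ≤ q0 := Nat.le_ceil _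
  -- the code
  have hcard : k + 2 * (q0 - 1) * Fintype.card (Fin (2 * p)) ≤
      Fintype.card ((Fin u2 × Fin n) × Fin (2 * p)) := by
    simp only [Fintype.card_prod, Fintype.card_fin]
    have hq1 : ((q0 - 1 : ℕ) : ℝ) < a / 8 * ((u1 + u2 : ℕ) * n : ℝ) := by
      rw [Nat.cast_sub hq0pos, Nat.cast_one]
      linarith
    have hu1r : (0 : ℝ) < (u1 : ℝ) := by
      have : 0 < u1 := by omega
      exact_mod_cast this
    have hnr : (1 : ℝ) ≤ (n : ℝ) := by exact_mod_cast hn
    have hpr : (1 : ℝ) ≤ (p : ℝ) := by exact_mod_cast hp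
    have hun : (0 : ℝ) < (u1 : ℝ) * n := by positivity
    have hq2 : ((q0 - 1 : ℕ) : ℝ) ≤ (u1 * n : ℝ) / 32 := by
      refine hq1.le.trans ?_
      rw [hu2]
      push_cast
      nlinarith
    have hkr : (k : ℝ) ≤ (2 * p + 1) * n * u1 + l := by exact_mod_cast hk
    have hlr : (l : ℝ) ≤ u1 := by
      have : l ≤ u1 := by omega
      exact_mod_cast this
    have h3 : (k : ℝ) + 2 * ((q0 - 1 : ℕ) : ℝ) * (2 * p) ≤ (3 * u1 : ℝ) * n * (2 * p) := by
      have h4 : 2 * ((q0 - 1 : ℕ) : ℝ) * (2 * p) ≤ (u1 * n : ℝ) * p / 8 := by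
        have : ((q0 - 1 : ℕ) : ℝ) * (4 * p) ≤ (u1 * n : ℝ) / 32 * (4 * p) :=
          mul_le_mul_of_nonneg_right hq2 (by positivity)
        linarith
      have h5 : (n * u1 : ℝ) ≤ p * (n * u1) := by
        nlinarith
      have h6 : (u1 : ℝ) ≤ p * (n * u1) := by
        nlinarith
      nlinarith
    rw [hu2]
    exact_mod_cast h3
  obtain ⟨L, hLd⟩ := exists_code (ι := (Fin u2 × Fin n) × Fin (2 * p)) k
    (2 * (q0 - 1) * Fintype.card (Fin (2 * p))) hcard
  obtain ⟨e, he, heL, heB⟩ := exists_e L (2 * (q0 - 1) * Fintype.card (Fin (2 * p))) hLd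
    (Bad q0) (isClosed_Bad q0) (fun w hw w' hw' => Bad_sub q0 w w' hw hw')
  -- rescaling
  obtain ⟨C, hC0, hC⟩ := exists_bound g hg R hR
  let Lc : (Fin k → ℝ) →L[ℝ] ((Fin u2 × Fin n) × Fin (2 * p) → ℝ) := LinearMap.toContinuousLinearMap L
  have hLc : ∀ x, Lc x = L x := fun x => rfl
  set η : ℝ := 1 / (4 * (‖Lc‖ * C + 1)) with hη
  have hden : 0 < ‖Lc‖ * C + 1 := by positivity
  have hηpos : 0 < η := by rw [hη]; positivity
  have hηb : ‖Lc‖ * (η * C) ≤ 1 / 4 := by
    rw [hη]
    have : ‖Lc‖ * (1 / (4 * (‖Lc‖ * C + 1)) * C) = (‖Lc‖ * C) / (4 * (‖Lc‖ * C + 1)) := by ring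
    rw [this, div_le_div_iff₀ (by positivity) (by norm_num)]
    linarith
  -- the data
  let y1 : (Fin (u1 + u2) → Y) → (Fin u1 → Y) := fun y i => y (Fin.castAdd u2 i)
  let T : (Fin (u1 + u2) → Y) → ((Fin u2 × Fin n) × Fin (2 * p) → ℝ) :=
    fun y q => f (y (Fin.natAdd u1 q.1.1)) q.1.2 (Fin.castSucc q.2)
  have hy1 : Continuous y1 := continuous_pi fun i => continuous_apply _
  have hfc : ∀ (b : Fin (u1 + u2)) (j : Fin n), Continuous fun y : Fin (u1 + u2) → Y => f (y b) j :=
    fun b j => (continuous_apply j).comp (hf.comp (continuous_apply b))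
  have hT : Continuous T := continuous_pi fun q => (continuous_apply _).comp (hfc _ _)
  let q : (Fin (u1 + u2) → Y) → (Fin u1 → Y) × (Fin k → ℝ) := fun y => (y1 y, η⁻¹ • e (T y))
  have hq : Continuous q := hy1.prodMk ((he.comp hT).const_smul η⁻¹)
  let v : (Fin (u1 + u2) → Y) → ((Fin u2 × Fin n) × Fin (2 * p) → ℝ) :=
    fun y => L (η • g (q y) - e (T y))
  have hv : Continuous v := Lc.continuous.comp (((hg.comp hq).const_smul η).sub (he.comp hT))
  have hvb : ∀ y i, |v y i| ≤ 1 / 4 := by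
    intro y i
    rw [← Real.norm_eq_abs]
    refine (norm_le_pi_norm (v y) i).trans ?_
    have h1 : ‖v y‖ ≤ ‖Lc‖ * ‖η • g (q y) - e (T y)‖ := Lc.le_opNorm _
    refine h1.trans (le_trans (mul_le_mul_of_nonneg_left ?_ (norm_nonneg _)) hηb)
    have h2 : η • g (q y) - e (T y) = η • (g (q y) - η⁻¹ • e (T y)) := by
      rw [smul_sub, smul_smul, mul_inv_cancel₀ hηpos.ne', one_smul]
    rw [h2, norm_smul, Real.norm_of_nonneg hηpos.le]
    exact mul_le_mul_of_nonneg_left (hC _ _) hηpos.le
  -- the amplitude vectors of group 1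
  let F : (Fin (u1 + u2) → Y) → Fin u1 → Fin n → Fin (2 * p + 1) → ℝ := fun y i j =>
    (max 0 (1 - 2 * ‖g (q y)‖ / δ)) •
      (f (y (Fin.castAdd u2 i)) j - Crest.OpAlg.torusEmb p (c (q y) i j))
  have hF : ∀ i j, Continuous fun y => F y i j := by
    intro i j
    have hc' : ContinuousOn (fun r : (Fin u1 → Y) × (Fin k → ℝ) =>
        f (r.1 i) j - Crest.OpAlg.torusEmb p (c r i j)) {r | ‖g r‖ < δ} := by
      refine ContinuousOn.sub ?_ ?_
      · exact ((continuous_apply j).comp (hf.comp ((continuous_apply i).comp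
          continuous_fst))).continuousOn
      · refine (continuous_torusEmb p).comp_continuousOn ?_
        exact ((continuous_apply j).comp (continuous_apply i)).comp_continuousOn hc
    exact (continuous_cutoff g hg δ hδ _ hc').comp hq
  -- all slots
  let Z : (Fin (u1 + u2) → Y) → (Fin (u1 + u2) × Fin n) → Fin (2 * p + 1) → ℝ := fun y s =>
    Fin.addCases (motive := fun _ => Fin (2 * p + 1) → ℝ) (fun i => F y i s.2)
      (fun i => shift (f (y (Fin.natAdd u1 i)) s.2) (fun d => v y ((i, s.2), d))) s.1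
  have hZ1 : ∀ y i j, Z y (Fin.castAdd u2 i, j) = F y i j := fun y i j =>
    Fin.addCases_left (motive := fun _ => Fin (2 * p + 1) → ℝ) i
  have hZ2 : ∀ y i j, Z y (Fin.natAdd u1 i, j) =
      shift (f (y (Fin.natAdd u1 i)) j) (fun d => v y ((i, j), d)) := fun y i j =>
    Fin.addCases_right (motive := fun _ => Fin (2 * p + 1) → ℝ) i
  have hZc : Continuous Z := by
    refine continuous_pi fun s => ?_
    obtain ⟨b, j⟩ := s
    refine Fin.addCases (fun i => ?_) (fun i => ?_) b
    · simp only [hZ1]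
      exact hF i j
    · simp only [hZ2]
      exact continuous_shift (hfc _ _) (continuous_pi fun d => (continuous_apply _).comp hv)
  -- the count of non-zero slots
  have hcount : ∀ y, a / 8 * ((u1 + u2 : ℕ) * n : ℝ) ≤
      (({s | Z y s ≠ 0} : Set (Fin (u1 + u2) × Fin n)).ncard : ℝ) := by
    intro y
    by_contra hcon
    push Not at hcon
    -- group 2
    have hJ2 : ∃ J : Finset (Fin u2 × Fin n), J.card < q0 ∧ ∀ s, s ∉ J →
        shift (f (y (Fin.natAdd u1 s.1)) s.2) (fun d => v y (s, d)) = 0 := by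
      refine ⟨Finset.univ.filter fun s =>
        shift (f (y (Fin.natAdd u1 s.1)) s.2) (fun d => v y (s, d)) ≠ 0, ?_, ?_⟩
      · have h1 : (Finset.univ.filter fun s : Fin u2 × Fin n =>
            shift (f (y (Fin.natAdd u1 s.1)) s.2) (fun d => v y (s, d)) ≠ 0).card ≤
            ({s | Z y s ≠ 0} : Set (Fin (u1 + u2) × Fin n)).ncard := by
          rw [← Set.ncard_coe_finset]
          refine Set.ncard_le_ncard_of_injOn
            (fun s : Fin u2 × Fin n => ((Fin.natAdd u1 s.1, s.2) : Fin (u1 + u2) × Fin n)) ?_ ?_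
            (Set.toFinite _)
          · intro s hs
            have hs' := (Finset.mem_filter.mp (Finset.mem_coe.mp hs)).2
            show Z y (Fin.natAdd u1 s.1, s.2) ≠ 0
            rw [hZ2]
            exact hs'
          · intro s _ s' _ h
            have h2 := Prod.ext_iff.mp h
            exact Prod.ext (Fin.natAdd_injective _ _ h2.1) h2.2
        have h2 : ((Finset.univ.filter fun s : Fin u2 × Fin n =>
            shift (f (y (Fin.natAdd u1 s.1)) s.2) (fun d => v y (s, d)) ≠ 0).card : ℝ) < q0 :=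
          lt_of_le_of_lt (by exact_mod_cast h1) (lt_of_lt_of_le hcon hq0le)
        exact_mod_cast h2
      · intro s hs
        by_contra hne
        exact hs (Finset.mem_filter.mpr ⟨Finset.mem_univ _, hne⟩)
    obtain ⟨J, hJc, hJz⟩ := hJ2
    have hbad : T y + v y ∈ (Bad q0 : Set ((Fin u2 × Fin n) × Fin (2 * p) → ℝ)) := by
      refine ⟨J, hJc, fun s hs d => ?_⟩
      exact shift_eq_zero (fun d => hvb y (s, d)) (hJz s hs) d
    have he0 := heB _ hbad
    have hg0 : g (q y) = 0 := by
      have h1 : e (T y + v y) = e (T y) + (η • g (q y) - e (T y)) := heL _ _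
      rw [he0] at h1
      have h2 : η • g (q y) = 0 := by
        rw [h1]; abel
      exact (smul_eq_zero.mp h2).resolve_left hηpos.ne'
    -- group 1
    have hgd := hgood (y1 y) (η⁻¹ • e (T y)) hg0
    let S : Finset (Fin u1 × Fin n) := Finset.univ.filter fun s => F y s.1 s.2 ≠ 0
    have hFz : ∀ i j, f (y (Fin.castAdd u2 i)) j - Crest.OpAlg.torusEmb p (c (q y) i j) ≠ 0 →
        F y i j ≠ 0 := by
      intro i j h
      have h1 : max 0 (1 - 2 * ‖g (q y)‖ / δ) = 1 := by
        rw [hg0, norm_zero]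
        simp
      show (max 0 (1 - 2 * ‖g (q y)‖ / δ)) • _ ≠ 0
      rw [h1, one_smul]
      exact h
    have hb := card_big_blocks' S (a * n) (by positivity)
    have hblocks : (u1 : ℝ) / 2 ≤ ((Finset.univ.filter fun b : Fin u1 =>
        a * n < ((Finset.univ.filter fun j : Fin n => (b, j) ∈ S).card : ℝ)).card : ℝ) := by
      refine hgd.trans ?_
      have h1 : ({b | (y1 y b, c (y1 y, η⁻¹ • e (T y)) b) ∉
          Crest.OpAlg.torusLocus p n (a * n) f} : Set (Fin u1)).ncard ≤
          (Finset.univ.filter fun b : Fin u1 =>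
            a * n < ((Finset.univ.filter fun j : Fin n => (b, j) ∈ S).card : ℝ)).card := by
        rw [← Set.ncard_coe_finset]
        refine Set.ncard_le_ncard ?_ (Set.toFinite _)
        intro b hb'
        rw [Finset.mem_coe, Finset.mem_filter]
        refine ⟨Finset.mem_univ _, ?_⟩
        have h2 := good_block hfC (y1 y b) (c (q y) b) hb'
        refine lt_of_lt_of_le h2 ?_
        have h3 : ({j | f (y1 y b) j - Crest.OpAlg.torusEmb p (c (q y) b j) ≠ 0} : Set (Fin n)).ncard ≤
            (Finset.univ.filter fun j : Fin n => (b, j) ∈ S).card := by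
          rw [← Set.ncard_coe_finset]
          refine Set.ncard_le_ncard ?_ (Set.toFinite _)
          intro j hj
          rw [Finset.mem_coe, Finset.mem_filter]
          refine ⟨Finset.mem_univ _, ?_⟩
          exact Finset.mem_filter.mpr ⟨Finset.mem_univ _, hFz b j hj⟩
        exact_mod_cast h3
      exact_mod_cast h1
    have hSle : (S.card : ℝ) ≤ (({s | Z y s ≠ 0} : Set (Fin (u1 + u2) × Fin n)).ncard : ℝ) := by
      have h1 : S.card ≤ ({s | Z y s ≠ 0} : Set (Fin (u1 + u2) × Fin n)).ncard := by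
        rw [← Set.ncard_coe_finset]
        refine Set.ncard_le_ncard_of_injOn
          (fun s : Fin u1 × Fin n => ((Fin.castAdd u2 s.1, s.2) : Fin (u1 + u2) × Fin n)) ?_ ?_
          (Set.toFinite _)
        · intro s hs
          have hs' := (Finset.mem_filter.mp (Finset.mem_coe.mp hs)).2
          show Z y (Fin.castAdd u2 s.1, s.2) ≠ 0
          rw [hZ1]
          exact hs'
        · intro s _ s' _ h
          have h2 := Prod.ext_iff.mp h
          exact Prod.ext (Fin.castAdd_injective _ _ h2.1) h2.2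
      exact_mod_cast h1
    have hfin : (u1 : ℝ) / 2 * (a * n) ≤
        (({s | Z y s ≠ 0} : Set (Fin (u1 + u2) × Fin n)).ncard : ℝ) := by
      refine le_trans (mul_le_mul_of_nonneg_right ?_ (by positivity)) (hb.trans hSle)
      refine hblocks.trans (le_of_eq ?_)
      congr!
    have hval : a / 8 * ((u1 + u2 : ℕ) * n : ℝ) = (u1 : ℝ) / 2 * (a * n) := by
      rw [hu2]
      push_cast
      ring
    linarith
  obtain ⟨ε, hε0, hε1, hε⟩ := exists_eps Z hZc _ hcount
  -- the map
  let G : (Fin (u1 + u2) → Y) → (Fin (u1 + u2) × Fin n) → Fin (2 * p + 1) → ℝ := fun y s =>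
    Fin.addCases (motive := fun _ => Fin (2 * p + 1) → ℝ)
      (fun i => clampV (f (y (Fin.castAdd u2 i)) s.2 +
        (8 / ε * (1 - ‖f (y (Fin.castAdd u2 i)) s.2‖)) • F y i s.2))
      (fun i => nrm ε (Z y (Fin.natAdd u1 i, s.2))) s.1
  have hG1 : ∀ y i j, G y (Fin.castAdd u2 i, j) = clampV (f (y (Fin.castAdd u2 i)) j +
      (8 / ε * (1 - ‖f (y (Fin.castAdd u2 i)) j‖)) • F y i j) := fun y i j =>
    Fin.addCases_left (motive := fun _ => Fin (2 * p + 1) → ℝ) i
  have hG2 : ∀ y i j, G y (Fin.natAdd u1 i, j) = nrm ε (Z y (Fin.natAdd u1 i, j)) := fun y i j =>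
    Fin.addCases_right (motive := fun _ => Fin (2 * p + 1) → ℝ) i
  refine ⟨u1 + u2, by omega, G, ?_, ?_, ?_, ?_⟩
  · refine continuous_pi fun s => ?_
    obtain ⟨b, j⟩ := s
    refine Fin.addCases (fun i => ?_) (fun i => ?_) b
    · simp only [hG1]
      exact continuous_clampV.comp ((hfc _ _).add
        ((continuous_const.mul (continuous_const.sub (hfc _ _).norm)).smul (hF i j)))
    · have hz : Continuous fun y => Z y (Fin.natAdd u1 i, j) :=
        (continuous_apply (Fin.natAdd u1 i, j)).comp hZc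
      have hz2 : Continuous fun y => nrm ε (Z y (Fin.natAdd u1 i, j)) :=
        (continuous_nrm hε0).comp hz
      exact hz2.congr fun y => (hG2 y i j).symm
  · intro y s k'
    obtain ⟨b, j⟩ := s
    revert k'
    refine Fin.addCases (fun i => ?_) (fun i => ?_) b
    · intro k'
      rw [hG1]
      exact abs_clampV_le _ _
    · intro k'
      rw [hG2]
      exact abs_le_of_norm (norm_nrm_le hε0 _) _
  · intro y
    have h1 := hε y
    have h2 : ({s | ε ≤ ‖Z y s‖} : Set (Fin (u1 + u2) × Fin n)).ncard ≤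
        ({s | Crest.OpAlg.IsBoundarySlot (G y s)} : Set (Fin (u1 + u2) × Fin n)).ncard := by
      refine Set.ncard_le_ncard ?_ (Set.toFinite _)
      rintro ⟨b, j⟩
      refine Fin.addCases (fun i => ?_) (fun i => ?_) b
      · intro hs
        have hs' : ε ≤ ‖F y i j‖ := by
          have : ε ≤ ‖Z y (Fin.castAdd u2 i, j)‖ := hs
          rwa [hZ1] at this
        show Crest.OpAlg.IsBoundarySlot (G y (Fin.castAdd u2 i, j))
        rw [hG1]
        refine push_boundary _ _ _ ε (norm_le_one_of_cube hfC _ _) (fun k' => ?_) (le_max_left _ _)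
          hε0 hs'
        exact (torusEmb_bound p _ k').trans (by norm_num)
      · intro hs
        show Crest.OpAlg.IsBoundarySlot (G y (Fin.natAdd u1 i, j))
        rw [hG2]
        exact isBoundary_of_norm (norm_nrm_eq hε0 _ hs)
    refine h1.trans ?_
    exact_mod_cast h2
  · intro y b j
    refine Fin.addCases (fun i => ?_) (fun i => ?_) b
    · intro hb
      have hn1 : ‖f (y (Fin.castAdd u2 i)) j‖ = 1 := norm_of_isBoundary (fun k' => hfC _ _ _) hb
      rw [hG1, hn1, sub_self, mul_zero, zero_smul, add_zero]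
      exact clampV_of_le fun k' => hfC _ _ _
    · intro hb
      have hn1 : ‖f (y (Fin.natAdd u1 i)) j‖ = 1 := norm_of_isBoundary (fun k' => hfC _ _ _) hb
      rw [hG2, hZ2, shift_of_lam_zero (lam_eq_zero (by rw [hn1]; norm_num))]
      exact nrm_of_norm_one hε1 _ hn1

end main

end Crest.Agent.R090.Asm_843
end

-- ▼ part R090/Spine_796
section

/-!
# Row 90, the spine (owner helper796): literal Props of the blocks and the glue between them

Part 1 : the conclusion of S0119 from the stable input `T5.SI`.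
-/

set_option autoImplicit false

open Topology Filter Set

namespace Crest.Agent.R090.Spine796

open OnePoint Crest.Agent.R090.Sp962 Crest.Agent.R090.T5 Crest.OpAlg

/-- **S0119 from the stable input.** -/
theorem result_of_SI (p n : ℕ) (hp : 1 ≤ p) (hn : 1 ≤ n) (a : ℝ) (ha : 0 < a)
    (ha' : a < 1 / 16) {Y : Type*} [TopologicalSpace Y] [CompactSpace Y] [T2Space Y]
    (f : Y → Fin n → Fin (2 * p + 1) → ℝ) (hf : Continuous f)
    (hfC : ∀ y, f y ∈ Crest.OpAlg.cube (2 * p + 1) n)
    (hSI : SI p n a f) (U : ℕ) :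
    ∃ u : ℕ, U ≤ u ∧ ∃ G : (Fin u → Y) → (Fin u × Fin n → Fin (2 * p + 1) → ℝ),
      Continuous G ∧ (∀ y s k, |G y s k| ≤ 1) ∧
      (∀ y, a / 8 * (u * n : ℝ) ≤
        (({s | Crest.OpAlg.IsBoundarySlot (G y s)} : Set (Fin u × Fin n)).ncard : ℝ)) ∧
      ∀ y (b : Fin u) (j : Fin n), Crest.OpAlg.IsBoundarySlot (f (y b) j) →
        G y (b, j) = f (y b) j := by
  obtain ⟨u, m, l, hu, hm, hΘ⟩ := HepCut865.thetaInput_of_SI hf hSI
  exact Asm_843.result_of_unstableInput p n hp hn a ha ha' f hf hfC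
    (unstableInput_of_groupMap hu hm (groupMap_of_phiInput (phiInput_of_thetaInput hΘ))) U

end Crest.Agent.R090.Spine796
end

-- ▼ part R090/Univ_639
section

/-!
# Row 90: reduction of S0119 to `Y : Type`

A compact metrizable space embeds in `ℕ →ᵇ ℝ : Type`, hence every compact metrizable space is
homeomorphic to one living in `Type`.  All data (`f`, `Φ`, `G`) are transported along this
homeomorphism.  So the whole stable side of row 90 may be done for spaces in `Type`.
-/

set_option autoImplicit false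

open Topology Filter Set

namespace Crest.Agent.R090.Univ639

universe u

/-- The conclusion of S0119. -/
def Concl (p n : ℕ) (a : ℝ) {Y : Type u} [TopologicalSpace Y]
    (f : Y → Fin n → Fin (2 * p + 1) → ℝ) (U : ℕ) : Prop :=
  ∃ u : ℕ, U ≤ u ∧ ∃ G : (Fin u → Y) → (Fin u × Fin n → Fin (2 * p + 1) → ℝ),
      Continuous G ∧ (∀ y s k, |G y s k| ≤ 1) ∧
      (∀ y, a / 8 * (u * n : ℝ) ≤
        (({s | Crest.OpAlg.IsBoundarySlot (G y s)} : Set (Fin u × Fin n)).ncard : ℝ)) ∧
      ∀ y (b : Fin u) (j : Fin n), Crest.OpAlg.IsBoundarySlot (f (y b) j) →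
        G y (b, j) = f (y b) j

/-- Transport of the conclusion along a homeomorphism. -/
theorem Concl.transport {p n : ℕ} {a : ℝ} {Y : Type u} [TopologicalSpace Y]
    {Y' : Type} [TopologicalSpace Y'] (e : Y ≃ₜ Y')
    (f : Y → Fin n → Fin (2 * p + 1) → ℝ) {U : ℕ}
    (h : Concl p n a (fun y' : Y' => f (e.symm y')) U) : Concl p n a f U := by
  obtain ⟨u, hu, G, hG, hG1, hG2, hG3⟩ := h
  refine ⟨u, hu, fun y => G (fun b => e (y b)), ?_, fun y s k => hG1 _ _ _, fun y => hG2 _, ?_⟩
  · exact hG.comp (continuous_pi fun b => e.continuous.comp (continuous_apply b))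
  · intro y b j hb
    have := hG3 (fun b => e (y b)) b j
    simp only [Homeomorph.symm_apply_apply] at this
    exact this hb

/-- Every compact metrizable space is homeomorphic to a compact metrizable space in `Type`. -/
theorem exists_small (Y : Type u) [TopologicalSpace Y] [CompactSpace Y]
    [TopologicalSpace.MetrizableSpace Y] :
    ∃ (Y' : Type) (_ : TopologicalSpace Y') (_ : CompactSpace Y')
      (_ : TopologicalSpace.MetrizableSpace Y'), Nonempty (Y ≃ₜ Y') := by
  letI : MetricSpace Y := TopologicalSpace.metrizableSpaceMetric Y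
  haveI : SecondCountableTopology Y := inferInstance
  obtain ⟨F, hF⟩ := TopologicalSpace.exists_embedding_l_infty Y
  let e : Y ≃ₜ Set.range F := hF.toHomeomorph
  haveI : CompactSpace (Set.range F) := e.compactSpace
  exact ⟨Set.range F, inferInstance, inferInstance, inferInstance, ⟨e⟩⟩

/-- The hypotheses of S0119 as one proposition. -/
structure Hyp (p n : ℕ) (a : ℝ) {Y : Type u} [TopologicalSpace Y]
    (f : Y → Fin n → Fin (2 * p + 1) → ℝ) (K : ℕ)
    (Φ : Y × (Fin n → Fin (2 * p) → Circle) → Matrix (Fin K) ((Fin 2 × Fin p) × Fin n) ℂ) :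
    Prop where
  cont : Continuous f
  cube : ∀ y, f y ∈ Crest.OpAlg.cube (2 * p + 1) n
  lt : K < 2 * p * n
  contΦ : ContinuousOn Φ (Crest.OpAlg.torusLocus p n (a * n) f)
  mono : ∀ q ∈ Crest.OpAlg.torusLocus p n (a * n) f, ∀ v : (Fin 2 × Fin p) × Fin n → ℂ,
      (Crest.OpAlg.totalProj p n q.2).mulVec v = v → (Φ q).mulVec v = 0 → v = 0

/-- Transport of the hypotheses along a homeomorphism. -/
theorem Hyp.transport {p n : ℕ} {a : ℝ} {Y : Type u} [TopologicalSpace Y]
    {Y' : Type} [TopologicalSpace Y'] (e : Y ≃ₜ Y')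
    {f : Y → Fin n → Fin (2 * p + 1) → ℝ} {K : ℕ}
    {Φ : Y × (Fin n → Fin (2 * p) → Circle) → Matrix (Fin K) ((Fin 2 × Fin p) × Fin n) ℂ}
    (h : Hyp p n a f K Φ) :
    Hyp p n a (fun y' : Y' => f (e.symm y')) K (fun q => Φ (e.symm q.1, q.2)) := by
  have hmem : ∀ q : Y' × (Fin n → Fin (2 * p) → Circle),
      q ∈ Crest.OpAlg.torusLocus p n (a * n) (fun y' : Y' => f (e.symm y')) →
      (e.symm q.1, q.2) ∈ Crest.OpAlg.torusLocus p n (a * n) f := fun q hq => hq
  refine ⟨h.cont.comp e.symm.continuous, fun y => h.cube _, h.lt, ?_, ?_⟩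
  · exact h.contΦ.comp (((e.symm.continuous.comp continuous_fst).prodMk
      continuous_snd).continuousOn) hmem
  · intro q hq v hv hv'
    exact h.mono _ (hmem q hq) v hv hv'

/-- **Reduction to `Y : Type`.** -/
theorem concl_of_small
    (H : ∀ (p n : ℕ), 1 ≤ p → 1 ≤ n → ∀ a : ℝ, 0 < a → a < 1 / 16 →
      ∀ (Y : Type) [TopologicalSpace Y] [CompactSpace Y] [TopologicalSpace.MetrizableSpace Y]
        (f : Y → Fin n → Fin (2 * p + 1) → ℝ) (K : ℕ)
        (Φ : Y × (Fin n → Fin (2 * p) → Circle) →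
          Matrix (Fin K) ((Fin 2 × Fin p) × Fin n) ℂ),
        Hyp p n a f K Φ → ∀ U : ℕ, Concl p n a f U)
    (p n : ℕ) (hp : 1 ≤ p) (hn : 1 ≤ n) (a : ℝ) (ha : 0 < a) (ha' : a < 1 / 16)
    (Y : Type u) [TopologicalSpace Y] [CompactSpace Y] [TopologicalSpace.MetrizableSpace Y]
    (f : Y → Fin n → Fin (2 * p + 1) → ℝ) (K : ℕ)
    (Φ : Y × (Fin n → Fin (2 * p) → Circle) →
      Matrix (Fin K) ((Fin 2 × Fin p) × Fin n) ℂ)
    (h : Hyp p n a f K Φ) (U : ℕ) : Concl p n a f U := by
  obtain ⟨Y', i1, i2, i3, ⟨e⟩⟩ := exists_small Y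
  exact Concl.transport e f (H p n hp hn a ha ha' Y' _ K _ (h.transport e) U)

/-- **S0119 from the stable input `T5.SI` for spaces in `Type`.** -/
theorem result_of_SI_small
    (H : ∀ (p n : ℕ), 1 ≤ p → 1 ≤ n → ∀ a : ℝ, 0 < a → a < 1 / 16 →
      ∀ (Y : Type) [TopologicalSpace Y] [CompactSpace Y] [TopologicalSpace.MetrizableSpace Y]
        (f : Y → Fin n → Fin (2 * p + 1) → ℝ) (K : ℕ)
        (Φ : Y × (Fin n → Fin (2 * p) → Circle) →
          Matrix (Fin K) ((Fin 2 × Fin p) × Fin n) ℂ),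
        Hyp p n a f K Φ → T5.SI p n a f)
    (p n : ℕ) (hp : 1 ≤ p) (hn : 1 ≤ n) (a : ℝ) (ha : 0 < a) (ha' : a < 1 / 16)
    (Y : Type u) [TopologicalSpace Y] [CompactSpace Y] [TopologicalSpace.MetrizableSpace Y]
    (f : Y → Fin n → Fin (2 * p + 1) → ℝ) (hf : Continuous f)
    (hfC : ∀ y, f y ∈ Crest.OpAlg.cube (2 * p + 1) n)
    (K : ℕ) (hK : K < 2 * p * n)
    (Φ : Y × (Fin n → Fin (2 * p) → Circle) → Matrix (Fin K) ((Fin 2 × Fin p) × Fin n) ℂ)
    (hΦ : ContinuousOn Φ (Crest.OpAlg.torusLocus p n (a * n) f))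
    (hmono : ∀ q ∈ Crest.OpAlg.torusLocus p n (a * n) f, ∀ v : (Fin 2 × Fin p) × Fin n → ℂ,
      (Crest.OpAlg.totalProj p n q.2).mulVec v = v → (Φ q).mulVec v = 0 → v = 0)
    (U : ℕ) :
    ∃ u : ℕ, U ≤ u ∧ ∃ G : (Fin u → Y) → (Fin u × Fin n → Fin (2 * p + 1) → ℝ),
      Continuous G ∧ (∀ y s k, |G y s k| ≤ 1) ∧
      (∀ y, a / 8 * (u * n : ℝ) ≤
        (({s | Crest.OpAlg.IsBoundarySlot (G y s)} : Set (Fin u × Fin n)).ncard : ℝ)) ∧
      ∀ y (b : Fin u) (j : Fin n), Crest.OpAlg.IsBoundarySlot (f (y b) j) →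
        G y (b, j) = f (y b) j :=
  concl_of_small (fun p n hp hn a ha ha' Y _ _ _ f K Φ h U =>
      Spine796.result_of_SI p n hp hn a ha ha' f h.cont h.cube
        (H p n hp hn a ha ha' Y f K Φ h) U)
    p n hp hn a ha ha' Y f K Φ ⟨hf, hfC, hK, hΦ, hmono⟩ U

end Crest.Agent.R090.Univ639
end

-- ▼ part R090/SpineDefs_796

/-!
# Row 90, the spine: literal Props of all arrows (integration captain helper796)

Everything lives in `Type`.  `St = St528.St`, `PP = Dens255.PP`, `Cyl = Cyl349.Cyl`.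

* `tens a b`      : `a ∧ b` = 202's `St.prod`;
* `SNull h`       : `h` kills every class `g : St (X' × T) (Fin j → ℝ)`, all lch `T`, all `j`;
* `iotaP Z K s l` : `P_{K,s+l} → P_{K,s}`;
* `IdQ q Z g`     : the ideal `I_q(M, Z)`;
* `permSt V a`    : the action of `a ∈ ℤ[Σ_κ]` on `V^κ`;
* `kappa f κ m`   : `P_{κ,m}(Cyl f, Z) → E^κ`;
* `PrimeKill`, `F0Out`, `F1Out`, and the arrows `...Stmt`.
-/

set_option autoImplicit false
set_option linter.unusedSectionVars false

open Topology Filter Set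

namespace Crest.Agent.R090.Spine

open OnePoint Crest.Agent.R090.Sp962 Crest.Agent.R090.St528 Crest.Agent.R090.Dens255
open Crest.Agent.R090.Pi568 Crest.Agent.R090.Block568 Crest.Agent.R090.Cyl349
open Crest.Agent.R090.F0_933 Crest.Agent.R090.Young152

/-- closed subspaces are locally compact -/
instance instLcClosed {X : Type*} [TopologicalSpace X] [LocallyCompactSpace X] {A : Set X}
    [hA : Fact (IsClosed A)] : LocallyCompactSpace A :=
  hA.out.isClosedEmbedding_subtypeVal.locallyCompactSpace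

/-! ## stable notions -/

section stable

variable {X X' Y Y' : Type} [TopologicalSpace X] [TopologicalSpace X'] [TopologicalSpace Y]
  [TopologicalSpace Y'] [T2Space X] [T2Space X'] [T2Space Y] [T2Space Y']
  [LocallyCompactSpace X] [LocallyCompactSpace X'] [LocallyCompactSpace Y]
  [LocallyCompactSpace Y']

/-- the external product `a ∧ b` of stable maps -/
noncomputable abbrev tens (a : St X X') (b : St Y Y') : St (X × Y) (X' × Y') := a.prod b

/-- `h` kills every cohomotopy class with sphere target, also after smashing with any space -/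
def SNull (h : St X X') : Prop :=
  ∀ (T : Type) [TopologicalSpace T] [T2Space T] [LocallyCompactSpace T] (j : ℕ)
    (g : St (X' × T) (Fin j → ℝ)), g.comp (h.smR T) = 0

/-- iterated composition of a stable self map -/
noncomputable def npow (a : St X X) : ℕ → St X X
  | 0 => St.id X
  | k + 1 => (npow a k).comp a

end stable

/-! ## the ideal -/

section ideal

variable {M : Type} [TopologicalSpace M] [T2Space M] [LocallyCompactSpace M]

/-- `P_{K,s+l} → P_{K,s}` -/
def iotaP (Z : Set M) [hZ : Fact (IsClosed Z)] (K s l : ℕ) :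
    PMap (PP Z (Fin K) (s + l)) (PP Z (Fin K) s) :=
  inclS (isClosed_PP hZ.out (s + l)) (PP_antitone Z (Nat.le_add_right s l))

/-- the ideal `I_q(M, Z)` in source form (sphere targets) -/
def IdQ (q : ℕ) (Z : Set M) [Fact (IsClosed Z)] {X X' : Type} [TopologicalSpace X]
    [TopologicalSpace X'] [T2Space X] [T2Space X'] [LocallyCompactSpace X]
    [LocallyCompactSpace X'] (g : St X X') : Prop :=
  ∃ l : ℕ, ∀ K s : ℕ, ∃ n : ℕ, ¬ q ∣ n ∧ SNull (n • tens (St.ofP (iotaP Z K s l)) g)

end ideal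

/-! ## group ring actions on powers -/

/-- the action of `a ∈ ℤ[Σ_κ]` on `V^κ` -/
noncomputable def permSt (V : Type) [TopologicalSpace V] [T2Space V] [LocallyCompactSpace V]
    {κ : Type} [Fintype κ] [DecidableEq κ] (a : MonoidAlgebra ℤ (Equiv.Perm κ)) :
    St (κ → V) (κ → V) :=
  ∑ σ : Equiv.Perm κ, a.coeff σ • St.ofP (PMap.ofHomeo (Strata973.perm (X := V) σ))

/-! ## the pair `(Cyl f, Z)` -/

section pair

variable {Z E : Type} [TopologicalSpace Z] [TopologicalSpace E] [T2Space Z] [T2Space E]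
  [LocallyCompactSpace Z] [LocallyCompactSpace E]

instance instFactRange (f : PMap Z E) : Fact (IsClosed (range (Cyl.iU f))) :=
  ⟨(Cyl.isClosedEmbedding_iU f).isClosed_range⟩

instance instFactPP {M : Type} [TopologicalSpace M] {Z : Set M} [hZ : Fact (IsClosed Z)]
    {κ : Type} [Finite κ] (m : ℕ) : Fact (IsClosed (PP Z κ m)) := ⟨isClosed_PP hZ.out m⟩

/-- `P_{κ,m}(Cyl f, Z) → E^κ` -/
noncomputable def kappa (f : PMap Z E) (κ : Type) [Fintype κ] (m : ℕ) :
    PMap (PP (range (Cyl.iU f)) κ m) (κ → E) :=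
  (pow κ (Cyl.ret f)).comp (incl (isClosed_PP (Cyl.isClosedEmbedding_iU f).isClosed_range m))

/-- for the prime `q`, a sparse power of `f` is killed by an integer prime to `q` -/
def PrimeKill (q : ℕ) (f : PMap Z E) : Prop :=
  ∃ u m n : ℕ, 0 < u ∧ 4 * m ≤ u ∧ ¬ q ∣ n ∧ n • St.ofP (kappa f (Fin u) m) = 0

end pair

/-! ## outputs of F0 and F1 -/

/-- **output of F0** (this contains I0): a closed subspace `A ≃ E × V` of `B`, `V` with `D` complex
cells, `B ∖ A` with `u` complex cells, and the composite `Z × V → E × V ≃ A → B` null -/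
def F0Out {Z E : Type} [TopologicalSpace Z] [T2Space Z] [LocallyCompactSpace Z]
    [TopologicalSpace E] [T2Space E] [LocallyCompactSpace E] (f : PMap Z E) (D u : ℕ) : Prop :=
  ∃ (V B : Type) (_ : TopologicalSpace V) (_ : T2Space V) (_ : LocallyCompactSpace V)
    (_ : TopologicalSpace B) (_ : T2Space B) (_ : LocallyCompactSpace B)
    (A : Set B) (hA : Fact (IsClosed A)) (θ : A ≃ₜ E × V),
    HasCells V D ∧ Nonempty (Flt A u) ∧
      (((incl hA.out).comp (PMap.ofHomeo θ.symm)).comp (f.smash (PMap.id V))).Null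

/-- **output of F1** for the Young element of parameters `D`, `c = q - 1` -/
def F1Out {Z E : Type} [TopologicalSpace Z] [T2Space Z] [LocallyCompactSpace Z]
    [TopologicalSpace E] [T2Space E] [LocallyCompactSpace E] (f : PMap Z E) (c D m : ℕ) : Prop :=
  ∃ (V : Type) (_ : TopologicalSpace V) (_ : T2Space V) (_ : LocallyCompactSpace V),
    HasCells V D ∧ ∃ L : ℕ,
      SNull (tens (St.ofP (kappa f (Fin (yr D c)) m)) (permSt V (yF D c ^ (L + 1))))

/-! ## the arrows -/

/-- (F0 + I0) [349, 96, 933, 806, 272; 417, 275, 491, 513] -/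
def F0Stmt : Prop :=
  ∀ (p n : ℕ), 1 ≤ p → 1 ≤ n → ∀ (Y : Type) [TopologicalSpace Y] [CompactSpace Y] [T2Space Y]
    (Z : Set (Y × T5.TT p n)) [Fact (IsClosed Z)] [CompactSpace Z] (K : ℕ)
    (Φ : Y × T5.TT p n → Matrix (Fin K) ((Fin 2 × Fin p) × Fin n) ℂ),
    K < 2 * p * n → Continuous Φ →
    (∀ x ∈ Z, ∀ v : (Fin 2 × Fin p) × Fin n → ℂ,
      (Crest.OpAlg.totalProj p n x.2).mulVec v = v → (Φ x).mulVec v = 0 → v = 0) →
    ∃ D u : ℕ, 0 < D ∧ 8 * u ≤ D ∧ F0Out (Glue264.fC Z) D u

/-- (F1) [737, 893, 663, 541, 973] -/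
def F1Stmt : Prop :=
  ∀ (α : Type) [Fintype α] [DecidableEq α] (Z : Type) [TopologicalSpace Z] [T2Space Z]
    [LocallyCompactSpace Z] (f : PMap Z (α → ℂ)) (c D u m : ℕ), 1 ≤ c → 0 < D →
    F0Out f D u → D * u < m → F1Out f c D m

/-- (F2) [466, 255] -/
def F2Stmt : Prop :=
  ∀ (M : Type) [TopologicalSpace M] [T2Space M] [LocallyCompactSpace M] (Z : Set M)
    [hZ : Fact (IsClosed Z)] (W : Type) [TopologicalSpace W] [T2Space W] [LocallyCompactSpace W]
    (a : St W W), SNull (tens (St.ofP (incl hZ.out)) a) →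
    ∀ K s : ℕ, SNull (tens (St.ofP (iotaP Z K s 1)) (npow a K))

/-- (E-IN-I) [466, 255] : from `F1Out` (and `F2Stmt`) the Young element is in the ideal of the pair
`(M_J, Z_J) = ((Cyl f)^r, P_{r,m})`, `r = yr D c` -/
def EInIStmt : Prop :=
  ∀ (Z E : Type) [TopologicalSpace Z] [T2Space Z] [LocallyCompactSpace Z] [TopologicalSpace E]
    [T2Space E] [LocallyCompactSpace E] (f : PMap Z E) (c D m : ℕ), (c + 1).Prime → 0 < D →
    F1Out f c D m →
    ∃ (V : Type) (_ : TopologicalSpace V) (_ : T2Space V) (_ : LocallyCompactSpace V),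
      HasCells V D ∧
      IdQ (c + 1) (PP (range (Cyl.iU f)) (Fin (yr D c)) m) (permSt V (yF D c))

/-- (A) [923, 253, 389, 902, 669, 554, 698, 297, 58, ...] -/
def AStmt : Prop :=
  ∀ (c D : ℕ), (c + 1).Prime → 0 < D →
    ∀ (V : Type) [TopologicalSpace V] [T2Space V] [LocallyCompactSpace V], HasCells V D →
    ∀ (M : Type) [TopologicalSpace M] [T2Space M] [LocallyCompactSpace M] (Z : Set M)
      [Fact (IsClosed Z)],
      IdQ (c + 1) Z (permSt V (yF D c)) → IdQ (c + 1) Z (St.id Unit)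

/-- (KILL) [568, 649] : `1_S ∈ I_q(M_J, Z_J)` and `4 (m - 1) < r` give `PrimeKill` -/
def KillStmt : Prop :=
  ∀ (α : Type) [Fintype α] [DecidableEq α] (Z : Type) [TopologicalSpace Z] [T2Space Z]
    [LocallyCompactSpace Z] (f : PMap Z (α → ℂ)) (q r m : ℕ), 1 ≤ m → 4 * (m - 1) < r →
    IdQ q (PP (range (Cyl.iU f)) (Fin r) m) (St.id Unit) → PrimeKill q f

/-- (GLUE) [264] -/
def GlueStmt : Prop :=
  ∀ (p n : ℕ), 1 ≤ p → 1 ≤ n → ∀ (a : ℝ) (Y : Type) [TopologicalSpace Y] [CompactSpace Y]
    [T2Space Y] (f : Y → Fin n → Fin (2 * p + 1) → ℝ), Continuous f →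
    ∀ (Z : Set (Y × T5.TT p n)) [Fact (IsClosed Z)] [CompactSpace Z],
      Crest.OpAlg.torusLocus p n (a * n) f ⊆ interior Z →
      (∀ q : ℕ, q.Prime → PrimeKill q (Glue264.fC Z)) → T5.SI p n a f

end Crest.Agent.R090.Spine
private theorem rz_f79957ce24 : type_of% @_root_.Crest.Agent.R090.Spine.npow.eq_def := @_root_.Crest.Agent.R090.Spine.npow.eq_def -- L58
private theorem rz_26c7f8e6ae : type_of% @_root_.Crest.Agent.R090.Spine.npow.eq_1 := @_root_.Crest.Agent.R090.Spine.npow.eq_1 -- L58
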