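import Mathlib

/-!
# Row 90, block HOM (helper58): Alexander-Spanier cohomology with compact supports, elementary form

Part 1: cochains on lists, differential, prism operator, cross product (pure list recursion),
cocycles/coboundaries of a pointed space and the cohomology `Hc F X x0`.
-/

set_option autoImplicit false

open Filter Topology Set

namespace Crest.Agent.R090.AS58

/-! ## cochains on lists -/

section alg

variable {F : Type} [CommRing F] {X Y : Type}

/-- `φ(x, ·)` -/
def cs (x : X) : (List X → F) →ₗ[F] (List X → F) where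
  toFun φ := fun l => φ (x :: l)
  map_add' _ _ := rfl
  map_smul' _ _ := rfl

@[simp] theorem cs_apply (x : X) (φ : List X → F) (l : List X) : cs x φ l = φ (x :: l) := rfl

/-- differential, auxiliary form -/
def dA : List X → (List X → F) → F
  | [], _ => 0
  | x :: l, φ => φ l - dA l (fun m => φ (x :: m))

theorem dA_add (l : List X) : ∀ φ ψ : List X → F, dA l (φ + ψ) = dA l φ + dA l ψ := by
  induction l with
  | nil => intro φ ψ; simp [dA]
  | cons x l ih =>
    intro φ ψ
    have := ih (fun m => φ (x :: m)) (fun m => ψ (x :: m))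
    have e : (fun m => (φ + ψ) (x :: m)) = (fun m => φ (x :: m)) + (fun m => ψ (x :: m)) := rfl
    simp only [dA, Pi.add_apply]
    have e' : (fun m => φ (x :: m) + ψ (x :: m)) = (fun m => φ (x :: m)) + (fun m => ψ (x :: m)) := rfl
    rw [e', this]; ring

theorem dA_smul (l : List X) : ∀ (c : F) (φ : List X → F), dA l (c • φ) = c * dA l φ := by
  induction l with
  | nil => intro c φ; simp [dA]
  | cons x l ih =>
    intro c φ
    have := ih c (fun m => φ (x :: m))
    simp only [dA, Pi.smul_apply, smul_eq_mul]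
    have e' : (fun m => c * φ (x :: m)) = c • (fun m => φ (x :: m)) := rfl
    rw [e', this]; ring

/-- differential -/
def d : (List X → F) →ₗ[F] (List X → F) where
  toFun φ := fun l => dA l φ
  map_add' φ ψ := funext fun l => dA_add l φ ψ
  map_smul' c φ := funext fun l => by simpa using dA_smul l c φ

@[simp] theorem d_nil (φ : List X → F) : d φ [] = 0 := rfl

theorem d_cons (φ : List X → F) (x : X) (l : List X) : d φ (x :: l) = φ l - d (cs x φ) l := rfl

theorem cs_d (φ : List X → F) (x : X) : cs x (d φ) = φ - d (cs x φ) := rfl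

theorem d_d_apply (l : List X) : ∀ φ : List X → F, d (d φ) l = 0 := by
  induction l with
  | nil => intro φ; rfl
  | cons x l ih =>
    intro φ
    rw [d_cons, cs_d, map_sub, Pi.sub_apply, ih]
    ring

@[simp] theorem d_d (φ : List X → F) : d (d φ) = 0 := funext fun l => d_d_apply l φ

theorem d_congr (l : List X) : ∀ (φ ψ : List X → F), (∀ m : List X, m ⊆ l → φ m = ψ m) →
    d φ l = d ψ l := by
  induction l with
  | nil => intro φ ψ _; rfl
  | cons x l ih =>
    intro φ ψ h
    rw [d_cons, d_cons, h l (List.subset_cons_self _ _), ih (cs x φ) (cs x ψ)]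
    intro m hm
    exact h (x :: m) (List.cons_subset_cons x hm)

theorem d_eq_zero {l : List X} {φ : List X → F} (h : ∀ m : List X, m ⊆ l → φ m = 0) :
    d φ l = 0 := by
  rw [d_congr l φ 0 (fun m hm => h m hm), map_zero]; rfl

/-- pull back -/
def pull (f : X → Y) : (List Y → F) →ₗ[F] (List X → F) where
  toFun φ := fun l => φ (l.map f)
  map_add' _ _ := rfl
  map_smul' _ _ := rfl

@[simp] theorem pull_apply (f : X → Y) (φ : List Y → F) (l : List X) :
    pull f φ l = φ (l.map f) := rfl

theorem d_pull_apply (f : X → Y) (l : List X) : ∀ φ : List Y → F,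
    d (pull f φ) l = pull f (d φ) l := by
  induction l with
  | nil => intro φ; rfl
  | cons x l ih =>
    intro φ
    have e : cs x (pull f φ) = pull f (cs (f x) φ) := rfl
    rw [d_cons, e, ih]
    rfl

theorem d_pull (f : X → Y) (φ : List Y → F) : d (pull f φ) = pull f (d φ) :=
  funext fun l => d_pull_apply f l φ

theorem pull_comp {Z : Type} (f : X → Y) (g : Y → Z) (φ : List Z → F) :
    pull (g ∘ f) φ = pull f (pull g φ) := by
  funext l; simp [List.map_map]

theorem pull_id (φ : List X → F) : pull id φ = φ := by funext l; simp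

/-! ### parity -/

/-- `(-1)^(length - 1)`, written `-(-1)^length` -/
def sg (φ : List X → F) : List X → F := fun l => -((-1) ^ l.length * φ l)

theorem sg_cs (x : X) (φ : List X → F) : cs x (sg φ) = - sg (cs x φ) := by
  funext l
  simp [sg, pow_succ]

/-- parity operator -/
def ev : (List X → F) →ₗ[F] (List X → F) where
  toFun φ := sg φ
  map_add' φ ψ := by funext l; simp [sg]; ring
  map_smul' c φ := by funext l; simp [sg]; ring

theorem ev_apply (φ : List X → F) (l : List X) : ev φ l = -((-1) ^ l.length * φ l) := rfl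

theorem cs_ev (x : X) (φ : List X → F) : cs x (ev φ) = - ev (cs x φ) := sg_cs x φ

theorem ev_ev (φ : List X → F) : ev (ev φ) = φ := by
  funext l
  simp only [ev_apply]
  have : ((-1 : F) ^ l.length) * (-1) ^ l.length = 1 := by
    rw [← mul_pow]; simp
  linear_combination (φ l) * this

theorem d_ev_apply (l : List X) : ∀ φ : List X → F, d (ev φ) l = - ev (d φ) l := by
  induction l with
  | nil => intro φ; simp [ev_apply]
  | cons x l ih =>
    intro φ
    rw [d_cons, cs_ev, map_neg, Pi.neg_apply, ih]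
    have e : ev (d φ) (x :: l) = -(ev (cs x (d φ)) l) := by
      have := congrFun (cs_ev x (d φ)) l
      simpa using this
    rw [e, cs_d]
    simp only [map_sub, Pi.sub_apply]
    ring

theorem d_ev (φ : List X → F) : d (ev φ) = - ev (d φ) := funext fun l => d_ev_apply l φ

theorem ev_pull (f : X → Y) (φ : List Y → F) : ev (pull f φ) = pull f (ev φ) := by
  funext l; simp [ev_apply]

/-! ### prism operator -/

/-- prism, auxiliary form -/
def prA (f g : X → Y) : List X → (List Y → F) → F
  | [], _ => 0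
  | x :: l, φ => φ (f x :: g x :: l.map g) - prA f g l (fun m => φ (f x :: m))

theorem prA_add (f g : X → Y) (l : List X) : ∀ φ ψ : List Y → F,
    prA f g l (φ + ψ) = prA f g l φ + prA f g l ψ := by
  induction l with
  | nil => intro φ ψ; simp [prA]
  | cons x l ih =>
    intro φ ψ
    have := ih (cs (f x) φ) (cs (f x) ψ)
    rw [← map_add] at this
    change (φ + ψ) _ - prA f g l (cs (f x) (φ + ψ)) = _
    rw [this]
    change _ = (φ _ - prA f g l (cs (f x) φ)) + (ψ _ - prA f g l (cs (f x) ψ))
    simp only [Pi.add_apply]; ring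

theorem prA_smul (f g : X → Y) (l : List X) : ∀ (c : F) (φ : List Y → F),
    prA f g l (c • φ) = c * prA f g l φ := by
  induction l with
  | nil => intro c φ; simp [prA]
  | cons x l ih =>
    intro c φ
    have := ih c (cs (f x) φ)
    rw [← map_smul] at this
    change (c • φ) _ - prA f g l (cs (f x) (c • φ)) = _
    rw [this]
    change _ = c * (φ _ - prA f g l (cs (f x) φ))
    simp only [Pi.smul_apply, smul_eq_mul]; ring

/-- prism operator for two functions -/
def pr (f g : X → Y) : (List Y → F) →ₗ[F] (List X → F) where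
  toFun φ := fun l => prA f g l φ
  map_add' φ ψ := funext fun l => prA_add f g l φ ψ
  map_smul' c φ := funext fun l => by simpa using prA_smul f g l c φ

@[simp] theorem pr_nil (f g : X → Y) (φ : List Y → F) : pr f g φ [] = 0 := rfl

theorem pr_cons (f g : X → Y) (φ : List Y → F) (x : X) (l : List X) :
    pr f g φ (x :: l) = φ (f x :: g x :: l.map g) - pr f g (cs (f x) φ) l := rfl

theorem prism_apply (f g : X → Y) (l : List X) : ∀ φ : List Y → F,
    d (pr f g φ) l + pr f g (d φ) l = φ (l.map g) - φ (l.map f) := by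
  induction l with
  | nil => intro φ; simp
  | cons x l ih =>
    intro φ
    have e1 : cs x (pr f g φ) =
        pull g (cs (g x) (cs (f x) φ)) - pr f g (cs (f x) φ) := rfl
    rw [d_cons, pr_cons, e1, map_sub, Pi.sub_apply, d_pull, cs_d, map_sub (pr f g)]
    have e2 : pull g (d (cs (g x) (cs (f x) φ))) l =
        cs (f x) φ (l.map g) - (d (cs (f x) φ)) (g x :: l.map g) := by
      rw [pull_apply, d_cons]; ring
    have e3 : (d φ) (f x :: g x :: l.map g) = φ (g x :: l.map g) -
        d (cs (f x) φ) (g x :: l.map g) := d_cons _ _ _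
    rw [e2, e3]
    have := ih (cs (f x) φ)
    simp only [Pi.sub_apply, cs_apply, List.map_cons] at this ⊢
    linear_combination this

theorem prism (f g : X → Y) (φ : List Y → F) :
    pull g φ - pull f φ = d (pr f g φ) + pr f g (d φ) := by
  funext l
  exact (prism_apply f g l φ).symm

theorem pr_congr (f g : X → Y) (l : List X) : ∀ (φ ψ : List Y → F),
    (∀ m : List Y, m ⊆ l.map f ++ l.map g → φ m = ψ m) → pr f g φ l = pr f g ψ l := by
  induction l with
  | nil => intro φ ψ _; rfl
  | cons x l ih =>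
    intro φ ψ h
    rw [pr_cons, pr_cons, ih (cs (f x) φ) (cs (f x) ψ), h]
    · intro y hy
      simp only [List.map_cons, List.cons_append, List.mem_cons, List.mem_append] at hy ⊢
      tauto
    · intro m hm
      refine h (f x :: m) ?_
      intro y hy
      simp only [List.map_cons, List.cons_append, List.mem_cons, List.mem_append] at hy ⊢
      rcases hy with hy | hy
      · exact Or.inl hy
      · have := hm hy
        simp only [List.mem_append] at this
        tauto

theorem pr_eq_zero {f g : X → Y} {l : List X} {φ : List Y → F}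
    (h : ∀ m : List Y, m ⊆ l.map f ++ l.map g → φ m = 0) : pr f g φ l = 0 := by
  rw [pr_congr f g l φ 0 (fun m hm => h m hm), map_zero]; rfl

/-! ### cross product -/

/-- cross product, auxiliary form -/
def crA : List (X × Y) → (List X → F) → (List Y → F) → F
  | [], _, _ => 0
  | z :: l, φ, ψ => φ [z.1] * ψ (z.2 :: l.map Prod.snd) + crA l (fun m => φ (z.1 :: m)) ψ

/-- cross product of cochains -/
def cr (φ : List X → F) (ψ : List Y → F) : List (X × Y) → F := fun l => crA l φ ψ

@[simp] theorem cr_nil (φ : List X → F) (ψ : List Y → F) : cr φ ψ [] = 0 := rfl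

theorem cr_cons (φ : List X → F) (ψ : List Y → F) (z : X × Y) (l : List (X × Y)) :
    cr φ ψ (z :: l) = φ [z.1] * ψ (z.2 :: l.map Prod.snd) + cr (cs z.1 φ) ψ l := rfl

theorem cr_congr (l : List (X × Y)) : ∀ (φ φ' : List X → F) (ψ ψ' : List Y → F),
    (∀ m : List X, m ⊆ l.map Prod.fst → φ m = φ' m) →
    (∀ m : List Y, m ⊆ l.map Prod.snd → ψ m = ψ' m) → cr φ ψ l = cr φ' ψ' l := by
  induction l with
  | nil => intro φ φ' ψ ψ' _ _; rfl
  | cons z l ih =>
    intro φ φ' ψ ψ' h h'
    rw [cr_cons, cr_cons, ih (cs z.1 φ) (cs z.1 φ') ψ ψ', h, h']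
    · intro y hy; simpa using hy
    · intro y hy
      simp only [List.mem_cons, List.not_mem_nil, or_false] at hy
      simp [hy]
    · intro m hm
      refine h (z.1 :: m) ?_
      simp only [List.map_cons]
      exact List.cons_subset_cons _ hm
    · intro m hm
      refine h' m ?_
      simp only [List.map_cons]
      exact fun y hy => List.mem_cons_of_mem _ (hm hy)

theorem cr_add_left (l : List (X × Y)) : ∀ (φ φ' : List X → F) (ψ : List Y → F),
    cr (φ + φ') ψ l = cr φ ψ l + cr φ' ψ l := by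
  induction l with
  | nil => intro φ φ' ψ; simp
  | cons z l ih =>
    intro φ φ' ψ
    rw [cr_cons, cr_cons, cr_cons, map_add, ih]
    simp only [Pi.add_apply]; ring

theorem cr_add_right (l : List (X × Y)) : ∀ (φ : List X → F) (ψ ψ' : List Y → F),
    cr φ (ψ + ψ') l = cr φ ψ l + cr φ ψ' l := by
  induction l with
  | nil => intro φ ψ ψ'; simp
  | cons z l ih =>
    intro φ ψ ψ'
    rw [cr_cons, cr_cons, cr_cons, ih]
    simp only [Pi.add_apply]; ring

theorem cr_smul_left (l : List (X × Y)) : ∀ (c : F) (φ : List X → F) (ψ : List Y → F),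
    cr (c • φ) ψ l = c * cr φ ψ l := by
  induction l with
  | nil => intro c φ ψ; simp
  | cons z l ih =>
    intro c φ ψ
    rw [cr_cons, cr_cons, map_smul, ih]
    simp only [Pi.smul_apply, smul_eq_mul]; ring

theorem cr_smul_right (l : List (X × Y)) : ∀ (c : F) (φ : List X → F) (ψ : List Y → F),
    cr φ (c • ψ) l = c * cr φ ψ l := by
  induction l with
  | nil => intro c φ ψ; simp
  | cons z l ih =>
    intro c φ ψ
    rw [cr_cons, cr_cons, ih]
    simp only [Pi.smul_apply, smul_eq_mul]; ring

/-- bilinear cross product -/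
def crL : (List X → F) →ₗ[F] (List Y → F) →ₗ[F] (List (X × Y) → F) :=
  LinearMap.mk₂ F cr (fun φ φ' ψ => funext fun l => cr_add_left l φ φ' ψ)
    (fun c φ ψ => funext fun l => by simpa using cr_smul_left l c φ ψ)
    (fun φ ψ ψ' => funext fun l => cr_add_right l φ ψ ψ')
    (fun c φ ψ => funext fun l => by simpa using cr_smul_right l c φ ψ)

@[simp] theorem crL_apply (φ : List X → F) (ψ : List Y → F) : crL φ ψ = cr φ ψ := rfl

theorem cr_neg_left (φ : List X → F) (ψ : List Y → F) : cr (-φ) ψ = - cr φ ψ := by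
  rw [← crL_apply, ← crL_apply, map_neg, LinearMap.neg_apply]

theorem cr_sub_left (φ φ' : List X → F) (ψ : List Y → F) :
    cr (φ - φ') ψ = cr φ ψ - cr φ' ψ := by
  rw [← crL_apply, ← crL_apply, ← crL_apply, map_sub, LinearMap.sub_apply]

theorem cr_add_left' (φ φ' : List X → F) (ψ : List Y → F) :
    cr (φ + φ') ψ = cr φ ψ + cr φ' ψ := funext fun l => cr_add_left l φ φ' ψ

theorem cr_add_right' (φ : List X → F) (ψ ψ' : List Y → F) :
    cr φ (ψ + ψ') = cr φ ψ + cr φ ψ' := funext fun l => cr_add_right l φ ψ ψ'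



theorem cr_zero_left (ψ : List Y → F) : cr (0 : List X → F) ψ = 0 := by
  rw [← crL_apply, map_zero, LinearMap.zero_apply]

theorem cr_zero_right (φ : List X → F) : cr φ (0 : List Y → F) = 0 := by
  rw [← crL_apply, map_zero]

theorem cr_leibniz_apply (l : List (X × Y)) : ∀ (φ : List X → F) (ψ : List Y → F), ψ [] = 0 →
    d (cr φ ψ) l = cr (d φ) ψ l + cr (ev φ) (d ψ) l - φ [] * ψ (l.map Prod.snd) := by
  induction l with
  | nil => intro φ ψ h; simp [h]
  | cons z l ih =>
    intro φ ψ h
    obtain ⟨x, y⟩ := z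
    have e1 : cs (x, y) (cr φ ψ) =
        φ [x] • pull Prod.snd (cs y ψ) + cr (cs x φ) ψ := rfl
    rw [d_cons, e1, map_add, map_smul, d_pull, Pi.add_apply, Pi.smul_apply, ih _ _ h, cr_cons,
      cr_cons, cs_d, cs_ev, cr_neg_left, cr_sub_left]
    have e2 : (d φ) [x] = φ [] := by rw [d_cons]; simp
    have e3 : ev φ [x] = φ [x] := by simp [ev_apply]
    have e4 : d (cs y ψ) (l.map Prod.snd) = ψ (l.map Prod.snd) - d ψ (y :: l.map Prod.snd) := by
      rw [d_cons]; ring
    simp only [e2, e3, pull_apply, e4, Pi.sub_apply, Pi.neg_apply, smul_eq_mul, cs_apply,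
      List.map_cons]
    ring

theorem cr_leibniz {φ : List X → F} {ψ : List Y → F} (h0 : φ [] = 0) (h : ψ [] = 0) :
    d (cr φ ψ) = cr (d φ) ψ + cr (ev φ) (d ψ) := by
  funext l
  rw [cr_leibniz_apply l φ ψ h, h0]
  simp

theorem pull_cr {X' Y' : Type} (f : X' → X) (g : Y' → Y) (l : List (X' × Y')) :
    ∀ (φ : List X → F) (ψ : List Y → F),
    cr φ ψ (l.map (Prod.map f g)) = cr (pull f φ) (pull g ψ) l := by
  induction l with
  | nil => intro φ ψ; rfl
  | cons z l ih =>
    intro φ ψ
    obtain ⟨x, y⟩ := z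
    rw [List.map_cons, cr_cons, cr_cons, ih]
    have e : cs x (pull f φ) = pull f (cs (f x) φ) := rfl
    simp only [Prod.map_apply, e, pull_apply, List.map_cons, List.map_nil, List.map_map]
    rfl

theorem pull_cr' {X' Y' : Type} (f : X' → X) (g : Y' → Y) (φ : List X → F) (ψ : List Y → F) :
    pull (Prod.map f g) (cr φ ψ) = cr (pull f φ) (pull g ψ) :=
  funext fun l => pull_cr f g l φ ψ

theorem ev_cr_apply (l : List (X × Y)) : ∀ (φ : List X → F) (ψ : List Y → F),
    ev (cr φ ψ) l = cr (ev φ) (ev ψ) l := by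
  induction l with
  | nil => intro φ ψ; simp [ev_apply]
  | cons z l ih =>
    intro φ ψ
    obtain ⟨x, y⟩ := z
    have e1 : ev (cr φ ψ) ((x, y) :: l) = -(ev (cs (x, y) (cr φ ψ)) l) := by
      have := congrFun (cs_ev (x, y) (cr φ ψ)) l
      simpa using this
    have e2 : cs (x, y) (cr φ ψ) =
        φ [x] • pull Prod.snd (cs y ψ) + cr (cs x φ) ψ := rfl
    have e3 : ev (cs y ψ) (l.map Prod.snd) = -(ev ψ (y :: l.map Prod.snd)) := by
      have h := congrFun (cs_ev y ψ) (l.map Prod.snd)
      change ev ψ (y :: l.map Prod.snd) = -(ev (cs y ψ) (l.map Prod.snd)) at h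
      rw [h, neg_neg]
    rw [e1, e2, map_add, map_smul, ev_pull, Pi.add_apply, Pi.smul_apply, ih, cr_cons, cs_ev,
      cr_neg_left, pull_apply, e3]
    simp only [ev_apply, smul_eq_mul, List.length_cons, List.length_nil, Pi.neg_apply]
    ring

theorem ev_cr (φ : List X → F) (ψ : List Y → F) : ev (cr φ ψ) = cr (ev φ) (ev ψ) :=
  funext fun l => ev_cr_apply l φ ψ

/-- associativity of the cross product -/
theorem cr_assoc_apply {Z : Type} (l : List (X × Y × Z)) :
    ∀ (φ : List X → F) (ψ : List Y → F) (χ : List Z → F),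
    cr (cr φ ψ) χ (l.map (Equiv.prodAssoc X Y Z).symm) = cr φ (cr ψ χ) l := by
  induction l with
  | nil => intro φ ψ χ; rfl
  | cons z l ih =>
    intro φ ψ χ
    obtain ⟨x, y, z⟩ := z
    have e2 : cs (x, y) (cr φ ψ) =
        φ [x] • pull Prod.snd (cs y ψ) + cr (cs x φ) ψ := rfl
    rw [List.map_cons, cr_cons, cr_cons]
    simp only [Equiv.prodAssoc_symm_apply, e2]
    rw [cr_add_left, cr_smul_left, ih, cr_cons]
    have e3 : cr (pull Prod.snd (cs y ψ)) χ (l.map (Equiv.prodAssoc X Y Z).symm) =
        cr (cs y ψ) χ (l.map Prod.snd) := by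
      have := pull_cr (F := F) (Prod.snd : X × Y → Y) (id : Z → Z)
        (l.map (Equiv.prodAssoc X Y Z).symm) (cs y ψ) χ
      rw [pull_id, List.map_map] at this
      rw [← this]
      rfl
    rw [e3]
    simp only [cr_cons, cr_nil, add_zero, List.map_nil, List.map_map, Function.comp_def,
      Equiv.prodAssoc_symm_apply]
    ring

/-! ### the symmetry homotopy (cup-1) -/

/-- the opposite cross product with Koszul sign, auxiliary form -/
def rcA : List (X × Y) → (List X → F) → (List Y → F) → F
  | [], _, _ => 0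
  | z :: l, φ, ψ => ψ [z.2] * φ (z.1 :: l.map Prod.fst) + rcA l (ev φ) (fun m => ψ (z.2 :: m))

/-- the opposite cross product `Σ_p ± ψ(y_0..y_p) φ(x_p..x_n)` with Koszul sign -/
def rc (φ : List X → F) (ψ : List Y → F) : List (X × Y) → F := fun l => rcA l φ ψ

@[simp] theorem rc_nil (φ : List X → F) (ψ : List Y → F) : rc φ ψ [] = 0 := rfl

theorem rc_cons (φ : List X → F) (ψ : List Y → F) (z : X × Y) (l : List (X × Y)) :
    rc φ ψ (z :: l) = ψ [z.2] * φ (z.1 :: l.map Prod.fst) + rc (ev φ) (cs z.2 ψ) l := rfl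

theorem rc_add_left (l : List (X × Y)) : ∀ (φ φ' : List X → F) (ψ : List Y → F),
    rc (φ + φ') ψ l = rc φ ψ l + rc φ' ψ l := by
  induction l with
  | nil => intro φ φ' ψ; simp
  | cons z l ih =>
    intro φ φ' ψ
    rw [rc_cons, rc_cons, rc_cons, map_add, ih]
    simp only [Pi.add_apply]; ring

theorem rc_smul_left (l : List (X × Y)) : ∀ (c : F) (φ : List X → F) (ψ : List Y → F),
    rc (c • φ) ψ l = c * rc φ ψ l := by
  induction l with
  | nil => intro c φ ψ; simp
  | cons z l ih =>
    intro c φ ψ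
    rw [rc_cons, rc_cons, map_smul, ih]
    simp only [Pi.smul_apply, smul_eq_mul]; ring

theorem rc_neg_left (l : List (X × Y)) (φ : List X → F) (ψ : List Y → F) :
    rc (-φ) ψ l = - rc φ ψ l := by
  have := rc_smul_left l (-1) φ ψ
  simpa using this

theorem rc_sub_left (l : List (X × Y)) (φ φ' : List X → F) (ψ : List Y → F) :
    rc (φ - φ') ψ l = rc φ ψ l - rc φ' ψ l := by
  rw [sub_eq_add_neg, rc_add_left, rc_neg_left, ← sub_eq_add_neg]

theorem rc_add_right (l : List (X × Y)) : ∀ (φ : List X → F) (ψ ψ' : List Y → F),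
    rc φ (ψ + ψ') l = rc φ ψ l + rc φ ψ' l := by
  induction l with
  | nil => intro φ ψ ψ'; simp
  | cons z l ih =>
    intro φ ψ ψ'
    rw [rc_cons, rc_cons, rc_cons, map_add, ih]
    simp only [Pi.add_apply]; ring

theorem rc_smul_right (l : List (X × Y)) : ∀ (c : F) (φ : List X → F) (ψ : List Y → F),
    rc φ (c • ψ) l = c * rc φ ψ l := by
  induction l with
  | nil => intro c φ ψ; simp
  | cons z l ih =>
    intro c φ ψ
    rw [rc_cons, rc_cons, map_smul, ih]
    simp only [Pi.smul_apply, smul_eq_mul]; ring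

theorem rc_neg_right (l : List (X × Y)) (φ : List X → F) (ψ : List Y → F) :
    rc φ (-ψ) l = - rc φ ψ l := by
  have := rc_smul_right l (-1) φ ψ
  simpa using this

theorem rc_sub_right (l : List (X × Y)) (φ : List X → F) (ψ ψ' : List Y → F) :
    rc φ (ψ - ψ') l = rc φ ψ l - rc φ ψ' l := by
  rw [sub_eq_add_neg, rc_add_right, rc_neg_right, ← sub_eq_add_neg]

theorem rc_congr (l : List (X × Y)) : ∀ (φ φ' : List X → F) (ψ ψ' : List Y → F),
    (∀ m : List X, m ⊆ l.map Prod.fst → φ m = φ' m) →
    (∀ m : List Y, m ⊆ l.map Prod.snd → ψ m = ψ' m) → rc φ ψ l = rc φ' ψ' l := by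
  induction l with
  | nil => intro φ φ' ψ ψ' _ _; rfl
  | cons z l ih =>
    intro φ φ' ψ ψ' h h'
    rw [rc_cons, rc_cons, ih (ev φ) (ev φ') (cs z.2 ψ) (cs z.2 ψ'), h, h']
    · intro y hy
      simp only [List.mem_cons, List.not_mem_nil, or_false] at hy
      simp [hy]
    · intro y hy; simpa using hy
    · intro m hm
      rw [ev_apply, ev_apply, h m]
      simp only [List.map_cons]
      exact fun y hy => List.mem_cons_of_mem _ (hm hy)
    · intro m hm
      refine h' (z.2 :: m) ?_
      simp only [List.map_cons]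
      exact List.cons_subset_cons _ hm

theorem rc_leibniz_apply (l : List (X × Y)) : ∀ (φ : List X → F) (ψ : List Y → F),
    d (rc φ ψ) l = rc (d φ) ψ l + rc (ev φ) (d ψ) l - φ [] * ψ (l.map Prod.snd)
      - ev φ (l.map Prod.fst) * ψ [] := by
  induction l with
  | nil => intro φ ψ; simp [ev_apply]
  | cons z l ih =>
    intro φ ψ
    obtain ⟨x, y⟩ := z
    have e1 : cs (x, y) (rc φ ψ) =
        ψ [y] • pull Prod.fst (cs x φ) + rc (ev φ) (cs y ψ) := rfl
    rw [d_cons, e1, map_add, map_smul, d_pull, Pi.add_apply, Pi.smul_apply, ih, rc_cons,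
      rc_cons, cs_d, d_ev, ev_ev, rc_neg_left, rc_sub_right]
    have e2 : (d ψ) [y] = ψ [] := by rw [d_cons]; simp
    have e4 : d (cs x φ) (l.map Prod.fst) = φ (l.map Prod.fst) - d φ (x :: l.map Prod.fst) := by
      rw [d_cons]; ring
    have e5 : ev φ [] = - φ [] := by simp [ev_apply]
    simp only [e2, e5, pull_apply, e4, smul_eq_mul, cs_apply, List.map_cons]
    ring


/-- cup-1 homotopy, auxiliary form -/
def c1A : List (X × Y) → (List X → F) → (List Y → F) → F
  | [], _, _ => 0
  | z :: l, φ, ψ => - rc (ev (cs z.1 φ)) (cs z.2 ψ) l - c1A l (cs z.1 φ) ψ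

/-- cup-1 homotopy -/
def c1 (φ : List X → F) (ψ : List Y → F) : List (X × Y) → F := fun l => c1A l φ ψ

@[simp] theorem c1_nil (φ : List X → F) (ψ : List Y → F) : c1 φ ψ [] = 0 := rfl

theorem c1_cons (φ : List X → F) (ψ : List Y → F) (z : X × Y) (l : List (X × Y)) :
    c1 φ ψ (z :: l) = - rc (ev (cs z.1 φ)) (cs z.2 ψ) l - c1 (cs z.1 φ) ψ l := rfl

theorem c1_smul_left (l : List (X × Y)) : ∀ (c : F) (φ : List X → F) (ψ : List Y → F),
    c1 (c • φ) ψ l = c * c1 φ ψ l := by
  induction l with
  | nil => intro c φ ψ; simp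
  | cons z l ih =>
    intro c φ ψ
    rw [c1_cons, c1_cons, map_smul, map_smul, rc_smul_left, ih]; ring

theorem c1_add_left (l : List (X × Y)) : ∀ (φ φ' : List X → F) (ψ : List Y → F),
    c1 (φ + φ') ψ l = c1 φ ψ l + c1 φ' ψ l := by
  induction l with
  | nil => intro φ φ' ψ; simp
  | cons z l ih =>
    intro φ φ' ψ
    rw [c1_cons, c1_cons, c1_cons, map_add, map_add, rc_add_left, ih]; ring

theorem c1_neg_left (l : List (X × Y)) (φ : List X → F) (ψ : List Y → F) :
    c1 (-φ) ψ l = - c1 φ ψ l := by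
  have := c1_smul_left l (-1) φ ψ
  simpa using this

theorem c1_sub_left (l : List (X × Y)) (φ φ' : List X → F) (ψ : List Y → F) :
    c1 (φ - φ') ψ l = c1 φ ψ l - c1 φ' ψ l := by
  rw [sub_eq_add_neg, c1_add_left, c1_neg_left, ← sub_eq_add_neg]

theorem c1_congr (l : List (X × Y)) : ∀ (φ φ' : List X → F) (ψ ψ' : List Y → F),
    (∀ m : List X, m ⊆ l.map Prod.fst → φ m = φ' m) →
    (∀ m : List Y, m ⊆ l.map Prod.snd → ψ m = ψ' m) → c1 φ ψ l = c1 φ' ψ' l := by
  induction l with
  | nil => intro φ φ' ψ ψ' _ _; rfl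
  | cons z l ih =>
    intro φ φ' ψ ψ' h h'
    have h1 : ∀ m : List X, m ⊆ l.map Prod.fst → (cs z.1 φ) m = (cs z.1 φ') m := by
      intro m hm
      refine h (z.1 :: m) ?_
      simp only [List.map_cons]
      exact List.cons_subset_cons _ hm
    have h2 : ∀ m : List Y, m ⊆ l.map Prod.snd → (cs z.2 ψ) m = (cs z.2 ψ') m := by
      intro m hm
      refine h' (z.2 :: m) ?_
      simp only [List.map_cons]
      exact List.cons_subset_cons _ hm
    rw [c1_cons, c1_cons, ih _ (cs z.1 φ') ψ ψ' h1, rc_congr l _ (ev (cs z.1 φ')) _ (cs z.2 ψ') _ h2]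
    · intro m hm
      rw [ev_apply, ev_apply, h1 m hm]
    · intro m hm
      refine h' m ?_
      simp only [List.map_cons]
      exact fun y hy => List.mem_cons_of_mem _ (hm hy)

/-- the cup-1 homotopy: graded commutativity of the cross product -/
theorem c1_homotopy_apply (l : List (X × Y)) : ∀ (φ : List X → F) (ψ : List Y → F),
    d (c1 φ ψ) l + c1 (d φ) ψ l + c1 (ev φ) (d ψ) l = cr φ ψ l - rc φ ψ l := by
  induction l with
  | nil => intro φ ψ; simp
  | cons z l ih =>
    intro φ ψ
    obtain ⟨x, y⟩ := z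
    have e1 : cs (x, y) (c1 φ ψ) = -rc (ev (cs x φ)) (cs y ψ) - c1 (cs x φ) ψ := rfl
    have ihx := ih (cs x φ) ψ
    rw [d_cons, e1, map_sub, map_neg, Pi.sub_apply, Pi.neg_apply, rc_leibniz_apply, c1_cons,
      c1_cons, cr_cons, rc_cons]
    simp only [cs_d, map_sub, d_ev, cs_ev, ev_ev, map_neg]
    have e3 : ev (cs x φ) [] = - φ [x] := by simp [ev_apply]
    have e6 : ∀ χ : List X → F, rc (-χ) (cs y ψ) l = - rc χ (cs y ψ) l := fun χ => rc_neg_left l χ _
    have e7 : rc (-cs x φ) (ψ - d (cs y ψ)) l =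
        - (rc (cs x φ) ψ l - rc (cs x φ) (d (cs y ψ)) l) := by
      rw [rc_neg_left, rc_sub_right]
    have e8 : c1 (-ev (cs x φ)) (d ψ) l = - c1 (ev (cs x φ)) (d ψ) l := c1_neg_left l _ _
    rw [rc_sub_left, c1_sub_left, e6, e7, e8, e3]
    simp only [cs_apply]
    linear_combination ihx

end alg

end Crest.Agent.R090.AS58
private theorem rz_8502236d40 : type_of% @_root_.Crest.Agent.R090.AS58.dA.eq_def := @_root_.Crest.Agent.R090.AS58.dA.eq_def -- L31
private theorem rz_348cdfd258 : type_of% @_root_.Crest.Agent.R090.AS58.dA.eq_1 := @_root_.Crest.Agent.R090.AS58.dA.eq_1 -- L31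
private theorem rz_3f9e43b7c1 : type_of% @_root_.Crest.Agent.R090.AS58.prA.eq_def := @_root_.Crest.Agent.R090.AS58.prA.eq_def -- L167
private theorem rz_a1a62c7411 : type_of% @_root_.Crest.Agent.R090.AS58.prA.eq_1 := @_root_.Crest.Agent.R090.AS58.prA.eq_1 -- L167
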