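import Crest.Agent.R090.Orb_389
import Crest.Agent.R090.Cone_962

/-!
# Row 90, leaf A-POW (3): free `G`-spaces, equivariant closed/open pairs, cells `G × L`,
balanced products `Orb G (A × T)` (helper389)
-/

set_option autoImplicit false
set_option linter.unusedSectionVars false

open Topology Filter Set

namespace Crest.Agent.R090.GSp389

open OnePoint Crest.Agent.R090.Sp962 Crest.Agent.R090.Orb389

universe u v w

/-- free locally compact Hausdorff `G`-spaces (bundled) -/
structure GSp (G : Type) [Group G] where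
  /-- the space -/
  X : Type
  [top : TopologicalSpace X]
  [t2 : T2Space X]
  [lc : LocallyCompactSpace X]
  [act : MulAction G X]
  [cc : ContinuousConstSMul G X]
  free : ∀ (g : G) (x : X), g • x = x → g = 1

attribute [instance] GSp.top GSp.t2 GSp.lc GSp.act GSp.cc

/-- equivariant decomposition of `T` into a closed part `F` and the complementary open part `O` -/
structure GPair {G : Type} [Group G] (F T O : GSp G) where
  /-- closed part -/
  i : F.X → T.X
  /-- open part -/
  j : O.X → T.X
  ic : IsClosedEmbedding i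
  jo : IsOpenEmbedding j
  ie : ∀ (g : G) (x : F.X), i (g • x) = g • i x
  je : ∀ (g : G) (x : O.X), j (g • x) = g • j x
  compl : range j = (range i)ᶜ

/-! ## cells -/

/-- `G × L` with translations on the first factor -/
def Cell (G L : Type) : Type := G × L

/-- constructor -/
def Cell.mk {G L : Type} (g : G) (y : L) : Cell G L := (g, y)

namespace Cell

variable {G : Type} [Group G] {L : Type}

instance [TopologicalSpace G] [TopologicalSpace L] : TopologicalSpace (Cell G L) :=
  inferInstanceAs (TopologicalSpace (G × L))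

instance [TopologicalSpace G] [DiscreteTopology G] [TopologicalSpace L] [T2Space L] :
    T2Space (Cell G L) := inferInstanceAs (T2Space (G × L))

instance [TopologicalSpace G] [DiscreteTopology G] [TopologicalSpace L] [LocallyCompactSpace L] :
    LocallyCompactSpace (Cell G L) := inferInstanceAs (LocallyCompactSpace (G × L))

instance : SMul G (Cell G L) := ⟨fun g p => (g * p.1, p.2)⟩


instance : MulAction G (Cell G L) where
  one_smul _ := Prod.ext (one_mul _) rfl
  mul_smul _ _ _ := Prod.ext (mul_assoc _ _ _) rfl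

instance [TopologicalSpace G] [DiscreteTopology G] [TopologicalSpace L] :
    ContinuousConstSMul G (Cell G L) where
  continuous_const_smul g := by
    change Continuous (fun p : G × L => ((g * p.1, p.2) : G × L))
    exact (continuous_of_discreteTopology.comp continuous_fst).prodMk continuous_snd

end Cell

section cells

variable {G : Type} [Group G] [TopologicalSpace G] [DiscreteTopology G]

/-- the cell `G × L` as a free `G`-space -/
def cellG (G : Type) [Group G] [TopologicalSpace G] [DiscreteTopology G] (L : Type)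
    [TopologicalSpace L] [T2Space L] [LocallyCompactSpace L] : GSp G where
  X := Cell G L
  free g p h := by
    have : g * p.1 = p.1 := congrArg Prod.fst h
    exact mul_eq_right.1 this

variable {L : Type} [TopologicalSpace L] [T2Space L] [LocallyCompactSpace L]

/-- the equivariant map `(g, y) ↦ g • f y` -/
def cellMap {T : GSp G} (f : L → T.X) : (cellG G L).X → T.X := fun p => p.1 • f p.2

theorem cellMap_smul {T : GSp G} (f : L → T.X) (g : G) (p : (cellG G L).X) :
    cellMap f (g • p) = g • cellMap f p := mul_smul g p.1 (f p.2)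

theorem continuous_cellMap {T : GSp G} {f : L → T.X} (hf : Continuous f) :
    Continuous (cellMap f) := by
  change Continuous (fun p : G × L => p.1 • f p.2)
  rw [continuous_prod_of_discrete_left]
  intro g
  exact (continuous_const_smul g).comp hf

theorem cellMap_injective {T : GSp G} {f : L → T.X} (hf : Function.Injective f)
    (hd : ∀ (g : G) (x y : L), g • f x = f y → g = 1) : Function.Injective (cellMap f) := by
  rintro ⟨g, x⟩ ⟨h, y⟩ hxy
  have h1 : g • f x = h • f y := hxy
  have h2 : (h⁻¹ * g) • f x = f y := by rw [mul_smul, h1, inv_smul_smul]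
  have h3 := hd _ _ _ h2
  rw [h3, one_smul] at h2
  have h4 : g = h := by
    have := congrArg (fun k => h * k) h3
    simpa using this
  rw [h4, hf h2]

theorem cellMap_image {T : GSp G} (f : L → T.X) (s : Set (cellG G L).X) :
    cellMap f '' s = ⋃ g : G, (fun x => g • x) '' (f '' ((fun y => ((g, y) : G × L)) ⁻¹' s)) := by
  ext x
  simp only [mem_image, mem_iUnion]
  constructor
  · rintro ⟨⟨g, y⟩, hs, rfl⟩
    exact ⟨g, f y, ⟨y, hs, rfl⟩, rfl⟩
  · rintro ⟨g, _, ⟨y, hy, rfl⟩, rfl⟩
    exact ⟨(g, y), hy, rfl⟩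

theorem isOpenEmbedding_cellMap {T : GSp G} {f : L → T.X} (hf : IsOpenEmbedding f)
    (hd : ∀ (g : G) (x y : L), g • f x = f y → g = 1) : IsOpenEmbedding (cellMap f) := by
  refine .of_continuous_injective_isOpenMap (continuous_cellMap hf.continuous)
    (cellMap_injective hf.injective hd) ?_
  intro s hs
  rw [cellMap_image]
  refine isOpen_iUnion fun g => isOpenMap_smul g _ (hf.isOpenMap _ (hs.preimage ?_))
  exact continuous_const.prodMk continuous_id

theorem isClosedEmbedding_cellMap [Finite G] {T : GSp G} {f : L → T.X} (hf : IsClosedEmbedding f)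
    (hd : ∀ (g : G) (x y : L), g • f x = f y → g = 1) : IsClosedEmbedding (cellMap f) := by
  refine .of_continuous_injective_isClosedMap (continuous_cellMap hf.continuous)
    (cellMap_injective hf.injective hd) ?_
  intro s hs
  rw [cellMap_image]
  refine isClosed_iUnion_of_finite fun g => (Homeomorph.smul g).isClosedMap _
    (hf.isClosedMap _ (hs.preimage ?_))
  exact continuous_const.prodMk continuous_id

theorem range_cellMap {T : GSp G} (f : L → T.X) (x : T.X) :
    x ∈ range (cellMap f) ↔ ∃ (g : G) (y : L), g • f y = x := by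
  constructor
  · rintro ⟨⟨g, y⟩, h⟩
    exact ⟨g, y, h⟩
  · rintro ⟨g, y, h⟩
    exact ⟨(g, y), h⟩

end cells

/-! ## balanced products -/

section bal

variable {G : Type} [Group G] [Finite G]
variable {A : Type u} [TopologicalSpace A] [T2Space A] [LocallyCompactSpace A] [MulAction G A]
  [ContinuousConstSMul G A]
variable {A' : Type v} [TopologicalSpace A'] [T2Space A'] [LocallyCompactSpace A'] [MulAction G A']
  [ContinuousConstSMul G A']

/-- the balanced product -/
abbrev Bal (G : Type) [Group G] (A : Type u) [MulAction G A] (T : Type v) [MulAction G T] :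
    Type (max u v) := Orb G (A × T)

theorem actP_smash {T : Type w} [TopologicalSpace T] [T2Space T] [LocallyCompactSpace T]
    [MulAction G T] [ContinuousConstSMul G T] (g : G) :
    (actP g A).smash (actP g T) = actP g (A × T) := PMap.ext fun _ => rfl

theorem Equi.smash {B : Type*} [TopologicalSpace B] [T2Space B] [LocallyCompactSpace B]
    [MulAction G B] [ContinuousConstSMul G B] {B' : Type*} [TopologicalSpace B'] [T2Space B']
    [LocallyCompactSpace B'] [MulAction G B'] [ContinuousConstSMul G B']
    {f : PMap A A'} {h : PMap B B'} (hf : Equi G f) (hh : Equi G h) : Equi G (f.smash h) := by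
  intro g
  rw [← actP_smash, ← actP_smash, PMap.smash_comp, PMap.smash_comp, hf g, hh g]

/-- `f ∧ 1` on the balanced product -/
noncomputable def Bal.map {f : PMap A A'} (hf : Equi G f) (T : Type w) [TopologicalSpace T]
    [T2Space T] [LocallyCompactSpace T] [MulAction G T] [ContinuousConstSMul G T] :
    PMap (Bal G A T) (Bal G A' T) :=
  Orb.map (f.smash (PMap.id T)) (Equi.smash hf Equi.id)

theorem Bal.map_pr {f : PMap A A'} (hf : Equi G f) (T : Type w) [TopologicalSpace T]
    [T2Space T] [LocallyCompactSpace T] [MulAction G T] [ContinuousConstSMul G T] :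
    (Bal.map hf T).comp (Orb.pr G (A × T)) =
      (Orb.pr G (A' × T)).comp (f.smash (PMap.id T)) := Orb.map_pr _ _

theorem Bal.map_comp {A'' : Type*} [TopologicalSpace A''] [T2Space A''] [LocallyCompactSpace A'']
    [MulAction G A''] [ContinuousConstSMul G A''] {f : PMap A A'} {f' : PMap A' A''}
    (hf' : Equi G f') (hf : Equi G f) (T : Type w) [TopologicalSpace T]
    [T2Space T] [LocallyCompactSpace T] [MulAction G T] [ContinuousConstSMul G T] :
    Bal.map (hf'.comp hf) T = (Bal.map hf' T).comp (Bal.map hf T) := by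
  refine Orb.hom_ext ?_
  rw [Bal.map_pr, PMap.comp_assoc, Bal.map_pr, ← PMap.comp_assoc, Bal.map_pr, PMap.comp_assoc,
    PMap.smash_comp]
  rfl

/-! ### closed / open pairs -/

section pair

variable {T T' : Type w} [TopologicalSpace T] [T2Space T] [LocallyCompactSpace T] [MulAction G T]
  [ContinuousConstSMul G T] [TopologicalSpace T'] [T2Space T'] [LocallyCompactSpace T']
  [MulAction G T'] [ContinuousConstSMul G T']

theorem prodMap_smul {i : T → T'} (ie : ∀ (g : G) x, i (g • x) = g • i x) (g : G) (x : A × T) :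
    Prod.map id i (g • x) = g • Prod.map id i x := by
  obtain ⟨a, t⟩ := x
  exact Prod.ext rfl (ie g t)

/-- the map of balanced products induced by an equivariant map of the second factor -/
def Bal.incl (A : Type u) [MulAction G A] {i : T → T'}
    (ie : ∀ (g : G) x, i (g • x) = g • i x) : Bal G A T → Bal G A T' :=
  Orb.fmap (Prod.map id i) (by
    intro g x
    obtain ⟨a, t⟩ := x
    exact Prod.ext rfl (ie g t))


theorem Bal.isClosedEmbedding_incl {i : T → T'} (ie : ∀ (g : G) x, i (g • x) = g • i x)
    (h : IsClosedEmbedding i) : IsClosedEmbedding (Bal.incl A ie) :=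
  Orb.isClosedEmbedding_fmap _ (IsClosedEmbedding.id.prodMap h)

theorem Bal.isOpenEmbedding_incl {i : T → T'} (ie : ∀ (g : G) x, i (g • x) = g • i x)
    (h : IsOpenEmbedding i) : IsOpenEmbedding (Bal.incl A ie) :=
  Orb.isOpenEmbedding_fmap _ (IsOpenEmbedding.id.prodMap h)

/-- strict square: closed part -/
theorem Bal.map_incl_closed {f : PMap A A'} (hf : Equi G f) {i : T → T'}
    (ie : ∀ (g : G) x, i (g • x) = g • i x) (h : IsClosedEmbedding i) :
    (Bal.map hf T').comp (PMap.ofClosed (Bal.incl A ie) (Bal.isClosedEmbedding_incl ie h)) =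
      (PMap.ofClosed (Bal.incl A' ie) (Bal.isClosedEmbedding_incl ie h)).comp (Bal.map hf T) := by
  refine Orb.hom_ext ?_
  have e1 : (PMap.ofClosed (Bal.incl A ie) (Bal.isClosedEmbedding_incl ie h)).comp
      (Orb.pr G (A × T)) = (Orb.pr G (A × T')).comp ((PMap.id A).smash (PMap.ofClosed i h)) :=
    PMap.ext fun _ => rfl
  have e2 : (PMap.ofClosed (Bal.incl A' ie) (Bal.isClosedEmbedding_incl ie h)).comp
      (Orb.pr G (A' × T)) = (Orb.pr G (A' × T')).comp ((PMap.id A').smash (PMap.ofClosed i h)) :=
    PMap.ext fun _ => rfl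
  rw [PMap.comp_assoc, e1, ← PMap.comp_assoc, Bal.map_pr, PMap.comp_assoc, PMap.comp_assoc,
    Bal.map_pr, ← PMap.comp_assoc (PMap.ofClosed _ _), e2, PMap.comp_assoc, PMap.smash_comp,
    PMap.smash_comp]
  rfl

theorem Bal.collapse_pr {i : T → T'}
    (ie : ∀ (g : G) x, i (g • x) = g • i x) (h : IsOpenEmbedding i) :
    (PMap.ofOpen (Bal.incl A ie) (Bal.isOpenEmbedding_incl ie h)).comp
      (Orb.pr G (A × T')) = (Orb.pr G (A × T)).comp ((PMap.id A).smash (PMap.ofOpen i h)) := by
  refine PMap.ext fun x => ?_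
  obtain ⟨b, t⟩ := x
  rw [PMap.comp_apply, PMap.comp_apply, Orb.pr_coe, PMap.smash_coe]
  by_cases ht : t ∈ range i
  · obtain ⟨s, rfl⟩ := ht
    rw [PMap.ofOpen_coe]
    change PMap.ofOpen (Bal.incl A ie) (Bal.isOpenEmbedding_incl ie h)
      ((Bal.incl A ie (Orb.mk G (b, s)) : Bal G A T') : OnePoint (Bal G A T')) = _
    rw [PMap.ofOpen_coe]
    rfl
  · rw [PMap.ofOpen_of_notMem _ _ ht, sm_inf_right, PMap.map_inf, PMap.ofOpen_of_notMem]
    rintro ⟨y, hy⟩
    obtain ⟨⟨b', s⟩, rfl⟩ := Orb.mk_surj (G := G) y
    obtain ⟨g, hg⟩ := Orb.mk_eq.1 (show Orb.mk G (b', i s) = Orb.mk G (b, t) from hy)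
    have h2 : g • t = i s := congrArg Prod.snd hg
    exact ht ⟨g⁻¹ • s, by rw [ie, ← h2, inv_smul_smul]⟩

/-- strict square: open part -/
theorem Bal.map_incl_open {f : PMap A A'} (hf : Equi G f) {i : T → T'}
    (ie : ∀ (g : G) x, i (g • x) = g • i x) (h : IsOpenEmbedding i) :
    (Bal.map hf T).comp (PMap.ofOpen (Bal.incl A ie) (Bal.isOpenEmbedding_incl ie h)) =
      (PMap.ofOpen (Bal.incl A' ie) (Bal.isOpenEmbedding_incl ie h)).comp (Bal.map hf T') := by
  refine Orb.hom_ext ?_
  rw [PMap.comp_assoc, Bal.collapse_pr ie h, ← PMap.comp_assoc, Bal.map_pr, PMap.comp_assoc,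
    PMap.comp_assoc, Bal.map_pr, ← PMap.comp_assoc (PMap.ofOpen _ _), Bal.collapse_pr ie h,
    PMap.comp_assoc, PMap.smash_comp, PMap.smash_comp]
  rfl

end pair

theorem Bal.range_compl (A : Type u) [TopologicalSpace A] [MulAction G A]
    [ContinuousConstSMul G A] {F T O : GSp G} (p : GPair F T O) :
    range (Bal.incl A p.je) = (range (Bal.incl A p.ie))ᶜ := by
  refine Orb.range_compl _ _ ?_
  ext ⟨a, t⟩
  have key : ∀ {T' : Type} (i : T' → T.X),
      ((a, t) ∈ range (Prod.map (id : A → A) i)) ↔ t ∈ range i := by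
    intro T' i
    constructor
    · rintro ⟨⟨b, s⟩, h⟩
      exact ⟨s, congrArg Prod.snd h⟩
    · rintro ⟨s, rfl⟩
      exact ⟨(a, s), rfl⟩
  have := Set.ext_iff.1 p.compl t
  rw [mem_compl_iff, key, key, this, mem_compl_iff]

/-! ### cells -/

section cell

variable [TopologicalSpace G] [DiscreteTopology G]
variable {L : Type} [TopologicalSpace L] [T2Space L] [LocallyCompactSpace L]

/-- `A × L ≃ₜ (A × (G × L))/G` -/
def Bal.cell (A : Type u) [TopologicalSpace A] [MulAction G A] [ContinuousConstSMul G A] (L : Type)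
    [TopologicalSpace L] : A × L ≃ₜ Bal G A (Cell G L) where
  toFun p := Orb.mk G (p.1, Cell.mk 1 p.2)
  invFun := Quotient.lift (fun p : A × Cell G L => ((p.2.1)⁻¹ • p.1, p.2.2)) (by
    rintro ⟨a, h, y⟩ ⟨a', h', y'⟩ ⟨g, hg⟩
    have h1 : g • a' = a := congrArg Prod.fst hg
    have h2 : g * h' = h := congrArg (fun p : A × Cell G L => p.2.1) hg
    have h3 : y' = y := congrArg (fun p : A × Cell G L => p.2.2) hg
    subst h1 h2 h3
    refine Prod.ext ?_ rfl
    change (g * h')⁻¹ • g • a' = h'⁻¹ • a'
    rw [mul_inv_rev, mul_smul, inv_smul_smul])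
  left_inv p := by
    change ((1 : G)⁻¹ • p.1, p.2) = p
    rw [inv_one, one_smul]
  right_inv p := by
    obtain ⟨⟨a, h, y⟩, rfl⟩ := Orb.mk_surj (G := G) p
    change Orb.mk G (h⁻¹ • a, Cell.mk 1 y) = Orb.mk G (a, Cell.mk h y)
    refine Orb.mk_eq.2 ⟨h⁻¹, ?_⟩
    refine Prod.ext rfl (Prod.ext ?_ rfl)
    change h⁻¹ * h = 1
    rw [inv_mul_cancel]
  continuous_toFun := by
    refine Orb.continuous_mk.comp (f := fun p : A × L => ((p.1, Cell.mk 1 p.2) : A × Cell G L)) ?_
    exact continuous_fst.prodMk (continuous_const.prodMk continuous_snd)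
  continuous_invFun := by
    refine (Orb.isOpenQuotientMap_mk (G := G) (W := A × Cell G L)).isQuotientMap.continuous_iff.2 ?_
    change Continuous (fun p : A × (G × L) => ((p.2.1)⁻¹ • p.1, p.2.2))
    refine Continuous.prodMk ?_ (by fun_prop)
    have : Continuous (fun p : G × A => p.1⁻¹ • p.2) := by
      rw [continuous_prod_of_discrete_left]
      intro g
      exact (continuous_const_smul (g⁻¹ : G) : Continuous fun b : A => g⁻¹ • b)
    exact this.comp (f := fun p : A × (G × L) => (p.2.1, p.1)) (by fun_prop)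

theorem Bal.cell_apply (p : A × L) :
    Bal.cell (G := G) A L p = Orb.mk G (p.1, Cell.mk 1 p.2) := rfl

/-- under the homeomorphism, `f ∧ 1` on the balanced product is `f ∧ 1_L` -/
theorem Bal.map_cell {f : PMap A A'} (hf : Equi G f) :
    (Bal.map hf (Cell G L)).comp (PMap.ofHomeo (Bal.cell A L)) =
      (PMap.ofHomeo (Bal.cell A' L)).comp (f.smash (PMap.id L)) := by
  refine PMap.ext fun x => ?_
  obtain ⟨a, y⟩ := x
  rw [PMap.comp_apply, PMap.comp_apply, PMap.ofHomeo_coe, Bal.cell_apply, PMap.smash_coe]
  have h1 := congrArg (fun k : PMap (A × Cell G L) (Bal G A' (Cell G L)) =>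
    k ((a, Cell.mk 1 y) : A × Cell G L)) (Bal.map_pr hf (Cell G L))
  simp only [PMap.comp_apply, Orb.pr_coe] at h1
  rw [h1, PMap.smash_coe, PMap.id_apply, PMap.id_apply]
  generalize f (a : OnePoint A) = b
  induction b using OnePoint.rec with
  | infty => rfl
  | coe b => rfl

end cell

end bal

end Crest.Agent.R090.GSp389
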