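/-
Row 90 (S0119), block (A), algebra of traces (helper673).

* `trace_of_exact`  : traces are additive on short exact sequences with endomorphisms;
* `les_trace`       : Lefschetz numbers are additive in a bounded long exact sequence
                      `A_n → B_n → C_n → A_{n-1}`;
* `alt_trace`       : alternating trace of a bounded exact sequence is 0;
* `trace_coinv`     : trace on coinvariants = average of the traces `g T`;
* `trace_inv`       : the same for invariants.
-/
import Mathlib

set_option autoImplicit false
set_option linter.unusedSectionVars false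

namespace Crest.Agent.R090.TrAlg673

open Module

universe u v w

section ses

variable {K : Type*} [Field K] {V' V V'' : Type*} [AddCommGroup V'] [Module K V']
  [AddCommGroup V] [Module K V] [AddCommGroup V''] [Module K V''] [FiniteDimensional K V]

/-- **Additivity of the trace** on short exact sequences (from R188.Chr1, helper365). -/
theorem trace_of_exact (i : V' →ₗ[K] V) (p : V →ₗ[K] V'') (hi : Function.Injective i)
    (hp : Function.Surjective p) (h : Function.Exact i p) (f' : Module.End K V')
    (f : Module.End K V) (f'' : Module.End K V'') (h1 : ∀ x, i (f' x) = f (i x))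
    (h2 : ∀ x, p (f x) = f'' (p x)) :
    LinearMap.trace K V f = LinearMap.trace K V' f' + LinearMap.trace K V'' f'' := by
  have : FiniteDimensional K V' := FiniteDimensional.of_injective i hi
  have : FiniteDimensional K V'' := Module.Finite.of_surjective p hp
  obtain ⟨s, hs⟩ := LinearMap.exists_rightInverse_of_surjective p (LinearMap.range_eq_top.2 hp)
  have hs' : ∀ y, p (s y) = y := fun y => LinearMap.congr_fun hs y
  -- the retraction
  have hrange : ∀ x, x - s (p x) ∈ LinearMap.range i := by
    intro x
    have : p (x - s (p x)) = 0 := by rw [map_sub, hs', sub_self]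
    exact (h _).1 this
  let e := LinearEquiv.ofInjective i hi
  let q : V →ₗ[K] LinearMap.range i :=
    LinearMap.codRestrict (LinearMap.range i) (LinearMap.id - s ∘ₗ p) (by
      intro x; exact hrange x)
  let r : V →ₗ[K] V' := e.symm.toLinearMap ∘ₗ q
  have hir : ∀ x, i (r x) = x - s (p x) := by
    intro x
    have h3 : e (r x) = q x := e.apply_symm_apply _
    have h4 : (e (r x) : V) = i (r x) := LinearEquiv.ofInjective_apply i (r x)
    rw [← h4, h3]
    rfl
  have hri : ∀ x, r (i x) = x := by
    intro x
    apply hi
    rw [hir, h.apply_apply_eq_zero, map_zero, sub_zero]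
  have h3 : f = (i ∘ₗ (r ∘ₗ f)) + (s ∘ₗ (p ∘ₗ f)) := by
    ext x
    simp only [LinearMap.add_apply, LinearMap.comp_apply]
    rw [hir]; abel
  rw [h3, map_add, LinearMap.trace_comp_comm' , LinearMap.trace_comp_comm' (p ∘ₗ f) s]
  congr 1
  · congr 1
    ext x
    simp only [LinearMap.comp_apply]
    rw [← h1, hri]
  · congr 1
    ext x
    simp only [LinearMap.comp_apply]
    rw [h2, hs']

end ses

section les

variable {K : Type*} [Field K]

/-- trace of an endomorphism restricted to a (stable) subspace -/
noncomputable def trr {V : Type*} [AddCommGroup V] [Module K V] (f : Module.End K V)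
    (S : Submodule K V) : K :=
  open Classical in
  if h : ∀ x ∈ S, f x ∈ S then LinearMap.trace K S (f.restrict h) else 0

theorem trr_eq {V : Type*} [AddCommGroup V] [Module K V] (f : Module.End K V)
    (S : Submodule K V) (h : ∀ x ∈ S, f x ∈ S) :
    trr f S = LinearMap.trace K S (f.restrict h) := by
  rw [trr, dif_pos h]



/-- splitting of the trace at an exact spot of a long exact sequence -/
theorem trace_split {U V W : Type*} [AddCommGroup U] [Module K U] [AddCommGroup V] [Module K V]
    [FiniteDimensional K V] [AddCommGroup W] [Module K W]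
    (α : U →ₗ[K] V) (β : V →ₗ[K] W) (h : Function.Exact α β)
    (fU : Module.End K U) (fV : Module.End K V) (fW : Module.End K W)
    (h1 : ∀ x, α (fU x) = fV (α x)) (h2 : ∀ x, β (fV x) = fW (β x)) :
    LinearMap.trace K V fV = trr fV (LinearMap.range α) + trr fW (LinearMap.range β) := by
  have s1 : ∀ x ∈ LinearMap.range α, fV x ∈ LinearMap.range α := by
    rintro _ ⟨x, rfl⟩
    exact ⟨fU x, h1 x⟩
  have s2 : ∀ x ∈ LinearMap.range β, fW x ∈ LinearMap.range β := by
    rintro _ ⟨x, rfl⟩
    exact ⟨fV x, h2 x⟩
  rw [trr_eq _ _ s1, trr_eq _ _ s2]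
  refine trace_of_exact (LinearMap.range α).subtype β.rangeRestrict
    (Submodule.subtype_injective _) (LinearMap.surjective_rangeRestrict β) ?_ _ _ _ ?_ ?_
  · intro x
    constructor
    · intro hx
      have : β x = 0 := by
        have := congrArg Subtype.val hx
        simpa using this
      obtain ⟨y, hy⟩ := (h x).1 this
      exact ⟨⟨x, ⟨y, hy⟩⟩, rfl⟩
    · rintro ⟨⟨y, ⟨z, hz⟩⟩, rfl⟩
      apply Subtype.ext
      simp only [LinearMap.codRestrict_apply, LinearMap.rangeRestrict, Submodule.subtype_apply,
        ZeroMemClass.coe_zero]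
      rw [← hz]
      exact h.apply_apply_eq_zero z
  · intro x
    rfl
  · intro x
    apply Subtype.ext
    simp only [LinearMap.codRestrict_apply, LinearMap.rangeRestrict, LinearMap.coe_restrict_apply]
    exact h2 x



end les

section coinv

variable {K : Type*} [Field K] {G : Type*} [Group G] [Fintype G]
  {V W : Type*} [AddCommGroup V] [Module K V] [FiniteDimensional K V]
  [AddCommGroup W] [Module K W]


/-- **trace on invariants**. -/
theorem trace_inv (hG : (Fintype.card G : K) ≠ 0) (ρ : G →* Module.End K V)
    (T : Module.End K V) (hT : ∀ g v, T (ρ g v) = ρ g (T v))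
    (ι : W →ₗ[K] V) (hι : Function.Injective ι) (hιg : ∀ g w, ρ g (ι w) = ι w)
    (hinv : ∀ v, (∀ g, ρ g v = v) → v ∈ LinearMap.range ι)
    (T' : Module.End K W) (hT' : ∀ w, T (ι w) = ι (T' w)) :
    LinearMap.trace K W T' = (Fintype.card G : K)⁻¹ * ∑ g, LinearMap.trace K V (ρ g * T) := by
  classical
  have : FiniteDimensional K W := FiniteDimensional.of_injective ι hι
  let e : Module.End K V := (Fintype.card G : K)⁻¹ • ∑ g, ρ g
  have he : ∀ v, e v = (Fintype.card G : K)⁻¹ • ∑ g, ρ g v := by
    intro v
    simp [e, LinearMap.sum_apply]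
  have heg : ∀ g v, ρ g (e v) = e v := by
    intro g v
    rw [he, map_smul, map_sum]
    congr 1
    have := Equiv.sum_comp (Equiv.mulLeft g) (fun h => ρ h v)
    rw [← this]
    apply Finset.sum_congr rfl
    intro h _
    simp [map_mul]
  have heι : ∀ w, e (ι w) = ι w := by
    intro w
    rw [he]
    simp only [hιg]
    rw [Finset.sum_const, Finset.card_univ, ← Nat.cast_smul_eq_nsmul K, smul_smul,
      inv_mul_cancel₀ hG, one_smul]
  obtain ⟨r, hr⟩ := ι.exists_leftInverse_of_injective (LinearMap.ker_eq_bot.2 hι)
  have hr' : ∀ w, r (ι w) = w := fun w => LinearMap.congr_fun hr w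
  have hire : ∀ v, ι (r (e v)) = e v := by
    intro v
    obtain ⟨w, hw⟩ := hinv (e v) (fun g => heg g v)
    rw [← hw, hr']
  have h1 : T' = (r ∘ₗ e) ∘ₗ (T ∘ₗ ι) := by
    ext w
    simp only [LinearMap.comp_apply]
    rw [hT', heι, hr']
  have h2 : (T ∘ₗ ι) ∘ₗ (r ∘ₗ e) = (Fintype.card G : K)⁻¹ • ∑ g, ρ g * T := by
    ext v
    simp only [LinearMap.comp_apply]
    rw [hire, he, map_smul, map_sum]
    simp only [hT, LinearMap.smul_apply, LinearMap.sum_apply, Module.End.mul_apply]
  rw [h1, LinearMap.trace_comp_comm', h2, map_smul, map_sum, smul_eq_mul]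

end coinv

end Crest.Agent.R090.TrAlg673
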