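import Crest.Agent.R090.Sp_962
import Crest.Agent.R090.TrAlg_673

/-!
# Row 90, block (A): what the trace part wants from a cohomology theory (owner helper253)

* `Dec K U O` : closed embedding `K → U` with complementary open embedding `O → U`;
* `Coh F` : contravariant theory on pointed maps of locally compact Hausdorff spaces, exact for every
  closed subspace, with a parity operator (to be instantiated by HOM);
* `Coh.L` : Lefschetz numbers; `L_comm`, `L_dec` (additivity);
* `Coh.jointly`: disjoint unions.
-/

set_option autoImplicit false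
set_option linter.unusedSectionVars false
set_option linter.checkUnivs false

namespace Crest.Agent.R090.CohT253

open Topology Set Crest.Agent.R090.Sp962 Crest.Agent.R090.TrAlg673

universe u v w

/-- a closed subspace `K` of `U` together with its open complement `O` -/
structure Dec (K U O : Type u) [TopologicalSpace K] [TopologicalSpace U] [TopologicalSpace O] where
  i : K → U
  hi : IsClosedEmbedding i
  j : O → U
  hj : IsOpenEmbedding j
  compl : range j = (range i)ᶜ

/-- the axioms of a cohomology theory with compact supports used in block (A) -/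
structure Coh (F : Type w) [Field F] where
  h : (U : Type u) → [TopologicalSpace U] → Type v
  [acg : ∀ (U : Type u) [TopologicalSpace U], AddCommGroup (h U)]
  [mod : ∀ (U : Type u) [TopologicalSpace U], Module F (h U)]
  map : ∀ {U V : Type u} [TopologicalSpace U] [TopologicalSpace V], PMap U V → h V →ₗ[F] h U
  map_id : ∀ (U : Type u) [TopologicalSpace U] (x : h U), map (PMap.id U) x = x
  map_comp : ∀ {U V W : Type u} [TopologicalSpace U] [TopologicalSpace V] [TopologicalSpace W]
    (g : PMap V W) (f : PMap U V) (x : h W), map (g.comp f) x = map f (map g x)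
  map_zero' : ∀ {U V : Type u} [TopologicalSpace U] [TopologicalSpace V] (x : h V),
    map (PMap.zero U V) x = 0
  eps : ∀ (U : Type u) [TopologicalSpace U], h U →ₗ[F] h U
  eps_eps : ∀ (U : Type u) [TopologicalSpace U] (x : h U), eps U (eps U x) = x
  eps_map : ∀ {U V : Type u} [TopologicalSpace U] [TopologicalSpace V] (f : PMap U V) (x : h V),
    eps U (map f x) = map f (eps V x)
  del : ∀ {K U O : Type u} [TopologicalSpace K] [TopologicalSpace U] [TopologicalSpace O]
    [T2Space U] [LocallyCompactSpace U], Dec K U O → h K →ₗ[F] h O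
  eps_del : ∀ {K U O : Type u} [TopologicalSpace K] [TopologicalSpace U] [TopologicalSpace O]
    [T2Space U] [LocallyCompactSpace U] (D : Dec K U O) (x : h K),
    eps O (del D x) = - del D (eps K x)
  exactU : ∀ {K U O : Type u} [TopologicalSpace K] [TopologicalSpace U] [TopologicalSpace O]
    [T2Space U] [LocallyCompactSpace U] (D : Dec K U O),
    Function.Exact (map (PMap.ofOpen D.j D.hj)) (map (PMap.ofClosed D.i D.hi))
  exactK : ∀ {K U O : Type u} [TopologicalSpace K] [TopologicalSpace U] [TopologicalSpace O]
    [T2Space U] [LocallyCompactSpace U] (D : Dec K U O),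
    Function.Exact (map (PMap.ofClosed D.i D.hi)) (del D)
  exactO : ∀ {K U O : Type u} [TopologicalSpace K] [TopologicalSpace U] [TopologicalSpace O]
    [T2Space U] [LocallyCompactSpace U] (D : Dec K U O),
    Function.Exact (del D) (map (PMap.ofOpen D.j D.hj))
  del_nat : ∀ {K U O K' U' O' : Type u} [TopologicalSpace K] [TopologicalSpace U]
    [TopologicalSpace O] [T2Space U] [LocallyCompactSpace U]
    [TopologicalSpace K'] [TopologicalSpace U'] [TopologicalSpace O'] [T2Space U']
    [LocallyCompactSpace U'] (D : Dec K U O) (D' : Dec K' U' O')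
    (fK : PMap K K') (fU : PMap U U') (fO : PMap O O'),
    fU.comp (PMap.ofClosed D.i D.hi) = (PMap.ofClosed D'.i D'.hi).comp fK →
    (PMap.ofOpen D'.j D'.hj).comp fU = fO.comp (PMap.ofOpen D.j D.hj) →
    ∀ x : h K', map fO (del D' x) = del D (map fK x)

attribute [instance] Coh.acg Coh.mod

namespace Coh

variable {F : Type w} [Field F] (H : Coh.{u, v, w} F)

/-- the operator whose trace is the Lefschetz number -/
def T {U : Type u} [TopologicalSpace U] (f : PMap U U) : Module.End F (H.h U) :=
  H.eps U ∘ₗ H.map f

/-- Lefschetz number -/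
noncomputable def L {U : Type u} [TopologicalSpace U] (f : PMap U U) : F :=
  LinearMap.trace F (H.h U) (H.T f)

/-- finite dimensional cohomology -/
def Fin (U : Type u) [TopologicalSpace U] : Prop := FiniteDimensional F (H.h U)

variable {U V : Type u} [TopologicalSpace U] [TopologicalSpace V]

theorem T_apply (f : PMap U U) (x : H.h U) : H.T f x = H.eps U (H.map f x) := rfl

/-- `L (g f) = L (f g)` -/
theorem L_comm (hU : H.Fin U) (hV : H.Fin V) (f : PMap U V) (g : PMap V U) :
    H.L (g.comp f) = H.L (f.comp g) := by
  have : FiniteDimensional F (H.h U) := hU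
  have : FiniteDimensional F (H.h V) := hV
  have e1 : H.T (g.comp f) = H.map f ∘ₗ (H.eps V ∘ₗ H.map g) := by
    ext x
    simp only [T_apply, LinearMap.comp_apply]
    rw [H.map_comp, H.eps_map]
  have e2 : H.T (f.comp g) = (H.eps V ∘ₗ H.map g) ∘ₗ H.map f := by
    ext x
    simp only [T_apply, LinearMap.comp_apply]
    rw [H.map_comp]
  rw [L, L, e1, e2, LinearMap.trace_comp_comm']

/-- a homeomorphism (more generally an isomorphism of pointed maps) carries finiteness over -/
theorem Fin.of_iso {f : PMap U V} {g : PMap V U} (h1 : g.comp f = PMap.id U)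
    (hV : H.Fin V) : H.Fin U := by
  have : FiniteDimensional F (H.h V) := hV
  refine Module.Finite.of_surjective (H.map f) (fun x => ⟨H.map g x, ?_⟩)
  rw [← H.map_comp, h1, H.map_id]

theorem injective_of_comp_id {f : PMap U V} {g : PMap V U} (h1 : g.comp f = PMap.id U) :
    Function.Injective (H.map g) := by
  intro x y hxy
  have := congrArg (H.map f) hxy
  rwa [← H.map_comp, ← H.map_comp, h1, H.map_id, H.map_id] at this

section dec

/-- finiteness in the middle of an exact sequence -/
theorem fin_mid {A B C : Type*} [AddCommGroup A] [Module F A] [AddCommGroup B] [Module F B]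
    [AddCommGroup C] [Module F C] (α : A →ₗ[F] B) (β : B →ₗ[F] C) (h : Function.Exact α β)
    (hA : FiniteDimensional F A) (hC : FiniteDimensional F C) : FiniteDimensional F B := by
  have h1 : FiniteDimensional F (LinearMap.range α) := inferInstance
  have h2 : LinearMap.ker β = LinearMap.range α := (LinearMap.exact_iff).1 h
  have h3 : FiniteDimensional F (LinearMap.ker β) := by rw [h2]; exact h1
  have h4 : FiniteDimensional F (B ⧸ LinearMap.ker β) :=
    FiniteDimensional.of_injective (β.quotKerEquivRange.toLinearMap)
      β.quotKerEquivRange.injective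
  exact Module.Finite.of_submodule_quotient (LinearMap.ker β)

variable {K O : Type u} [TopologicalSpace K] [TopologicalSpace O]
  [T2Space U] [LocallyCompactSpace U]

/-- restriction to the closed part -/
abbrev res (D : Dec K U O) : H.h U →ₗ[F] H.h K := H.map (PMap.ofClosed D.i D.hi)

/-- extension by zero from the open part -/
noncomputable abbrev ext (D : Dec K U O) : H.h O →ₗ[F] H.h U := H.map (PMap.ofOpen D.j D.hj)

/-- two out of three for finiteness: the whole space -/
theorem Fin.of_dec (D : Dec K U O) (hK : H.Fin K) (hO : H.Fin O) : H.Fin U :=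
  fin_mid (H.ext D) (H.res D) (H.exactU D) hO hK

theorem Fin.open_of_dec (D : Dec K U O) (hK : H.Fin K) (hU : H.Fin U) : H.Fin O :=
  fin_mid (H.del D) (H.ext D) (H.exactO D) hK hU


/-- strict self map of a closed/open decomposition -/
structure Strict {K' U' O' : Type u} [TopologicalSpace K'] [TopologicalSpace U']
    [TopologicalSpace O'] [T2Space U'] (D : Dec K U O) (D' : Dec K' U' O') where
  fK : PMap K K'
  fU : PMap U U'
  fO : PMap O O'
  hK : fU.comp (PMap.ofClosed D.i D.hi) = (PMap.ofClosed D'.i D'.hi).comp fK
  hO : (PMap.ofOpen D'.j D'.hj).comp fU = fO.comp (PMap.ofOpen D.j D.hj)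

variable {K' U' O' : Type u} [TopologicalSpace K'] [TopologicalSpace U']
    [TopologicalSpace O'] [T2Space U'] [LocallyCompactSpace U']

variable {D : Dec K U O} {D' : Dec K' U' O'}

theorem Strict.res (S : Strict D D') (x : H.h U') :
    H.map S.fK (H.res D' x) = H.res D (H.map S.fU x) := by
  rw [Coh.res, Coh.res, ← H.map_comp, ← H.map_comp, S.hK]

theorem Strict.ext (S : Strict D D') (x : H.h O') :
    H.map S.fU (H.ext D' x) = H.ext D (H.map S.fO x) := by
  rw [Coh.ext, Coh.ext, ← H.map_comp, ← H.map_comp, S.hO]

theorem Strict.del (S : Strict D D') (x : H.h K') :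
    H.map S.fO (H.del D' x) = H.del D (H.map S.fK x) :=
  H.del_nat D D' S.fK S.fU S.fO S.hK S.hO x

/-- **additivity of Lefschetz numbers** -/
theorem L_dec (S : Strict D D) (hU : H.Fin U) (hK : H.Fin K) (hO : H.Fin O) :
    H.L S.fU = H.L S.fK + H.L S.fO := by
  have : FiniteDimensional F (H.h K) := hK
  have : FiniteDimensional F (H.h O) := hO
  have : FiniteDimensional F (H.h U) := hU
  have cU : ∀ x, H.ext D (H.T S.fO x) = H.T S.fU (H.ext D x) := by
    intro x
    rw [T_apply, T_apply, S.ext]
    exact (H.eps_map _ _).symm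
  have cK : ∀ x, H.res D (H.T S.fU x) = H.T S.fK (H.res D x) := by
    intro x
    rw [T_apply, T_apply, S.res]
    exact (H.eps_map _ _).symm
  have cO : ∀ x, H.del D (H.T S.fK x) = (- H.T S.fO) (H.del D x) := by
    intro x
    rw [LinearMap.neg_apply, T_apply, T_apply, S.del, H.eps_del, neg_neg]
  have cU' : ∀ x, H.ext D ((- H.T S.fO) x) = (- H.T S.fU) (H.ext D x) := by
    intro x
    rw [LinearMap.neg_apply, LinearMap.neg_apply, map_neg, cU]
  have eU := trace_split (H.ext D) (H.res D) (H.exactU D) (H.T S.fO) (H.T S.fU) (H.T S.fK) cU cK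
  have eK := trace_split (H.res D) (H.del D) (H.exactK D) (H.T S.fU) (H.T S.fK) (-H.T S.fO) cK cO
  have eO := trace_split (H.del D) (H.ext D) (H.exactO D) (H.T S.fK) (-H.T S.fO) (-H.T S.fU) cO cU'
  have eU' : trr (-H.T S.fU) (LinearMap.range (H.ext D)) =
      - trr (H.T S.fU) (LinearMap.range (H.ext D)) := by
    have h : ∀ x ∈ LinearMap.range (H.ext D), H.T S.fU x ∈ LinearMap.range (H.ext D) := by
      rintro _ ⟨x, rfl⟩
      exact ⟨_, cU x⟩
    have h' : ∀ x ∈ LinearMap.range (H.ext D), (-H.T S.fU) x ∈ LinearMap.range (H.ext D) := by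
      intro x hx
      exact neg_mem (h x hx)
    rw [trr_eq _ _ h, trr_eq _ _ h', ← map_neg]
    congr 1
  rw [map_neg, eU'] at eO
  rw [L, L, L, eU, eK]
  linear_combination eO

end dec

end Coh

end Crest.Agent.R090.CohT253
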