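import Crest.Agent.R090.CohT_253

/-!
# Row 90, block (A): cohomology of free quotients (owner helper253)

`Coh.QInv`: `p : U → B` is invariant under the finite group `G`, `p^*` is injective with image the
invariants.  `QInv.of_dec` (five lemma along a closed invariant subspace), `QInv.free`
(the free layer `G × C → C`), `L_quot` (Lefschetz number of a quotient).
-/

set_option autoImplicit false
set_option linter.unusedSectionVars false

namespace Crest.Agent.R090.CohT253

open Topology Set Crest.Agent.R090.Sp962 Crest.Agent.R090.TrAlg673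

universe u v w

/-- action of a group by pointed maps -/
structure Act (G : Type*) [Group G] (U : Type u) [TopologicalSpace U] where
  act : G → PMap U U
  one : act 1 = PMap.id U
  mul : ∀ g h, act (g * h) = (act g).comp (act h)

namespace Coh

variable {F : Type w} [Field F] (H : Coh.{u, v, w} F)
variable {G : Type*} [Group G] [Fintype G]

section act

variable {U : Type u} [TopologicalSpace U] (A : Act G U)

/-- the representation on cohomology -/
def rho : G →* Module.End F (H.h U) where
  toFun g := H.map (A.act g⁻¹)
  map_one' := by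
    ext x
    rw [inv_one, A.one, H.map_id]
    rfl
  map_mul' g h := by
    ext x
    rw [mul_inv_rev, A.mul, H.map_comp]
    rfl

theorem rho_apply (g : G) (x : H.h U) : H.rho A g x = H.map (A.act g⁻¹) x := rfl

/-- the averaging operator -/
noncomputable def avg : Module.End F (H.h U) := (Fintype.card G : F)⁻¹ • ∑ g, H.map (A.act g)

theorem avg_apply (x : H.h U) :
    H.avg A x = (Fintype.card G : F)⁻¹ • ∑ g, H.map (A.act g) x := by
  simp [avg, LinearMap.sum_apply]

theorem map_act_avg (g : G) (x : H.h U) : H.map (A.act g) (H.avg A x) = H.avg A x := by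
  rw [avg_apply, map_smul, map_sum]
  congr 1
  have := Equiv.sum_comp (Equiv.mulRight g) (fun h => H.map (A.act h) x)
  rw [← this]
  apply Finset.sum_congr rfl
  intro h _
  rw [← H.map_comp, ← A.mul]
  rfl

theorem avg_of_inv (hG : (Fintype.card G : F) ≠ 0) {x : H.h U}
    (hx : ∀ g, H.map (A.act g) x = x) : H.avg A x = x := by
  rw [avg_apply]
  simp only [hx]
  rw [Finset.sum_const, Finset.card_univ, ← Nat.cast_smul_eq_nsmul F, smul_smul,
    inv_mul_cancel₀ hG, one_smul]

/-- `p^*` is an isomorphism onto the invariants -/
structure QInv {B : Type u} [TopologicalSpace B] (p : PMap U B) : Prop where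
  inv : ∀ g, p.comp (A.act g) = p
  inj : Function.Injective (H.map p)
  surj : ∀ x, (∀ g, H.map (A.act g) x = x) → ∃ y, H.map p y = x

variable {H A} in
theorem QInv.fix {B : Type u} [TopologicalSpace B] {p : PMap U B} (h : H.QInv A p) (g : G)
    (x : H.h B) : H.map (A.act g) (H.map p x) = H.map p x := by
  rw [← H.map_comp, h.inv]

variable {H A} in
/-- finiteness of the quotient -/
theorem QInv.fin {B : Type u} [TopologicalSpace B] {p : PMap U B} (h : H.QInv A p)
    (hU : H.Fin U) : H.Fin B := by
  have : FiniteDimensional F (H.h U) := hU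
  exact FiniteDimensional.of_injective (H.map p) h.inj

variable {H A} in
/-- **Lefschetz number of a quotient** -/
theorem QInv.L_quot {B : Type u} [TopologicalSpace B] {p : PMap U B} (h : H.QInv A p)
    (hG : (Fintype.card G : F) ≠ 0) (hU : H.Fin U) (f : PMap U U) (f' : PMap B B)
    (hp : p.comp f = f'.comp p) (hf : ∀ g, f.comp (A.act g) = (A.act g).comp f) :
    (Fintype.card G : F) * H.L f' = ∑ g, H.L (f.comp (A.act g)) := by
  have : FiniteDimensional F (H.h U) := hU
  have e := trace_inv hG (H.rho A) (H.T f)
    (by
      intro g v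
      rw [rho_apply, rho_apply, T_apply, T_apply, ← H.map_comp, ← hf, H.map_comp, ← H.eps_map])
    (H.map p) h.inj
    (by
      intro g w
      rw [rho_apply, h.fix])
    (by
      intro v hv
      obtain ⟨y, hy⟩ := h.surj v (fun g => by
        have := hv g⁻¹
        rwa [rho_apply, inv_inv] at this)
      exact ⟨y, hy⟩)
    (H.T f')
    (by
      intro w
      rw [T_apply, T_apply, ← H.eps_map, ← H.map_comp, ← H.map_comp, hp])
  rw [L, e, ← mul_assoc, mul_inv_cancel₀ hG, one_mul]
  rw [← Equiv.sum_comp (Equiv.inv G)]
  apply Finset.sum_congr rfl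
  intro g _
  rw [L]
  congr 1
  ext x
  simp only [Module.End.mul_apply, rho_apply, T_apply, Equiv.inv_apply, inv_inv]
  rw [H.map_comp]
  exact (H.eps_map _ _).symm

end act

section five

variable {K U O : Type u} [TopologicalSpace K] [TopologicalSpace U] [TopologicalSpace O]
  [T2Space U] [LocallyCompactSpace U]
  {K' U' O' : Type u} [TopologicalSpace K'] [TopologicalSpace U'] [TopologicalSpace O']
  [T2Space U'] [LocallyCompactSpace U'] {D : Dec K U O} {D' : Dec K' U' O'}

variable {H} in
/-- **five lemma for invariants** -/
theorem QInv.of_dec (hG : (Fintype.card G : F) ≠ 0) {AK : Act G K} {AU : Act G U} {AO : Act G O}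
    (S : Strict D D') (Sg : G → Strict D D) (hgK : ∀ g, (Sg g).fK = AK.act g)
    (hgU : ∀ g, (Sg g).fU = AU.act g) (hgO : ∀ g, (Sg g).fO = AO.act g)
    (hinv : ∀ g, S.fU.comp (AU.act g) = S.fU)
    (hK : H.QInv AK S.fK) (hO : H.QInv AO S.fO) : H.QInv AU S.fU := by
  have rK : ∀ g (x : H.h U), H.map (AK.act g) (H.res D x) = H.res D (H.map (AU.act g) x) := by
    intro g x
    rw [← hgK, ← hgU]
    exact (Sg g).res H x
  have rO : ∀ g (x : H.h O), H.map (AU.act g) (H.ext D x) = H.ext D (H.map (AO.act g) x) := by
    intro g x
    rw [← hgO, ← hgU]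
    exact (Sg g).ext H x
  have rd : ∀ g (x : H.h K), H.map (AO.act g) (H.del D x) = H.del D (H.map (AK.act g) x) := by
    intro g x
    rw [← hgO, ← hgK]
    exact (Sg g).del H x
  have avd : ∀ x : H.h K, H.del D (H.avg AK x) = H.avg AO (H.del D x) := by
    intro x
    rw [avg_apply, avg_apply, map_smul, map_sum]
    simp only [rd]
  have ave : ∀ x : H.h O, H.ext D (H.avg AO x) = H.avg AU (H.ext D x) := by
    intro x
    rw [avg_apply, avg_apply, map_smul, map_sum]
    simp only [rO]
  refine ⟨hinv, ?_, ?_⟩
  · rw [injective_iff_map_eq_zero]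
    intro x hx
    have h1 : H.res D' x = 0 := by
      apply hK.inj
      rw [S.res, hx, map_zero, map_zero]
    obtain ⟨y, rfl⟩ := (H.exactU D' x).1 h1
    have h2 : H.ext D (H.map S.fO y) = 0 := by
      rw [← S.ext]; exact hx
    obtain ⟨z, hz⟩ := (H.exactO D _).1 h2
    obtain ⟨w, hw⟩ := hK.surj (H.avg AK z) (fun g => H.map_act_avg AK g z)
    have h3 : H.map S.fO (H.del D' w) = H.map S.fO y := by
      rw [S.del, hw, avd, hz]
      exact H.avg_of_inv AO hG (fun g => hO.fix g y)
    rw [← hO.inj h3]
    exact (H.exactO D').apply_apply_eq_zero w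
  · intro x hx
    obtain ⟨y, hy⟩ := hK.surj (H.res D x) (fun g => by rw [rK, hx])
    have h1 : H.del D' y = 0 := by
      apply hO.inj
      rw [S.del, hy, map_zero]
      exact (H.exactK D).apply_apply_eq_zero x
    obtain ⟨z, hz⟩ := (H.exactK D' y).1 h1
    have h2 : H.res D (x - H.map S.fU z) = 0 := by
      rw [map_sub, ← S.res, ← hy]
      change _ - H.map S.fK (H.res D' z) = 0
      rw [show H.res D' z = y from hz, sub_self]
    obtain ⟨t, ht⟩ := (H.exactU D _).1 h2
    obtain ⟨s, hs⟩ := hO.surj (H.avg AO t) (fun g => H.map_act_avg AO g t)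
    refine ⟨z + H.ext D' s, ?_⟩
    rw [map_add, S.ext, hs, ave]
    rw [show H.ext D t = x - H.map S.fU z from ht]
    rw [H.avg_of_inv AU hG, add_sub_cancel]
    intro g
    rw [map_sub, hx, ← H.map_comp, hinv]

end five

section disc

/-- slices of a product with a discrete space -/
theorem slice_closed {ι : Type} [TopologicalSpace ι] [DiscreteTopology ι] (i : ι)
    (C : Type u) [TopologicalSpace C] : IsClosedEmbedding (fun c : C => ((i, c) : ι × C)) := by
  refine IsClosedEmbedding.of_continuous_injective_isClosedMap (by fun_prop)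
    (fun a b h => (Prod.ext_iff.1 h).2) ?_
  intro s hs
  have : (fun c : C => ((i, c) : ι × C)) '' s = {i} ×ˢ s := by
    ext ⟨a, b⟩
    simp only [mem_image, Prod.mk.injEq, mem_prod, mem_singleton_iff]
    constructor
    · rintro ⟨c, hc, rfl, rfl⟩; exact ⟨rfl, hc⟩
    · rintro ⟨rfl, hb⟩; exact ⟨b, hb, rfl, rfl⟩
  rw [this]
  exact (isClosed_discrete _).prod hs


/-- the slice as a pointed map -/
def slice {ι : Type} [TopologicalSpace ι] [DiscreteTopology ι] (C : Type u) [TopologicalSpace C]
    (i : ι) : PMap C (ι × C) := PMap.ofClosed _ (slice_closed i C)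

variable {H}

theorem eq_zero_of_isEmpty {U : Type u} [TopologicalSpace U] [IsEmpty U] (x : H.h U) : x = 0 := by
  have : PMap.id U = PMap.zero U U := PMap.ext fun x => isEmptyElim x
  rw [← H.map_id U x, this, H.map_zero']

/-- an element of the cohomology of a clopen union vanishes iff its restrictions do -/
theorem eq_zero_of_clopen {K U O : Type u} [TopologicalSpace K] [TopologicalSpace U]
    [TopologicalSpace O] [T2Space U] [LocallyCompactSpace U] (D : Dec K U O)
    (hc : IsClosedEmbedding D.j) (x : H.h U) (h1 : H.res D x = 0)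
    (h2 : H.map (PMap.ofClosed D.j hc) x = 0) : x = 0 := by
  obtain ⟨y, rfl⟩ := (H.exactU D x).1 h1
  have e : (PMap.ofOpen D.j D.hj).comp (PMap.ofClosed D.j hc) = PMap.id O := by
    refine PMap.ext fun x => ?_
    rw [PMap.comp_apply, PMap.ofClosed_coe, PMap.ofOpen_coe]
    rfl
  rw [← H.map_comp, e, H.map_id] at h2
  rw [h2, map_zero]

/-- **disjoint unions**: restrictions to the slices are jointly injective -/
theorem jointly (ι : Type) [Finite ι] : ∀ [TopologicalSpace ι] [DiscreteTopology ι]
    (C : Type u) [TopologicalSpace C] [T2Space C] [LocallyCompactSpace C] (x : H.h (ι × C)),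
    (∀ i, H.map (slice C i) x = 0) → x = 0 := by
  induction ι using Finite.induction_empty_option with
  | @of_equiv α β e ih =>
    intro _ _ C _ _ _ x hx
    letI : TopologicalSpace α := ⊥
    haveI : DiscreteTopology α := ⟨rfl⟩
    let e' : α × C ≃ₜ β × C :=
      { toEquiv := e.prodCongr (Equiv.refl C)
        continuous_toFun := by
          refine Continuous.prodMk ?_ continuous_snd
          exact continuous_of_discreteTopology.comp continuous_fst
        continuous_invFun := by
          refine Continuous.prodMk ?_ continuous_snd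
          exact continuous_of_discreteTopology.comp continuous_fst }
    have h0 : H.map (PMap.ofHomeo e') x = 0 := by
      apply ih C
      intro i
      rw [← H.map_comp]
      have : (PMap.ofHomeo e').comp (slice C i) = slice C (e i) := PMap.ext fun _ => rfl
      rw [this]
      exact hx _
    have h1 := congrArg (H.map (PMap.ofHomeo e'.symm)) h0
    rw [← H.map_comp, PMap.ofHomeo_comp_symm, H.map_id, map_zero] at h1
    exact h1
  | h_empty =>
    intro _ _ C _ _ _ x hx
    exact eq_zero_of_isEmpty x
  | @h_option α _ ih =>
    intro _ _ C _ _ _ x hx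
    letI : TopologicalSpace α := ⊥
    haveI : DiscreteTopology α := ⟨rfl⟩
    have hj : IsOpenEmbedding (fun p : α × C => ((some p.1, p.2) : Option α × C)) := by
      refine IsOpenEmbedding.of_continuous_injective_isOpenMap ?_ ?_ ?_
      · refine Continuous.prodMk ?_ continuous_snd
        exact continuous_of_discreteTopology.comp continuous_fst
      · rintro ⟨a, b⟩ ⟨c, d⟩ h
        simpa using h
      · have : (fun p : α × C => ((some p.1, p.2) : Option α × C)) =
            Prod.map some id := rfl
        rw [this]
        refine IsOpenMap.prodMap (fun s _ => isOpen_discrete _) IsOpenMap.id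
    have hjc : IsClosedEmbedding (fun p : α × C => ((some p.1, p.2) : Option α × C)) := by
      refine ⟨hj.isEmbedding, ?_⟩
      have : range (fun p : α × C => ((some p.1, p.2) : Option α × C)) =
          (range (some : α → Option α)) ×ˢ univ := by
        ext ⟨a, b⟩
        simp only [mem_range, Prod.mk.injEq, mem_prod, mem_univ, and_true]
        constructor
        · rintro ⟨p, h, _⟩; exact ⟨_, h⟩
        · rintro ⟨p, h⟩; exact ⟨(p, b), h, rfl⟩
      rw [this]
      exact (isClosed_discrete _).prod isClosed_univ
    let D : Dec C (Option α × C) (α × C) :=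
      { i := fun c => (none, c)
        hi := slice_closed none C
        j := fun p => (some p.1, p.2)
        hj := hj
        compl := by
          ext ⟨a, b⟩
          simp only [mem_range, Prod.mk.injEq, mem_compl_iff, not_exists, not_and]
          constructor
          · rintro ⟨p, rfl, rfl⟩ y h
            cases h
          · intro h
            cases a with
            | none => exact absurd rfl (h b rfl)
            | some a => exact ⟨(a, b), rfl, rfl⟩ }
    refine eq_zero_of_clopen D hjc x (hx none) ?_
    apply ih C
    intro i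
    rw [← H.map_comp]
    have : (PMap.ofClosed D.j hjc).comp (slice C i) = slice C (some i) := PMap.ext fun _ => rfl
    rw [this]
    exact hx _

/-- the projection `G × C → C` as a pointed map (`G` finite) -/
def projD (ι : Type) [Finite ι] [TopologicalSpace ι] [DiscreteTopology ι] (C : Type u)
    [TopologicalSpace C] : PMap (ι × C) C where
  toFun := OnePoint.map Prod.snd
  cont := OnePoint.continuous_map continuous_snd (by
    haveI : CompactSpace ι := inferInstance
    rw [Filter.hasBasis_coclosedCompact.tendsto_iff Filter.hasBasis_coclosedCompact]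
    rintro K ⟨hK, hK'⟩
    refine ⟨univ ×ˢ K, ⟨isClosed_univ.prod hK, isCompact_univ.prod hK'⟩, ?_⟩
    rintro ⟨a, b⟩ hx h
    exact hx ⟨mem_univ _, h⟩)
  map_inf := rfl

@[simp] theorem projD_coe (ι : Type) [Finite ι] [TopologicalSpace ι] [DiscreteTopology ι]
    (C : Type u) [TopologicalSpace C] (x : ι × C) : projD ι C x = (x.2 : OnePoint C) := rfl

/-- **the free layer**: `G × C → C`, `G` acting on the left factor by translations -/
theorem QInv.free {G : Type} [Group G] [Fintype G] [TopologicalSpace G] [DiscreteTopology G]
    (C : Type u) [TopologicalSpace C] [T2Space C] [LocallyCompactSpace C] (A : Act G (G × C))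
    (hA : ∀ g (x : G × C), A.act g x = ((g * x.1, x.2) : G × C)) :
    H.QInv A (projD G C) := by
  have hs : ∀ g, (projD G C).comp (slice C g) = PMap.id C := fun g => PMap.ext fun _ => rfl
  refine ⟨fun g => PMap.ext fun x => ?_, ?_, ?_⟩
  · rw [PMap.comp_apply, hA, projD_coe, projD_coe]
  · exact H.injective_of_comp_id (hs 1)
  · intro x hx
    refine ⟨H.map (slice C 1) x, ?_⟩
    rw [← sub_eq_zero]
    apply jointly G C
    intro g
    rw [map_sub, ← H.map_comp, hs, H.map_id]
    have : (slice C g) = (A.act g).comp (slice C 1) := PMap.ext fun y => by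
      rw [PMap.comp_apply]
      show (((g, y) : G × C) : OnePoint (G × C)) = A.act g (((1, y) : G × C) : OnePoint (G × C))
      rw [hA, mul_one]
    rw [this, H.map_comp, hx, sub_self]

end disc

end Coh

end Crest.Agent.R090.CohT253
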