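import Crest.Agent.R090.Cone_962

/-!
# Row 90, T1: Puppe sequence, contravariant half (owner helper962)

* `MC.hep` : homotopy extension for `(MC f, V)`;
* `MC.exists_p` : exactness at `MC f`;
* `MC.exists_susp` : exactness at `U × Io`.
-/

set_option autoImplicit false
set_option linter.unusedSectionVars false

open Topology Filter Set

namespace Crest.Agent.R090.Sp962

open OnePoint
open scoped unitInterval

universe u v w x

variable {U : Type u} {V : Type v} {W : Type w} {X : Type x}
variable [TopologicalSpace U] [TopologicalSpace V] [TopologicalSpace W] [TopologicalSpace X]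

/-- clamp to the unit interval -/
noncomputable def cl (t : ℝ) : I := Set.projIcc (0 : ℝ) 1 zero_le_one t

@[fun_prop] theorem continuous_cl : Continuous cl := continuous_projIcc (h := zero_le_one)


@[simp] theorem cl_coe (t : I) : cl (t : ℝ) = t := by
  rw [cl, Set.projIcc_val]

theorem cl_of_le {t : ℝ} (h : t ≤ 0) : cl t = 0 := Set.projIcc_of_le_left _ h

theorem cl_of_ge {t : ℝ} (h : 1 ≤ t) : cl t = 1 := Set.projIcc_of_right_le _ h

@[simp] theorem cl_zero : cl 0 = 0 := cl_of_le le_rfl
@[simp] theorem cl_one : cl 1 = 1 := cl_of_ge le_rfl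

/-- factor a pointed map through a surjection -/
theorem PMap.exists_factor [T2Space W] [T2Space U] [T2Space V] [LocallyCompactSpace V]
    [LocallyCompactSpace U]
    (p : PMap U V) (hp : Function.Surjective p) (h : PMap U W)
    (hh : ∀ x y, p x = p y → h x = h y) : ∃ h' : PMap V W, h'.comp p = h := by
  have hq : IsQuotientMap p := p.cont.isClosedMap.isQuotientMap p.cont hp
  choose s hs using hp
  refine ⟨⟨fun y => h (s y), ?_, ?_⟩, ?_⟩
  · refine hq.continuous_iff.2 ?_
    have : (fun y => h (s y)) ∘ p = h := by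
      funext x
      exact hh _ _ (hs (p x))
    rw [this]; exact h.cont
  · rw [← h.map_inf]
    exact hh _ _ (by rw [hs, p.map_inf])
  · refine PMap.ext fun x => ?_
    exact hh _ _ (hs (p x))

namespace MC

variable [T2Space U] [T2Space V] [LocallyCompactSpace U] [LocallyCompactSpace V]

theorem p_surjective (f : PMap U V) : Function.Surjective (p f) := by
  intro z
  induction z using OnePoint.rec with
  | infty => exact ⟨∞, (p f).map_inf⟩
  | coe z => exact ⟨((MC.inl z : MC f) : OnePoint (MC f)), rfl⟩

/-- homotopy extension property of `(MC f, V)` -/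
theorem hep (f : PMap U V) (h : PMap (MC f) W) (k : PMap V W) (hk : (h.comp (i f)).Homotopic k) :
    ∃ h' : PMap (MC f) W, h'.comp (i f) = k ∧ h.Homotopic h' := by
  obtain ⟨K, hK, K0, K1, Ki⟩ := hk.exists
  have K0' : ∀ y, K (0, y) = h (i f y) := K0
  -- the extended homotopy on the cone coordinates
  let G : I → OnePoint U → ℝ → OnePoint W := fun s a t =>
    if t ≤ 1 - (s : ℝ) / 2 then h (q f a (t / (1 - (s : ℝ) / 2)))
    else K (cl (2 * t - 2 + s), f a)
  have hpos : ∀ s : I, (0 : ℝ) < 1 - (s : ℝ) / 2 := fun s => by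
    have := s.2.2; linarith
  have hG : Continuous (fun p : I × (OnePoint U × I) => G p.1 p.2.1 p.2.2) := by
    refine Continuous.if_le ?_ ?_ (by fun_prop) (by fun_prop) ?_
    · refine h.cont.comp ((continuous_q f).comp (Continuous.prodMk (by fun_prop) ?_))
      exact Continuous.div (by fun_prop) (by fun_prop) fun p => (hpos p.1).ne'
    · refine hK.comp (Continuous.prodMk (by fun_prop) (f.cont.comp (by fun_prop)))
    · intro p hp
      rw [hp, div_self (hpos p.1).ne', q_one, cl_of_le (by linarith), K0']
  let F : I → OnePoint (MC f) → OnePoint W := fun s => lift f (G s) (fun y => K (s, y))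
  have hinf : ∀ (s : I) (t : ℝ), G s ∞ t = K (s, ∞) := by
    intro s t
    simp only [G]
    split_ifs
    · rw [q_inf, h.map_inf, Ki]
    · rw [f.map_inf, Ki, Ki]
  have h0 : ∀ (s : I) (a : OnePoint U), G s a 0 = K (s, ∞) := by
    intro s a
    simp only [G]
    rw [if_pos (hpos s).le, zero_div, q_zero, h.map_inf, Ki]
  have h1 : ∀ (s : I) (a : OnePoint U), G s a 1 = K (s, f a) := by
    intro s a
    simp only [G]
    rcases eq_or_lt_of_le s.2.1 with hs | hs
    · have hs' : s = 0 := Subtype.ext hs.symm
      subst hs'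
      rw [if_pos (by simp), Set.Icc.coe_zero, zero_div, sub_zero, div_one, q_one, K0']
    · rw [if_neg (by simp only [not_le]; linarith)]
      congr 2
      have : (2 * (1 : ℝ) - 2 + s) = s := by ring
      rw [this, cl_coe]
  have hF : Continuous (fun p : I × OnePoint (MC f) => F p.1 p.2) := by
    refine continuous_of f ?_ ?_
    · have : (fun p : I × (OnePoint U × I) => F p.1 (q f p.2.1 p.2.2)) =
          fun p => G p.1 p.2.1 p.2.2 := by
        funext p
        exact lift_q f (G p.1) (fun y => K (p.1, y)) (hinf p.1) (h0 p.1) (h1 p.1) p.2.1 p.2.2.2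
      simp only
      rw [this]; exact hG
    · have : (fun p : I × OnePoint V => F p.1 (i f p.2)) = fun p => K (p.1, p.2) := by
        funext p
        exact lift_i f (G p.1) (fun y => K (p.1, y)) p.2
      simp only
      rw [this]; exact hK.comp (by fun_prop)
  refine ⟨⟨F 1, hF.comp (continuous_const.prodMk continuous_id), ?_⟩, ?_, ?_⟩
  · exact Ki 1
  · refine PMap.ext fun y => ?_
    change lift f (G 1) (fun y => K (1, y)) (i f y) = k y
    rw [lift_i, K1]
  · refine PMap.Homotopic.of (fun p => F p.1 p.2) hF ?_ ?_ ?_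
    · intro z
      change F 0 (z : OnePoint (MC f)) = h z
      generalize (z : OnePoint (MC f)) = z'
      refine MC.cases f (P := fun z' => F 0 z' = h z') ?_ ?_ z'
      · intro a t ht
        change lift f (G 0) (fun y => K (0, y)) (q f a t) = _
        rw [lift_q f (G 0) (fun y => K (0, y)) (hinf 0) (h0 0) (h1 0) a ht]
        simp only [G]
        rw [if_pos (by simpa using ht.2)]
        simp
      · intro y
        change lift f (G 0) (fun y => K (0, y)) (i f y) = _
        rw [lift_i, K0']
    · intro z; rfl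
    · intro t; exact Ki t

/-- exactness at `MC f` -/
theorem exists_p [T2Space W] (f : PMap U V) (h : PMap (MC f) W) (hi : (h.comp (i f)).Null) :
    ∃ h' : PMap (U × Io) W, h.Homotopic (h'.comp (p f)) := by
  obtain ⟨h1, hh1, hh⟩ := hep f h (PMap.zero V W) hi
  obtain ⟨h', hh'⟩ := PMap.exists_factor (p f) (p_surjective f) h1 (by
    have key : ∀ y, h1 (i f y) = ∞ := fun y => by
      have := congrArg (fun k : PMap V W => k y) hh1
      exact this
    have key2 : ∀ z, p f z = ∞ → h1 z = ∞ := by
      intro z hz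
      induction z using OnePoint.rec with
      | infty => exact h1.map_inf
      | coe z =>
        cases z with
        | inl c => exact absurd hz (coe_ne_infty _)
        | inr y => exact key y
    intro x y hxy
    induction x using OnePoint.rec with
    | infty =>
      rw [h1.map_inf, key2 y (by rw [← hxy, (p f).map_inf])]
    | coe x =>
      cases x with
      | inr x =>
        have hx : p f (((MC.inr x : MC f)) : OnePoint (MC f)) = ∞ := rfl
        rw [key2 _ hx, key2 y (by rw [← hxy, hx])]
      | inl c =>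
        induction y using OnePoint.rec with
        | infty =>
          have : p f (((MC.inl c : MC f)) : OnePoint (MC f)) = ∞ := hxy.trans (p f).map_inf
          rw [key2 _ this, h1.map_inf]
        | coe y =>
          cases y with
          | inl c' =>
            have : ((c : U × Io) : OnePoint (U × Io)) = ((c' : U × Io) : OnePoint (U × Io)) := hxy
            rw [coe_injective this]
          | inr y =>
            have : ((c : U × Io) : OnePoint (U × Io)) = ∞ := hxy
            exact absurd this (coe_ne_infty _))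
  exact ⟨h', by rw [hh']; exact hh⟩

/-- the flip of the suspension coordinate -/
def flipIo : Io ≃ₜ Io where
  toFun t := ⟨1 - t, by have := t.2.1; have := t.2.2; constructor <;> linarith⟩
  invFun t := ⟨1 - t, by have := t.2.1; have := t.2.2; constructor <;> linarith⟩
  left_inv t := by ext; simp
  right_inv t := by ext; simp
  continuous_toFun := by fun_prop
  continuous_invFun := by fun_prop

/-- continuity of maps out of `(U × Io)⁺` -/
theorem continuous_of_susp {K : Type*} [TopologicalSpace K] [CompactSpace K] [T2Space K]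
    {Z : Type*} [TopologicalSpace Z] {g : K × OnePoint (U × Io) → Z}
    (h : Continuous (fun p : K × (OnePoint U × I) => g (p.1, sm p.2.1 (qI p.2.2)))) :
    Continuous g := by
  let φ : K × (OnePoint U × I) → K × OnePoint (U × Io) := fun p => (p.1, sm p.2.1 (qI p.2.2))
  have hφ : Continuous φ := by
    refine continuous_fst.prodMk ?_
    exact (Continuous.sm962 (by fun_prop) (continuous_qI.comp (by fun_prop)))
  have hs : Function.Surjective φ := by
    rintro ⟨k, z⟩
    obtain ⟨⟨a, s⟩, hz⟩ := sm_surjective z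
    obtain ⟨t, ht⟩ := qI_surjective s
    exact ⟨(k, (a, t)), by simp only [φ]; rw [ht]; exact Prod.ext rfl hz⟩
  exact (hφ.isClosedMap.isQuotientMap hφ hs).continuous_iff.2 h

theorem continuous_of_susp' {Z : Type*} [TopologicalSpace Z] {g : OnePoint (U × Io) → Z}
    (h : Continuous (fun p : OnePoint U × I => g (sm p.1 (qI p.2)))) :
    Continuous g := by
  have := continuous_of_susp (U := U) (K := Unit) (g := fun p => g p.2) (h.comp continuous_snd)
  exact this.comp ((continuous_const (y := ())).prodMk continuous_id)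

/-- raw map out of the suspension -/
noncomputable def sus {Z : Type*} (z : Z) (H : OnePoint U → ℝ → Z) (c : OnePoint (U × Io)) : Z :=
  c.elim z fun p => H p.1 p.2

theorem sus_sm {Z : Type*} (z : Z) (H : OnePoint U → ℝ → Z)
    (hinf : ∀ t, H ∞ t = z) (h0 : ∀ a, H a 0 = z) (h1 : ∀ a, H a 1 = z) (a : OnePoint U) {t : ℝ}
    (ht : t ∈ Icc (0 : ℝ) 1) : sus z H (sm a (qI t)) = H a t := by
  rcases eq_or_lt_of_le ht.1 with h | h
  · rw [← h, qI_zero, sm_inf_right, h0]; rfl
  rcases eq_or_lt_of_le ht.2 with h' | h'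
  · rw [h', qI_one, sm_inf_right, h1]; rfl
  induction a using OnePoint.rec with
  | infty => rw [sm_inf_left, hinf]; rfl
  | coe a => rw [qI_of_mem ⟨h, h'⟩, sm_coe]; rfl

/-- pointed map out of the suspension -/
noncomputable def susMap (H : OnePoint U → ℝ → OnePoint W)
    (hH : Continuous (fun p : OnePoint U × I => H p.1 p.2))
    (hinf : ∀ t, H ∞ t = ∞) (h0 : ∀ a, H a 0 = ∞) (h1 : ∀ a, H a 1 = ∞) : PMap (U × Io) W where
  toFun := sus ∞ H
  cont := by
    refine continuous_of_susp' ?_
    have : (fun p : OnePoint U × I => sus ∞ H (sm p.1 (qI p.2))) = fun p => H p.1 p.2 := by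
      funext p
      exact sus_sm ∞ H hinf h0 h1 p.1 p.2.2
    rw [this]; exact hH
  map_inf := rfl

theorem susMap_sm (H : OnePoint U → ℝ → OnePoint W)
    (hH : Continuous (fun p : OnePoint U × I => H p.1 p.2))
    (hinf : ∀ t, H ∞ t = ∞) (h0 : ∀ a, H a 0 = ∞) (h1 : ∀ a, H a 1 = ∞) (a : OnePoint U) {t : ℝ}
    (ht : t ∈ Icc (0 : ℝ) 1) : susMap H hH hinf h0 h1 (sm a (qI t)) = H a t :=
  sus_sm ∞ H hinf h0 h1 a ht

/-- homotopy of maps out of the suspension, from a family `H : I → OnePoint U → ℝ → OnePoint W` -/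
theorem homotopic_susp {g g' : PMap (U × Io) W} (H : I → OnePoint U → ℝ → OnePoint W)
    (hH : Continuous (fun p : I × (OnePoint U × I) => H p.1 p.2.1 p.2.2))
    (hinf : ∀ s t, H s ∞ t = ∞) (h0 : ∀ s a, H s a 0 = ∞) (h1 : ∀ s a, H s a 1 = ∞)
    (e0 : ∀ (a : U) (t : Io), H 0 a t = g (sm (a : OnePoint U) (t : OnePoint Io)))
    (e1 : ∀ (a : U) (t : Io), H 1 a t = g' (sm (a : OnePoint U) (t : OnePoint Io))) :
    g.Homotopic g' := by
  refine PMap.Homotopic.of (fun p => sus ∞ (H p.1) p.2) ?_ ?_ ?_ ?_
  · refine continuous_of_susp ?_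
    have : (fun p : I × (OnePoint U × I) => sus ∞ (H p.1) (sm p.2.1 (qI p.2.2))) =
        fun p => H p.1 p.2.1 p.2.2 := by
      funext p
      exact sus_sm ∞ (H p.1) (hinf p.1) (h0 p.1) (h1 p.1) p.2.1 p.2.2.2
    simp only
    rw [this]; exact hH
  · intro z; exact e0 z.1 z.2
  · intro z; exact e1 z.1 z.2
  · intro t; rfl

/-- exactness at `U × Io` -/
theorem exists_susp (f : PMap U V) (g : PMap (U × Io) W) (hg : (g.comp (p f)).Null) :
    ∃ g' : PMap (V × Io) W, g.Homotopic (g'.comp (f.smash (PMap.id Io))) := by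
  obtain ⟨N, hN, N0, N1, Ni⟩ := hg.exists
  have N0' : ∀ z, N (0, z) = g (p f z) := N0
  have N1' : ∀ z, N (1, z) = ∞ := N1
  refine ⟨susMap (fun y s => N (cl (1 - s), i f y)) ?_ ?_ ?_ ?_, ?_⟩
  · refine hN.comp (Continuous.prodMk (by fun_prop) ((i f).cont.comp (by fun_prop)))
  · intro t; rw [(i f).map_inf, Ni]
  · intro y; rw [sub_zero, cl_one, N1']
  · intro y; rw [sub_self, cl_zero, N0', p_i, g.map_inf]
  · have e : ∀ (u : I), (0 : ℝ) ≤ min (2 * (u : ℝ)) 1 ∧ min (2 * (u : ℝ)) 1 ≤ 1 ∧
        0 ≤ max (2 * (u : ℝ) - 1) 0 ∧ max (2 * (u : ℝ) - 1) 0 ≤ 1 := fun u => by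
      have h0 := u.2.1
      have h1 := u.2.2
      refine ⟨le_min (by linarith) zero_le_one, min_le_right _ _, le_max_right _ _,
        max_le (by linarith) zero_le_one⟩
    refine homotopic_susp (fun u a r => N (cl ((1 - r) * min (2 * (u : ℝ)) 1),
      q f a ((1 - r) * max (2 * (u : ℝ) - 1) 0 + r))) ?_ ?_ ?_ ?_ ?_ ?_
    · refine hN.comp (Continuous.prodMk (by fun_prop) ?_)
      exact (continuous_q f).comp (Continuous.prodMk (by fun_prop) (by fun_prop))
    · intro s t; rw [q_inf, Ni]
    · intro u a
      rcases le_or_gt (u : ℝ) (1 / 2) with h | h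
      · rw [max_eq_right (by linarith)]
        simp only [mul_zero, add_zero]
        rw [q_zero, Ni]
      · rw [min_eq_right (by linarith)]
        simp only [sub_zero, mul_one]
        rw [cl_one, N1']
    · intro u a
      simp only [sub_self, zero_mul, zero_add]
      rw [cl_zero, q_one, N0', p_i, g.map_inf]
    · intro a t
      have h0 : ((0 : I) : ℝ) = 0 := rfl
      rw [h0]
      simp only [mul_zero, zero_sub]
      rw [min_eq_left zero_le_one, max_eq_right (by norm_num)]
      simp only [mul_zero, zero_add]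
      rw [cl_zero, N0', p_q, qI_coe]
    · intro a t
      have h1 : ((1 : I) : ℝ) = 1 := rfl
      rw [h1]
      have e1 : min (2 * (1 : ℝ)) 1 = 1 := by norm_num
      have e2 : max (2 * (1 : ℝ) - 1) 0 = 1 := by norm_num
      rw [e1, e2]
      have e3 : (1 - (t : ℝ)) * 1 + t = 1 := by ring
      rw [e3, q_one, mul_one, PMap.comp_apply, PMap.smash_sm, PMap.id_apply, ← qI_coe t,
        susMap_sm _ _ _ _ _ _ ⟨t.2.1.le, t.2.2.le⟩]

end MC

end Crest.Agent.R090.Sp962
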