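import Crest.Agent.R090.Puppe_962

/-!
# Row 90, T1: cones and smash products, functoriality of cones (owner helper962)

* `homeoOfMap` : a bijection whose pointed extension is continuous is a homeomorphism;
* `MC.smR : MC (f.smash (PMap.id W)) ≃ₜ MC f × W`, `MC.smL : MC ((PMap.id W).smash f) ≃ₜ W × MC f`,
  compatible with `q`, `i`, `p`;
* `MC.map` : functoriality for strictly commuting squares, `MC.congr` for homeomorphisms;
* `MC.exists_fill` : fill-in for homotopy commutative squares.
-/

set_option autoImplicit false
set_option linter.unusedSectionVars false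

open Topology Filter Set

namespace Crest.Agent.R090.Sp962

open OnePoint
open scoped unitInterval

universe u v w x u' v'

section homeo

variable {U : Type u} {V : Type v} [TopologicalSpace U] [TopologicalSpace V]

theorem continuous_of_map {e : U → V} (h : Continuous (OnePoint.map e)) : Continuous e := by
  have : Continuous (((↑) : V → OnePoint V) ∘ e) := h.comp continuous_coe
  exact isOpenEmbedding_coe.isInducing.continuous_iff.2 this

/-- a bijection whose pointed extension is continuous is a homeomorphism -/
def homeoOfMap [T2Space V] [LocallyCompactSpace V] (e : U ≃ V) (h : Continuous (OnePoint.map e)) :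
    U ≃ₜ V where
  toEquiv := e
  continuous_toFun := continuous_of_map h
  continuous_invFun := by
    refine continuous_of_map (e := e.symm) ?_
    let E : OnePoint U ≃ OnePoint V :=
      ⟨OnePoint.map e, OnePoint.map e.symm,
        fun x => by induction x using OnePoint.rec <;> simp,
        fun x => by induction x using OnePoint.rec <;> simp⟩
    exact (Continuous.homeoOfEquivCompactToT2 (f := E) h).symm.continuous

@[simp] theorem homeoOfMap_apply [T2Space V] [LocallyCompactSpace V] (e : U ≃ V)
    (h : Continuous (OnePoint.map e)) (x : U) : homeoOfMap e h x = e x := rfl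

@[simp] theorem homeoOfMap_symm_apply [T2Space V] [LocallyCompactSpace V] (e : U ≃ V)
    (h : Continuous (OnePoint.map e)) (x : V) : (homeoOfMap e h).symm x = e.symm x := rfl

end homeo

namespace MC

variable {U : Type u} {V : Type v} {W : Type w} {X : Type x}
variable [TopologicalSpace U] [TopologicalSpace V] [TopologicalSpace W] [TopologicalSpace X]
variable [T2Space U] [T2Space V] [T2Space W]
variable [LocallyCompactSpace U] [LocallyCompactSpace V] [LocallyCompactSpace W]

/-! ## smash product with a space on the right -/

/-- the bijection `MC (f ∧ 1_W) ≃ MC f × W` -/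
def smREquiv (f : PMap U V) (W : Type w) [TopologicalSpace W] [T2Space W]
    [LocallyCompactSpace W] : MC (f.smash (PMap.id W)) ≃ MC f × W where
  toFun z := match z with
    | .inl p => (.inl (p.1.1, p.2), p.1.2)
    | .inr p => (.inr p.1, p.2)
  invFun z := match z with
    | (.inl p, w) => .inl ((p.1, w), p.2)
    | (.inr y, w) => .inr (y, w)
  left_inv := by rintro (p | p) <;> rfl
  right_inv := by rintro ⟨p | p, w⟩ <;> rfl

theorem smREquiv_q (f : PMap U V) (a : OnePoint U) (c : OnePoint W) (t : ℝ) :
    OnePoint.map (smREquiv f W) (q (f.smash (PMap.id W)) (sm a c) t) = sm (q f a t) c := by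
  rw [q, q]
  split_ifs with h
  · rw [PMap.smash_sm, PMap.id_apply]
    generalize f a = b
    induction b using OnePoint.rec with
    | infty => simp
    | coe b =>
      induction c using OnePoint.rec with
      | infty => simp
      | coe c => rfl
  · generalize qI t = s
    induction a using OnePoint.rec with
    | infty => simp
    | coe a =>
      induction c using OnePoint.rec with
      | infty => simp
      | coe c =>
        induction s using OnePoint.rec with
        | infty => simp
        | coe s => rfl

theorem smREquiv_i (f : PMap U V) (y : OnePoint V) (c : OnePoint W) :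
    OnePoint.map (smREquiv f W) (i (f.smash (PMap.id W)) (sm y c)) = sm (i f y) c := by
  induction y using OnePoint.rec with
  | infty => simp
  | coe y =>
    induction c using OnePoint.rec with
    | infty => simp
    | coe c => rfl

theorem continuous_smREquiv (f : PMap U V) : Continuous (OnePoint.map (smREquiv f W)) := by
  refine continuous_of' _ ?_ ?_
  · have h : Continuous (fun p : I × OnePoint (U × W) =>
        OnePoint.map (smREquiv f W) (q (f.smash (PMap.id W)) p.2 p.1)) := by
      refine continuous_of_sm' ?_
      simp only [smREquiv_q]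
      exact ((continuous_q f).comp (by fun_prop : Continuous
        (fun p : I × (OnePoint U × OnePoint W) => (p.2.1, (p.1 : ℝ))))).sm962 (by fun_prop)
    exact h.comp (continuous_snd.prodMk continuous_fst)
  · refine continuous_of_sm ?_
    simp only [smREquiv_i]
    exact ((i f).cont.comp continuous_fst).sm962 continuous_snd

/-- **cone of `f ∧ 1_W`** -/
noncomputable def smR (f : PMap U V) (W : Type w) [TopologicalSpace W] [T2Space W]
    [LocallyCompactSpace W] : MC (f.smash (PMap.id W)) ≃ₜ MC f × W :=
  homeoOfMap (smREquiv f W) (continuous_smREquiv f)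

@[simp] theorem smR_q (f : PMap U V) (a : OnePoint U) (c : OnePoint W) (t : ℝ) :
    PMap.ofHomeo (smR f W) (q (f.smash (PMap.id W)) (sm a c) t) = sm (q f a t) c :=
  smREquiv_q f a c t

@[simp] theorem smR_i (f : PMap U V) :
    (PMap.ofHomeo (smR f W)).comp (i (f.smash (PMap.id W))) = (i f).smash (PMap.id W) :=
  PMap.ext fun y => smREquiv_i f (y.1 : OnePoint V) (y.2 : OnePoint W)

/-- `(A × B) × C ≃ (A × C) × B` -/
def swp (A : Type*) (B : Type*) (C : Type*) [TopologicalSpace A] [TopologicalSpace B]
    [TopologicalSpace C] : (A × B) × C ≃ₜ (A × C) × B where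
  toFun p := ((p.1.1, p.2), p.1.2)
  invFun p := ((p.1.1, p.2), p.1.2)
  left_inv _ := rfl
  right_inv _ := rfl
  continuous_toFun := by fun_prop
  continuous_invFun := by fun_prop

@[simp] theorem swp_sm {A : Type*} {B : Type*} {C : Type*} [TopologicalSpace A]
    [TopologicalSpace B] [TopologicalSpace C] (a : OnePoint A) (b : OnePoint B) (c : OnePoint C) :
    PMap.ofHomeo (swp A B C) (sm (sm a b) c) = sm (sm a c) b := by
  induction a using OnePoint.rec with
  | infty => simp
  | coe a =>
    induction b using OnePoint.rec with
    | infty => simp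
    | coe b =>
      induction c using OnePoint.rec with
      | infty => simp
      | coe c => rfl

theorem smR_p (f : PMap U V) :
    ((p f).smash (PMap.id W)).comp (PMap.ofHomeo (smR f W)) =
      (PMap.ofHomeo (swp U W Io)).comp (p (f.smash (PMap.id W))) := by
  refine PMap.ext fun z => ?_
  rcases z with z | z
  · rfl
  · rfl

/-! ## smash product with a space on the left -/

/-- the bijection `MC (1_W ∧ f) ≃ W × MC f` -/
def smLEquiv (f : PMap U V) (W : Type w) [TopologicalSpace W] [T2Space W]
    [LocallyCompactSpace W] : MC ((PMap.id W).smash f) ≃ W × MC f where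
  toFun z := match z with
    | .inl p => (p.1.1, .inl (p.1.2, p.2))
    | .inr p => (p.1, .inr p.2)
  invFun z := match z with
    | (w, .inl p) => .inl ((w, p.1), p.2)
    | (w, .inr y) => .inr (w, y)
  left_inv := by rintro (p | p) <;> rfl
  right_inv := by rintro ⟨w, p | p⟩ <;> rfl

theorem smLEquiv_q (f : PMap U V) (c : OnePoint W) (a : OnePoint U) (t : ℝ) :
    OnePoint.map (smLEquiv f W) (q ((PMap.id W).smash f) (sm c a) t) = sm c (q f a t) := by
  rw [q, q]
  split_ifs with h
  · rw [PMap.smash_sm, PMap.id_apply]
    generalize f a = b
    induction b using OnePoint.rec with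
    | infty => simp
    | coe b =>
      induction c using OnePoint.rec with
      | infty => simp
      | coe c => rfl
  · generalize qI t = s
    induction a using OnePoint.rec with
    | infty => simp
    | coe a =>
      induction c using OnePoint.rec with
      | infty => simp
      | coe c =>
        induction s using OnePoint.rec with
        | infty => simp
        | coe s => rfl

theorem smLEquiv_i (f : PMap U V) (c : OnePoint W) (y : OnePoint V) :
    OnePoint.map (smLEquiv f W) (i ((PMap.id W).smash f) (sm c y)) = sm c (i f y) := by
  induction y using OnePoint.rec with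
  | infty => simp
  | coe y =>
    induction c using OnePoint.rec with
    | infty => simp
    | coe c => rfl

theorem continuous_smLEquiv (f : PMap U V) : Continuous (OnePoint.map (smLEquiv f W)) := by
  refine continuous_of' _ ?_ ?_
  · have h : Continuous (fun p : I × OnePoint (W × U) =>
        OnePoint.map (smLEquiv f W) (q ((PMap.id W).smash f) p.2 p.1)) := by
      refine continuous_of_sm' ?_
      simp only [smLEquiv_q]
      exact (by fun_prop : Continuous
        (fun p : I × (OnePoint W × OnePoint U) => p.2.1)).sm962 ((continuous_q f).comp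
          (by fun_prop : Continuous
            (fun p : I × (OnePoint W × OnePoint U) => (p.2.2, (p.1 : ℝ)))))
    exact h.comp (continuous_snd.prodMk continuous_fst)
  · refine continuous_of_sm ?_
    simp only [smLEquiv_i]
    exact continuous_fst.sm962 ((i f).cont.comp continuous_snd)

/-- **cone of `1_W ∧ f`** -/
noncomputable def smL (f : PMap U V) (W : Type w) [TopologicalSpace W] [T2Space W]
    [LocallyCompactSpace W] : MC ((PMap.id W).smash f) ≃ₜ W × MC f :=
  homeoOfMap (smLEquiv f W) (continuous_smLEquiv f)

@[simp] theorem smL_q (f : PMap U V) (c : OnePoint W) (a : OnePoint U) (t : ℝ) :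
    PMap.ofHomeo (smL f W) (q ((PMap.id W).smash f) (sm c a) t) = sm c (q f a t) :=
  smLEquiv_q f c a t

@[simp] theorem smL_i (f : PMap U V) :
    (PMap.ofHomeo (smL f W)).comp (i ((PMap.id W).smash f)) = (PMap.id W).smash (i f) :=
  PMap.ext fun y => smLEquiv_i f (y.1 : OnePoint W) (y.2 : OnePoint V)


/-! ## functoriality -/

section map

variable {U' : Type u'} {V' : Type v'} [TopologicalSpace U'] [TopologicalSpace V']
variable [T2Space U'] [T2Space V'] [LocallyCompactSpace U'] [LocallyCompactSpace V']

/-- functoriality of the cone for strictly commuting squares -/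
noncomputable def map {f : PMap U V} {f' : PMap U' V'} (a : PMap U U') (b : PMap V V')
    (h : b.comp f = f'.comp a) : PMap (MC f) (MC f') :=
  desc f ((i f').comp b) (fun x t => q f' (a x) t)
    ((continuous_q f').comp ((a.cont.comp continuous_fst).prodMk
      (continuous_subtype_val.comp continuous_snd)))
    (fun t => by rw [a.map_inf, q_inf]) (fun x => q_zero _ _)
    (fun x => by
      rw [q_one]
      have := congrArg (fun k : PMap U V' => k x) h
      simp only [PMap.comp_apply] at this
      rw [PMap.comp_apply, this])

@[simp] theorem map_i {f : PMap U V} {f' : PMap U' V'} (a : PMap U U') (b : PMap V V')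
    (h : b.comp f = f'.comp a) : (map a b h).comp (i f) = (i f').comp b :=
  PMap.ext fun y => by rw [PMap.comp_apply, map, desc_i]

theorem map_q {f : PMap U V} {f' : PMap U' V'} (a : PMap U U') (b : PMap V V')
    (h : b.comp f = f'.comp a) (x : OnePoint U) {t : ℝ} (ht : t ∈ Icc (0 : ℝ) 1) :
    map a b h (q f x t) = q f' (a x) t := desc_q _ _ _ _ _ _ _ _ ht

@[simp] theorem p_map {f : PMap U V} {f' : PMap U' V'} (a : PMap U U') (b : PMap V V')
    (h : b.comp f = f'.comp a) :
    (p f').comp (map a b h) = (a.smash (PMap.id Io)).comp (p f) := by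
  refine PMap.ext fun z => ?_
  change p f' (map a b h z) = (a.smash (PMap.id Io)) (p f z)
  refine MC.cases f (P := fun z => p f' (map a b h z) = (a.smash (PMap.id Io)) (p f z)) ?_ ?_ z
  · intro x t ht
    rw [map_q a b h x ht, p_q, p_q, PMap.smash_sm, PMap.id_apply]
  · intro y
    have := congrArg (fun k : PMap V (MC f') => k y) (map_i a b h)
    simp only [PMap.comp_apply] at this
    rw [this, p_i, p_i, PMap.map_inf]

/-- homeomorphic maps have homeomorphic cones -/
noncomputable def congr {f : PMap U V} {f' : PMap U' V'} (a : U ≃ₜ U') (b : V ≃ₜ V')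
    (h : (PMap.ofHomeo b).comp f = f'.comp (PMap.ofHomeo a)) : MC f ≃ₜ MC f' :=
  homeoOfMap
    { toFun := fun z => match z with
        | .inl p => .inl (a p.1, p.2)
        | .inr y => .inr (b y)
      invFun := fun z => match z with
        | .inl p => .inl (a.symm p.1, p.2)
        | .inr y => .inr (b.symm y)
      left_inv := by rintro (⟨x, t⟩ | y) <;> simp
      right_inv := by rintro (⟨x, t⟩ | y) <;> simp } (by
    have e : OnePoint.map (fun z : MC f => (match z with
        | .inl p => .inl (a p.1, p.2)
        | .inr y => .inr (b y) : MC f')) = map (PMap.ofHomeo a) (PMap.ofHomeo b) h := by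
      funext z
      induction z using OnePoint.rec with
      | infty => exact (PMap.map_inf _).symm
      | coe z =>
        rcases z with ⟨x, t⟩ | y
        · rw [← q_of_mem f x t.2, map_q _ _ _ _ ⟨t.2.1.le, t.2.2.le⟩, PMap.ofHomeo_coe,
            q_of_mem f' _ t.2, q_of_mem f x t.2]
          rfl
        · rw [← i_coe]
          have := congrArg (fun k : PMap V (MC f') => k y)
            (map_i (PMap.ofHomeo a) (PMap.ofHomeo b) h)
          simp only [PMap.comp_apply] at this
          rw [this]; rfl
    exact e ▸ (map (PMap.ofHomeo a) (PMap.ofHomeo b) h).cont)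

theorem ofHomeo_congr {f : PMap U V} {f' : PMap U' V'} (a : U ≃ₜ U') (b : V ≃ₜ V')
    (h : (PMap.ofHomeo b).comp f = f'.comp (PMap.ofHomeo a)) :
    PMap.ofHomeo (congr a b h) = map (PMap.ofHomeo a) (PMap.ofHomeo b) h := by
  refine PMap.ext fun z => ?_
  rcases z with ⟨x, t⟩ | y
  · rw [← q_of_mem f x t.2, map_q _ _ _ _ ⟨t.2.1.le, t.2.2.le⟩, PMap.ofHomeo_coe (e := a),
      q_of_mem f' _ t.2, q_of_mem f x t.2]
    rfl
  · rw [← i_coe]
    have := congrArg (fun k : PMap V (MC f') => k y)
      (map_i (PMap.ofHomeo a) (PMap.ofHomeo b) h)
    simp only [PMap.comp_apply] at this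
    rw [this]; rfl


end map

end MC

end Crest.Agent.R090.Sp962
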