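import Crest.Agent.R090.FMSB_554
import Crest.Agent.R090.MCSm_962

/-!
# Row 90, leaf FM4 (owner helper305, second of helper554): products of sphere-built spaces

`SB M → SB N → SB (M × N)`.
-/

set_option autoImplicit false
set_option linter.unusedSectionVars false

open Topology Filter Set unitInterval

namespace Crest.Agent.R090.FM554

open OnePoint Crest.Agent.R090.Sp962

universe u v w

section heqv

variable {X : Type u} {Y : Type v} [TopologicalSpace X] [TopologicalSpace Y]
  [T2Space X] [LocallyCompactSpace X] [T2Space Y] [LocallyCompactSpace Y]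

/-- pointed homotopy equivalences are stable under products with a fixed space -/
theorem HEqv.smashR (h : HEqv X Y) (W : Type w) [TopologicalSpace W] [T2Space W]
    [LocallyCompactSpace W] : HEqv (X × W) (Y × W) := by
  obtain ⟨f, g, h1, h2⟩ := h
  refine ⟨f.smash (PMap.id W), g.smash (PMap.id W), ?_, ?_⟩
  · rw [← PMap.smash_id, PMap.smash_comp, PMap.comp_id]
    exact h1.smash (PMap.Homotopic.refl _)
  · rw [← PMap.smash_id, PMap.smash_comp, PMap.comp_id]
    exact h2.smash (PMap.Homotopic.refl _)


end heqv

section prod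

variable {M N : Type} [TopologicalSpace M] [T2Space M] [LocallyCompactSpace M]
variable [TopologicalSpace N] [T2Space N] [LocallyCompactSpace N]

theorem SB.prod_swap (h : SB (M × N)) : SB (N × M) := h.homeo (Homeomorph.prodComm M N)

/-- products with spheres -/
theorem SB.prod_sphere (h : SB M) (n : ℕ) : SB (M × (Fin n → ℝ)) := by
  refine SB.induction (P := fun M _ _ _ => SB (M × (Fin n → ℝ))) ?_ ?_ ?_ h
  · intro m
    exact (SB.sphere (m + n)).homeo (Fin.appendHomeomorph m n).symm
  · intro X Y _ _ _ _ _ _ f hX hY
    exact (SB.cone (f.smash (PMap.id (Fin n → ℝ))) hX hY).homeo (MC.smR f (Fin n → ℝ))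
  · intro X Y _ _ _ _ _ _ e hX
    exact hX.heqv (HEqv.smashR e _)

/-- products -/
theorem SB.prod (hM : SB M) (hN : SB N) : SB (M × N) := by
  refine SB.induction (P := fun M _ _ _ => SB (M × N)) ?_ ?_ ?_ hM
  · intro m
    exact SB.prod_swap (SB.prod_sphere hN m)
  · intro X Y _ _ _ _ _ _ f hX hY
    exact (SB.cone (f.smash (PMap.id N)) hX hY).homeo (MC.smR f N)
  · intro X Y _ _ _ _ _ _ e hX
    exact hX.heqv (HEqv.smashR e _)

/-- the space `Fin 1 → ℝ` is `ℝ` -/
theorem SB.real : SB ℝ := (SB.sphere 1).homeo (Homeomorph.funUnique (Fin 1) ℝ)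

theorem SB.unit : SB Unit := (SB.sphere 0).homeo
  { toFun := fun _ => (), invFun := fun _ => default, left_inv := fun _ => Subsingleton.elim _ _,
    right_inv := fun _ => Subsingleton.elim _ _,
    continuous_toFun := continuous_const, continuous_invFun := continuous_const }


/-- any finite dimensional real vector space -/
theorem SB.fd (E : Type) [AddCommGroup E] [Module ℝ E] [TopologicalSpace E]
    [IsTopologicalAddGroup E] [ContinuousSMul ℝ E] [T2Space E] [FiniteDimensional ℝ E]
    [LocallyCompactSpace E] : SB E := by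
  have e : E ≃L[ℝ] (Fin (Module.finrank ℝ E) → ℝ) :=
    ContinuousLinearEquiv.ofFinrankEq (by simp)
  exact (SB.sphere _).homeo e.symm.toHomeomorph

theorem SB.Io : SB Sp962.Io := by
  have e : ℝ ≃ₜ Sp962.Io :=
    (orderIsoIooNegOneOne ℝ).toHomeomorph.trans
    { toFun := fun x => ⟨(x.1 + 1) / 2, by constructor <;> [linarith [x.2.1]; linarith [x.2.2]]⟩
      invFun := fun x => ⟨2 * x.1 - 1, by constructor <;> [linarith [x.2.1]; linarith [x.2.2]]⟩
      left_inv := fun x => by apply Subtype.ext; simp only []; ring
      right_inv := fun x => by apply Subtype.ext; simp only []; ring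
      continuous_toFun := by fun_prop
      continuous_invFun := by fun_prop }
  exact SB.real.homeo e



end prod

end Crest.Agent.R090.FM554
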