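import Crest.Agent.R090.Puppe_962

/-!
# Row 90, leaf FM: sphere-built spaces

`SB M` : `M⁺` is (pointed homotopy equivalent to) a finite iterated mapping cone of pointed maps
starting from spheres.  `SB` is the smallest class of locally compact Hausdorff spaces (in `Type`)
containing all `Fin n → ℝ`, closed under mapping cones `MC f` of pointed maps between members and
under pointed homotopy equivalence.
-/

set_option autoImplicit false
set_option linter.unusedSectionVars false

open Topology Filter Set unitInterval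

namespace Crest.Agent.R090.FM554

open OnePoint Crest.Agent.R090.Sp962

universe u v w

/-- pointed homotopy equivalence of one point compactifications -/
def HEqv (X : Type u) (Y : Type v) [TopologicalSpace X] [TopologicalSpace Y] : Prop :=
  ∃ (f : PMap X Y) (g : PMap Y X), (g.comp f).Homotopic (PMap.id X) ∧
    (f.comp g).Homotopic (PMap.id Y)

theorem HEqv.refl (X : Type u) [TopologicalSpace X] : HEqv X X :=
  ⟨PMap.id X, PMap.id X, PMap.Homotopic.of_eq (PMap.comp_id _),
    PMap.Homotopic.of_eq (PMap.comp_id _)⟩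

theorem HEqv.symm {X : Type u} {Y : Type v} [TopologicalSpace X] [TopologicalSpace Y]
    (h : HEqv X Y) : HEqv Y X := by
  obtain ⟨f, g, h1, h2⟩ := h
  exact ⟨g, f, h2, h1⟩

theorem HEqv.trans {X : Type u} {Y : Type v} {Z : Type w} [TopologicalSpace X]
    [TopologicalSpace Y] [TopologicalSpace Z] (h : HEqv X Y) (h' : HEqv Y Z) : HEqv X Z := by
  obtain ⟨f, g, h1, h2⟩ := h
  obtain ⟨f', g', h1', h2'⟩ := h'
  refine ⟨f'.comp f, g.comp g', ?_, ?_⟩
  · have e : (g.comp g').comp (f'.comp f) = g.comp ((g'.comp f').comp f) := by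
      simp only [PMap.comp_assoc]
    rw [e]
    refine PMap.Homotopic.trans ((PMap.Homotopic.refl g).comp (h1'.comp_right f)) ?_
    rw [PMap.id_comp]
    exact h1
  · have e : (f'.comp f).comp (g.comp g') = f'.comp ((f.comp g).comp g') := by
      simp only [PMap.comp_assoc]
    rw [e]
    refine PMap.Homotopic.trans ((PMap.Homotopic.refl f').comp (h2.comp_right g')) ?_
    rw [PMap.id_comp]
    exact h2'

theorem HEqv.of_homeo {X : Type u} {Y : Type v} [TopologicalSpace X] [TopologicalSpace Y]
    (e : X ≃ₜ Y) : HEqv X Y := by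
  refine ⟨PMap.ofHomeo e, PMap.ofHomeo e.symm, PMap.Homotopic.of_eq ?_, PMap.Homotopic.of_eq ?_⟩
  · exact PMap.ofHomeo_symm_comp e
  · exact PMap.ofHomeo_comp_symm e

/-- **sphere-built spaces** -/
def SB (M : Type) [TopologicalSpace M] [T2Space M] [LocallyCompactSpace M] : Prop :=
  ∀ P : (∀ (M : Type) [TopologicalSpace M] [T2Space M] [LocallyCompactSpace M], Prop),
    (∀ n : ℕ, P (Fin n → ℝ)) →
    (∀ (X Y : Type) [TopologicalSpace X] [T2Space X] [LocallyCompactSpace X]
      [TopologicalSpace Y] [T2Space Y] [LocallyCompactSpace Y] (f : PMap X Y),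
      P X → P Y → P (MC f)) →
    (∀ (X Y : Type) [TopologicalSpace X] [T2Space X] [LocallyCompactSpace X]
      [TopologicalSpace Y] [T2Space Y] [LocallyCompactSpace Y], HEqv X Y → P X → P Y) →
    P M

/-- induction principle for sphere-built spaces -/
theorem SB.induction {P : (∀ (M : Type) [TopologicalSpace M] [T2Space M] [LocallyCompactSpace M],
      Prop)}
    (hs : ∀ n : ℕ, P (Fin n → ℝ))
    (hc : ∀ (X Y : Type) [TopologicalSpace X] [T2Space X] [LocallyCompactSpace X]
      [TopologicalSpace Y] [T2Space Y] [LocallyCompactSpace Y] (f : PMap X Y),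
      P X → P Y → P (MC f))
    (he : ∀ (X Y : Type) [TopologicalSpace X] [T2Space X] [LocallyCompactSpace X]
      [TopologicalSpace Y] [T2Space Y] [LocallyCompactSpace Y], HEqv X Y → P X → P Y)
    {M : Type} [TopologicalSpace M] [T2Space M] [LocallyCompactSpace M] (h : SB M) : P M :=
  h P hs hc he

theorem SB.sphere (n : ℕ) : SB (Fin n → ℝ) := fun _ hs _ _ => hs n

section

variable {X Y : Type} [TopologicalSpace X] [T2Space X] [LocallyCompactSpace X]
variable [TopologicalSpace Y] [T2Space Y] [LocallyCompactSpace Y]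

theorem SB.cone (f : PMap X Y) (hX : SB X) (hY : SB Y) : SB (MC f) :=
  fun P hs hc he => hc X Y f (hX P hs hc he) (hY P hs hc he)

theorem SB.heqv (e : HEqv X Y) (hX : SB X) : SB Y :=
  fun P hs hc he => he X Y e (hX P hs hc he)

theorem SB.homeo (e : X ≃ₜ Y) (hX : SB X) : SB Y := hX.heqv (HEqv.of_homeo e)


end

/-- the cone of an identity is contractible -/
theorem null_id_MC {X : Type u} [TopologicalSpace X] [T2Space X] [LocallyCompactSpace X] :
    (PMap.id (MC (PMap.id X))).Null := by
  let G : I → OnePoint (MC (PMap.id X)) → OnePoint (MC (PMap.id X)) := fun s =>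
    MC.lift (PMap.id X) (fun z t => MC.q (PMap.id X) z ((1 - (s : ℝ)) * t))
      (fun z => MC.q (PMap.id X) z (1 - (s : ℝ)))
  have hq : ∀ (s : I) (z : OnePoint X) (t : ℝ), t ∈ Icc (0 : ℝ) 1 →
      G s (MC.q (PMap.id X) z t) = MC.q (PMap.id X) z ((1 - (s : ℝ)) * t) := by
    intro s z t ht
    refine MC.lift_q (PMap.id X) _ _ ?_ ?_ ?_ z ht
    · intro t; rw [MC.q_inf, MC.q_inf]
    · intro z; rw [mul_zero, MC.q_zero, MC.q_inf]
    · intro z; rw [mul_one, PMap.id_apply]
  have hi : ∀ (s : I) (z : OnePoint X), G s (MC.i (PMap.id X) z) =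
      MC.q (PMap.id X) z (1 - (s : ℝ)) := fun s z => MC.lift_i _ _ _ z
  have hG : Continuous (fun p : I × OnePoint (MC (PMap.id X)) => G p.1 p.2) := by
    refine MC.continuous_of _ ?_ ?_
    · have : (fun p : I × (OnePoint X × I) => G p.1 (MC.q (PMap.id X) p.2.1 p.2.2)) =
          fun p => MC.q (PMap.id X) p.2.1 ((1 - (p.1 : ℝ)) * p.2.2) := by
        funext p
        exact hq p.1 p.2.1 p.2.2 p.2.2.2
      simp only
      rw [this]
      exact (MC.continuous_q _).comp (Continuous.prodMk (by fun_prop) (by fun_prop))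
    · have : (fun p : I × OnePoint X => G p.1 (MC.i (PMap.id X) p.2)) =
          fun p => MC.q (PMap.id X) p.2 (1 - (p.1 : ℝ)) := by
        funext p
        exact hi p.1 p.2
      simp only
      rw [this]
      exact (MC.continuous_q _).comp (Continuous.prodMk (by fun_prop) (by fun_prop))
  refine PMap.Homotopic.of (fun p => G p.1 p.2) hG ?_ ?_ ?_
  · intro z
    generalize (z : OnePoint (MC (PMap.id X))) = z'
    refine MC.cases _ (P := fun z' => G 0 z' = PMap.id _ z') ?_ ?_ z'
    · intro z t ht
      rw [hq 0 z t ht, PMap.id_apply]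
      simp
    · intro z
      rw [hi, PMap.id_apply]
      simp
  · intro z
    generalize (z : OnePoint (MC (PMap.id X))) = z'
    refine MC.cases _ (P := fun z' => G 1 z' = ∞) ?_ ?_ z'
    · intro z t ht
      rw [hq 1 z t ht]
      simp
    · intro z
      rw [hi]
      simp
  · intro t
    change G t ∞ = ∞
    have := hi t ∞
    rwa [(MC.i (PMap.id X)).map_inf, MC.q_inf] at this

/-- a space with null homotopic identity is equivalent to the empty space (`{∞}`) -/
theorem HEqv.empty_of_null {X : Type u} [TopologicalSpace X] (h : (PMap.id X).Null) :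
    HEqv X Empty := by
  refine ⟨PMap.zero X Empty, PMap.zero Empty X, ?_, ?_⟩
  · have e : (PMap.zero Empty X).comp (PMap.zero X Empty) = PMap.zero X X :=
      PMap.ext fun _ => rfl
    rw [e]
    exact PMap.Homotopic.symm h
  · refine PMap.Homotopic.of_eq (PMap.ext fun x => x.elim)

theorem SB.empty : SB Empty := by
  have h : SB (MC (PMap.id (Fin 0 → ℝ))) := (SB.sphere 0).cone _ (SB.sphere 0)
  exact h.heqv (HEqv.empty_of_null null_id_MC)



end Crest.Agent.R090.FM554
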