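import Crest.Agent.R090.St_528

/-!
# Row 90, T1-ADD (2b): the functor `HC → St`, wedges (owner helper528)
-/

set_option autoImplicit false
set_option linter.unusedSectionVars false
set_option linter.unusedVariables false

open Topology Filter Set

namespace Crest.Agent.R090.St528

open OnePoint Crest.Agent.R090.Sp962 Crest.Agent.R090.Grp528
open scoped unitInterval

universe u v w x a' b' b''

/-! ## independence of the coordinate -/

section indep

variable {A : Type a'} [TopologicalSpace A] [T2Space A] [LocallyCompactSpace A]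
variable {W : Type w} [TopologicalSpace W]
variable {B : Type b'} [TopologicalSpace B] [T2Space B] [LocallyCompactSpace B]
variable {B₁ : Type u} [TopologicalSpace B₁] [T2Space B₁] [LocallyCompactSpace B₁]
variable {B₂ : Type v} [TopologicalSpace B₂] [T2Space B₂] [LocallyCompactSpace B₂]

/-- two different suspension coordinates give the same sum -/
theorem gadd_indep (e₁ : A ≃ₜ B₁ × Io) (e₂ : A ≃ₜ B₂ × Io) (E : A ≃ₜ (B × Io) × Io)
    (g₁ : B₁ ≃ₜ B × Io) (g₂ : B₂ ≃ₜ B × Io) (h₁ : ∀ x, E x = (g₁ (e₁ x).1, (e₁ x).2))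
    (h₂ : ∀ x, sw B (E x) = (g₂ (e₂ x).1, (e₂ x).2)) (a b : HC A W) :
    gadd e₁ a b = gadd e₂ a b := by
  rw [← gadd_base' e₁ g₁ E h₁, ← gadd_base' e₂ g₂ (E.trans (sw B)) h₂, gadd_eh]

end indep

variable {X : Type u} {Y : Type v} {Z : Type w} {Z' : Type x}
variable [TopologicalSpace X] [TopologicalSpace Y] [TopologicalSpace Z] [TopologicalSpace Z']
variable [T2Space X] [LocallyCompactSpace X] [T2Space Y] [LocallyCompactSpace Y]
  [T2Space Z] [LocallyCompactSpace Z] [T2Space Z'] [LocallyCompactSpace Z']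

/-! ## additive lemmas for composition -/

/-- composition with a fixed map on the left, as a hom -/
noncomputable def St.compHom (t : St Y Z) : St X Y →+ St X Z := AddMonoidHom.mk' (t.comp ·) (St.comp_add t)

/-- composition with a fixed map on the right, as a hom -/
noncomputable def St.homComp (s : St X Y) : St Y Z →+ St X Z :=
  AddMonoidHom.mk' (·.comp s) (fun a b => St.add_comp a b s)

@[simp] theorem St.comp_zero (t : St Y Z) : t.comp (0 : St X Y) = 0 := (St.compHom t).map_zero
@[simp] theorem St.zero_comp (s : St X Y) : (0 : St Y Z).comp s = 0 := (St.homComp s).map_zero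
@[simp] theorem St.comp_neg (t : St Y Z) (s : St X Y) : t.comp (-s) = -t.comp s :=
  (St.compHom t).map_neg s
@[simp] theorem St.neg_comp (t : St Y Z) (s : St X Y) : (-t).comp s = -t.comp s :=
  (St.homComp s).map_neg t
theorem St.comp_sub (t : St Y Z) (a b : St X Y) : t.comp (a - b) = t.comp a - t.comp b :=
  (St.compHom t).map_sub a b
theorem St.sub_comp (a b : St Y Z) (s : St X Y) : (a - b).comp s = a.comp s - b.comp s :=
  (St.homComp s).map_sub a b
theorem St.comp_nsmul (n : ℕ) (t : St Y Z) (s : St X Y) : t.comp (n • s) = n • t.comp s :=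
  (St.compHom t).map_nsmul n s
theorem St.nsmul_comp (n : ℕ) (t : St Y Z) (s : St X Y) : (n • t).comp s = n • t.comp s :=
  (St.homComp s).map_nsmul n t
theorem St.comp_zsmul (n : ℤ) (t : St Y Z) (s : St X Y) : t.comp (n • s) = n • t.comp s :=
  (St.compHom t).map_zsmul n s
theorem St.zsmul_comp (n : ℤ) (t : St Y Z) (s : St X Y) : (n • t).comp s = n • t.comp s :=
  (St.homComp s).map_zsmul n t
theorem St.comp_sum {ι : Type*} (J : Finset ι) (t : St Y Z) (s : ι → St X Y) :
    t.comp (∑ i ∈ J, s i) = ∑ i ∈ J, t.comp (s i) := map_sum (St.compHom t) s J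
theorem St.sum_comp {ι : Type*} (J : Finset ι) (t : ι → St Y Z) (s : St X Y) :
    (∑ i ∈ J, t i).comp s = ∑ i ∈ J, (t i).comp s := map_sum (St.homComp s) t J

/-! ## the functor from homotopy classes -/

theorem smash_level (a : HC X Y) (n : ℕ) :
    st (a.smash (h1 (Fin n → ℂ))) = a.smash (h1 (Fin (n + 1) → ℂ)) := by
  obtain ⟨f, rfl⟩ := HC.mk_surj a
  refine congrArg HC.mk (PMap.ext fun p => ?_)
  obtain ⟨x, v⟩ := p
  change (PMap.ofHomeo (eS Y n).symm) (sm (sm (f x) ((fun i => v (Fin.castSucc i) : Fin n → ℂ) : OnePoint _))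
    ((v (Fin.last n) : ℂ) : OnePoint ℂ)) = sm (f x) (v : OnePoint (Fin (n + 1) → ℂ))
  generalize f x = y
  induction y using OnePoint.rec with
  | infty => simp
  | coe y =>
    change (((eS Y n).symm ((y, fun i => v (Fin.castSucc i)), v (Fin.last n)) : S Y (n + 1)) :
      OnePoint (S Y (n + 1))) = ((y, v) : S Y (n + 1))
    congr 1
    exact (eS Y n).symm_apply_apply (y, v)

/-- the stable class of an unstable class -/
noncomputable def St.map (a : HC X Y) : St X Y :=
  Quotient.mk _ ⟨fun n => a.smash (h1 (Fin n → ℂ)), 0, fun n _ => (smash_level a n).symm⟩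

/-- the stable class of a pointed map -/
noncomputable abbrev St.ofP (f : PMap X Y) : St X Y := St.map (HC.mk f)

theorem St.map_eq_of (a : HC X Y) (n : ℕ) : St.map a = St.of n (a.smash (h1 (Fin n → ℂ))) :=
  Pre.mk_eq_of (⟨fun n => a.smash (h1 (Fin n → ℂ)), 0, fun n _ => (smash_level a n).symm⟩ : Pre X Y)
    (fun n _ => (smash_level a n).symm) (Nat.zero_le n)

@[simp] theorem St.map_id : St.map (h1 X) = St.id X := by
  rw [St.map_eq_of _ 0, h1_smash_h1, St.of_h1]

@[simp] theorem St.ofP_id : St.ofP (PMap.id X) = St.id X := St.map_id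

theorem St.map_comp (b : HC Y Z) (a : HC X Y) : St.map (b.comp a) = (St.map b).comp (St.map a) := by
  rw [St.map_eq_of _ 0, St.map_eq_of b 0, St.map_eq_of a 0, St.of_comp_of, HC.smash_comp, comp_h1]

theorem St.ofP_comp (g : PMap Y Z) (f : PMap X Y) :
    St.ofP (g.comp f) = (St.ofP g).comp (St.ofP f) := St.map_comp (HC.mk g) (HC.mk f)

@[simp] theorem St.map_hzero : St.map (hzero X Y) = 0 := by
  rw [St.map_eq_of _ 0, hzero_smash, St.of_zero]

@[simp] theorem St.ofP_zero : St.ofP (PMap.zero X Y) = 0 := St.map_hzero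

theorem St.ofP_congr {f g : PMap X Y} (h : f.Homotopic g) : St.ofP f = St.ofP g :=
  congrArg St.map (HC.sound h)

theorem St.ofP_null {f : PMap X Y} (h : f.Null) : St.ofP f = 0 :=
  (St.ofP_congr h).trans St.ofP_zero

theorem St.ofP_homeo_symm_comp (e : X ≃ₜ Y) :
    (St.ofP (PMap.ofHomeo e.symm)).comp (St.ofP (PMap.ofHomeo e)) = St.id X := by
  rw [← St.ofP_comp, PMap.ofHomeo_symm_comp, St.ofP_id]

theorem St.ofP_homeo_comp_symm (e : X ≃ₜ Y) :
    (St.ofP (PMap.ofHomeo e)).comp (St.ofP (PMap.ofHomeo e.symm)) = St.id Y := by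
  rw [← St.ofP_comp, PMap.ofHomeo_comp_symm, St.ofP_id]

/-- the functor is additive along a suspension coordinate -/
theorem St.map_hadd (a b : HC (X × Io) Y) : St.map (hadd a b) = St.map a + St.map b := by
  rw [St.map_eq_of _ 1, St.map_eq_of a 1, St.map_eq_of b 1, St.of_add_of, hadd_smash]
  congr 1
  exact gadd_indep (B := (X × (Fin 0 → ℂ)) × Io) (e3 (Homeomorph.refl (X × Io)) (Fin 1 → ℂ))
    (lev (X × Io) 0)
    ((lev (X × Io) 0).trans
      { toFun := fun p => ((((p.1.1.1.1, p.1.1.2), p.1.2), p.2), p.1.1.1.2)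
        invFun := fun q => ((((q.1.1.1.1, q.2), q.1.1.1.2), q.1.1.2), q.1.2)
        left_inv := fun p => rfl
        right_inv := fun q => rfl
        continuous_toFun := by fun_prop
        continuous_invFun := by fun_prop }) (lev X 0)
    { toFun := fun p => (((p.1.1.1, p.1.2), p.2), p.1.1.2)
      invFun := fun q => (((q.1.1.1, q.2), q.1.1.2), q.1.2)
      left_inv := fun p => rfl
      right_inv := fun q => rfl
      continuous_toFun := by fun_prop
      continuous_invFun := by fun_prop } (fun _ => rfl) (fun _ => rfl) _ _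

theorem St.map_hneg (a : HC (X × Io) Y) : St.map (hneg a) = -St.map a := by
  have h : St.map (hneg a) + St.map a = 0 := by
    rw [← St.map_hadd, hneg_hadd, St.map_hzero]
  exact eq_neg_of_add_eq_zero_left h

/-! ## finite wedges -/

section wedge

variable {W' : Type b''} [TopologicalSpace W']
variable {ι : Type a'} [Finite ι] {T : ι → Type b'} [∀ i, TopologicalSpace (T i)]
  [∀ i, T2Space (T i)] [∀ i, LocallyCompactSpace (T i)]

instance : LocallyCompactSpace (Σ i, T i) := by
  constructor
  rintro ⟨i, x⟩ n hn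
  have h1 : Sigma.mk i ⁻¹' n ∈ 𝓝 x := IsOpenEmbedding.sigmaMk.continuous.continuousAt hn
  obtain ⟨s, hs, hsn, hc⟩ := local_compact_nhds h1
  refine ⟨Sigma.mk i '' s, ?_, by rintro _ ⟨y, hy, rfl⟩; exact hsn hy,
    hc.image IsOpenEmbedding.sigmaMk.continuous⟩
  exact IsOpenEmbedding.sigmaMk.image_mem_nhds.2 hs

/-- inclusion of a wedge summand -/
def incP (i : ι) : PMap (T i) (Σ i, T i) := PMap.ofClosed (Sigma.mk i) IsClosedEmbedding.sigmaMk

/-- projection to a wedge summand -/
noncomputable def prP (i : ι) : PMap (Σ i, T i) (T i) :=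
  PMap.ofOpen (Sigma.mk i) IsOpenEmbedding.sigmaMk

theorem prP_incP (i : ι) : (prP i).comp (incP i) = PMap.id (T i) :=
  PMap.ext fun x => PMap.ofOpen_coe _ IsOpenEmbedding.sigmaMk x

theorem prP_incP_ne {i j : ι} (h : i ≠ j) : (prP i).comp (incP j) = PMap.zero (T j) (T i) :=
  PMap.ext fun x => PMap.ofOpen_of_notMem _ IsOpenEmbedding.sigmaMk (by
    rintro ⟨y, hy⟩
    exact h (congrArg Sigma.fst hy))







theorem stN_smash (a : HC X Y) (n k : ℕ) :
    stN (a.smash (h1 (Fin n → ℂ))) k = a.smash (h1 (Fin (n + k) → ℂ)) := by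
  induction k with
  | zero => rfl
  | succ k ih => rw [stN_succ, ih, smash_level]; rfl



theorem St.pr_inc (i : ι) : (St.ofP (prP (T := T) i)).comp (St.ofP (incP i)) = St.id (T i) := by
  rw [← St.ofP_comp, prP_incP, St.ofP_id]

theorem St.pr_inc_ne {i j : ι} (h : i ≠ j) :
    (St.ofP (prP (T := T) i)).comp (St.ofP (incP j)) = 0 := by
  rw [← St.ofP_comp, prP_incP_ne h, St.ofP_zero]


end wedge

end Crest.Agent.R090.St528
namespace Crest.Agent.R090.St528.HC
end Crest.Agent.R090.St528.HC
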