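import Crest.Agent.R090.Inj_812
import Crest.Agent.R090.QU_389
import Crest.Agent.R090.HasCells_933
import Crest.Agent.R090.Puppe_962
import Crest.Agent.R090.FMSB_554
import Crest.Agent.R090.Exc_503
import Mathlib.Algebra.FiveLemma
import Crest.Agent.R090.MCSm_962
import Crest.Agent.R090.FMProd_305
import Crest.Agent.R090.St2_528
import Mathlib.Analysis.Normed.Module.FiniteDimension
import Crest.Agent.R090.FMTgt_305
import Crest.Agent.R090.HSt_285
import Crest.Agent.R090.AClass_923
import Crest.Agent.R090.Kun2_493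

-- ▼ part R090/InjR_812
section

/-!
# Row 90, leaf A-INJ (2): `Inj` for the spaces of the power construction (owner helper812)
-/

set_option autoImplicit false

open Topology Filter Set

namespace Crest.Agent.R090.Inj812

open OnePoint
open Crest.Agent.R090.Sp962
open Crest.Agent.R090.Pi568
open Crest.Agent.R090.Orb389
open Crest.Agent.R090.QU389

universe u v w

/-- the reduced power -/
theorem Inj.QU {q : ℕ} [NeZero q] {U : Type u} [TopologicalSpace U] [T2Space U]
    [LocallyCompactSpace U] (h : Inj U) : Inj (QU389.QU q U) :=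
  h.nonconst (ZMod q)




end Crest.Agent.R090.Inj812
end

-- ▼ part R090/InjCells_758
section

/-!
# Row 90: `Inj` from closed/open decompositions and from cells (helper758)

* `Inj.total` : `F → U` closed embedding, `O → U` open embedding, complementary, `Inj F`, `Inj O`
  imply `Inj U` (Tietze);
* `inj_of_hasCells` : `HasCells X n → Inj X`.
-/

set_option autoImplicit false

open Topology Filter Set

namespace Crest.Agent.R090.InjCells758

open OnePoint Crest.Agent.R090.Sp962 Crest.Agent.R090.Inj812 Crest.Agent.R090.F0_933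

universe u v w

/-- the closed/open rule for `Inj` (in all universes) -/
theorem total {U : Type u} {F : Type v} {O : Type w} [TopologicalSpace U] [TopologicalSpace F]
    [TopologicalSpace O] [T2Space U] [LocallyCompactSpace U] (i : F → U) (hi : IsClosedEmbedding i)
    (e : O → U) (he : IsOpenEmbedding e) (hc : range e = (range i)ᶜ) (h1 : Inj F) (h2 : Inj O) :
    Inj U := by
  obtain ⟨a, f, hf, hfi⟩ := h1
  obtain ⟨b, g, hg, hgi⟩ := h2
  have hT2F : T2Space F := hi.isEmbedding.t2Space
  have hic : IsClosedEmbedding (PMap.ofClosed i hi : OnePoint F → OnePoint U) :=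
    (PMap.ofClosed i hi).cont.isClosedEmbedding (by
      intro x y hxy
      induction x using OnePoint.rec with
      | infty =>
        induction y using OnePoint.rec with
        | infty => rfl
        | coe y =>
          rw [PMap.map_inf, PMap.ofClosed_coe] at hxy
          exact absurd hxy.symm (coe_ne_infty _)
      | coe x =>
        induction y using OnePoint.rec with
        | infty =>
          rw [PMap.map_inf, PMap.ofClosed_coe] at hxy
          exact absurd hxy (coe_ne_infty _)
        | coe y =>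
          rw [PMap.ofClosed_coe, PMap.ofClosed_coe, coe_eq_coe] at hxy
          rw [hi.injective hxy])
  obtain ⟨J, hJ⟩ := ContinuousMap.exists_extension' hic (⟨f, hf⟩ : C(OnePoint F, Fin a → ℝ))
  have hJ' : ∀ x, J (PMap.ofClosed i hi x) = f x := fun x => congrFun hJ x
  refine Inj.of_fd (E := (Fin a → ℝ) × (Fin b → ℝ)) (fun x => (J x, g (PMap.ofOpen e he x))) ?_ ?_
  · exact J.continuous.prodMk (hg.comp (PMap.ofOpen e he).cont)
  · -- every point is in the closed part or in the open part
    have hcases : ∀ x : OnePoint U, (∃ y, x = PMap.ofClosed i hi y ∧ PMap.ofOpen e he x = ∞) ∨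
        ∃ z : O, x = (e z : OnePoint U) ∧ PMap.ofOpen e he x = (z : OnePoint O) := by
      intro x
      induction x using OnePoint.rec with
      | infty => exact Or.inl ⟨∞, (PMap.map_inf _).symm, PMap.map_inf _⟩
      | coe x =>
        by_cases h : x ∈ range e
        · obtain ⟨z, rfl⟩ := h
          exact Or.inr ⟨z, rfl, PMap.ofOpen_coe e he z⟩
        · have h' : x ∈ range i := by
            by_contra h2
            exact h (by rw [hc]; exact h2)
          obtain ⟨y, rfl⟩ := h'
          exact Or.inl ⟨(y : OnePoint F), (PMap.ofClosed_coe i hi y).symm,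
            PMap.ofOpen_of_notMem e he h⟩
    intro x x' hxx
    have e1 : J x = J x' := congrArg Prod.fst hxx
    have e2 : g (PMap.ofOpen e he x) = g (PMap.ofOpen e he x') := congrArg Prod.snd hxx
    have e3 := hgi e2
    rcases hcases x with ⟨y, hy, hy'⟩ | ⟨z, hz, hz'⟩
    · rcases hcases x' with ⟨y', h1, h2⟩ | ⟨z', h1, h2⟩
      · rw [hy, h1, hJ', hJ'] at e1
        rw [hy, h1, hfi e1]
      · rw [hy', h2] at e3
        exact absurd e3.symm (coe_ne_infty _)
    · rcases hcases x' with ⟨y', h1, h2⟩ | ⟨z', h1, h2⟩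
      · rw [hz', h2] at e3
        exact absurd e3 (coe_ne_infty _)
      · rw [hz', h2, coe_eq_coe] at e3
        rw [hz, h1, e3]


/-- the empty space -/
theorem inj_empty (X : Type u) [TopologicalSpace X] [IsEmpty X] : Inj X := by
  refine ⟨0, fun _ => 0, continuous_const, ?_⟩
  intro x y _
  induction x using OnePoint.rec with
  | infty =>
    induction y using OnePoint.rec with
    | infty => rfl
    | coe y => exact isEmptyElim y
  | coe x => exact isEmptyElim x


end Crest.Agent.R090.InjCells758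
end

-- ▼ part R090/FMCone_554
section

/-!
# Row 90, leaf FM (finite models), unstable part: maps of mapping cones

`exists_map`: a homotopy commutative square `f' ∘ u ≃ v ∘ f` extends to a map of mapping cones
`w : MC f → MC f'` with `w ∘ i = i ∘ v` (strictly) and `p ∘ w ≃ (u ∧ 1) ∘ p`.
-/

set_option autoImplicit false
set_option linter.unusedSectionVars false

open Topology Filter Set unitInterval

namespace Crest.Agent.R090.FM554

open OnePoint Crest.Agent.R090.Sp962

universe u v w x

variable {U : Type u} {V : Type v} {U' : Type w} {V' : Type x}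
variable [TopologicalSpace U] [TopologicalSpace V] [TopologicalSpace U'] [TopologicalSpace V']
variable [T2Space U] [T2Space V] [LocallyCompactSpace U] [LocallyCompactSpace V]
variable [T2Space U'] [T2Space V'] [LocallyCompactSpace U'] [LocallyCompactSpace V']

/-- fill-in for mapping cones of a homotopy commutative square -/
theorem exists_map (f : PMap U V) (f' : PMap U' V') (a : PMap U U') (b : PMap V V')
    (h : (f'.comp a).Homotopic (b.comp f)) :
    ∃ w : PMap (MC f) (MC f'), w.comp (MC.i f) = (MC.i f').comp b ∧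
      ((MC.p f').comp w).Homotopic ((a.smash (PMap.id Io)).comp (MC.p f)) := by
  obtain ⟨K, hK, K0, K1, Ki⟩ := h.exists
  have K0' : ∀ y, K (0, y) = f' (a y) := K0
  have K1' : ∀ y, K (1, y) = b (f y) := K1
  let H : OnePoint U → ℝ → OnePoint (MC f') := fun z t =>
    if t ≤ 1 / 2 then MC.q f' (a z) (2 * t) else MC.i f' (K (cl (2 * t - 1), z))
  have hH : Continuous (fun p : OnePoint U × I => H p.1 p.2) := by
    refine Continuous.if_le ?_ ?_ (by fun_prop) (by fun_prop) ?_
    · exact (MC.continuous_q f').comp ((a.cont.comp (by fun_prop)).prodMk (by fun_prop))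
    · exact (MC.i f').cont.comp (hK.comp (Continuous.prodMk (by fun_prop) (by fun_prop)))
    · intro p hp
      rw [hp, cl_of_le (by norm_num), K0']
      norm_num
  have hinf : ∀ t, H ∞ t = ∞ := by
    intro t
    simp only [H]
    split_ifs
    · rw [a.map_inf, MC.q_inf]
    · rw [Ki, (MC.i f').map_inf]
  have h0 : ∀ z, H z 0 = ∞ := by
    intro z
    simp only [H]
    rw [if_pos (by norm_num), mul_zero, MC.q_zero]
  have h1 : ∀ z, H z 1 = ((MC.i f').comp b) (f z) := by
    intro z
    simp only [H]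
    rw [if_neg (by norm_num), cl_of_ge (by norm_num), K1', PMap.comp_apply]
  refine ⟨MC.desc f ((MC.i f').comp b) H hH hinf h0 h1, ?_, ?_⟩
  · refine PMap.ext fun y => ?_
    rw [PMap.comp_apply, MC.desc_i]
  · -- `p ∘ w (q a t) = a ∧ 2t`, reparametrise
    have hw : ∀ (z : OnePoint U) (t : ℝ), t ∈ Icc (0 : ℝ) 1 →
        MC.p f' (MC.desc f ((MC.i f').comp b) H hH hinf h0 h1 (MC.q f z t)) =
          sm (a z) (qI (2 * t)) := by
      intro z t ht
      rw [MC.desc_q _ _ _ _ _ _ _ _ ht]
      simp only [H]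
      split_ifs with h2
      · rw [MC.p_q]
      · rw [MC.p_i, qI_of_ge (by linarith), sm_inf_right]
    let G : I → OnePoint (MC f) → OnePoint (U' × Io) := fun s =>
      MC.lift f (fun z t => sm (a z) (qI ((2 - (s : ℝ)) * t))) (fun _ => ∞)
    have hGq : ∀ (s : I) (z : OnePoint U) (t : ℝ), t ∈ Icc (0 : ℝ) 1 →
        G s (MC.q f z t) = sm (a z) (qI ((2 - (s : ℝ)) * t)) := by
      intro s z t ht
      refine MC.lift_q f _ _ ?_ ?_ ?_ z ht
      · intro t; simp
      · intro z; rw [mul_zero, qI_of_le le_rfl, sm_inf_right]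
      · intro z; rw [qI_of_ge (by have := s.2.2; linarith), sm_inf_right]
    have hGi : ∀ (s : I) (y : OnePoint V), G s (MC.i f y) = ∞ := fun s y => MC.lift_i f _ _ y
    have hG : Continuous (fun p : I × OnePoint (MC f) => G p.1 p.2) := by
      refine MC.continuous_of f ?_ ?_
      · have : (fun p : I × (OnePoint U × I) => G p.1 (MC.q f p.2.1 p.2.2)) =
            fun p => sm (a p.2.1) (qI ((2 - (p.1 : ℝ)) * p.2.2)) := by
          funext p
          exact hGq p.1 p.2.1 p.2.2 p.2.2.2
        simp only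
        rw [this]
        exact (a.cont.comp (by fun_prop)).sm962 (continuous_qI.comp (by fun_prop))
      · have : (fun p : I × OnePoint V => G p.1 (MC.i f p.2)) = fun _ => ∞ := by
          funext p
          exact hGi p.1 p.2
        simp only
        rw [this]; exact continuous_const
    refine PMap.Homotopic.of (fun p => G p.1 p.2) hG ?_ ?_ ?_
    · intro z
      generalize (z : OnePoint (MC f)) = z'
      refine MC.cases f (P := fun z' => G 0 z' = ((MC.p f').comp
        (MC.desc f ((MC.i f').comp b) H hH hinf h0 h1)) z') ?_ ?_ z'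
      · intro z t ht
        rw [hGq 0 z t ht, PMap.comp_apply, hw z t ht]
        simp
      · intro y
        rw [hGi, PMap.comp_apply, MC.desc_i, PMap.comp_apply, MC.p_i]
    · intro z
      generalize (z : OnePoint (MC f)) = z'
      refine MC.cases f (P := fun z' => G 1 z' = ((a.smash (PMap.id Io)).comp (MC.p f)) z') ?_ ?_ z'
      · intro z t ht
        rw [hGq 1 z t ht, PMap.comp_apply, MC.p_q, PMap.smash_sm, PMap.id_apply]
        congr 2
        simp only [Set.Icc.coe_one]
        ring
      · intro y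
        rw [hGi, PMap.comp_apply, MC.p_i, PMap.map_inf]
    · intro t
      change G t ∞ = ∞
      have := hGi t ∞
      rwa [(MC.i f).map_inf] at this

end Crest.Agent.R090.FM554
end

-- ▼ part R090/FMAbs_554
section

/-!
# Row 90, leaf FM: contravariant cohomology functors and `EIso`

`CoT` : a contravariant homotopy functor with values in abelian groups, exact on mapping cone
sequences, for which the collapse `MC (F → U) → U \ F` is an isomorphism for every closed pair
(instances: `St (-) E` for spheres `E`, Alexander–Spanier cohomology with compact supports).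

`EIso 𝓕 ρ` : `ρ ∧ 1_W` is an isomorphism for all functors of the family `𝓕` and all `W`.
-/

set_option autoImplicit false
set_option linter.unusedSectionVars false

open Topology Filter Set unitInterval

namespace Crest.Agent.R090.FM554

open OnePoint Crest.Agent.R090.Sp962
open Crest.Agent.R090.Exc503 (OC)

/-- contravariant cohomology functors on locally compact Hausdorff spaces -/
structure CoT where
  /-- the groups -/
  H : ∀ (X : Type) [TopologicalSpace X] [T2Space X] [LocallyCompactSpace X], Type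
  [grp : ∀ (X : Type) [TopologicalSpace X] [T2Space X] [LocallyCompactSpace X], AddCommGroup (H X)]
  /-- functoriality -/
  map : ∀ {X Y : Type} [TopologicalSpace X] [T2Space X] [LocallyCompactSpace X]
    [TopologicalSpace Y] [T2Space Y] [LocallyCompactSpace Y], PMap X Y → (H Y →+ H X)
  map_id : ∀ (X : Type) [TopologicalSpace X] [T2Space X] [LocallyCompactSpace X] (y : H X),
    map (PMap.id X) y = y
  map_comp : ∀ {X Y Z : Type} [TopologicalSpace X] [T2Space X] [LocallyCompactSpace X]
    [TopologicalSpace Y] [T2Space Y] [LocallyCompactSpace Y]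
    [TopologicalSpace Z] [T2Space Z] [LocallyCompactSpace Z] (g : PMap Y Z) (f : PMap X Y)
    (y : H Z), map (g.comp f) y = map f (map g y)
  map_homotopic : ∀ {X Y : Type} [TopologicalSpace X] [T2Space X] [LocallyCompactSpace X]
    [TopologicalSpace Y] [T2Space Y] [LocallyCompactSpace Y] {f g : PMap X Y},
    f.Homotopic g → map f = map g
  ex_i : ∀ {X Y : Type} [TopologicalSpace X] [T2Space X] [LocallyCompactSpace X]
    [TopologicalSpace Y] [T2Space Y] [LocallyCompactSpace Y] (f : PMap X Y),
    Function.Exact (map (MC.i f)) (map f)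
  ex_p : ∀ {X Y : Type} [TopologicalSpace X] [T2Space X] [LocallyCompactSpace X]
    [TopologicalSpace Y] [T2Space Y] [LocallyCompactSpace Y] (f : PMap X Y),
    Function.Exact (map (MC.p f)) (map (MC.i f))
  ex_s : ∀ {X Y : Type} [TopologicalSpace X] [T2Space X] [LocallyCompactSpace X]
    [TopologicalSpace Y] [T2Space Y] [LocallyCompactSpace Y] (f : PMap X Y),
    Function.Exact (map (f.smash (PMap.id Io))) (map (MC.p f))
  col : ∀ {F U O : Type} [TopologicalSpace F] [T2Space F] [LocallyCompactSpace F]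
    [TopologicalSpace U] [T2Space U] [LocallyCompactSpace U]
    [TopologicalSpace O] [T2Space O] [LocallyCompactSpace O] {i : F → U} {e : O → U}
    (h : OC i e), Function.Bijective (map h.c)

attribute [instance] CoT.grp

variable {X Y Z X' Y' Z' W R : Type}
variable [TopologicalSpace X] [T2Space X] [LocallyCompactSpace X]
variable [TopologicalSpace Y] [T2Space Y] [LocallyCompactSpace Y]
variable [TopologicalSpace Z] [T2Space Z] [LocallyCompactSpace Z]
variable [TopologicalSpace X'] [T2Space X'] [LocallyCompactSpace X']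
variable [TopologicalSpace Y'] [T2Space Y'] [LocallyCompactSpace Y']
variable [TopologicalSpace Z'] [T2Space Z'] [LocallyCompactSpace Z']
variable [TopologicalSpace W] [T2Space W] [LocallyCompactSpace W]
variable [TopologicalSpace R] [T2Space R] [LocallyCompactSpace R]

namespace CoT

variable (T : CoT)

theorem map_comp_fun (g : PMap Y Z) (f : PMap X Y) :
    ⇑(T.map (g.comp f)) = T.map f ∘ T.map g := funext fun y => T.map_comp g f y


theorem bij_comp {g : PMap Y Z} {f : PMap X Y} (hg : Function.Bijective (T.map g))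
    (hf : Function.Bijective (T.map f)) : Function.Bijective (T.map (g.comp f)) := by
  rw [T.map_comp_fun]; exact hf.comp hg

theorem bij_of_comp_left {g : PMap Y Z} {f : PMap X Y} (hf : Function.Bijective (T.map f))
    (h : Function.Bijective (T.map (g.comp f))) : Function.Bijective (T.map g) := by
  rw [T.map_comp_fun] at h
  exact (Function.Bijective.of_comp_iff' hf _).1 h

theorem bij_of_comp_right {g : PMap Y Z} {f : PMap X Y} (hg : Function.Bijective (T.map g))
    (h : Function.Bijective (T.map (g.comp f))) : Function.Bijective (T.map f) := by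
  rw [T.map_comp_fun] at h
  exact (Function.Bijective.of_comp_iff _ hg).1 h



theorem bij_of_inv {f : PMap X Y} {g : PMap Y X} (h1 : (g.comp f).Homotopic (PMap.id X))
    (h2 : (f.comp g).Homotopic (PMap.id Y)) : Function.Bijective (T.map f) := by
  refine Function.bijective_iff_has_inverse.2 ⟨T.map g, fun y => ?_, fun y => ?_⟩
  · rw [← T.map_comp, T.map_homotopic h2, T.map_id]
  · rw [← T.map_comp, T.map_homotopic h1, T.map_id]

theorem bij_homeo (e : X ≃ₜ Y) : Function.Bijective (T.map (PMap.ofHomeo e)) :=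
  T.bij_of_inv (PMap.Homotopic.of_eq (PMap.ofHomeo_symm_comp e))
    (PMap.Homotopic.of_eq (PMap.ofHomeo_comp_symm e))

/-- five lemma for mapping cones -/
theorem five {f : PMap X Y} {f' : PMap X' Y'} {a : PMap X X'} {b : PMap Y Y'}
    {w : PMap (MC f) (MC f')} (h0 : (f'.comp a).Homotopic (b.comp f))
    (h1 : (w.comp (MC.i f)).Homotopic ((MC.i f').comp b))
    (h2 : ((MC.p f').comp w).Homotopic ((a.smash (PMap.id Io)).comp (MC.p f)))
    (ha : Function.Bijective (T.map a)) (hb : Function.Bijective (T.map b))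
    (ha' : Function.Bijective (T.map (a.smash (PMap.id Io))))
    (hb' : Function.Bijective (T.map (b.smash (PMap.id Io)))) :
    Function.Bijective (T.map w) := by
  refine AddMonoidHom.bijective_of_surjective_of_bijective_of_bijective_of_injective
    (T.map (f'.smash (PMap.id Io))) (T.map (MC.p f')) (T.map (MC.i f')) (T.map f')
    (T.map (f.smash (PMap.id Io))) (T.map (MC.p f)) (T.map (MC.i f)) (T.map f)
    (T.map (b.smash (PMap.id Io))) (T.map (a.smash (PMap.id Io))) (T.map w) (T.map b) (T.map a)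
    ?_ ?_ ?_ ?_ (T.ex_s f') (T.ex_p f') (T.ex_i f') (T.ex_s f) (T.ex_p f) (T.ex_i f)
    hb'.surjective ha' hb ha.injective
  · ext y
    simp only [AddMonoidHom.comp_apply]
    rw [← T.map_comp, ← T.map_comp, PMap.smash_comp, PMap.smash_comp,
      T.map_homotopic (h0.symm.smash (PMap.Homotopic.refl _))]
  · ext y
    simp only [AddMonoidHom.comp_apply]
    rw [← T.map_comp, ← T.map_comp, T.map_homotopic h2]
  · ext y
    simp only [AddMonoidHom.comp_apply]
    rw [← T.map_comp, ← T.map_comp, T.map_homotopic h1]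
  · ext y
    simp only [AddMonoidHom.comp_apply]
    rw [← T.map_comp, ← T.map_comp, T.map_homotopic h0]

end CoT

/-- the family-wise isomorphism property, tested with all `W` -/
def EIso (𝓕 : Set CoT) (ρ : PMap X Y) : Prop :=
  ∀ T ∈ 𝓕, ∀ (W : Type) [TopologicalSpace W] [T2Space W] [LocallyCompactSpace W],
    Function.Bijective (T.map (ρ.smash (PMap.id W)))

/-- naturality of the associator -/
theorem assoc_smash (ρ : PMap X Y) :
    (PMap.ofHomeo (Homeomorph.prodAssoc Y R W)).comp
      ((ρ.smash (PMap.id R)).smash (PMap.id W)) =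
    (ρ.smash (PMap.id (R × W))).comp (PMap.ofHomeo (Homeomorph.prodAssoc X R W)) := by
  refine PMap.ext fun p => ?_
  obtain ⟨⟨x, r⟩, w⟩ := p
  change (PMap.ofHomeo (Homeomorph.prodAssoc Y R W)) (sm (sm (ρ x) (r : OnePoint R))
    (w : OnePoint W)) = sm (ρ x) (((r, w) : R × W) : OnePoint (R × W))
  generalize ρ x = y
  induction y using OnePoint.rec with
  | infty => simp
  | coe y => rfl

theorem comm_smash (ρ : PMap X Y) :
    (PMap.ofHomeo (Homeomorph.prodComm Y R)).comp (ρ.smash (PMap.id R)) =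
    ((PMap.id R).smash ρ).comp (PMap.ofHomeo (Homeomorph.prodComm X R)) := by
  refine PMap.ext fun p => ?_
  obtain ⟨x, r⟩ := p
  change (PMap.ofHomeo (Homeomorph.prodComm Y R)) (sm (ρ x) (r : OnePoint R)) =
    sm (r : OnePoint R) (ρ x)
  generalize ρ x = y
  induction y using OnePoint.rec with
  | infty => simp
  | coe y => rfl

namespace EIso

variable {𝓕 : Set CoT}

theorem congr {f g : PMap X Y} (h : f.Homotopic g) (hf : EIso 𝓕 f) : EIso 𝓕 g := by
  intro T hT W _ _ _
  rw [← T.map_homotopic (h.smash (PMap.Homotopic.refl _))]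
  exact hf T hT W

theorem comp {g : PMap Y Z} {f : PMap X Y} (hg : EIso 𝓕 g) (hf : EIso 𝓕 f) :
    EIso 𝓕 (g.comp f) := by
  intro T hT W _ _ _
  have := T.bij_comp (hg T hT W) (hf T hT W)
  rwa [PMap.smash_comp, PMap.comp_id] at this

theorem of_comp_left {g : PMap Y Z} {f : PMap X Y} (hf : EIso 𝓕 f) (h : EIso 𝓕 (g.comp f)) :
    EIso 𝓕 g := by
  intro T hT W _ _ _
  refine T.bij_of_comp_left (hf T hT W) ?_
  rw [PMap.smash_comp, PMap.comp_id]
  exact h T hT W


theorem of_inv {f : PMap X Y} {g : PMap Y X} (h1 : (g.comp f).Homotopic (PMap.id X))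
    (h2 : (f.comp g).Homotopic (PMap.id Y)) : EIso 𝓕 f := by
  intro T hT W _ _ _
  refine T.bij_of_inv (g := g.smash (PMap.id W)) ?_ ?_
  · rw [PMap.smash_comp, PMap.comp_id]
    exact (h1.smash (PMap.Homotopic.refl _)).trans (PMap.Homotopic.of_eq (by simp))
  · rw [PMap.smash_comp, PMap.comp_id]
    exact (h2.smash (PMap.Homotopic.refl _)).trans (PMap.Homotopic.of_eq (by simp))

theorem homeo (e : X ≃ₜ Y) : EIso 𝓕 (PMap.ofHomeo e) :=
  of_inv (PMap.Homotopic.of_eq (PMap.ofHomeo_symm_comp e))
    (PMap.Homotopic.of_eq (PMap.ofHomeo_comp_symm e))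

theorem id : EIso 𝓕 (PMap.id X) := by
  have := EIso.homeo (𝓕 := 𝓕) (Homeomorph.refl X)
  rwa [PMap.ofHomeo_refl] at this

/-- `ρ ∧ 1_R` -/
theorem smash_right {ρ : PMap X Y} (h : EIso 𝓕 ρ) (R : Type) [TopologicalSpace R] [T2Space R]
    [LocallyCompactSpace R] : EIso 𝓕 (ρ.smash (PMap.id R)) := by
  intro T hT W _ _ _
  refine T.bij_of_comp_right (T.bij_homeo (Homeomorph.prodAssoc Y R W)) ?_
  rw [assoc_smash]
  exact T.bij_comp (h T hT (R × W)) (T.bij_homeo _)

/-- `1_R ∧ ρ` -/
theorem smash_left {ρ : PMap X Y} (h : EIso 𝓕 ρ) (R : Type) [TopologicalSpace R] [T2Space R]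
    [LocallyCompactSpace R] : EIso 𝓕 ((PMap.id R).smash ρ) := by
  refine of_comp_left (homeo (Homeomorph.prodComm X R)) ?_
  rw [← comm_smash]
  exact (homeo _).comp (h.smash_right R)

/-- products -/
theorem smash {ρ : PMap X Y} {ρ' : PMap X' Y'} (h : EIso 𝓕 ρ) (h' : EIso 𝓕 ρ') :
    EIso 𝓕 (ρ.smash ρ') := by
  have e : ρ.smash ρ' = (ρ.smash (PMap.id Y')).comp ((PMap.id X).smash ρ') := by
    rw [PMap.smash_comp, PMap.comp_id, PMap.id_comp]
  rw [e]
  exact (h.smash_right Y').comp (h'.smash_left X)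

/-- conjugation by homeomorphisms -/
theorem conj (e : X ≃ₜ X') (e' : Y ≃ₜ Y') {ρ : PMap X Y} {ρ' : PMap X' Y'} (h : EIso 𝓕 ρ)
    (hc : ρ'.comp (PMap.ofHomeo e) = (PMap.ofHomeo e').comp ρ) : EIso 𝓕 ρ' := by
  refine of_comp_left (homeo e) ?_
  rw [hc]
  exact (homeo e').comp h

end EIso

end Crest.Agent.R090.FM554
end

-- ▼ part R090/FMPair_554
section

/-!
# Row 90, leaf FM: `EIso` and mapping cones

* `EIso.cone` : five lemma for maps of mapping cones;
* `EIso.c` : the collapse `MC (F → U) → U \ F` is an `EIso`;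
* `heqv_MC_p` : `V × Io ≃ MC (p f)`.
-/

set_option autoImplicit false
set_option linter.unusedSectionVars false

open Topology Filter Set unitInterval

namespace Crest.Agent.R090.FM554

open OnePoint Crest.Agent.R090.Sp962
open Crest.Agent.R090.Exc503 (OC)

section homeo

variable {X Y Z : Type*} [TopologicalSpace X] [TopologicalSpace Y] [TopologicalSpace Z]

theorem symm_comp_cancel (e : X ≃ₜ Y) (f : PMap Z X) :
    (PMap.ofHomeo e.symm).comp ((PMap.ofHomeo e).comp f) = f := by
  rw [← PMap.comp_assoc, PMap.ofHomeo_symm_comp, PMap.id_comp]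

theorem comp_symm_cancel (e : X ≃ₜ Y) (f : PMap Z Y) :
    (PMap.ofHomeo e).comp ((PMap.ofHomeo e.symm).comp f) = f := by
  rw [← PMap.comp_assoc, PMap.ofHomeo_comp_symm, PMap.id_comp]

theorem eq_symm_comp (e : X ≃ₜ Y) {f : PMap Z X} {g : PMap Z Y}
    (h : (PMap.ofHomeo e).comp f = g) : f = (PMap.ofHomeo e.symm).comp g := by
  rw [← h, symm_comp_cancel]

theorem eq_comp_symm (e : X ≃ₜ Y) {f : PMap Y Z} {g : PMap X Z}
    (h : f.comp (PMap.ofHomeo e) = g) : f = g.comp (PMap.ofHomeo e.symm) := by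
  rw [← h, PMap.comp_assoc, PMap.ofHomeo_comp_symm, PMap.comp_id]

end homeo

variable {X Y Z X' Y' Z' W R : Type}
variable [TopologicalSpace X] [T2Space X] [LocallyCompactSpace X]
variable [TopologicalSpace Y] [T2Space Y] [LocallyCompactSpace Y]
variable [TopologicalSpace Z] [T2Space Z] [LocallyCompactSpace Z]
variable [TopologicalSpace X'] [T2Space X'] [LocallyCompactSpace X']
variable [TopologicalSpace Y'] [T2Space Y'] [LocallyCompactSpace Y']
variable [TopologicalSpace Z'] [T2Space Z'] [LocallyCompactSpace Z']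
variable [TopologicalSpace W] [T2Space W] [LocallyCompactSpace W]
variable [TopologicalSpace R] [T2Space R] [LocallyCompactSpace R]

variable {𝓕 : Set CoT}

theorem swp_smash (a : PMap X Y) :
    ((a.smash (PMap.id W)).smash (PMap.id R)).comp (PMap.ofHomeo (MC.swp X R W)) =
      (PMap.ofHomeo (MC.swp Y R W)).comp ((a.smash (PMap.id R)).smash (PMap.id W)) := by
  refine PMap.ext fun p => ?_
  obtain ⟨⟨x, r⟩, w⟩ := p
  change sm (sm (a x) (w : OnePoint W)) (r : OnePoint R) =
    (PMap.ofHomeo (MC.swp Y R W)) (sm (sm (a x) (r : OnePoint R)) (w : OnePoint W))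
  rw [MC.swp_sm]

theorem smash_comp_id (g : PMap Y Z) (f : PMap X Y) :
    (g.comp f).smash (PMap.id W) = (g.smash (PMap.id W)).comp (f.smash (PMap.id W)) := by
  rw [PMap.smash_comp, PMap.comp_id]

/-- five lemma for maps of mapping cones -/
theorem EIso.cone {f : PMap X Y} {f' : PMap X' Y'} {a : PMap X X'} {b : PMap Y Y'}
    {w : PMap (MC f) (MC f')} (h0 : (f'.comp a).Homotopic (b.comp f))
    (h1 : (w.comp (MC.i f)).Homotopic ((MC.i f').comp b))
    (h2 : ((MC.p f').comp w).Homotopic ((a.smash (PMap.id Io)).comp (MC.p f)))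
    (ha : EIso 𝓕 a) (hb : EIso 𝓕 b) : EIso 𝓕 w := by
  intro T hT W _ _ _
  have i' : MC.i (f'.smash (PMap.id W)) =
      (PMap.ofHomeo (MC.smR f' W).symm).comp ((MC.i f').smash (PMap.id W)) :=
    eq_symm_comp _ (MC.smR_i f')
  have p' : MC.p (f'.smash (PMap.id W)) = (PMap.ofHomeo (MC.swp X' W Io).symm).comp
      (((MC.p f').smash (PMap.id W)).comp (PMap.ofHomeo (MC.smR f' W))) :=
    eq_symm_comp _ (MC.smR_p f').symm
  have key := T.five (f := f.smash (PMap.id W)) (f' := f'.smash (PMap.id W))
    (a := a.smash (PMap.id W)) (b := b.smash (PMap.id W))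
    (w := (PMap.ofHomeo (MC.smR f' W).symm).comp
      ((w.smash (PMap.id W)).comp (PMap.ofHomeo (MC.smR f W)))) ?_ ?_ ?_ (ha T hT W) (hb T hT W)
    ((ha.smash_right W) T hT Io) ((hb.smash_right W) T hT Io)
  · have e : w.smash (PMap.id W) = (PMap.ofHomeo (MC.smR f' W)).comp
        (((PMap.ofHomeo (MC.smR f' W).symm).comp
          ((w.smash (PMap.id W)).comp (PMap.ofHomeo (MC.smR f W)))).comp
            (PMap.ofHomeo (MC.smR f W).symm)) := by
      rw [PMap.comp_assoc, comp_symm_cancel, PMap.comp_assoc, PMap.ofHomeo_comp_symm,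
        PMap.comp_id]
    rw [e]
    exact T.bij_comp (T.bij_homeo _) (T.bij_comp key (T.bij_homeo _))
  · rw [PMap.smash_comp, PMap.smash_comp, PMap.comp_id]
    exact h0.smash (PMap.Homotopic.refl _)
  · rw [PMap.comp_assoc, PMap.comp_assoc, MC.smR_i, PMap.smash_comp, PMap.comp_id, i',
      PMap.comp_assoc, PMap.smash_comp, PMap.comp_id]
    exact (h1.smash (PMap.Homotopic.refl _)).comp_left _
  · have e1 : (MC.p (f'.smash (PMap.id W))).comp ((PMap.ofHomeo (MC.smR f' W).symm).comp
        ((w.smash (PMap.id W)).comp (PMap.ofHomeo (MC.smR f W)))) =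
        (PMap.ofHomeo (MC.swp X' W Io).symm).comp
          ((((MC.p f').comp w).smash (PMap.id W)).comp (PMap.ofHomeo (MC.smR f W))) := by
      rw [p', PMap.comp_assoc, PMap.comp_assoc, comp_symm_cancel, ← PMap.comp_assoc
        ((MC.p f').smash (PMap.id W)), PMap.smash_comp, PMap.comp_id]
    have e2 : ((a.smash (PMap.id W)).smash (PMap.id Io)).comp (MC.p (f.smash (PMap.id W))) =
        (PMap.ofHomeo (MC.swp X' W Io).symm).comp
          ((((a.smash (PMap.id Io)).comp (MC.p f)).smash (PMap.id W)).comp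
            (PMap.ofHomeo (MC.smR f W))) := by
      refine eq_symm_comp _ ?_
      rw [smash_comp_id, PMap.comp_assoc, MC.smR_p, ← PMap.comp_assoc, ← PMap.comp_assoc,
        ← swp_smash, PMap.comp_assoc]
    rw [e1, e2]
    exact ((h2.smash (PMap.Homotopic.refl _)).comp_right _).comp_left _

/-- the collapse `MC (F → U) → O` is an `EIso` -/
theorem EIso.c {F U O : Type} [TopologicalSpace F] [T2Space F] [LocallyCompactSpace F]
    [TopologicalSpace U] [T2Space U] [LocallyCompactSpace U]
    [TopologicalSpace O] [T2Space O] [LocallyCompactSpace O] {i : F → U} {e : O → U}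
    (h : OC i e) : EIso 𝓕 h.c := by
  intro T hT W _ _ _
  have hsq : (PMap.ofHomeo (Homeomorph.refl (U × W))).comp (h.incl.smash (PMap.id W)) =
      (h.prodRight W).incl.comp (PMap.ofHomeo (Homeomorph.refl (F × W))) := by
    rw [PMap.ofHomeo_refl, PMap.ofHomeo_refl, PMap.id_comp, PMap.comp_id, h.prodRight_incl]
  have key : (h.c.smash (PMap.id W)).comp (PMap.ofHomeo (MC.smR h.incl W)) =
      (h.prodRight W).c.comp (PMap.ofHomeo (MC.congr _ _ hsq)) := by
    refine PMap.ext fun z => ?_
    rw [MC.ofHomeo_congr]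
    refine MC.cases _ (P := fun z => ((h.c.smash (PMap.id W)).comp
      (PMap.ofHomeo (MC.smR h.incl W))) z = ((h.prodRight W).c.comp (MC.map _ _ hsq)) z)
      ?_ ?_ (z : OnePoint (MC (h.incl.smash (PMap.id W))))
    · intro x t ht
      obtain ⟨⟨a, b⟩, rfl⟩ := sm_surjective x
      simp only
      rw [PMap.comp_apply, PMap.comp_apply, MC.smR_q, PMap.smash_sm, h.c_q _ ht, sm_inf_left,
        MC.map_q _ _ hsq _ ht, OC.c_q _ _ ht]
    · intro y
      have e1 := congrArg (fun k : PMap (U × W) (MC h.incl × W) => k y) (MC.smR_i (W := W) h.incl)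
      have e2 := congrArg (fun k : PMap (U × W) (MC (h.prodRight W).incl) => k y)
        (MC.map_i _ _ hsq)
      simp only [PMap.comp_apply] at e1 e2
      rw [PMap.comp_apply, PMap.comp_apply, e1, e2, PMap.ofHomeo_refl, PMap.id_apply, OC.c_i,
        h.prodRight_coll, ← h.c_comp_i]
      have := PMap.smash_comp (MC.i h.incl) (PMap.id W) h.c (PMap.id W)
      rw [PMap.comp_id] at this
      rw [← this]
      rfl
  rw [eq_comp_symm _ key]
  exact T.bij_comp (T.bij_comp (T.col _) (T.bij_homeo _)) (T.bij_homeo _)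

end Crest.Agent.R090.FM554
end

-- ▼ part R090/FMPuppe_554
section

/-!
# Row 90, leaf FM: `V × Io ≃ MC (p f)`

For `f : PMap U V` the cone of the pinch map `p f : MC f → U × Io` is pointed homotopy equivalent
to `V × Io`.
-/

set_option autoImplicit false
set_option linter.unusedSectionVars false

open Topology Filter Set unitInterval

namespace Crest.Agent.R090.FM554

open OnePoint Crest.Agent.R090.Sp962

universe u v w

variable {U : Type u} {V : Type v} [TopologicalSpace U] [TopologicalSpace V]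
variable [T2Space U] [T2Space V] [LocallyCompactSpace U] [LocallyCompactSpace V]

section dbl

variable {W : Type w} [TopologicalSpace W]

/-- data for a family of pointed maps out of `MC (p f)` -/
structure Dbl (f : PMap U V) (K : I → OnePoint U → ℝ → ℝ → OnePoint W)
    (L : I → OnePoint V → ℝ → OnePoint W) : Prop where
  cK : Continuous (fun p : (I × I) × (OnePoint U × I) => K p.1.1 p.2.1 p.2.2 p.1.2)
  cL : Continuous (fun p : (I × I) × OnePoint V => L p.1.1 p.2 p.1.2)
  Kinf : ∀ r s t, K r ∞ s t = ∞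
  K0 : ∀ r a t, K r a 0 t = ∞
  K1 : ∀ r a t, K r a 1 t = L r (f a) t
  Kt : ∀ r a s, K r a s 0 = ∞
  Linf : ∀ r t, L r ∞ t = ∞
  L0 : ∀ r v, L r v 0 = ∞
  L1 : ∀ r v, L r v 1 = ∞

variable {f : PMap U V} {K : I → OnePoint U → ℝ → ℝ → OnePoint W}
  {L : I → OnePoint V → ℝ → OnePoint W}

/-- inner function -/
noncomputable def dF (f : PMap U V) (K : I → OnePoint U → ℝ → ℝ → OnePoint W)
    (L : I → OnePoint V → ℝ → OnePoint W) (r : I) (z : OnePoint (MC f)) (t : ℝ) : OnePoint W :=
  MC.lift f (fun a s => K r a s t) (fun v => L r v t) z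

theorem Dbl.dF_q (h : Dbl f K L) (r : I) (a : OnePoint U) {s : ℝ} (hs : s ∈ Icc (0 : ℝ) 1) (t : ℝ) :
    dF f K L r (MC.q f a s) t = K r a s t :=
  MC.lift_q f _ _ (fun s => by rw [h.Kinf, h.Linf]) (fun a => by rw [h.K0, h.Linf])
    (fun a => h.K1 r a t) a hs

theorem dF_i (r : I) (v : OnePoint V) (t : ℝ) : dF f K L r (MC.i f v) t = L r v t :=
  MC.lift_i f _ _ v

theorem Dbl.dF_inf (h : Dbl f K L) (r : I) (t : ℝ) : dF f K L r ∞ t = ∞ := by
  have := dF_i (f := f) (K := K) (L := L) r ∞ t
  rwa [(MC.i f).map_inf, h.Linf] at this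

/-- outer function on `U × Io` -/
noncomputable def dM (K : I → OnePoint U → ℝ → ℝ → OnePoint W) (r : I)
    (y : OnePoint (U × Io)) : OnePoint W := MC.sus ∞ (fun a s => K r a s 1) y

theorem Dbl.dM_sm (h : Dbl f K L) (r : I) (a : OnePoint U) {s : ℝ} (hs : s ∈ Icc (0 : ℝ) 1) :
    dM K r (sm a (qI s)) = K r a s 1 :=
  MC.sus_sm ∞ (fun a s => K r a s 1) (fun s => h.Kinf r s 1) (fun a => h.K0 r a 1)
    (fun a => by rw [h.K1, h.L1]) a hs

theorem dM_inf (r : I) : dM K r ∞ = ∞ := rfl

theorem Dbl.dF_one (h : Dbl f K L) (r : I) (z : OnePoint (MC f)) :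
    dF f K L r z 1 = dM K r (MC.p f z) := by
  refine MC.cases f (P := fun z => dF f K L r z 1 = dM K r (MC.p f z)) ?_ ?_ z
  · intro a s hs
    rw [h.dF_q r a hs, MC.p_q, h.dM_sm r a hs]
  · intro v
    rw [dF_i, MC.p_i, h.L1, dM_inf]

theorem Dbl.dF_zero (h : Dbl f K L) (r : I) (z : OnePoint (MC f)) : dF f K L r z 0 = ∞ := by
  refine MC.cases f (P := fun z => dF f K L r z 0 = ∞) ?_ ?_ z
  · intro a s hs
    rw [h.dF_q r a hs, h.Kt]
  · intro v
    rw [dF_i, h.L0]

/-- the family of maps out of `MC (p f)` -/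
noncomputable def dD (f : PMap U V) (K : I → OnePoint U → ℝ → ℝ → OnePoint W)
    (L : I → OnePoint V → ℝ → OnePoint W) (r : I) (x : OnePoint (MC (MC.p f))) : OnePoint W :=
  MC.lift (MC.p f) (dF f K L r) (dM K r) x

theorem dD_i (r : I) (y : OnePoint (U × Io)) : dD f K L r (MC.i (MC.p f) y) = dM K r y :=
  MC.lift_i _ _ _ y

theorem Dbl.dD_q (h : Dbl f K L) (r : I) (z : OnePoint (MC f)) {t : ℝ} (ht : t ∈ Icc (0 : ℝ) 1) :
    dD f K L r (MC.q (MC.p f) z t) = dF f K L r z t :=
  MC.lift_q _ _ _ (fun t => by rw [h.dF_inf, dM_inf]) (fun z => by rw [h.dF_zero, dM_inf])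
    (fun z => h.dF_one r z) z ht

theorem Dbl.dD_inf (h : Dbl f K L) (r : I) : dD f K L r ∞ = ∞ := by
  have := dD_i (f := f) (K := K) (L := L) r ∞
  rwa [(MC.i (MC.p f)).map_inf, dM_inf] at this

theorem Dbl.continuous_dD (h : Dbl f K L) :
    Continuous (fun p : I × OnePoint (MC (MC.p f)) => dD f K L p.1 p.2) := by
  have hF : Continuous (fun p : (I × I) × OnePoint (MC f) => dF f K L p.1.1 p.2 p.1.2) := by
    refine MC.continuous_of f ?_ ?_
    · have : (fun p : (I × I) × (OnePoint U × I) =>
          dF f K L p.1.1 (MC.q f p.2.1 p.2.2) p.1.2) =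
          fun p => K p.1.1 p.2.1 p.2.2 p.1.2 := by
        funext p
        exact h.dF_q p.1.1 p.2.1 p.2.2.2 p.1.2
      simp only
      rw [this]
      exact h.cK
    · have : (fun p : (I × I) × OnePoint V => dF f K L p.1.1 (MC.i f p.2) p.1.2) =
          fun p => L p.1.1 p.2 p.1.2 := by
        funext p
        exact dF_i p.1.1 p.2 p.1.2
      simp only
      rw [this]
      exact h.cL
  refine MC.continuous_of (MC.p f) ?_ ?_
  · have : (fun p : I × (OnePoint (MC f) × I) => dD f K L p.1 (MC.q (MC.p f) p.2.1 p.2.2)) =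
        fun p => dF f K L p.1 p.2.1 p.2.2 := by
      funext p
      exact h.dD_q p.1 p.2.1 p.2.2.2
    simp only
    rw [this]
    exact hF.comp (by fun_prop : Continuous (fun p : I × (OnePoint (MC f) × I) =>
      ((p.1, p.2.2), p.2.1)))
  · simp only [dD_i]
    refine MC.continuous_of_susp ?_
    have : (fun p : I × (OnePoint U × I) => dM K p.1 (sm p.2.1 (qI p.2.2))) =
        fun p => K p.1 p.2.1 p.2.2 1 := by
      funext p
      exact h.dM_sm p.1 p.2.1 p.2.2.2
    simp only
    rw [this]
    have := h.cK.comp (by fun_prop : Continuous (fun p : I × (OnePoint U × I) =>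
      ((p.1, (1 : I)), p.2)))
    exact this

/-- the homotopy produced by the data -/
theorem Dbl.homotopic (h : Dbl f K L) {g g' : PMap (MC (MC.p f)) W}
    (g0 : ∀ x, g x = dD f K L 0 x) (g1 : ∀ x, g' x = dD f K L 1 x) : g.Homotopic g' :=
  PMap.Homotopic.of (fun p => dD f K L p.1 p.2) h.continuous_dD
    (fun x => (g0 x).symm) (fun x => (g1 x).symm) (fun t => h.dD_inf t)

/-- induction principle -/
theorem dcases (f : PMap U V) {P : OnePoint (MC (MC.p f)) → Prop}
    (h1 : ∀ a (s t : ℝ), s ∈ Icc (0 : ℝ) 1 → t ∈ Icc (0 : ℝ) 1 →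
      P (MC.q (MC.p f) (MC.q f a s) t))
    (h2 : ∀ v (t : ℝ), t ∈ Icc (0 : ℝ) 1 → P (MC.q (MC.p f) (MC.i f v) t))
    (h3 : ∀ a (s : ℝ), s ∈ Icc (0 : ℝ) 1 → P (MC.i (MC.p f) (sm a (qI s)))) (x) : P x := by
  refine MC.cases (MC.p f) ?_ ?_ x
  · intro z t ht
    refine MC.cases f (P := fun z => P (MC.q (MC.p f) z t)) ?_ ?_ z
    · exact fun a s hs => h1 a s t hs ht
    · exact fun v => h2 v t ht
  · intro y
    obtain ⟨⟨a, s⟩, rfl⟩ := sm_surjective y
    obtain ⟨t, rfl⟩ := qI_surjective s
    exact h3 a t t.2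

end dbl

variable (f : PMap U V)

theorem continuous_qp : Continuous (fun p : OnePoint (MC f) × ℝ => MC.q (MC.p f) p.1 p.2) :=
  MC.continuous_q (MC.p f)

/-- `V × Io → MC (p f)` -/
noncomputable def pe : PMap (V × Io) (MC (MC.p f)) :=
  MC.susMap (fun v t => MC.q (MC.p f) (MC.i f v) t)
    ((continuous_qp f).comp (((MC.i f).cont.comp (by fun_prop)).prodMk (by fun_prop)))
    (fun t => by rw [(MC.i f).map_inf, MC.q_inf]) (fun v => MC.q_zero _ _)
    (fun v => by rw [MC.q_one, MC.p_i, (MC.i (MC.p f)).map_inf])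

theorem pe_sm (v : OnePoint V) {t : ℝ} (ht : t ∈ Icc (0 : ℝ) 1) :
    pe f (sm v (qI t)) = MC.q (MC.p f) (MC.i f v) t := MC.susMap_sm _ _ _ _ _ v ht

theorem dblg : Dbl f (fun (_ : I) a s t => sm (f a) (qI (s * t))) (fun _ v t => sm v (qI t)) where
  cK := (f.cont.comp (by fun_prop)).sm962 (continuous_qI.comp (by fun_prop))
  cL := (continuous_snd).sm962 (continuous_qI.comp (by fun_prop))
  Kinf := fun r s t => by rw [f.map_inf, sm_inf_left]
  K0 := fun r a t => by rw [zero_mul, qI_zero, sm_inf_right]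
  K1 := fun r a t => by rw [one_mul]
  Kt := fun r a s => by rw [mul_zero, qI_zero, sm_inf_right]
  Linf := fun r t => sm_inf_left _
  L0 := fun r v => by rw [qI_zero, sm_inf_right]
  L1 := fun r v => by rw [qI_one, sm_inf_right]

/-- `MC (p f) → V × Io` -/
noncomputable def pg : PMap (MC (MC.p f)) (V × Io) where
  toFun := dD f (fun (_ : I) a s t => sm (f a) (qI (s * t))) (fun _ v t => sm v (qI t)) 0
  cont := (dblg f).continuous_dD.comp (continuous_const.prodMk continuous_id)
  map_inf := (dblg f).dD_inf 0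

theorem pg_q (a : OnePoint U) {s t : ℝ} (hs : s ∈ Icc (0 : ℝ) 1) (ht : t ∈ Icc (0 : ℝ) 1) :
    pg f (MC.q (MC.p f) (MC.q f a s) t) = sm (f a) (qI (s * t)) := by
  change dD f _ _ 0 _ = _
  rw [(dblg f).dD_q 0 _ ht, (dblg f).dF_q 0 a hs]

theorem pg_i (v : OnePoint V) {t : ℝ} (ht : t ∈ Icc (0 : ℝ) 1) :
    pg f (MC.q (MC.p f) (MC.i f v) t) = sm v (qI t) := by
  change dD f _ _ 0 _ = _
  rw [(dblg f).dD_q 0 _ ht, dF_i]

theorem pg_ii (a : OnePoint U) {s : ℝ} (hs : s ∈ Icc (0 : ℝ) 1) :
    pg f (MC.i (MC.p f) (sm a (qI s))) = sm (f a) (qI s) := by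
  change dD f _ _ 0 _ = _
  rw [dD_i, (dblg f).dM_sm 0 a hs, mul_one]

theorem pg_comp_pe : (pg f).comp (pe f) = PMap.id (V × Io) := by
  refine PMap.ext fun x => ?_
  obtain ⟨v, t⟩ := x
  have e : (((v, t) : V × Io) : OnePoint (V × Io)) = sm (v : OnePoint V) (qI (t : ℝ)) := by
    rw [qI_coe]; rfl
  rw [PMap.comp_apply, e, pe_sm f _ ⟨t.2.1.le, t.2.2.le⟩, pg_i f _ ⟨t.2.1.le, t.2.2.le⟩,
    PMap.id_apply]

theorem dblA : Dbl f
    (fun (r : I) a s t => MC.q (MC.p f) (MC.q f a s) (t * (1 - r + r * s)))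
    (fun _ v t => MC.q (MC.p f) (MC.i f v) t) where
  cK := by
    have h1 : Continuous (fun p : (I × I) × (OnePoint U × I) =>
      ((p.2.1, (p.2.2 : ℝ)) : OnePoint U × ℝ)) := by fun_prop
    exact (continuous_qp f).comp (((MC.continuous_q f).comp h1).prodMk (by fun_prop))
  cL := by
    have h1 : Continuous (fun p : (I × I) × OnePoint V => p.2) := by fun_prop
    exact (continuous_qp f).comp (((MC.i f).cont.comp h1).prodMk (by fun_prop))
  Kinf := fun r s t => by rw [MC.q_inf, MC.q_inf]
  K0 := fun r a t => by rw [MC.q_zero, MC.q_inf]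
  K1 := fun r a t => by
    rw [MC.q_one, mul_one]
    congr 1
    ring
  Kt := fun r a s => by rw [zero_mul, MC.q_zero]
  Linf := fun r t => by rw [(MC.i f).map_inf, MC.q_inf]
  L0 := fun r v => MC.q_zero _ _
  L1 := fun r v => by rw [MC.q_one, MC.p_i, (MC.i (MC.p f)).map_inf]

theorem dblB : Dbl f
    (fun (r : I) a s t => MC.q (MC.p f) (MC.q f a (s + r * (1 - s))) (s * t))
    (fun _ v t => MC.q (MC.p f) (MC.i f v) t) where
  cK := by
    have h1 : Continuous (fun p : (I × I) × (OnePoint U × I) =>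
      ((p.2.1, (p.2.2 : ℝ) + p.1.1 * (1 - p.2.2)) : OnePoint U × ℝ)) := by fun_prop
    exact (continuous_qp f).comp (((MC.continuous_q f).comp h1).prodMk (by fun_prop))
  cL := by
    have h1 : Continuous (fun p : (I × I) × OnePoint V => p.2) := by fun_prop
    exact (continuous_qp f).comp (((MC.i f).cont.comp h1).prodMk (by fun_prop))
  Kinf := fun r s t => by rw [MC.q_inf, MC.q_inf]
  K0 := fun r a t => by rw [zero_mul, MC.q_zero]
  K1 := fun r a t => by
    rw [sub_self, mul_zero, add_zero, MC.q_one, one_mul]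
  Kt := fun r a s => by rw [mul_zero, MC.q_zero]
  Linf := fun r t => by rw [(MC.i f).map_inf, MC.q_inf]
  L0 := fun r v => MC.q_zero _ _
  L1 := fun r v => by rw [MC.q_one, MC.p_i, (MC.i (MC.p f)).map_inf]

/-- the intermediate map -/
noncomputable def pm : PMap (MC (MC.p f)) (MC (MC.p f)) where
  toFun := dD f (fun (r : I) a s t => MC.q (MC.p f) (MC.q f a s) (t * (1 - r + r * s)))
    (fun _ v t => MC.q (MC.p f) (MC.i f v) t) 1
  cont := (dblA f).continuous_dD.comp (continuous_const.prodMk continuous_id)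
  map_inf := (dblA f).dD_inf 1

theorem mem_mul {s t : ℝ} (hs : s ∈ Icc (0 : ℝ) 1) (ht : t ∈ Icc (0 : ℝ) 1) :
    s * t ∈ Icc (0 : ℝ) 1 :=
  ⟨mul_nonneg hs.1 ht.1, mul_le_one₀ hs.2 ht.1 ht.2⟩

theorem pe_comp_pg : ((pe f).comp (pg f)).Homotopic (PMap.id _) := by
  refine PMap.Homotopic.trans (g := pm f) (PMap.Homotopic.symm ?_) (PMap.Homotopic.symm ?_)
  · refine (dblB f).homotopic ?_ ?_
    · intro x
      refine dcases f (P := fun x => pm f x = dD f _ _ 0 x) ?_ ?_ ?_ x
      · intro a s t hs ht
        change dD f _ _ 1 _ = _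
        rw [(dblA f).dD_q 1 _ ht, (dblA f).dF_q 1 a hs, (dblB f).dD_q 0 _ ht,
          (dblB f).dF_q 0 a hs, Set.Icc.coe_one, Set.Icc.coe_zero,
          show t * (1 - 1 + 1 * s) = s * t by ring, show s + 0 * (1 - s) = s by ring]
      · intro v t ht
        change dD f _ _ 1 _ = _
        rw [(dblA f).dD_q 1 _ ht, dF_i, (dblB f).dD_q 0 _ ht, dF_i]
      · intro a s hs
        change dD f _ _ 1 _ = _
        rw [dD_i, (dblA f).dM_sm 1 a hs, dD_i, (dblB f).dM_sm 0 a hs, Set.Icc.coe_one,
          Set.Icc.coe_zero, show (1 : ℝ) * (1 - 1 + 1 * s) = s * 1 by ring,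
          show s + 0 * (1 - s) = s by ring]
    · intro x
      refine dcases f (P := fun x => ((pe f).comp (pg f)) x = dD f _ _ 1 x) ?_ ?_ ?_ x
      · intro a s t hs ht
        rw [PMap.comp_apply, pg_q f a hs ht, pe_sm f _ (mem_mul hs ht), (dblB f).dD_q 1 _ ht,
          (dblB f).dF_q 1 a hs, Set.Icc.coe_one, one_mul, add_sub_cancel, MC.q_one]
      · intro v t ht
        rw [PMap.comp_apply, pg_i f v ht, pe_sm f _ ht, (dblB f).dD_q 1 _ ht, dF_i]
      · intro a s hs
        rw [PMap.comp_apply, pg_ii f a hs, pe_sm f _ hs, dD_i, (dblB f).dM_sm 1 a hs,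
          Set.Icc.coe_one, one_mul, add_sub_cancel, MC.q_one, mul_one]
  · refine (dblA f).homotopic ?_ (fun _ => rfl)
    intro x
    refine dcases f (P := fun x => PMap.id _ x = dD f _ _ 0 x) ?_ ?_ ?_ x
    · intro a s t hs ht
      rw [PMap.id_apply, (dblA f).dD_q 0 _ ht, (dblA f).dF_q 0 a hs, Set.Icc.coe_zero]
      congr 1
      ring
    · intro v t ht
      rw [PMap.id_apply, (dblA f).dD_q 0 _ ht, dF_i]
    · intro a s hs
      rw [PMap.id_apply, dD_i, (dblA f).dM_sm 0 a hs, Set.Icc.coe_zero, zero_mul, add_zero,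
        sub_zero, one_mul, MC.q_one, MC.p_q]


end Crest.Agent.R090.FM554
end

-- ▼ part R090/FMProd_554
section

/-!
# Row 90, leaf FM: products of sphere-built spaces, models

`HasModel 𝓕 X` : some complex suspension `X × ℂ^n` admits an `EIso` to a sphere-built space.
-/

set_option autoImplicit false
set_option linter.unusedSectionVars false

open Topology Filter Set unitInterval

namespace Crest.Agent.R090.FM554

open OnePoint Crest.Agent.R090.Sp962
open Crest.Agent.R090.Exc503 (OC)
open Crest.Agent.R090.St528 (St S stN stN_comp stN_smash h1 hh)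

theorem HEqv.prod {X Y X' Y' : Type} [TopologicalSpace X] [T2Space X] [LocallyCompactSpace X]
    [TopologicalSpace Y] [T2Space Y] [LocallyCompactSpace Y]
    [TopologicalSpace X'] [T2Space X'] [LocallyCompactSpace X']
    [TopologicalSpace Y'] [T2Space Y'] [LocallyCompactSpace Y']
    (h : HEqv X Y) (h' : HEqv X' Y') : HEqv (X × X') (Y × Y') := by
  obtain ⟨f, g, h1, h2⟩ := h
  obtain ⟨f', g', h1', h2'⟩ := h'
  refine ⟨f.smash f', g.smash g', ?_, ?_⟩
  · rw [PMap.smash_comp]
    exact (h1.smash h1').trans (PMap.Homotopic.of_eq (by simp))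
  · rw [PMap.smash_comp]
    exact (h2.smash h2').trans (PMap.Homotopic.of_eq (by simp))

theorem SB.cplx (n : ℕ) : SB (Fin n → ℂ) := SB.fd _

theorem SB.S {M : Type} [TopologicalSpace M] [T2Space M] [LocallyCompactSpace M] (h : SB M)
    (n : ℕ) : SB (S M n) := h.prod (SB.cplx n)

section levels

variable (X : Type) [TopologicalSpace X]

/-- `ℂ^n × ℂ^k = ℂ^(n+k)` -/
noncomputable def addH (n k : ℕ) : (Fin n → ℂ) × (Fin k → ℂ) ≃ₜ (Fin (n + k) → ℂ) :=
  (ContinuousLinearEquiv.ofFinrankEq (𝕜 := ℂ) (by simp)).toHomeomorph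

/-- `S (S X n) k ≃ S X (n + k)` -/
noncomputable def SS (n k : ℕ) : S (S X n) k ≃ₜ S X (n + k) :=
  (Homeomorph.prodAssoc X (Fin n → ℂ) (Fin k → ℂ)).trans
    ((Homeomorph.refl X).prodCongr (addH n k))

/-- `S X 0 ≃ X` -/
noncomputable def S0 : S X 0 ≃ₜ X := (Homeomorph.prodUnique X (Fin 0 → ℂ))

/-- `S (X × R) n ≃ S X n × R` -/
noncomputable def SR (R : Type) [TopologicalSpace R] (n : ℕ) : S (X × R) n ≃ₜ S X n × R :=
  MC.swp X R (Fin n → ℂ)

end levels

variable {X Y Z R : Type}
variable [TopologicalSpace X] [T2Space X] [LocallyCompactSpace X]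
variable [TopologicalSpace Y] [T2Space Y] [LocallyCompactSpace Y]
variable [TopologicalSpace Z] [T2Space Z] [LocallyCompactSpace Z]
variable [TopologicalSpace R] [T2Space R] [LocallyCompactSpace R]

variable (𝓕 : Set CoT)


/-- `X` has a sphere-built model after complex suspension -/
def HasModel (X : Type) [TopologicalSpace X] [T2Space X] [LocallyCompactSpace X] : Prop :=
  ∃ (n : ℕ) (M : Type) (_ : TopologicalSpace M) (_ : T2Space M) (_ : LocallyCompactSpace M)
    (ρ : PMap (S X n) M), SB M ∧ EIso 𝓕 ρ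

variable {𝓕}

theorem HasModel.of_level {n : ℕ} {M : Type} [TopologicalSpace M] [T2Space M]
    [LocallyCompactSpace M] (hM : SB M) (ρ : PMap (S X n) M) (h : EIso 𝓕 ρ) : HasModel 𝓕 X :=
  ⟨n, M, _, _, _, ρ, hM, h⟩

/-- level raising -/
theorem HasModel.level {X : Type} [TopologicalSpace X] [T2Space X] [LocallyCompactSpace X]
    (h : HasModel 𝓕 X) : ∃ n₀, ∀ n, n₀ ≤ n → ∃ (M : Type) (_ : TopologicalSpace M) (_ : T2Space M)
      (_ : LocallyCompactSpace M) (ρ : PMap (S X n) M), SB M ∧ EIso 𝓕 ρ := by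
  obtain ⟨n, M, _, _, _, ρ, hM, hρ⟩ := h
  refine ⟨n, fun m hm => ?_⟩
  obtain ⟨k, rfl⟩ := Nat.exists_eq_add_of_le hm
  exact ⟨S M k, _, inferInstance, inferInstance,
    (ρ.smash (PMap.id (Fin k → ℂ))).comp (PMap.ofHomeo (SS X n k).symm), hM.S k,
    (hρ.smash_right _).comp (EIso.homeo _)⟩

theorem HasModel.of_S {n : ℕ} (h : HasModel 𝓕 (S X n)) : HasModel 𝓕 X := by
  obtain ⟨m, M, _, _, _, ρ, hM, hρ⟩ := h
  exact .of_level (n := n + m) hM (ρ.comp (PMap.ofHomeo (SS X n m).symm))
    (hρ.comp (EIso.homeo _))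

theorem HasModel.homeo (e : X ≃ₜ Y) (h : HasModel 𝓕 X) : HasModel 𝓕 Y := by
  obtain ⟨m, M, _, _, _, ρ, hM, hρ⟩ := h
  exact .of_level (n := m) hM (ρ.comp (PMap.ofHomeo (e.symm.prodCongr (Homeomorph.refl _))))
    (hρ.comp (EIso.homeo _))

theorem HasModel.of_SB (h : SB X) : HasModel 𝓕 X :=
  .of_level (n := 0) h (PMap.ofHomeo (S0 X)) (EIso.homeo _)


/-- products with sphere-built spaces -/
theorem HasModel.prod_SB (h : HasModel 𝓕 X) (hR : SB R) : HasModel 𝓕 (X × R) := by
  obtain ⟨m, M, _, _, _, ρ, hM, hρ⟩ := h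
  exact .of_level (n := m) (hM.prod hR) ((ρ.smash (PMap.id R)).comp (PMap.ofHomeo (SR X R m)))
    ((hρ.smash_right R).comp (EIso.homeo _))

/-- `S X n × S Y m ≃ S (X × Y) (n + m)` -/
noncomputable def SP (X Y : Type) [TopologicalSpace X] [TopologicalSpace Y] (n m : ℕ) :
    S X n × S Y m ≃ₜ S (X × Y) (n + m) :=
  (Homeomorph.prodProdProdComm X (Fin n → ℂ) Y (Fin m → ℂ)).trans
    ((Homeomorph.refl _).prodCongr (addH n m))

/-- products -/
theorem HasModel.prod (h : HasModel 𝓕 X) (h' : HasModel 𝓕 Y) : HasModel 𝓕 (X × Y) := by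
  obtain ⟨n, M, _, _, _, ρ, hM, hρ⟩ := h
  obtain ⟨m, N, _, _, _, τ, hN, hτ⟩ := h'
  exact .of_level (n := n + m) (hM.prod hN) ((ρ.smash τ).comp (PMap.ofHomeo (SP X Y n m).symm))
    ((hρ.smash hτ).comp (EIso.homeo _))

/-- real suspension shift -/
theorem HasModel.of_Io (h : HasModel 𝓕 (X × Io)) : HasModel 𝓕 X := by
  have h1 : HasModel 𝓕 ((X × Io) × Io) := h.prod_SB SB.Io
  have e : (X × Io) × Io ≃ₜ S X 1 :=
    (Crest.Agent.R090.St528.cH X).symm.trans
      ((Homeomorph.refl X).prodCongr (Homeomorph.funUnique (Fin 1) ℂ).symm)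
  exact (h1.homeo e).of_S

end Crest.Agent.R090.FM554
end

-- ▼ part R090/FMExt_554
section

/-!
# Row 90, leaf FM: closed/open extensions of spaces with a model

`TgtHyp 𝓕` (input, helper305): precomposition with an `EIso` is bijective on stable maps into any
sphere-built space.  Output: for a closed/open pair `F → U ← O`
* `HasModel.ext` : models of `F` and `O` give a model of `U`;
* `HasModel.open` : models of `F` and `U` give a model of `O`.
-/

set_option autoImplicit false
set_option linter.unusedSectionVars false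

open Topology Filter Set unitInterval

namespace Crest.Agent.R090.FM554

open OnePoint Crest.Agent.R090.Sp962
open Crest.Agent.R090.Exc503 (OC)
open Crest.Agent.R090.St528 (St S stN stN_comp stN_smash h1 hh)

/-- precomposition with an `EIso` is bijective for sphere-built targets -/
def TgtHyp (𝓕 : Set CoT) : Prop :=
  ∀ {X M : Type} [TopologicalSpace X] [T2Space X] [LocallyCompactSpace X]
    [TopologicalSpace M] [T2Space M] [LocallyCompactSpace M] (ρ : PMap X M), EIso 𝓕 ρ →
    ∀ (T : Type) [TopologicalSpace T] [T2Space T] [LocallyCompactSpace T], SB T →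
      Function.Bijective (fun g : St M T => g.comp (St.ofP ρ))

section rep

universe u v w

variable {X' : Type u} {X : Type v} {T : Type w}
variable [TopologicalSpace X] [T2Space X] [LocallyCompactSpace X]
variable [TopologicalSpace X'] [T2Space X'] [LocallyCompactSpace X']
variable [TopologicalSpace T] [T2Space T] [LocallyCompactSpace T]

/-- a stable factorisation of a space-level map is realised at some level -/
theorem exists_rep (d : St X T) (r : PMap X' X) (y : PMap X' T)
    (h : d.comp (St.ofP r) = St.ofP y) :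
    ∃ (k : ℕ) (D : PMap (S X k) (S T k)), d = St.mk k D ∧
      (D.comp (r.smash (PMap.id (Fin k → ℂ)))).Homotopic (y.smash (PMap.id (Fin k → ℂ))) := by
  obtain ⟨n, hn⟩ := d.exists_of
  obtain ⟨a, rfl⟩ := hn n le_rfl
  rw [St.ofP, St.ofP, St.map_eq_of _ n, St.map_eq_of _ n, St.of_comp_of] at h
  obtain ⟨k, hk⟩ := St.of_eq_iff.1 h
  rw [stN_comp, stN_smash, stN_smash] at hk
  obtain ⟨D, hD⟩ := HC.mk_surj (stN a k)
  refine ⟨n + k, D, ?_, ?_⟩
  · rw [St.mk, hD, St.of_stN]
  · rw [← hD] at hk
    exact HC.mk_eq.1 hk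

end rep

variable {𝓕 : Set CoT}

variable {F U O MF MU MO : Type}
variable [TopologicalSpace F] [T2Space F] [LocallyCompactSpace F]
variable [TopologicalSpace U] [T2Space U] [LocallyCompactSpace U]
variable [TopologicalSpace O] [T2Space O] [LocallyCompactSpace O]
variable [TopologicalSpace MF] [T2Space MF] [LocallyCompactSpace MF]
variable [TopologicalSpace MU] [T2Space MU] [LocallyCompactSpace MU]
variable [TopologicalSpace MO] [T2Space MO] [LocallyCompactSpace MO]
variable {i : F → U} {e : O → U}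

/-- `ρ ∧ 1` for the level `k` -/
theorem EIso.S {X Y : Type} [TopologicalSpace X] [T2Space X] [LocallyCompactSpace X]
    [TopologicalSpace Y] [T2Space Y] [LocallyCompactSpace Y] {ρ : PMap X Y} (h : EIso 𝓕 ρ)
    (k : ℕ) : EIso 𝓕 (ρ.smash (PMap.id (Fin k → ℂ))) := h.smash_right _

/-- extension, level `0` -/
theorem ext0 (hT : TgtHyp 𝓕) (h : OC i e) (ρF : PMap F MF) (ρO : PMap O MO) (sF : SB MF)
    (sO : SB MO) (eF : EIso 𝓕 ρF) (eO : EIso 𝓕 ρO) : HasModel 𝓕 U := by
  -- `r : MC incl → MO`
  let r : PMap (MC h.incl) MO := ρO.comp h.c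
  have er : EIso 𝓕 r := eO.comp (EIso.c h)
  let y : PMap (MC h.incl) (MF × Io) := (ρF.smash (PMap.id Io)).comp (MC.p h.incl)
  obtain ⟨d, hd⟩ := (hT r er (MF × Io) (sF.prod SB.Io)).surjective (St.ofP y)
  obtain ⟨k, D, -, hD⟩ := exists_rep d r y hd
  -- the square
  let f : PMap (S (MC h.incl) k) (S (F × Io) k) := (MC.p h.incl).smash (PMap.id (Fin k → ℂ))
  let b : PMap (S (F × Io) k) (S (MF × Io) k) :=
    (ρF.smash (PMap.id Io)).smash (PMap.id (Fin k → ℂ))
  have hsq : (D.comp (r.smash (PMap.id (Fin k → ℂ)))).Homotopic (b.comp f) := by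
    have e1 : b.comp f = y.smash (PMap.id (Fin k → ℂ)) := (smash_comp_id _ _).symm
    rw [e1]
    exact hD
  obtain ⟨w, hw1, hw2⟩ := exists_map f D (r.smash (PMap.id (Fin k → ℂ))) b hsq
  have ew : EIso 𝓕 w := EIso.cone hsq (PMap.Homotopic.of_eq hw1) hw2 (er.S k)
    ((eF.smash_right Io).S k)
  have epe : EIso 𝓕 (pe h.incl) :=
    EIso.of_inv (PMap.Homotopic.of_eq (pg_comp_pe h.incl)) (pe_comp_pg h.incl)
  refine HasModel.of_Io ?_
  refine .of_level (n := k) (M := MC D) ?_
    (w.comp ((PMap.ofHomeo (MC.smR (MC.p h.incl) (Fin k → ℂ)).symm).comp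
      ((pe h.incl).smash (PMap.id (Fin k → ℂ))))) ?_
  · exact (sO.S k).cone D ((sF.prod SB.Io).S k)
  · exact ew.comp ((EIso.homeo _).comp (epe.S k))

/-- **closed/open extension** -/
theorem HasModel.ext (hT : TgtHyp 𝓕) (h : OC i e) (hF : HasModel 𝓕 F) (hO : HasModel 𝓕 O) :
    HasModel 𝓕 U := by
  obtain ⟨n, hn⟩ := hF.level
  obtain ⟨m, hm⟩ := hO.level
  obtain ⟨MF, _, _, _, ρF, sF, eF⟩ := hn (max n m) (le_max_left _ _)
  obtain ⟨MO, _, _, _, ρO, sO, eO⟩ := hm (max n m) (le_max_right _ _)
  exact (ext0 hT (h.prodRight (Fin (max n m) → ℂ)) ρF ρO sF sO eF eO).of_S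

/-- open complement, level `0` -/
theorem open0 (hT : TgtHyp 𝓕) (h : OC i e) (ρF : PMap F MF) (ρU : PMap U MU) (sF : SB MF)
    (sU : SB MU) (eF : EIso 𝓕 ρF) (eU : EIso 𝓕 ρU) : HasModel 𝓕 O := by
  obtain ⟨d, hd⟩ := (hT ρF eF MU sU).surjective (St.ofP (ρU.comp h.incl))
  obtain ⟨k, D, -, hD⟩ := exists_rep d ρF (ρU.comp h.incl) hd
  let f : PMap (S F k) (S U k) := h.incl.smash (PMap.id (Fin k → ℂ))
  have hsq : (D.comp (ρF.smash (PMap.id (Fin k → ℂ)))).Homotopic
      ((ρU.smash (PMap.id (Fin k → ℂ))).comp f) := by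
    rw [← smash_comp_id]
    exact hD
  obtain ⟨w, hw1, hw2⟩ := exists_map f D _ _ hsq
  have ew : EIso 𝓕 w := EIso.cone hsq (PMap.Homotopic.of_eq hw1) hw2 (eF.S k) (eU.S k)
  -- `v : MC incl × ℂ^k → MC D`
  let v : PMap (S (MC h.incl) k) (MC D) := w.comp (PMap.ofHomeo (MC.smR h.incl (Fin k → ℂ)).symm)
  have ev : EIso 𝓕 v := ew.comp (EIso.homeo _)
  have ec : EIso 𝓕 (h.c.smash (PMap.id (Fin k → ℂ))) := (EIso.c h).S k
  have sD : SB (MC D) := (sF.S k).cone D (sU.S k)
  obtain ⟨g, hg⟩ := (hT _ ec (MC D) sD).surjective (St.ofP v)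
  obtain ⟨m, G, -, hG⟩ := exists_rep g _ v hg
  have eG : EIso 𝓕 G := EIso.of_comp_left (ec.S m) ((ev.S m).congr hG.symm)
  exact HasModel.of_S (n := k) (.of_level (n := m) (sD.S m) G eG)

/-- **open complement** -/
theorem HasModel.open (hT : TgtHyp 𝓕) (h : OC i e) (hF : HasModel 𝓕 F) (hU : HasModel 𝓕 U) :
    HasModel 𝓕 O := by
  obtain ⟨n, hn⟩ := hF.level
  obtain ⟨m, hm⟩ := hU.level
  obtain ⟨MF, _, _, _, ρF, sF, eF⟩ := hn (max n m) (le_max_left _ _)
  obtain ⟨MU, _, _, _, ρU, sU, eU⟩ := hm (max n m) (le_max_right _ _)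
  exact (open0 hT (h.prodRight (Fin (max n m) → ℂ)) ρF ρU sF sU eF eU).of_S


end Crest.Agent.R090.FM554
end

-- ▼ part R090/FMSt_806
section

/-!
# Row 90, leaf FM (owner helper554; this file helper806): `St (-) (Fin m → ℝ)` is a `CoT`

* `contra1`, `contra2`, `contra3` : contravariant exactness of `St (-) E` on
  `U → V → MC f → U × Io → V × Io` (any lch `T₂` target `E`);
* `coll_bij` : `F` contractible closed ⟹ `St O E ≃ St U E` (Borsuk; `E` f.d. real);
* `c_bij` : `St O E ≃ St (MC incl) E`;
* `cotSt m : CoT`.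
-/

set_option autoImplicit false
set_option linter.unusedSectionVars false

open Topology Filter Set

namespace Crest.Agent.R090.FM554

open OnePoint Crest.Agent.R090.Sp962 Crest.Agent.R090.Grp528 Crest.Agent.R090.St528
open Crest.Agent.R090.CovSt128 (lv stN_lv)
open Crest.Agent.R090.Exc503 (OC)
open scoped unitInterval

universe u v w x y

section level

variable {A : Type u} {B : Type v} {C : Type w}
variable [TopologicalSpace A] [TopologicalSpace B] [TopologicalSpace C]
variable [T2Space A] [LocallyCompactSpace A] [T2Space B] [LocallyCompactSpace B]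
  [T2Space C] [LocallyCompactSpace C]

/-- a stable map killing an unstable one, at a finite level -/
theorem exists_level_right (F : PMap A B) (y : St B C) (hy : y.comp (St.ofP F) = 0) :
    ∃ (n : ℕ) (y0 : PMap (S B n) (S C n)), y = St.of n (HC.mk y0) ∧
      (y0.comp (F.smash (PMap.id (Fin n → ℂ)))).Null := by
  obtain ⟨n, _, a, rfl⟩ := y.exists_of_ge 0
  rw [St.ofP, St.map_eq_of _ n, St.of_comp_of, ← St.of_zero n, St.of_eq_iff] at hy
  obtain ⟨k, hk⟩ := hy
  have hz : stN (hzero (S A n) (S C n)) k = hzero _ _ := by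
    clear hk
    induction k with
    | zero => rfl
    | succ k ih => rw [stN_succ, ih, st_hzero]; rfl
  rw [stN_comp, stN_lv, hz] at hk
  obtain ⟨h0, hh0⟩ := HC.mk_surj (stN a k)
  refine ⟨n + k, h0, ?_, ?_⟩
  · rw [hh0, St.of_stN]
  · rw [← hh0] at hk
    exact HC.mk_eq.1 hk

theorem of_mk_comp_ofP {n : ℕ} (z : PMap (S B n) (S C n)) (F : PMap A B) :
    (St.of n (HC.mk z)).comp (St.ofP F) =
      St.of n (HC.mk (z.comp (F.smash (PMap.id (Fin n → ℂ))))) := by
  rw [St.ofP, St.map_eq_of _ n, St.of_comp_of]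
  rfl

theorem of_congr {n : ℕ} {f g : PMap (S B n) (S C n)} (h : f.Homotopic g) :
    St.of n (HC.mk f) = St.of n (HC.mk g) := by rw [HC.sound h]

end level

/-! ## contravariant exactness of mapping cone sequences -/

section contra

variable {U : Type u} {V : Type v} {E : Type w}
variable [TopologicalSpace U] [TopologicalSpace V] [TopologicalSpace E]
variable [T2Space U] [LocallyCompactSpace U] [T2Space V] [LocallyCompactSpace V]
  [T2Space E] [LocallyCompactSpace E]

/-- exactness at `V` -/
theorem contra1 (f : PMap U V) (y : St V E) (hy : y.comp (St.ofP f) = 0) :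
    ∃ z : St (MC f) E, z.comp (St.ofP (MC.i f)) = y := by
  obtain ⟨n, y0, rfl, h0⟩ := exists_level_right f y hy
  obtain ⟨g, hg⟩ := MC.exists_desc (f.smash (PMap.id (Fin n → ℂ))) y0 h0
  refine ⟨St.of n (HC.mk (g.comp (PMap.ofHomeo (MC.smR f (Fin n → ℂ)).symm))), ?_⟩
  rw [of_mk_comp_ofP, PMap.comp_assoc, ← MC.smR_i f, symm_comp_cancel, hg]

/-- exactness at `MC f` -/
theorem contra2 (f : PMap U V) (y : St (MC f) E) (hy : y.comp (St.ofP (MC.i f)) = 0) :
    ∃ z : St (U × Io) E, z.comp (St.ofP (MC.p f)) = y := by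
  obtain ⟨n, y0, rfl, h0⟩ := exists_level_right (MC.i f) y hy
  obtain ⟨g, hg⟩ := MC.exists_p (f.smash (PMap.id (Fin n → ℂ)))
    (y0.comp (PMap.ofHomeo (MC.smR f (Fin n → ℂ)))) (by
      rw [PMap.comp_assoc, MC.smR_i]; exact h0)
  refine ⟨St.of n (HC.mk (g.comp (PMap.ofHomeo (MC.swp U (Fin n → ℂ) Io).symm))), ?_⟩
  rw [of_mk_comp_ofP]
  refine of_congr ?_
  have e : (PMap.ofHomeo (MC.swp U (Fin n → ℂ) Io).symm).comp
      ((MC.p f).smash (PMap.id (Fin n → ℂ))) =
      (MC.p (f.smash (PMap.id (Fin n → ℂ)))).comp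
        (PMap.ofHomeo (MC.smR f (Fin n → ℂ)).symm) := by
    refine eq_comp_symm _ ?_
    rw [PMap.comp_assoc, MC.smR_p, symm_comp_cancel]
  have h1 := (hg.comp_right (PMap.ofHomeo (MC.smR f (Fin n → ℂ)).symm)).symm
  rw [PMap.comp_assoc y0, PMap.ofHomeo_comp_symm, PMap.comp_id, PMap.comp_assoc g, ← e,
    ← PMap.comp_assoc] at h1
  exact h1

/-- exactness at `U × Io` -/
theorem contra3 (f : PMap U V) (y : St (U × Io) E) (hy : y.comp (St.ofP (MC.p f)) = 0) :
    ∃ z : St (V × Io) E, z.comp (St.ofP (f.smash (PMap.id Io))) = y := by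
  obtain ⟨n, y0, rfl, h0⟩ := exists_level_right (MC.p f) y hy
  obtain ⟨g, hg⟩ := MC.exists_susp (f.smash (PMap.id (Fin n → ℂ)))
    (y0.comp (PMap.ofHomeo (MC.swp U (Fin n → ℂ) Io))) (by
      rw [PMap.comp_assoc, ← MC.smR_p, ← PMap.comp_assoc]
      exact h0.comp_right _)
  refine ⟨St.of n (HC.mk (g.comp (PMap.ofHomeo (MC.swp V (Fin n → ℂ) Io).symm))), ?_⟩
  rw [of_mk_comp_ofP]
  refine of_congr ?_
  have e : (PMap.ofHomeo (MC.swp V (Fin n → ℂ) Io).symm).comp
      ((f.smash (PMap.id Io)).smash (PMap.id (Fin n → ℂ))) =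
      ((f.smash (PMap.id (Fin n → ℂ))).smash (PMap.id Io)).comp
        (PMap.ofHomeo (MC.swp U (Fin n → ℂ) Io).symm) := by
    refine PMap.ext fun p => ?_
    obtain ⟨⟨a, s⟩, c⟩ := p
    change (PMap.ofHomeo (MC.swp V (Fin n → ℂ) Io).symm)
      (sm (sm (f a) (s : OnePoint Io)) (c : OnePoint (Fin n → ℂ))) =
      sm (sm (f a) (c : OnePoint (Fin n → ℂ))) (s : OnePoint Io)
    generalize f a = b
    induction b using OnePoint.rec with
    | infty => simp
    | coe b => rfl
  have h1 := (hg.comp_right (PMap.ofHomeo (MC.swp U (Fin n → ℂ) Io).symm)).symm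
  rw [PMap.comp_assoc y0, PMap.ofHomeo_comp_symm, PMap.comp_id, PMap.comp_assoc g, ← e,
    ← PMap.comp_assoc] at h1
  exact h1

end contra

/-! ## excision -/

section exc

variable {F : Type u} {U : Type v} {O : Type w} {E : Type x}
variable [TopologicalSpace F] [TopologicalSpace U] [TopologicalSpace O] [TopologicalSpace E]
variable [T2Space F] [LocallyCompactSpace F] [T2Space U] [LocallyCompactSpace U]
  [T2Space O] [LocallyCompactSpace O] [T2Space E] [LocallyCompactSpace E]
variable [AddCommGroup E] [Module ℝ E] [FiniteDimensional ℝ E] [IsTopologicalAddGroup E]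
  [ContinuousSMul ℝ E]

/-- **contravariant exactness for arbitrary closed pairs, sphere target** -/
theorem exists_coll_st {i : F → U} {e : O → U} (h : OC i e) (y : St U E)
    (hy : y.comp (St.ofP h.incl) = 0) : ∃ z : St O E, z.comp (St.ofP h.coll) = y := by
  obtain ⟨n, y0, rfl, h0⟩ := exists_level_right h.incl y hy
  rw [← h.prodRight_incl] at h0
  obtain ⟨g, hg⟩ := (h.prodRight (Fin n → ℂ)).exists_coll
    (Crest.R090.Hep865.NE.onePoint (S E n)) y0 h0
  refine ⟨St.of n (HC.mk g), ?_⟩
  rw [of_mk_comp_ofP, ← h.prodRight_coll]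
  exact of_congr hg.symm

/-- the collapse of a contractible closed subspace is an isomorphism on `St (-) E` -/
theorem coll_bij {i : F → U} {e : O → U} (h : OC i e) (hF : (PMap.id F).Null) :
    Function.Bijective (fun y : St O E => y.comp (St.ofP h.coll)) := by
  constructor
  · intro y y' hyy
    have hy : (y - y').comp (St.ofP h.coll) = 0 := by
      rw [St.sub_comp]; exact sub_eq_zero.2 hyy
    refine sub_eq_zero.1 ?_
    generalize y - y' = z at hy
    obtain ⟨n, y0, rfl, h0⟩ := exists_level_right h.coll z hy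
    rw [← St.of_zero n]
    refine of_congr ?_
    have hF' : (PMap.id (F × (Fin n → ℂ))).Null := by
      rw [← PMap.smash_id]; exact hF.smash_left _
    refine (h.prodRight (Fin n → ℂ)).collapse_inj
      (Crest.R090.Hep865.NE.onePoint (S E n)) hF' ?_
    rw [h.prodRight_coll]
    exact h0
  · intro y
    refine exists_coll_st h y ?_
    have : St.ofP h.incl = 0 := by
      refine St.ofP_null ?_
      have := hF.comp_left h.incl
      rwa [PMap.comp_id] at this
    rw [this, St.comp_zero]

/-- `St O E ≃ St (MC incl) E` -/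
theorem c_bij {i : F → U} {e : O → U} (h : OC i e) :
    Function.Bijective (fun y : St O E => y.comp (St.ofP h.c)) :=
  coll_bij h.cone (Exc503.null_cone F)

end exc

/-! ## the functor -/

/-- `St (-) (Fin m → ℝ)` as a contravariant cohomology functor -/
noncomputable def cotSt (m : ℕ) : CoT where
  H X _ _ _ := St X (Fin m → ℝ)
  grp X _ _ _ := inferInstance
  map f := St.homComp (St.ofP f)
  map_id X _ _ _ y := by
    change y.comp (St.ofP (PMap.id X)) = y
    rw [St.ofP_id, St.comp_id]
  map_comp g f y := by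
    change y.comp (St.ofP (g.comp f)) = (y.comp (St.ofP g)).comp (St.ofP f)
    rw [St.ofP_comp, St.comp_assoc]
  map_homotopic h := by rw [St.ofP_congr h]
  ex_i f := by
    intro y
    constructor
    · intro h
      exact contra1 f y h
    · rintro ⟨z, rfl⟩
      change (z.comp (St.ofP (MC.i f))).comp (St.ofP f) = 0
      rw [St.comp_assoc, ofP_i_comp, St.comp_zero]
  ex_p f := by
    intro y
    constructor
    · intro h
      exact contra2 f y h
    · rintro ⟨z, rfl⟩
      change (z.comp (St.ofP (MC.p f))).comp (St.ofP (MC.i f)) = 0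
      rw [St.comp_assoc, ofP_p_comp_i, St.comp_zero]
  ex_s f := by
    intro y
    constructor
    · intro h
      exact contra3 f y h
    · rintro ⟨z, rfl⟩
      change (z.comp (St.ofP (f.smash (PMap.id Io)))).comp (St.ofP (MC.p f)) = 0
      rw [St.comp_assoc, ofP_smash_comp_p, St.comp_zero]
  col h := c_bij h

@[simp] theorem cotSt_map {X Y : Type} [TopologicalSpace X] [T2Space X] [LocallyCompactSpace X]
    [TopologicalSpace Y] [T2Space Y] [LocallyCompactSpace Y] (m : ℕ) (f : PMap X Y)
    (y : St Y (Fin m → ℝ)) : (cotSt m).map f y = y.comp (St.ofP f) := rfl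


end Crest.Agent.R090.FM554
end

-- ▼ part R090/FMTgtHyp_806
section

/-!
# Row 90, leaf FM (helper806): `TgtHyp` for every family containing all `cotSt m`
-/

set_option autoImplicit false
set_option linter.unusedSectionVars false

open Topology Filter Set

namespace Crest.Agent.R090.FM554

open OnePoint Crest.Agent.R090.Sp962 Crest.Agent.R090.Grp528 Crest.Agent.R090.St528

section unit

variable {X Y : Type} [TopologicalSpace X] [T2Space X] [LocallyCompactSpace X]
  [TopologicalSpace Y] [T2Space Y] [LocallyCompactSpace Y]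

theorem unit_smash (ρ : PMap X Y) :
    ρ.comp (PMap.ofHomeo (Homeomorph.prodUnique X Unit)) =
      (PMap.ofHomeo (Homeomorph.prodUnique Y Unit)).comp (ρ.smash (PMap.id Unit)) := by
  refine PMap.ext fun p => ?_
  obtain ⟨x, w⟩ := p
  change ρ (x : OnePoint X) =
    PMap.ofHomeo (Homeomorph.prodUnique Y Unit) (sm (ρ x) (w : OnePoint Unit))
  generalize ρ x = y
  induction y using OnePoint.rec with
  | infty => simp
  | coe y => rfl

/-- an `EIso` is an isomorphism -/
theorem EIso.bij {𝓕 : Set CoT} {ρ : PMap X Y} (h : EIso 𝓕 ρ) {T : CoT} (hT : T ∈ 𝓕) :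
    Function.Bijective (T.map ρ) := by
  refine T.bij_of_comp_left (T.bij_homeo (Homeomorph.prodUnique X Unit)) ?_
  rw [unit_smash]
  exact T.bij_comp (T.bij_homeo _) (h T hT Unit)

theorem EIso.sIso0 {𝓕 : Set CoT} (h𝓕 : ∀ m, cotSt m ∈ 𝓕) {ρ : PMap X Y} (h : EIso 𝓕 ρ) :
    SIso (St.ofP ρ) := fun m => h.bij (h𝓕 m)

end unit

/-- **target hypothesis** for every family containing all `cotSt m` -/
theorem tgtHyp {𝓕 : Set CoT} (h𝓕 : ∀ m, cotSt m ∈ 𝓕) : TgtHyp 𝓕 := by
  intro X M _ _ _ _ _ _ ρ hρ T _ _ _ hT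
  exact (hρ.sIso0 h𝓕).bij hT

theorem tgtHyp_insert (T : CoT) : TgtHyp (insert T (range cotSt)) :=
  tgtHyp fun m => Set.mem_insert_of_mem _ (mem_range_self m)


end Crest.Agent.R090.FM554
end

-- ▼ part R090/AsCoT_967
section

/-!
# Row 90, leaf FM/HOM (registry item 3, helper967): the cohomology theories of HOM as `FM554.CoT`

`AsCoT967.coT H hmap : FM554.CoT` for every `H : CohT253.Coh` which is homotopy invariant:
exactness on mapping cone sequences of arbitrary pointed maps (`ex_i`, `ex_p`, `ex_s`) and the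
collapse isomorphism `col`, from exactness for closed subspaces + naturality of `del` only.
`EIso.coh_bijective`: an `EIso` induces isomorphisms `H.map (ρ ∧ 1_W)` and `H.map ρ`.
-/

set_option autoImplicit false
set_option linter.unusedSectionVars false

open Topology Filter Set unitInterval

namespace Crest.Agent.R090.AsCoT967

open OnePoint Crest.Agent.R090.Sp962 Crest.Agent.R090.CohT253
open Crest.Agent.R090.FM554 (CoT EIso)
open Crest.Agent.R090.Exc503 (OC valC)

universe u v w

section geometry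

variable {U V : Type u} [TopologicalSpace U] [T2Space U] [LocallyCompactSpace U]
variable [TopologicalSpace V] [T2Space V] [LocallyCompactSpace V]

/-! ## the decomposition of a mapping cone -/

theorem isClosedEmbedding_inr (f : PMap U V) : IsClosedEmbedding (MC.inr : V → MC f) := by
  refine ⟨OC.isEmbedding_inr f, ?_⟩
  have h : range (MC.inr : V → MC f) =
      ((↑) : MC f → OnePoint (MC f)) ⁻¹' (range (MC.i f)) := by
    ext z
    constructor
    · rintro ⟨y, rfl⟩
      exact ⟨y, rfl⟩
    · rintro ⟨y, hy⟩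
      induction y using OnePoint.rec with
      | infty => exact absurd hy.symm (coe_ne_infty _)
      | coe y => exact ⟨y, coe_injective hy⟩
  rw [h]
  exact (isCompact_range (MC.i f).cont).isClosed.preimage continuous_coe

theorem continuous_inl (f : PMap U V) : Continuous (MC.inl : U × Io → MC f) := by
  rw [(MC.isEmbedding_j f).continuous_iff]
  refine Continuous.prodMk continuous_coe ?_
  exact (f.cont.comp (continuous_coe.comp continuous_fst)).sm962
    (continuous_qC.comp (continuous_subtype_val.comp continuous_snd))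

theorem range_inl (f : PMap U V) : range (MC.inl : U × Io → MC f) = (range (MC.inr : V → MC f))ᶜ := by
  ext z
  constructor
  · rintro ⟨p, rfl⟩ ⟨y, hy⟩
    exact absurd hy (by simp)
  · intro hz
    rcases z with p | y
    · exact ⟨p, rfl⟩
    · exact absurd ⟨y, rfl⟩ hz

theorem isOpenEmbedding_inl (f : PMap U V) : IsOpenEmbedding (MC.inl : U × Io → MC f) := by
  refine ⟨?_, ?_⟩
  · have h : (fun z : MC f => (MC.j f z).1) ∘ (MC.inl : U × Io → MC f) =
        ((↑) : U × Io → OnePoint (U × Io)) := rfl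
    refine IsEmbedding.of_comp (g := fun z : MC f => (MC.j f z).1) (continuous_inl f)
      (continuous_fst.comp (MC.isEmbedding_j f).continuous) ?_
    rw [h]
    exact isOpenEmbedding_coe.isEmbedding
  · rw [range_inl]
    exact (isClosedEmbedding_inr f).isClosed_range.isOpen_compl

/-- `V ⊂ MC f` with complement `U × Io` -/
def decMC (f : PMap U V) : Dec V (MC f) (U × Io) where
  i := MC.inr
  hi := isClosedEmbedding_inr f
  j := MC.inl
  hj := isOpenEmbedding_inl f
  compl := range_inl f

theorem ofClosed_decMC (f : PMap U V) :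
    PMap.ofClosed (decMC f).i (decMC f).hi = MC.i f := PMap.ext fun _ => rfl

theorem ofOpen_decMC (f : PMap U V) : PMap.ofOpen (decMC f).j (decMC f).hj = MC.p f := by
  refine PMap.ext fun z => ?_
  rcases z with p | y
  · exact PMap.ofOpen_coe _ (decMC f).hj p
  · refine (PMap.ofOpen_of_notMem _ (decMC f).hj ?_).trans rfl
    rintro ⟨p, hp⟩
    exact absurd hp (by simp [decMC])

/-! ## the decomposition of a cone -/

/-- `Io → Ic` -/
def oc (t : Io) : Ic := ⟨t, t.2.1, t.2.2.le⟩

theorem isOpenEmbedding_oc : IsOpenEmbedding oc := by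
  have h : IsEmbedding oc := by
    refine IsEmbedding.of_comp (g := ((↑) : Ic → ℝ)) ?_ continuous_subtype_val ?_
    · exact Continuous.subtype_mk continuous_subtype_val _
    · exact IsEmbedding.subtypeVal
  refine ⟨h, ?_⟩
  have : range oc = ((↑) : Ic → ℝ) ⁻¹' (Iio 1) := by
    ext t
    constructor
    · rintro ⟨s, rfl⟩
      exact s.2.2
    · intro ht
      exact ⟨⟨t, t.2.1, ht⟩, rfl⟩
  rw [this]
  exact isOpen_Iio.preimage continuous_subtype_val

theorem range_oc : range oc = ({one'} : Set Ic)ᶜ := by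
  ext t
  constructor
  · rintro ⟨s, rfl⟩ hs
    have : (oc s : ℝ) = 1 := by rw [mem_singleton_iff.1 hs]; rfl
    exact absurd this s.2.2.ne
  · intro ht
    refine ⟨⟨t, t.2.1, lt_of_le_of_ne t.2.2 fun h => ht ?_⟩, rfl⟩
    exact Subtype.ext h

/-- the end of the cone -/
def endC (U : Type u) (a : U) : U × Ic := (a, one')

theorem isClosedEmbedding_endC : IsClosedEmbedding (endC U) := by
  have h : IsEmbedding (endC U) := by
    refine IsEmbedding.of_comp (g := (Prod.fst : U × Ic → U)) ?_ continuous_fst ?_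
    · exact continuous_id.prodMk continuous_const
    · exact IsEmbedding.id
  refine ⟨h, ?_⟩
  have : range (endC U) = Prod.snd ⁻¹' ({one'} : Set Ic) := by
    ext ⟨a, t⟩
    constructor
    · rintro ⟨b, hb⟩
      exact (congrArg Prod.snd hb).symm
    · intro ht
      exact ⟨a, Prod.ext rfl (mem_singleton_iff.1 ht).symm⟩
  rw [this]
  exact isClosed_singleton.preimage continuous_snd

/-- `U × {1} ⊂ U × Ic` with complement `U × Io` -/
def decC (U : Type u) [TopologicalSpace U] [T2Space U] [LocallyCompactSpace U] :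
    Dec U (U × Ic) (U × Io) where
  i := endC U
  hi := isClosedEmbedding_endC
  j := Prod.map id oc
  hj := IsOpenEmbedding.id.prodMap isOpenEmbedding_oc
  compl := by
    ext ⟨a, t⟩
    constructor
    · rintro ⟨⟨b, s⟩, hb⟩ ⟨c, hc⟩
      have h1 : oc s = t := congrArg Prod.snd hb
      have h2 : one' = t := congrArg Prod.snd hc
      have h3 : oc s ∈ ({one'} : Set Ic)ᶜ := by rw [← range_oc]; exact mem_range_self s
      exact h3 (mem_singleton_iff.2 (h1.trans h2.symm))
    · intro h
      have : t ∈ range oc := by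
        rw [range_oc]
        intro ht
        exact h ⟨a, Prod.ext rfl (mem_singleton_iff.1 ht).symm⟩
      obtain ⟨s, rfl⟩ := this
      exact ⟨(a, s), rfl⟩

/-- the cone mapped to the mapping cone -/
noncomputable def cmap (f : PMap U V) : PMap (U × Ic) (MC f) where
  toFun z := z.elim ∞ fun p => MC.q f p.1 p.2
  cont := by
    refine continuous_of_sm ?_
    have : (fun p : OnePoint U × OnePoint Ic => (sm p.1 p.2).elim ∞ fun p : U × Ic =>
        MC.q f p.1 p.2) = fun p => MC.q f p.1 (valC p.2) := by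
      funext p
      obtain ⟨a, b⟩ := p
      induction a using OnePoint.rec with
      | infty => simp
      | coe a =>
        induction b using OnePoint.rec with
        | infty => simp
        | coe b => rfl
    rw [this]
    exact (MC.continuous_q f).comp
      (continuous_fst.prodMk (Exc503.continuous_valC.comp continuous_snd))
  map_inf := rfl

@[simp] theorem cmap_coe (f : PMap U V) (p : U × Ic) : cmap f p = MC.q f p.1 p.2 := rfl

theorem cmap_closed (f : PMap U V) :
    (cmap f).comp (PMap.ofClosed (decC U).i (decC U).hi) =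
      (PMap.ofClosed (decMC f).i (decMC f).hi).comp f := by
  rw [ofClosed_decMC]
  refine PMap.ext fun a => ?_
  change MC.q f (a : OnePoint U) ((one' : Ic) : ℝ) = MC.i f (f a)
  exact MC.q_one f a

theorem cmap_open (f : PMap U V) :
    (PMap.ofOpen (decMC f).j (decMC f).hj).comp (cmap f) =
      (PMap.id (U × Io)).comp (PMap.ofOpen (decC U).j (decC U).hj) := by
  rw [ofOpen_decMC, PMap.id_comp]
  refine PMap.ext fun p => ?_
  obtain ⟨a, t⟩ := p
  change MC.p f (MC.q f a (t : ℝ)) = PMap.collapse (decC U).j (decC U).hj ((a, t) : U × Ic)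
  rw [MC.p_q]
  by_cases ht : (t : ℝ) < 1
  · have e : ((a, t) : U × Ic) = (decC U).j (a, ⟨t, t.2.1, ht⟩) := rfl
    rw [e, PMap.collapse_coe, qI_of_mem ⟨t.2.1, ht⟩, sm_coe]
  · rw [qI_of_ge (not_lt.1 ht), sm_inf_right, PMap.collapse_of_notMem]
    rintro ⟨⟨b, s⟩, hb⟩
    have h1 : oc s = t := congrArg Prod.snd hb
    apply ht
    rw [← h1]
    exact s.2.2

theorem smash_closed (f : PMap U V) :
    (f.smash (PMap.id Ic)).comp (PMap.ofClosed (decC U).i (decC U).hi) =
      (PMap.ofClosed (decC V).i (decC V).hi).comp f := by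
  refine PMap.ext fun a => ?_
  change sm (f a) ((one' : Ic) : OnePoint Ic) = PMap.ofClosed (decC V).i (decC V).hi (f a)
  generalize f a = b
  induction b using OnePoint.rec with
  | infty => rfl
  | coe b => rfl

theorem smash_open (f : PMap U V) :
    (PMap.ofOpen (decC V).j (decC V).hj).comp (f.smash (PMap.id Ic)) =
      (f.smash (PMap.id Io)).comp (PMap.ofOpen (decC U).j (decC U).hj) := by
  refine PMap.ext fun p => ?_
  obtain ⟨a, t⟩ := p
  change PMap.ofOpen (decC V).j (decC V).hj (sm (f a) (t : OnePoint Ic)) =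
    (f.smash (PMap.id Io)) (PMap.ofOpen (decC U).j (decC U).hj ((a, t) : U × Ic))
  by_cases ht : (t : ℝ) < 1
  · have e : ((a, t) : U × Ic) = (decC U).j (a, ⟨t, t.2.1, ht⟩) := rfl
    rw [e, PMap.ofOpen_coe]
    change _ = sm (f a) (((⟨t, t.2.1, ht⟩ : Io)) : OnePoint Io)
    generalize f a = b
    induction b using OnePoint.rec with
    | infty => rw [sm_inf_left, sm_inf_left, PMap.map_inf]
    | coe b =>
      have e' : ((b, t) : V × Ic) = (decC V).j (b, ⟨t, t.2.1, ht⟩) := rfl
      rw [sm_coe, sm_coe, e', PMap.ofOpen_coe]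
  · have hn : ∀ (W : Type u) [TopologicalSpace W] [T2Space W] [LocallyCompactSpace W] (b : W),
        ((b, t) : W × Ic) ∉ range (decC W).j := by
      rintro W _ _ _ b ⟨⟨c, s⟩, hb⟩
      have h1 : oc s = t := congrArg Prod.snd hb
      apply ht
      rw [← h1]
      exact s.2.2
    rw [PMap.ofOpen_of_notMem _ _ (hn U a), PMap.map_inf]
    generalize f a = b
    induction b using OnePoint.rec with
    | infty => rw [sm_inf_left, PMap.map_inf]
    | coe b =>
      rw [sm_coe, PMap.ofOpen_of_notMem _ _ (hn V b)]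

end geometry

/-! ## exactness -/

section coh

variable {F : Type w} [Field F] (H : Coh.{u, v, w} F)

/-- homotopy invariance -/
def HInv : Prop := ∀ {U V : Type u} [TopologicalSpace U] [TopologicalSpace V] [T2Space U]
    [LocallyCompactSpace U] [T2Space V] [LocallyCompactSpace V] {f g : PMap U V},
    f.Homotopic g → ∀ x, H.map f x = H.map g x

variable {H}

variable {U V : Type u} [TopologicalSpace U] [T2Space U] [LocallyCompactSpace U]
variable [TopologicalSpace V] [T2Space V] [LocallyCompactSpace V]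

theorem eq_zero_of_null (hH : HInv H) (hU : (PMap.id U).Null) (x : H.h U) : x = 0 := by
  have := hH hU x
  rwa [H.map_id, H.map_zero'] at this

section dec

variable {K O : Type u} [TopologicalSpace K] [TopologicalSpace O]

/-- the collapse of a contractible closed subspace is an isomorphism -/
theorem bijective_ofOpen (hH : HInv H) [T2Space K] [LocallyCompactSpace K] (D : Dec K U O)
    (hK : (PMap.id K).Null) : Function.Bijective (H.map (PMap.ofOpen D.j D.hj)) := by
  refine ⟨?_, ?_⟩
  · rw [injective_iff_map_eq_zero]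
    intro x hx
    obtain ⟨y, rfl⟩ := (H.exactO D x).1 hx
    rw [eq_zero_of_null hH hK y, map_zero]
  · intro x
    exact (H.exactU D x).1 (eq_zero_of_null hH hK _)

/-- the connecting map of a contractible space is an isomorphism -/
theorem bijective_del (hH : HInv H) (D : Dec K U O) (hU : (PMap.id U).Null) :
    Function.Bijective (H.del D) := by
  refine ⟨?_, ?_⟩
  · rw [injective_iff_map_eq_zero]
    intro x hx
    obtain ⟨y, rfl⟩ := (H.exactK D x).1 hx
    rw [eq_zero_of_null hH hU y, map_zero]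
  · intro x
    exact (H.exactO D x).1 (eq_zero_of_null hH hU _)

end dec

/-- the suspension isomorphism -/
theorem bijective_sus (hH : HInv H) (U : Type u) [TopologicalSpace U] [T2Space U]
    [LocallyCompactSpace U] : Function.Bijective (H.del (decC U)) :=
  bijective_del hH (decC U) (Exc503.null_cone U)

theorem del_decMC (f : PMap U V) (x : H.h V) :
    H.del (decMC f) x = H.del (decC U) (H.map f x) := by
  rw [← H.del_nat (decC U) (decMC f) f (cmap f) (PMap.id _) (cmap_closed f) (cmap_open f) x,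
    H.map_id]

theorem sus_nat (f : PMap U V) (x : H.h V) :
    H.map (f.smash (PMap.id Io)) (H.del (decC V) x) = H.del (decC U) (H.map f x) :=
  H.del_nat (decC U) (decC V) f (f.smash (PMap.id Ic)) (f.smash (PMap.id Io)) (smash_closed f)
    (smash_open f) x

theorem exact_i (hH : HInv H) (f : PMap U V) : Function.Exact (H.map (MC.i f)) (H.map f) := by
  intro x
  rw [← ofClosed_decMC f, ← H.exactK (decMC f) x, del_decMC]
  constructor
  · intro h; rw [h, map_zero]
  · intro h
    exact (bijective_sus hH U).injective (h.trans (map_zero _).symm)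

theorem exact_p (f : PMap U V) : Function.Exact (H.map (MC.p f)) (H.map (MC.i f)) := by
  rw [← ofClosed_decMC f, ← ofOpen_decMC f]
  exact H.exactU (decMC f)

theorem exact_s (hH : HInv H) (f : PMap U V) :
    Function.Exact (H.map (f.smash (PMap.id Io))) (H.map (MC.p f)) := by
  intro x
  rw [← ofOpen_decMC f, H.exactO (decMC f) x]
  constructor
  · rintro ⟨y, rfl⟩
    exact ⟨H.del (decC V) y, by rw [sus_nat, del_decMC]⟩
  · rintro ⟨z, rfl⟩
    obtain ⟨y, rfl⟩ := (bijective_sus hH V).surjective z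
    exact ⟨y, by rw [sus_nat, del_decMC]⟩

end coh

/-! ## the instance -/

section inst

variable {F : Type w} [Field F]

/-- **a homotopy invariant `Coh` is a `CoT`** -/
noncomputable def coT (H : Coh.{0, 0, w} F) (hH : HInv H) : CoT where
  H X _ _ _ := H.h X
  map f := (H.map f).toAddMonoidHom
  map_id X _ _ _ y := H.map_id X y
  map_comp g f y := H.map_comp g f y
  map_homotopic h := by
    ext y
    exact hH h y
  ex_i f := exact_i hH f
  ex_p f := exact_p f
  ex_s f := exact_s hH f
  col {F U O} _ _ _ _ _ _ _ _ _ i e h := by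
    have := bijective_ofOpen hH
      (⟨h.ic, h.isClosedEmbedding_ic, h.ec, h.cone.oe, h.range_ec⟩ : Dec (F × Ic) (MC h.incl) O)
      (Exc503.null_cone F)
    exact this

@[simp] theorem coT_map (H : Coh.{0, 0, w} F) (hH : HInv H) {X Y : Type} [TopologicalSpace X]
    [T2Space X] [LocallyCompactSpace X] [TopologicalSpace Y] [T2Space Y] [LocallyCompactSpace Y]
    (f : PMap X Y) (y : H.h Y) : (coT H hH).map f y = H.map f y := rfl


theorem bijective_map (H : Coh.{0, 0, w} F) (hH : HInv H) {𝓕 : Set CoT} (hT : coT H hH ∈ 𝓕)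
    {X Y : Type} [TopologicalSpace X] [T2Space X] [LocallyCompactSpace X] [TopologicalSpace Y]
    [T2Space Y] [LocallyCompactSpace Y] {ρ : PMap X Y} (hρ : EIso 𝓕 ρ) :
    Function.Bijective (H.map ρ) := by
  have h1 := (coT H hH).bij_homeo (Homeomorph.prodUnique X Unit)
  have h2 := (coT H hH).bij_homeo (Homeomorph.prodUnique Y Unit)
  have h3 : (PMap.ofHomeo (Homeomorph.prodUnique Y Unit)).comp (ρ.smash (PMap.id Unit)) =
      ρ.comp (PMap.ofHomeo (Homeomorph.prodUnique X Unit)) := by
    refine PMap.ext fun p => ?_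
    obtain ⟨x, t⟩ := p
    change (PMap.ofHomeo (Homeomorph.prodUnique Y Unit)) (sm (ρ x) (t : OnePoint Unit)) = ρ x
    generalize ρ x = y
    induction y using OnePoint.rec with
    | infty => rfl
    | coe y => rfl
  have h4 : Function.Bijective ((coT H hH).map
      ((PMap.ofHomeo (Homeomorph.prodUnique Y Unit)).comp (ρ.smash (PMap.id Unit)))) :=
    (coT H hH).bij_comp h2 (hρ _ hT Unit)
  rw [h3] at h4
  exact (coT H hH).bij_of_comp_left h1 h4

end inst

/-! ## for helper285's `CohX` -/

section cohX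

open Crest.Agent.R090.HSt285

variable {F : Type} [Field F] (H : CohX F)

theorem hinv : HInv H.toCoh := fun h x => H.hmap h x

/-- `CoT` of a `CohX` -/
noncomputable def cohT : CoT := coT H.toCoh (hinv H)

end cohX

end Crest.Agent.R090.AsCoT967
end

-- ▼ part R090/Good_812

/-!
# Row 90, block (A): the class `Good` (helper812)

`Good H U` : `U⁺` embeds in a euclidean space (`Inj`), `U` has a sphere-built model (`HasModel`) for
all theories `St (-) (Fin m → ℝ)` and the cohomology `H`, and `U` is a finite dimensional Künneth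
space (`CC`).

* `goodCls X : AClass923.Cls (fun U _ _ _ => Good H U)` : homeo, empty, cell, prod, total, opn;
* `good_QU` : `Good U → Good (QU q U)`; `good_pi`, `good_cpow`;
* `good_of_hasCells`, `good_pow_hasCells` : `HasCells V D → Good ((κ → V) × (Fin k → ℂ))`.
-/

set_option autoImplicit false
set_option linter.unusedSectionVars false

open Topology Filter Set

namespace Crest.Agent.R090.Good812

open OnePoint Crest.Agent.R090.Sp962 Crest.Agent.R090.Inj812 Crest.Agent.R090.FM554
open Crest.Agent.R090.HSt285 Crest.Agent.R090.Kun493 Crest.Agent.R090.AClass923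
open Crest.Agent.R090.AsCoT967

variable {F : Type} [Field F]

/-- all theories `St (-) (Fin m → ℝ)` together with `H` -/
noncomputable def FF (H : CohX F) : Set CoT := insert (cohT H) (Set.range cotSt)

theorem cohT_mem (H : CohX F) : cohT H ∈ FF H := mem_insert _ _

theorem cotSt_mem (H : CohX F) (m : ℕ) : cotSt m ∈ FF H := mem_insert_of_mem _ ⟨m, rfl⟩

theorem tgt (H : CohX F) : TgtHyp (FF H) := tgtHyp_insert _

/-- **the class of good spaces** -/
structure Good (H : CohX F) (U : Type) [TopologicalSpace U] [T2Space U] [LocallyCompactSpace U] :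
    Prop where
  inj : Inj U
  model : HasModel (FF H) U
  cc : CC H U

variable {H : CohX F}

theorem Good.ku {U : Type} [TopologicalSpace U] [T2Space U] [LocallyCompactSpace U]
    (h : Good H U) : KU H U := h.cc.ku

theorem Good.fin {U : Type} [TopologicalSpace U] [T2Space U] [LocallyCompactSpace U]
    (h : Good H U) : H.Fin U := h.cc.fin

/-- **closure properties** -/
theorem goodCls (X : KX H) : Cls (fun U _ _ _ => Good H U) where
  homeo e hU := ⟨hU.inj.homeo e.symm, hU.model.homeo e, (cls_CC X).homeo e hU.cc⟩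
  empty U _ _ _ hU := ⟨InjCells758.inj_empty U,
    HasModel.homeo Homeomorph.empty (HasModel.of_SB SB.empty), (cls_CC X).empty U hU⟩
  cell n := ⟨Inj.fd _, HasModel.of_SB (SB.sphere n), (cls_CC X).cell n⟩
  prod hU hV := ⟨hU.inj.prod hV.inj, hU.model.prod hV.model, hU.cc.prod hV.cc⟩
  total hoc hF hO := ⟨InjCells758.total _ hoc.closed _ hoc.opn hoc.compl hF.inj hO.inj,
    HasModel.ext (tgt H) ⟨hoc.closed, hoc.opn, hoc.compl⟩ hF.model hO.model,
    (cls_CC X).total hoc hF.cc hO.cc⟩
  opn hoc hF hU := ⟨hU.inj.open_emb _ hoc.opn,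
    HasModel.open (tgt H) ⟨hoc.closed, hoc.opn, hoc.compl⟩ hF.model hU.model,
    (cls_CC X).opn hoc hF.cc hU.cc⟩

section closure

variable {U V : Type} [TopologicalSpace U] [T2Space U] [LocallyCompactSpace U]
  [TopologicalSpace V] [T2Space V] [LocallyCompactSpace V]

theorem Good.homeo (X : KX H) (e : U ≃ₜ V) (h : Good H U) : Good H V := (goodCls X).homeo e h

theorem Good.prod (X : KX H) (h : Good H U) (h' : Good H V) : Good H (U × V) :=
  (goodCls X).prod h h'

theorem Good.of_isEmpty (X : KX H) [hU : IsEmpty U] : Good H U := (goodCls X).empty U hU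

theorem good_real (X : KX H) (n : ℕ) : Good H (Fin n → ℝ) := (goodCls X).cell n


theorem good_complex (X : KX H) : Good H ℂ :=
  (good_real X 2).homeo X ((Homeomorph.finTwoArrow (X := ℝ)).trans
    Complex.equivRealProdCLM.toHomeomorph.symm)


theorem good_pi (X : KX H) {ι : Type} [Finite ι] (h : Good H U) : Good H (ι → U) :=
  (goodCls X).pi h

theorem good_cpow (X : KX H) (n : ℕ) : Good H (Fin n → ℂ) := good_pi X (good_complex X)


/-- **the reduced power** -/
theorem good_QU (X : KX H) (q : ℕ) [NeZero q] (h : Good H U) : Good H (QU389.QU q U) := by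
  have hoc : OC (QU389.QU.diag q U) (QU389.QU.inc q U) :=
    ⟨QU389.QU.isClosedEmbedding_diag, QU389.QU.isOpenEmbedding_inc, QU389.QU.range_inc⟩
  exact (goodCls X).offDiag h hoc

end closure

/-! ### spaces with finitely many cells -/

theorem good_of_hasCells (X : KX H) {V : Type} [i : TopologicalSpace V] {D : ℕ}
    (h : F0_933.HasCells V D) : ∀ [T2Space V] [LocallyCompactSpace V], Good H V := by
  induction h with
  | empty V => intro _ _; exact Good.of_isEmpty X
  | cell V m e => intro _ _; exact (good_cpow X m).homeo X e.symm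
  | glue V A hA a b ha hb iha ihb =>
    intro _ _
    have : LocallyCompactSpace A := hA.isClosedEmbedding_subtypeVal.locallyCompactSpace
    have : LocallyCompactSpace (Aᶜ : Set V) :=
      hA.isOpen_compl.isOpenEmbedding_subtypeVal.locallyCompactSpace
    exact (goodCls X).total (OC.of_isClosed hA) iha ihb

/-- **input of START** -/
theorem good_pow_hasCells (X : KX H) {V : Type} [TopologicalSpace V] [T2Space V]
    [LocallyCompactSpace V] {D : ℕ} (h : F0_933.HasCells V D) (κ : Type) [Finite κ] (n : ℕ) :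
    Good H ((κ → V) × (Fin n → ℂ)) :=
  (good_pi X (good_of_hasCells X h)).prod X (good_cpow X n)

end Crest.Agent.R090.Good812
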