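import Crest.Agent.R090.Ho_962

/-!
# Row 90, T1: linear isomorphisms of complex vector spaces are homotopic (owner helper202)
-/

set_option autoImplicit false

open Topology Filter Set

namespace Crest.Agent.R090.Lin202

open OnePoint Crest.Agent.R090.Sp962
open scoped unitInterval

universe u v w

/-! ## homotopies from proper families -/

section proper

variable {U : Type u} {V : Type v} [TopologicalSpace U] [TopologicalSpace V]

/-- extension of a family of proper maps to the one point compactifications -/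
def extFam (F : I × U → V) (p : I × OnePoint U) : OnePoint V :=
  p.2.elim ∞ fun x => (F (p.1, x) : OnePoint V)

omit [TopologicalSpace U] [TopologicalSpace V] in
@[simp] theorem extFam_inf (F : I × U → V) (t : I) : extFam F (t, ∞) = ∞ := rfl

omit [TopologicalSpace U] [TopologicalSpace V] in
@[simp] theorem extFam_coe (F : I × U → V) (t : I) (x : U) :
    extFam F (t, (x : OnePoint U)) = F (t, x) := rfl

theorem continuous_extFam [T2Space U] (F : I × U → V) (hF : Continuous F)
    (hp : ∀ K : Set V, IsCompact K → IsClosed K → IsCompact (F ⁻¹' K)) :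
    Continuous (extFam F) := by
  rw [continuous_iff_continuousAt]
  rintro ⟨t, x⟩
  induction x using OnePoint.rec with
  | infty =>
    rw [ContinuousAt, extFam_inf, hasBasis_nhds_infty.tendsto_right_iff]
    rintro K ⟨hK', hK⟩
    have h1 : IsCompact (Prod.snd '' (F ⁻¹' K)) := (hp K hK hK').image continuous_snd
    have h2 : IsOpen ((↑) '' (Prod.snd '' (F ⁻¹' K)) : Set (OnePoint U))ᶜ :=
      isOpen_compl_image_coe.2 ⟨h1.isClosed, h1⟩
    have h3 : ((t, (∞ : OnePoint U)) : I × OnePoint U).2 ∈
        ((↑) '' (Prod.snd '' (F ⁻¹' K)) : Set (OnePoint U))ᶜ := infty_notMem_image_coe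
    filter_upwards [(h2.preimage continuous_snd).mem_nhds h3] with q hq
    obtain ⟨s, y⟩ := q
    induction y using OnePoint.rec with
    | infty => simp
    | coe y =>
      left
      refine ⟨F (s, y), ?_, rfl⟩
      intro hy
      exact hq ⟨y, ⟨(s, y), hy, rfl⟩, rfl⟩
  | coe x =>
    have he : IsOpenEmbedding (Prod.map (id : I → I) ((↑) : U → OnePoint U)) :=
      IsOpenEmbedding.id.prodMap isOpenEmbedding_coe
    have : ContinuousAt (extFam F ∘ Prod.map (id : I → I) ((↑) : U → OnePoint U)) (t, x) := by
      have e : extFam F ∘ Prod.map (id : I → I) ((↑) : U → OnePoint U) =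
          fun p => ((F p : V) : OnePoint V) := rfl
      rw [e]
      exact (continuous_coe.comp hF).continuousAt
    exact he.continuousAt_iff.1 this

/-- a proper family gives a pointed homotopy -/
theorem homotopic_of_family [T2Space U] {f g : PMap U V} (F : I × U → V) (hF : Continuous F)
    (hp : ∀ K : Set V, IsCompact K → IsClosed K → IsCompact (F ⁻¹' K))
    (h0 : ∀ x : U, f x = F (0, x)) (h1 : ∀ x : U, g x = F (1, x)) : f.Homotopic g :=
  PMap.Homotopic.of (extFam F) (continuous_extFam F hF hp) (fun x => (h0 x).symm)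
    (fun x => (h1 x).symm) fun _ => rfl

end proper

/-! ## families of injective linear maps -/

section linear

variable {E : Type*} {F : Type*} [NormedAddCommGroup E] [NormedSpace ℝ E]
  [FiniteDimensional ℝ E] [NormedAddCommGroup F] [NormedSpace ℝ F]

theorem exists_lower_bound (L : I → E →ₗ[ℝ] F) (hL : Continuous fun p : I × E => L p.1 p.2)
    (hi : ∀ t, Function.Injective (L t)) : ∃ c : ℝ, 0 < c ∧ ∀ t x, c * ‖x‖ ≤ ‖L t x‖ := by
  have hc : IsCompact ((univ : Set I) ×ˢ Metric.sphere (0 : E) 1) :=
    isCompact_univ.prod (by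
      have : ProperSpace E := FiniteDimensional.proper ℝ E
      exact isCompact_sphere _ _)
  rcases (Metric.sphere (0 : E) 1).eq_empty_or_nonempty with he | hne
  · refine ⟨1, one_pos, fun t x => ?_⟩
    have hx : x = 0 := by
      by_contra hx
      have : (‖x‖⁻¹ • x) ∈ Metric.sphere (0 : E) 1 := by
        rw [mem_sphere_zero_iff_norm, norm_smul, norm_inv, norm_norm,
          inv_mul_cancel₀ (norm_ne_zero_iff.2 hx)]
      rw [he] at this
      exact this
    rw [hx]; simp
  · obtain ⟨y, hy⟩ := hne
    obtain ⟨⟨t0, x0⟩, hx0, hmin⟩ := hc.exists_isMinOn ⟨(0, y), mem_univ _, hy⟩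
      (hL.norm.continuousOn)
    refine ⟨‖L t0 x0‖, ?_, fun t x => ?_⟩
    · rw [norm_pos_iff]
      intro h
      have : x0 = 0 := hi t0 (by rw [h, map_zero])
      have h2 := hx0.2
      rw [this] at h2
      simp at h2
    · rcases eq_or_ne x 0 with rfl | hx
      · simp
      · have h1 : (t, ‖x‖⁻¹ • x) ∈ (univ : Set I) ×ˢ Metric.sphere (0 : E) 1 := by
          refine ⟨mem_univ _, ?_⟩
          rw [mem_sphere_zero_iff_norm, norm_smul, norm_inv, norm_norm,
            inv_mul_cancel₀ (norm_ne_zero_iff.2 hx)]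
        have h2 := hmin h1
        simp only [mem_ofPred_eq, LinearMap.map_smul, norm_smul, norm_inv, norm_norm] at h2
        have h3 : 0 < ‖x‖ := norm_pos_iff.2 hx
        calc ‖L t0 x0‖ * ‖x‖ ≤ (‖x‖⁻¹ * ‖L t x‖) * ‖x‖ := by gcongr
          _ = ‖L t x‖ := by field_simp

theorem isCompact_preimage_family (L : I → E →ₗ[ℝ] F)
    (hL : Continuous fun p : I × E => L p.1 p.2) (hi : ∀ t, Function.Injective (L t))
    {K : Set F} (hK : IsCompact K) :
    IsCompact ((fun p : I × E => L p.1 p.2) ⁻¹' K) := by
  obtain ⟨c, hc, h⟩ := exists_lower_bound L hL hi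
  obtain ⟨R, hR⟩ := hK.isBounded.exists_norm_le
  have : ProperSpace E := FiniteDimensional.proper ℝ E
  refine IsCompact.of_isClosed_subset (isCompact_univ.prod (isCompact_closedBall (0 : E) (R / c)))
    (hK.isClosed.preimage hL) ?_
  rintro ⟨t, x⟩ hx
  refine ⟨mem_univ _, ?_⟩
  rw [mem_closedBall_zero_iff, le_div_iff₀ hc]
  have := hR _ hx
  have h2 := h t x
  simp only at this
  linarith

/-- a continuous family of injective linear maps gives a homotopy of one point
compactifications -/
theorem homotopic_of_linear_family {f g : PMap E F} (L : I → E →ₗ[ℝ] F)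
    (hL : Continuous fun p : I × E => L p.1 p.2) (hi : ∀ t, Function.Injective (L t))
    (h0 : ∀ x : E, f x = L 0 x) (h1 : ∀ x : E, g x = L 1 x) : f.Homotopic g :=
  homotopic_of_family (fun p : I × E => L p.1 p.2) hL
    (fun _ hK _ => isCompact_preimage_family L hL hi hK) h0 h1

end linear

/-! ## complex linear isomorphisms -/

section cplx

variable {E : Type*} {F : Type*} [NormedAddCommGroup E] [NormedSpace ℂ E]
  [FiniteDimensional ℂ E] [NormedAddCommGroup F] [NormedSpace ℂ F]

theorem exists_path_injective (A : E →ₗ[ℂ] E) (hA : Function.Injective A) :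
    ∃ γ : Path (0 : ℂ) 1, ∀ t : I, Function.Injective
      ((LinearMap.id + γ t • (A - LinearMap.id) : E →ₗ[ℂ] E) : E → E) := by
  set B : Module.End ℂ E := A - LinearMap.id with hB
  set Z : Set ℂ := (fun μ : ℂ => -μ⁻¹) '' (spectrum ℂ B) with hZ
  have hZc : Z.Countable := ((Module.End.finite_spectrum B).image _).countable
  -- bad parameters lie in `Z`
  have hbad : ∀ z : ℂ, z ∉ Z ∨ z = 0 ∨ z = 1 → Function.Injective
      ((LinearMap.id + z • B : E →ₗ[ℂ] E) : E → E) := by
    rintro z hz
    rw [← LinearMap.ker_eq_bot, LinearMap.ker_eq_bot']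
    intro x hx
    by_contra hx0
    have hx' : x + z • B x = 0 := hx
    rcases hz with hz | rfl | rfl
    · have hz0 : z ≠ 0 := by
        rintro rfl
        rw [zero_smul, add_zero] at hx'
        exact hx0 hx'
      apply hz
      refine ⟨-z⁻¹, ?_, by simp⟩
      have : Module.End.HasEigenvalue B (-z⁻¹) := by
        refine Module.End.hasEigenvalue_of_hasEigenvector (x := x) ⟨?_, hx0⟩
        rw [Module.End.mem_eigenspace_iff]
        have h3 : z • B x = -x := by
          rw [eq_neg_iff_add_eq_zero, add_comm]; exact hx'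
        calc B x = z⁻¹ • (z • B x) := by rw [smul_smul, inv_mul_cancel₀ hz0, one_smul]
          _ = -z⁻¹ • x := by rw [h3, smul_neg, neg_smul]
      exact this.mem_spectrum
    · simp at hx'
      exact hx0 hx'
    · apply hx0
      apply hA
      have : A x = 0 := by
        simpa [hB] using hx'
      rw [this, map_zero]
  have hZ' : (Z \ {0, 1}).Countable := hZc.mono sdiff_subset
  have hconn := hZ'.isPathConnected_compl_of_one_lt_rank (E := ℂ) (by
    rw [Complex.rank_real_complex]; exact_mod_cast Nat.one_lt_two)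
  obtain ⟨γ, hγ⟩ := hconn.joinedIn 0 (by simp) 1 (by simp)
  refine ⟨γ, fun t => hbad _ ?_⟩
  have := hγ t
  simp only [mem_compl_iff, Set.mem_sdiff, mem_insert_iff, mem_singleton_iff, not_and, not_not] at this
  by_cases h : γ t ∈ Z
  · exact Or.inr (this h)
  · exact Or.inl h

theorem homotopic_id (A : E ≃L[ℂ] E) :
    (PMap.ofHomeo A.toHomeomorph).Homotopic (PMap.id E) := by
  obtain ⟨γ, hγ⟩ := exists_path_injective (A : E →ₗ[ℂ] E) A.injective
  symm
  refine homotopic_of_linear_family
    (fun t => ((LinearMap.id : E →ₗ[ℂ] E) + γ t • ((A : E →ₗ[ℂ] E) -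
      LinearMap.id)).restrictScalars ℝ) ?_ (fun t => hγ t) ?_ ?_
  · have h1 : Continuous fun p : I × E => p.2 + γ p.1 • (A p.2 - p.2) := by
      have := A.continuous
      fun_prop
    exact h1
  · intro x; simp
  · intro x
    simp [PMap.ofHomeo_coe]

theorem homotopic_of_linear (A B : E ≃L[ℂ] F) :
    (PMap.ofHomeo A.toHomeomorph).Homotopic (PMap.ofHomeo B.toHomeomorph) := by
  have h := homotopic_id (A.trans B.symm)
  have h2 := PMap.Homotopic.comp_left (PMap.ofHomeo B.toHomeomorph) h
  refine PMap.Homotopic.trans (.of_eq ?_) (h2.trans (.of_eq ?_))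
  · refine PMap.ext fun x => ?_
    simp [PMap.ofHomeo_coe]
  · rfl


/-- `1_U × A ~ 1_U × B` -/
theorem homotopic_smash_left {U : Type*} [TopologicalSpace U] [T2Space U]
    [LocallyCompactSpace U] [FiniteDimensional ℂ F] (A B : E ≃L[ℂ] F) :
    (PMap.ofHomeo ((Homeomorph.refl U).prodCongr A.toHomeomorph)).Homotopic
      (PMap.ofHomeo ((Homeomorph.refl U).prodCongr B.toHomeomorph)) := by
  rw [← PMap.smash_ofHomeo, ← PMap.smash_ofHomeo]
  exact PMap.Homotopic.smash (.refl _) (homotopic_of_linear A B)


/-- the swap of two complex vector spaces of the same type -/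
theorem homotopic_swap' (E : Type*) [NormedAddCommGroup E] [NormedSpace ℂ E]
    [FiniteDimensional ℂ E] :
    (PMap.ofHomeo (Homeomorph.prodComm E E)).Homotopic (PMap.id (E × E)) :=
  homotopic_id (ContinuousLinearEquiv.prodComm ℂ E E)


end cplx

end Crest.Agent.R090.Lin202
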