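import Crest.Agent.R090.Sm_202
import Crest.Agent.R090.SpineDefs_796
import Crest.Agent.R090.Susp_528

-- ▼ part R090/SmX_669
section

/-!
# Row 90: two more rules for `St.smR` (owner helper669)

* `interchange_map`, `interchange_ofP` : `(a ∧ 1) ∘ (1 ∧ k) = (1 ∧ k) ∘ (a ∧ 1)` for an unstable `k`;
* `smR_smR` : associativity.
-/

set_option autoImplicit false
set_option linter.unusedSectionVars false

open Topology Filter Set

noncomputable section

namespace Crest.Agent.R090.SmX669

open OnePoint Crest.Agent.R090.Sp962 Crest.Agent.R090.Grp528 Crest.Agent.R090.St528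
  Crest.Agent.R090.Sm202

universe u v w x

variable {X : Type u} {Y : Type v} {W : Type w} {W' : Type x}
variable [TopologicalSpace X] [TopologicalSpace Y] [TopologicalSpace W] [TopologicalSpace W']
variable [T2Space X] [T2Space Y] [T2Space W] [T2Space W']
variable [LocallyCompactSpace X] [LocallyCompactSpace Y] [LocallyCompactSpace W]
variable [LocallyCompactSpace W']

theorem interchange_map (a : St X Y) (k : HC W W') :
    (a.smR W').comp (St.map ((h1 X).smash k)) = (St.map ((h1 Y).smash k)).comp (a.smR W) := by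
  obtain ⟨n, -, a, rfl⟩ := a.exists_of_ge 0
  rw [smR_of, smR_of, St.map_eq_of _ n, St.map_eq_of _ n, St.of_comp_of, St.of_comp_of,
    ← conj_swR (h1 X) (h1 (Fin n → ℂ)) k, ← conj_swR (h1 Y) (h1 (Fin n → ℂ)) k, levR, levR,
    conj_comp_conj, conj_comp_conj, h1_smash_h1, h1_smash_h1, HC.smash_comp, HC.smash_comp,
    comp_h1, h1_comp, comp_h1, h1_comp]

theorem interchange_ofP (a : St X Y) (k : PMap W W') :
    (a.smR W').comp (St.ofP ((PMap.id X).smash k)) =
      (St.ofP ((PMap.id Y).smash k)).comp (a.smR W) := interchange_map a (HC.mk k)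

theorem smR_smR (a : St X Y) (W : Type w) [TopologicalSpace W] [T2Space W]
    [LocallyCompactSpace W] (W' : Type x) [TopologicalSpace W'] [T2Space W']
    [LocallyCompactSpace W'] :
    (sh (Homeomorph.prodAssoc Y W W')).comp ((a.smR W).smR W') =
      (a.smR (W × W')).comp (sh (Homeomorph.prodAssoc X W W')) := by
  obtain ⟨n, -, a, rfl⟩ := a.exists_of_ge 0
  have key : levR (W × W') a = (levR W' (levR W a)).conj
      ((Homeomorph.prodAssoc X W W').prodCongr (Homeomorph.refl (Fin n → ℂ)))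
      ((Homeomorph.prodAssoc Y W W').prodCongr (Homeomorph.refl (Fin n → ℂ))) := by
    rw [levR, levR, levR, conj_smash_h1, conj_conj, conj_conj, ← h1_smash_h1, ← conj_asC,
      conj_conj]
    exact conj_ext (fun _ => rfl) (fun _ => rfl) _
  rw [smR_of, smR_of, smR_of, sh_eq, sh_eq, St.map_eq_of _ n, St.map_eq_of _ n, St.of_comp_of,
    St.of_comp_of, hh_smash_h1, hh_smash_h1, key, hh_comp_eq_conj]

end Crest.Agent.R090.SmX669
end
end

-- ▼ part R090/IdS_669
section

/-!
# Row 90, A-IDEAL: the ideal of stable maps killed on the density pairs (owner helper669)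

Everything is in source form: only maps into the spheres `Fin N → ℝ` are tested, so that
exactness holds for every closed pair.

* `Kill n k g` : working form (`g` on the left factor) of `SNull (n • tens (ofP k) g)`,
  see `sNull_iff_kill`;
* `ExPair i c`, `EInj r` : exactness / injectivity for all sphere targets and all parameters;
* `ExPair.kill` : the two step rule;
* `IdQ.*` : the laws of the ideal `Spine.IdQ`.
-/

set_option autoImplicit false
set_option linter.unusedSectionVars false

open Topology Filter Set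

noncomputable section

namespace Crest.Agent.R090.IdS669

open OnePoint Crest.Agent.R090.Sp962 Crest.Agent.R090.St528 Crest.Agent.R090.Dens255
  Crest.Agent.R090.Sm202 Crest.Agent.R090.SmX669 Crest.Agent.R090.Spine

/-! ## formal lemmas on `St` -/

section formal

universe u v w x

variable {X : Type u} {Y : Type v} {Z : Type w} {T : Type x}
variable [TopologicalSpace X] [TopologicalSpace Y] [TopologicalSpace Z] [TopologicalSpace T]
variable [T2Space X] [T2Space Y] [T2Space Z] [T2Space T]
variable [LocallyCompactSpace X] [LocallyCompactSpace Y] [LocallyCompactSpace Z]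
  [LocallyCompactSpace T]



theorem comp_sh_eq_zero {e : X ≃ₜ Y} {a : St Y Z} : a.comp (sh e) = 0 ↔ a = 0 := by
  constructor
  · intro h
    have := congrArg (fun z => St.comp z (sh e.symm)) h
    simpa only [St.comp_assoc, sh_comp_symm, St.comp_id, St.zero_comp] using this
  · rintro rfl
    exact St.zero_comp _


end formal


/-! ## `SNull` and `Kill` -/

section defs

variable {X X' X'' : Type} [TopologicalSpace X] [TopologicalSpace X'] [TopologicalSpace X'']
variable [T2Space X] [T2Space X'] [T2Space X'']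
variable [LocallyCompactSpace X] [LocallyCompactSpace X'] [LocallyCompactSpace X'']
variable {P P' P'' : Type} [TopologicalSpace P] [TopologicalSpace P'] [TopologicalSpace P'']
variable [T2Space P] [T2Space P'] [T2Space P'']
variable [LocallyCompactSpace P] [LocallyCompactSpace P'] [LocallyCompactSpace P'']

/-- `1_X ∧ (k ∧ 1_Y)` as a stable map -/
def io (X : Type) [TopologicalSpace X] [T2Space X] [LocallyCompactSpace X] (k : PMap P P')
    (Y : Type) [TopologicalSpace Y] [T2Space Y] [LocallyCompactSpace Y] :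
    St (X × (P × Y)) (X × (P' × Y)) :=
  St.ofP ((PMap.id X).smash (k.smash (PMap.id Y)))

/-- `n • (k ∧ g)` is killed by every map into a sphere (`g` written on the left factor) -/
def Kill (n : ℕ) (k : PMap P P') (g : St X X') : Prop :=
  ∀ (Y : Type) [TopologicalSpace Y] [T2Space Y] [LocallyCompactSpace Y] (N : ℕ)
    (y : St (X' × (P' × Y)) (Fin N → ℝ)), n • ((y.comp (St.smR (P' × Y) g)).comp (io X k Y)) = 0

variable {Y : Type} [TopologicalSpace Y] [T2Space Y] [LocallyCompactSpace Y]

theorem io_natural (g : St X X') (k : PMap P P') :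
    (St.smR (P' × Y) g).comp (io X k Y) = (io X' k Y).comp (St.smR (P × Y) g) := by
  exact interchange_ofP g (k.smash (PMap.id Y))

theorem io_comp (k' : PMap P' P'') (k : PMap P P') :
    io X (k'.comp k) Y = (io X k' Y).comp (io X k Y) := by
  rw [io, io, io, ← St.ofP_comp, PMap.smash_comp, PMap.smash_comp]
  rfl


/-! ### `SNull` -/


theorem _root_.Crest.Agent.R090.Spine.SNull.add {h h' : St X X'} (H : SNull h) (H' : SNull h') : SNull (h + h') :=
  fun Y _ _ _ N y => by rw [smR_add, St.comp_add, H Y N y, H' Y N y, add_zero]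

theorem _root_.Crest.Agent.R090.Spine.SNull.neg {h : St X X'} (H : SNull h) : SNull (-h) :=
  fun Y _ _ _ N y => by rw [smR_neg, St.comp_neg, H Y N y, neg_zero]


theorem _root_.Crest.Agent.R090.Spine.SNull.comp_left {h : St X X'} (H : SNull h) (f : St X' X'') : SNull (f.comp h) :=
  fun Y _ _ _ N y => by rw [smR_comp, ← St.comp_assoc, H Y N (y.comp (St.smR Y f))]

theorem _root_.Crest.Agent.R090.Spine.SNull.comp_right {h : St X' X''} (H : SNull h) (f : St X X') : SNull (h.comp f) :=
  fun Y _ _ _ N y => by rw [smR_comp, ← St.comp_assoc, H Y N y, St.zero_comp]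


/-! ### `Kill` -/

namespace Kill

variable {n m : ℕ} {k : PMap P P'} {g g' : St X X'}

theorem zero (n : ℕ) (k : PMap P P') : Kill n k (0 : St X X') := fun Y _ _ _ N y => by
  rw [smR_zero, St.comp_zero, St.zero_comp, nsmul_zero]

theorem mul_left (h : Kill n k g) (m : ℕ) : Kill (m * n) k g := fun Y _ _ _ N y => by
  rw [mul_smul, h Y N y, nsmul_zero]

theorem mul_right (h : Kill n k g) (m : ℕ) : Kill (n * m) k g := by
  rw [mul_comm]; exact h.mul_left m

theorem add (h : Kill n k g) (h' : Kill n k g') : Kill n k (g + g') := fun Y _ _ _ N y => by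
  rw [smR_add, St.comp_add, St.add_comp, smul_add, h Y N y, h' Y N y, add_zero]

theorem neg (h : Kill n k g) : Kill n k (-g) := fun Y _ _ _ N y => by
  rw [smR_neg, St.comp_neg, St.neg_comp, smul_neg, h Y N y, neg_zero]



theorem comp_left (h : Kill n k g) (f : St X' X'') : Kill n k (f.comp g) := fun Y _ _ _ N y => by
  rw [smR_comp, ← St.comp_assoc, h Y N (y.comp (St.smR (P' × Y) f))]

theorem comp_right {g : St X' X''} (h : Kill n k g) (f : St X X') : Kill n k (g.comp f) :=
  fun Y _ _ _ N y => by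
  rw [smR_comp, ← St.comp_assoc, St.comp_assoc _ (St.smR (P' × Y) f), io_natural,
    ← St.comp_assoc, ← St.nsmul_comp, h Y N y, St.zero_comp]

/-- precomposition in the density coordinate -/
theorem comp_ι {k' : PMap P' P''} (h : Kill n k' g) (k : PMap P P') : Kill n (k'.comp k) g :=
  fun Y _ _ _ N y => by
  rw [io_comp, ← St.comp_assoc, ← St.nsmul_comp, h Y N y, St.zero_comp]


theorem congr {k' : PMap P P'} (h : Kill n k g) (hk : k.Homotopic k') : Kill n k' g :=
  fun Y _ _ _ N y => by
  have h1 : io X k' Y = io X k Y :=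
    St.ofP_congr ((PMap.Homotopic.refl _).smash (hk.symm.smash (PMap.Homotopic.refl _)))
  rw [h1]; exact h Y N y

end Kill

/-- `T × (P × Y) ≃ P × (T × Y)` -/
def sw3 (T P Y : Type) [TopologicalSpace T] [TopologicalSpace P] [TopologicalSpace Y] :
    T × (P × Y) ≃ₜ P × (T × Y) where
  toFun a := (a.2.1, (a.1, a.2.2))
  invFun a := (a.2.1, (a.1, a.2.2))
  left_inv _ := rfl
  right_inv _ := rfl
  continuous_toFun := by fun_prop
  continuous_invFun := by fun_prop

theorem smR_homeo {W W' : Type} [TopologicalSpace W] [TopologicalSpace W'] [T2Space W]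
    [T2Space W'] [LocallyCompactSpace W] [LocallyCompactSpace W'] (e : W ≃ₜ W') (a : St X X') :
    (St.smR W' a).comp (sh ((Homeomorph.refl X).prodCongr e)) =
      (sh ((Homeomorph.refl X').prodCongr e)).comp (St.smR W a) := by
  exact interchange_ofP a (PMap.ofHomeo e)

/-- `smR (P × Y) (smR T g)` is conjugate to `smR (P × (T × Y)) g` -/
theorem smR_smR_conj (T : Type) [TopologicalSpace T] [T2Space T] [LocallyCompactSpace T]
    (g : St X X') :
    St.smR (P × Y) (St.smR T g) =
      (sh (((Homeomorph.prodAssoc X' T (P × Y)).trans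
        ((Homeomorph.refl X').prodCongr (sw3 T P Y))).symm)).comp
        ((St.smR (P × (T × Y)) g).comp (sh ((Homeomorph.prodAssoc X T (P × Y)).trans
        ((Homeomorph.refl X).prodCongr (sw3 T P Y))))) := by
  have h1 := smR_smR g T (P × Y)
  have h2 := smR_homeo (sw3 T P Y) g
  rw [sh_trans, ← St.comp_assoc (St.smR _ g), h2, St.comp_assoc (sh _) (St.smR _ g), ← h1,
    ← St.comp_assoc (sh _) (sh _) (St.smR _ _), ← sh_trans, ← St.comp_assoc,
    sh_symm_comp, St.id_comp]

variable {n : ℕ} {k : PMap P P'} {g : St X X'}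

theorem Kill.smR (T : Type) [TopologicalSpace T] [T2Space T] [LocallyCompactSpace T]
    (h : Kill n k g) : Kill n k (St.smR T g) := fun Y _ _ _ N y => by
  rw [smR_smR_conj, ← St.comp_assoc, ← St.comp_assoc]
  have e : (sh ((Homeomorph.prodAssoc X T (P' × Y)).trans
        ((Homeomorph.refl X).prodCongr (sw3 T P' Y)))).comp (io (X × T) k Y) =
      (io X k (T × Y)).comp (sh ((Homeomorph.prodAssoc X T (P × Y)).trans
        ((Homeomorph.refl X).prodCongr (sw3 T P Y)))) := by
    rw [sh, io, io, sh, ← St.ofP_comp, ← St.ofP_comp]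
    congr 1
    refine PMap.ext fun x => ?_
    obtain ⟨⟨x, t⟩, ⟨p, y⟩⟩ := x
    simp only [PMap.comp_apply, PMap.smash_coe, PMap.id_apply, PMap.ofHomeo_coe]
    change _ = ((PMap.id X).smash (k.smash (PMap.id (T × Y))))
      (((x, (p, (t, y))) : X × (P × (T × Y))) : OnePoint _)
    simp only [PMap.smash_coe, PMap.id_apply]
    generalize k (p : OnePoint P) = q
    induction q using OnePoint.rec with
    | infty => simp [PMap.map_inf]
    | coe q => rfl
  rw [St.comp_assoc _ (sh _) (io _ _ _), e, ← St.comp_assoc _ (io _ _ _), ← St.nsmul_comp,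
    h (T × Y) N _, St.zero_comp]

theorem Kill.smL (T : Type) [TopologicalSpace T] [T2Space T] [LocallyCompactSpace T]
    (h : Kill n k g) : Kill n k (St.smL T g) := by
  rw [smL_eq_smR]
  exact ((h.smR T).comp_right _).comp_left _


/-! ### `Kill` and `SNull` -/

/-- `(P × X) × Y ≃ X × (P × Y)` -/
def sw4 (P X Y : Type) [TopologicalSpace P] [TopologicalSpace X] [TopologicalSpace Y] :
    (P × X) × Y ≃ₜ X × (P × Y) where
  toFun a := (a.1.2, (a.1.1, a.2))
  invFun a := ((a.2.1, a.1), a.2.2)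
  left_inv _ := rfl
  right_inv _ := rfl
  continuous_toFun := by fun_prop
  continuous_invFun := by fun_prop

theorem smR_smL_conj (g : St X X') :
    (sh (sw4 P X' Y)).comp (St.smR Y (St.smL P g)) =
      (St.smR (P × Y) g).comp (sh (sw4 P X Y)) := by
  have h1 : (sh ((Homeomorph.prodComm P X').prodCongr (Homeomorph.refl Y))).comp
      (St.smR Y (St.smL P g)) = (St.smR Y (St.smR P g)).comp
        (sh ((Homeomorph.prodComm P X).prodCongr (Homeomorph.refl Y))) := by
    rw [← smR_sh, ← smR_sh, ← smR_comp, ← smR_comp, smR_eq_smL g, St.comp_assoc, St.comp_assoc]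
    congr 1
    rw [← sh_trans]
    change (sh (Homeomorph.prodComm P X')).comp _ = (sh (Homeomorph.prodComm P X')).comp _
    congr 1
    rw [show ((Homeomorph.prodComm P X).trans (Homeomorph.prodComm X P)) = Homeomorph.refl _ from
      Homeomorph.ext fun _ => rfl, sh_refl, St.comp_id]
  have h2 := smR_smR g P Y
  have e1 : sw4 P X' Y = ((Homeomorph.prodComm P X').prodCongr (Homeomorph.refl Y)).trans
      (Homeomorph.prodAssoc X' P Y) := Homeomorph.ext fun _ => rfl
  have e2 : sw4 P X Y = ((Homeomorph.prodComm P X).prodCongr (Homeomorph.refl Y)).trans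
      (Homeomorph.prodAssoc X P Y) := Homeomorph.ext fun _ => rfl
  rw [e1, sh_trans, St.comp_assoc, h1, ← St.comp_assoc, h2, St.comp_assoc, ← sh_trans, ← e2]

theorem tens_ofP (k : PMap P P') (g : St X X') :
    tens (St.ofP k) g = (St.ofP (k.smash (PMap.id X'))).comp (St.smL P g) := by
  change (St.smR X' (St.ofP k)).comp (St.smL P g) = _
  rw [smR_ofP]

theorem smR_tens (k : PMap P P') (g : St X X') :
    (sh (sw4 P' X' Y)).comp (St.smR Y (tens (St.ofP k) g)) =
      ((io X' k Y).comp (St.smR (P × Y) g)).comp (sh (sw4 P X Y)) := by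
  have h1 : (sh (sw4 P' X' Y)).comp (St.smR Y (St.ofP (k.smash (PMap.id X')))) =
      (io X' k Y).comp (sh (sw4 P X' Y)) := by
    rw [smR_ofP, sh, io, sh, ← St.ofP_comp, ← St.ofP_comp]
    congr 1
    refine PMap.ext fun x => ?_
    obtain ⟨⟨p, x⟩, y⟩ := x
    simp only [PMap.comp_apply, PMap.smash_coe, PMap.id_apply, PMap.ofHomeo_coe]
    change _ = ((PMap.id X').smash (k.smash (PMap.id Y)))
      (((x, (p, y)) : X' × (P × Y)) : OnePoint _)
    simp only [PMap.smash_coe, PMap.id_apply]
    generalize k (p : OnePoint P) = q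
    induction q using OnePoint.rec with
    | infty => simp [PMap.map_inf]
    | coe q => rfl
  rw [tens_ofP, smR_comp, ← St.comp_assoc, h1, St.comp_assoc, smR_smL_conj, St.comp_assoc]

/-- `SNull (n • (k ∧ g))` is `Kill n k g` -/
theorem sNull_iff_kill : SNull (n • tens (St.ofP k) g) ↔ Kill n k g := by
  constructor
  · intro h Y _ _ _ N y
    have h1 := h Y N (y.comp (sh (sw4 P' X' Y)))
    rw [smR_nsmul, St.comp_nsmul, St.comp_assoc, smR_tens, ← St.comp_assoc, ← St.nsmul_comp,
      comp_sh_eq_zero, ← io_natural, ← St.comp_assoc] at h1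
    exact h1
  · intro h Y _ _ _ N y
    have h1 := h Y N (y.comp (sh (sw4 P' X' Y).symm))
    have h2 : y = (y.comp (sh (sw4 P' X' Y).symm)).comp (sh (sw4 P' X' Y)) := by
      rw [St.comp_assoc, sh_symm_comp, St.comp_id]
    rw [h2, smR_nsmul, St.comp_nsmul, St.comp_assoc, smR_tens, ← io_natural, ← St.comp_assoc,
      ← St.comp_assoc, ← St.nsmul_comp, h1, St.zero_comp]

/-! ### exact pairs, injective maps -/

/-- exactness of `St (Z × B) E → St (X × B) E → St (A × B) E` for all `B` and all spheres `E` -/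
def ExPair (i : St P X) (c : St X P') : Prop :=
  ∀ (B : Type) [TopologicalSpace B] [T2Space B] [LocallyCompactSpace B] (N : ℕ)
    (y : St (X × B) (Fin N → ℝ)), y.comp (St.smR B i) = 0 →
      ∃ z : St (P' × B) (Fin N → ℝ), y = z.comp (St.smR B c)

/-- injectivity of `r^*` on all `St (M × B) E` -/
def EInj (r : St X X') : Prop :=
  ∀ (B : Type) [TopologicalSpace B] [T2Space B] [LocallyCompactSpace B] (N : ℕ)
    (y : St (X' × B) (Fin N → ℝ)), y.comp (St.smR B r) = 0 → y = 0

theorem EInj.comp {r : St X X'} {r' : St X' X''} (h : EInj r) (h' : EInj r') :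
    EInj (r'.comp r) := fun B _ _ _ N y hy => by
  rw [smR_comp, ← St.comp_assoc] at hy
  exact h' B N y (h B N _ hy)

theorem EInj.of_leftInv {r : St X X'} {r' : St X' X} (h : r.comp r' = St.id X') : EInj r :=
  fun B _ _ _ N y hy => by
  have h1 := congrArg (fun z => St.comp z (St.smR B r')) hy
  simp only [St.zero_comp] at h1
  rwa [St.comp_assoc, ← smR_comp, h, smR_id, St.comp_id] at h1

theorem EInj.sh (e : X ≃ₜ X') : EInj (sh e) := .of_leftInv (sh_comp_symm e)

theorem EInj.kill_iff {r : St X'' X} (h : EInj r) : Kill n k (g.comp r) ↔ Kill n k g := by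
  refine ⟨fun H Y _ _ _ N y => ?_, fun H => H.comp_right r⟩
  refine h (P × Y) N _ ?_
  have h1 := H Y N y
  rwa [smR_comp, ← St.comp_assoc, St.comp_assoc _ (St.smR _ r), io_natural, ← St.comp_assoc,
    ← St.nsmul_comp] at h1

/-- **the two step rule** -/
theorem ExPair.kill {A O : Type} [TopologicalSpace A] [TopologicalSpace O] [T2Space A]
    [T2Space O] [LocallyCompactSpace A] [LocallyCompactSpace O] {i : St A X} {c : St X O}
    (hex : ExPair i c) {f : St X X'} {h : St X'' X} {n m : ℕ} {k' : PMap P' P''} {k : PMap P P'}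
    (hf : Kill n k' (f.comp i)) (hh : Kill m k (c.comp h)) :
    Kill (m * n) (k'.comp k) (f.comp h) := fun Y _ _ _ N y => by
  obtain ⟨z, hz⟩ := hex (P' × Y) N (n • ((y.comp (St.smR (P'' × Y) f)).comp (io X k' Y))) (by
    rw [St.nsmul_comp, St.comp_assoc, ← io_natural, ← St.comp_assoc, St.comp_assoc y,
      ← smR_comp]
    exact hf Y N y)
  have h1 : (y.comp (St.smR (P'' × Y) (f.comp h))).comp (io X'' (k'.comp k) Y) =
      (((y.comp (St.smR (P'' × Y) f)).comp (io X k' Y)).comp
        (St.smR (P' × Y) h)).comp (io X'' k Y) := by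
    rw [io_comp, smR_comp]
    simp only [St.comp_assoc]
    congr 2
    rw [← St.comp_assoc, io_natural, St.comp_assoc]
  rw [h1, mul_smul, ← St.nsmul_comp n, ← St.nsmul_comp n, hz, St.comp_assoc z, ← smR_comp]
  exact hh Y N z

end defs

end Crest.Agent.R090.IdS669
end
end

-- ▼ part R090/IdQ_669

/-!
# Row 90, A-IDEAL: the laws of the ideal `Spine.IdQ` (owner helper669)
-/

set_option autoImplicit false
set_option linter.unusedSectionVars false

open Topology Filter Set

noncomputable section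

namespace Crest.Agent.R090.IdS669

open OnePoint Crest.Agent.R090.Sp962 Crest.Agent.R090.St528 Crest.Agent.R090.Dens255
  Crest.Agent.R090.Sm202 Crest.Agent.R090.SmX669 Crest.Agent.R090.Spine

section iota

variable {M : Type} [TopologicalSpace M] [T2Space M] [LocallyCompactSpace M]

/-- `P_{K,s'} → P_{K,s}` for `s ≤ s'` -/
def iotaS (Z : Set M) [hZ : Fact (IsClosed Z)] (K : ℕ) {s s' : ℕ} (h : s ≤ s') :
    PMap (PP Z (Fin K) s') (PP Z (Fin K) s) :=
  inclS (isClosed_PP hZ.out s') (PP_antitone Z h)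

theorem iotaS_comp (Z : Set M) [hZ : Fact (IsClosed Z)] (K : ℕ) {s s' s'' : ℕ} (h : s ≤ s')
    (h' : s' ≤ s'') : (iotaS Z K h).comp (iotaS Z K h') = iotaS Z K (h.trans h') :=
  PMap.ext fun _ => rfl


end iota

variable {M : Type} [TopologicalSpace M] [T2Space M] [LocallyCompactSpace M]
variable {q : ℕ} {Z : Set M} [hZ : Fact (IsClosed Z)]
variable {X X' X'' : Type} [TopologicalSpace X] [TopologicalSpace X'] [TopologicalSpace X'']
variable [T2Space X] [T2Space X'] [T2Space X'']
variable [LocallyCompactSpace X] [LocallyCompactSpace X'] [LocallyCompactSpace X'']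

/-- the working form of `IdQ` -/
theorem idQ_iff {g : St X X'} : IdQ q Z g ↔ ∃ l : ℕ, ∀ (K s s' : ℕ) (h : s + l ≤ s'),
    ∃ n : ℕ, ¬ q ∣ n ∧ Kill n (iotaS Z K ((Nat.le_add_right s l).trans h)) g := by
  constructor
  · rintro ⟨l, hl⟩
    refine ⟨l, fun K s s' h => ?_⟩
    obtain ⟨n, hn, H⟩ := hl K s
    refine ⟨n, hn, ?_⟩
    rw [← iotaS_comp Z K (Nat.le_add_right s l) h]
    exact (sNull_iff_kill.1 H).comp_ι _
  · rintro ⟨l, hl⟩
    refine ⟨l, fun K s => ?_⟩
    obtain ⟨n, hn, H⟩ := hl K s (s + l) le_rfl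
    exact ⟨n, hn, sNull_iff_kill.2 H⟩

theorem _root_.Crest.Agent.R090.Spine.IdQ.zero (hq : q ≠ 1) : IdQ q Z (0 : St X X') :=
  idQ_iff.2 ⟨0, fun _ _ _ _ => ⟨1, fun h => hq (Nat.dvd_one.1 h), Kill.zero _ _⟩⟩

theorem _root_.Crest.Agent.R090.Spine.IdQ.comp_left {g : St X X'} (h : IdQ q Z g)
    (f : St X' X'') : IdQ q Z (f.comp g) := by
  obtain ⟨l, hl⟩ := idQ_iff.1 h
  refine idQ_iff.2 ⟨l, fun K s s' h => ?_⟩
  obtain ⟨n, hn, H⟩ := hl K s s' h
  exact ⟨n, hn, H.comp_left f⟩

theorem _root_.Crest.Agent.R090.Spine.IdQ.comp_right {g : St X' X''} (h : IdQ q Z g)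
    (f : St X X') : IdQ q Z (g.comp f) := by
  obtain ⟨l, hl⟩ := idQ_iff.1 h
  refine idQ_iff.2 ⟨l, fun K s s' h => ?_⟩
  obtain ⟨n, hn, H⟩ := hl K s s' h
  exact ⟨n, hn, H.comp_right f⟩

theorem _root_.Crest.Agent.R090.Spine.IdQ.neg {g : St X X'} (h : IdQ q Z g) : IdQ q Z (-g) := by
  obtain ⟨l, hl⟩ := idQ_iff.1 h
  refine idQ_iff.2 ⟨l, fun K s s' h => ?_⟩
  obtain ⟨n, hn, H⟩ := hl K s s' h
  exact ⟨n, hn, H.neg⟩



theorem _root_.Crest.Agent.R090.Spine.IdQ.add (hq : q.Prime) {g g' : St X X'} (h : IdQ q Z g)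
    (h' : IdQ q Z g') : IdQ q Z (g + g') := by
  obtain ⟨l, hl⟩ := idQ_iff.1 h
  obtain ⟨l', hl'⟩ := idQ_iff.1 h'
  refine idQ_iff.2 ⟨max l l', fun K s s' hs => ?_⟩
  obtain ⟨n, hn, H⟩ := hl K s s' (by omega)
  obtain ⟨m, hm, H'⟩ := hl' K s s' (by omega)
  exact ⟨n * m, fun hd => ((hq.dvd_mul.1 hd).elim hn hm), (H.mul_right m).add (H'.mul_left n)⟩

theorem _root_.Crest.Agent.R090.Spine.IdQ.sub (hq : q.Prime) {g g' : St X X'} (h : IdQ q Z g)
    (h' : IdQ q Z g') : IdQ q Z (g - g') := by
  rw [sub_eq_add_neg]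
  exact h.add hq h'.neg




theorem _root_.Crest.Agent.R090.Spine.IdQ.smR {g : St X X'} (h : IdQ q Z g) (T : Type)
    [TopologicalSpace T] [T2Space T] [LocallyCompactSpace T] : IdQ q Z (g.smR T) := by
  obtain ⟨l, hl⟩ := idQ_iff.1 h
  refine idQ_iff.2 ⟨l, fun K s s' h => ?_⟩
  obtain ⟨n, hn, H⟩ := hl K s s' h
  exact ⟨n, hn, H.smR T⟩




/-- precomposition with an `EInj` map can be cancelled -/
theorem _root_.Crest.Agent.R090.IdS669.EInj.idQ {r : St X X'} (hr : EInj r) {g : St X' X''}
    (h : IdQ q Z (g.comp r)) : IdQ q Z g := by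
  obtain ⟨l, hl⟩ := idQ_iff.1 h
  refine idQ_iff.2 ⟨l, fun K s s' h => ?_⟩
  obtain ⟨n, hn, H⟩ := hl K s s' h
  exact ⟨n, hn, hr.kill_iff.1 H⟩

/-- transfer along a model `r : X → M`: `φ~ ∘ r = r ∘ φ` -/
theorem _root_.Crest.Agent.R090.IdS669.EInj.idQ_transfer {r : St X X'} (hr : EInj r)
    {φ : St X X} {φ' : St X' X'} (hφ : φ'.comp r = r.comp φ) (h : IdQ q Z φ) : IdQ q Z φ' :=
  hr.idQ (hφ ▸ h.comp_left r)

/-- **the two step rule** -/
theorem _root_.Crest.Agent.R090.IdS669.ExPair.idQ (hq : q.Prime) {A O : Type}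
    [TopologicalSpace A] [TopologicalSpace O] [T2Space A] [T2Space O] [LocallyCompactSpace A]
    [LocallyCompactSpace O] {i : St A X} {c : St X O} (hex : ExPair i c) {f : St X X'}
    {h : St X'' X} (hf : IdQ q Z (f.comp i)) (hh : IdQ q Z (c.comp h)) :
    IdQ q Z (f.comp h) := by
  obtain ⟨l, hl⟩ := idQ_iff.1 hf
  obtain ⟨l', hl'⟩ := idQ_iff.1 hh
  refine idQ_iff.2 ⟨l + l', fun K s s' hs => ?_⟩
  obtain ⟨n, hn, H⟩ := hl K s (s + l) le_rfl
  obtain ⟨m, hm, H'⟩ := hl' K (s + l) s' (by omega)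
  refine ⟨m * n, fun hd => ((hq.dvd_mul.1 hd).elim hm hn), ?_⟩
  have := hex.kill H H'
  rwa [iotaS_comp] at this

/-- **closed rule** -/
theorem _root_.Crest.Agent.R090.IdS669.ExPair.idQ_sq (hq : q.Prime) {A O : Type}
    [TopologicalSpace A] [TopologicalSpace O] [T2Space A] [T2Space O] [LocallyCompactSpace A]
    [LocallyCompactSpace O] {i : St A X} {c : St X O} (hex : ExPair i c) {φA : St A A}
    {φ : St X X} {φO : St O O} (hi : φ.comp i = i.comp φA) (hc : c.comp φ = φO.comp c)
    (hA : IdQ q Z φA) (hO : IdQ q Z φO) : IdQ q Z (φ.comp φ) :=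
  hex.idQ hq (hi ▸ hA.comp_left i) (hc ▸ hO.comp_right c)

/-- **open rule**: from `A` and `X` to `O`; `MC` is the cone of `A → X`, `r : MC → O` -/
theorem _root_.Crest.Agent.R090.IdS669.ExPair.idQ_open (hq : q.Prime) {C A O : Type}
    [TopologicalSpace C] [TopologicalSpace A] [TopologicalSpace O] [T2Space C] [T2Space A]
    [T2Space O] [LocallyCompactSpace C] [LocallyCompactSpace A] [LocallyCompactSpace O]
    {j : St X C} {p : St C A} (hex : ExPair j p) {r : St C O} (hr : EInj r)
    {φ : St X X} {φC : St C C} {φA : St A A} {φO : St O O} {c : St X O}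
    (hj : r.comp j = c) (hc : φO.comp c = c.comp φ) (hrC : r.comp φC = φO.comp r)
    (hpC : p.comp φC = φA.comp p) (hA : IdQ q Z φA) (hX : IdQ q Z φ) :
    IdQ q Z (φO.comp φO) := by
  refine hr.idQ ?_
  rw [St.comp_assoc, ← hrC, ← St.comp_assoc]
  refine hex.idQ hq ?_ ?_
  · rw [St.comp_assoc, hj, hc]; exact hX.comp_left c
  · rw [hpC]; exact hA.comp_right p

/-! ### powers -/






theorem _root_.Crest.Agent.R090.Spine.IdQ.npow {a : St X X} (h : IdQ q Z a) {n : ℕ}
    (hn : 1 ≤ n) : IdQ q Z (npow a n) := by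
  obtain ⟨m, rfl⟩ := Nat.exists_eq_add_of_le' hn
  exact h.comp_left _





/-! ### extraction -/



end Crest.Agent.R090.IdS669
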