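import Crest.Agent.R090.HSt_285

/-!
# Row 90, block HOM: the Künneth class (owner helper493)

Over helper285's `H : CohX F` and the extra data `X : KX H` (connecting maps of products, the unit
class of the point):
* `crT H U V : h U ⊗ h V → h (U × V)`;
* `KU H U` : `crT H U V` is bijective for every locally compact Hausdorff `V : Type`;
* closure: homotopy retracts, homeomorphisms, null spaces, all three corners of a closed/open
  decomposition `Dec`, products, point, empty space, sums, intervals, `ℝ`, `ℂ`, powers;
* `CC H U := KU H U ∧ H.Fin U` with the same closures.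
-/

set_option autoImplicit false
set_option linter.unusedSectionVars false

namespace Crest.Agent.R090.Kun493

open Topology Set OnePoint TensorProduct Crest.Agent.R090.Sp962 Crest.Agent.R090.CohT253
open Crest.Agent.R090.HSt285

/-- product of a closed/open decomposition with a space -/
def decProd {K U O : Type} [TopologicalSpace K] [TopologicalSpace U] [TopologicalSpace O]
    (D : Dec K U O) (V : Type) [TopologicalSpace V] : Dec (K × V) (U × V) (O × V) where
  i := Prod.map D.i id
  hi := D.hi.prodMap IsClosedEmbedding.id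
  j := Prod.map D.j id
  hj := D.hj.prodMap IsOpenEmbedding.id
  compl := by
    ext ⟨u, v⟩
    have := Set.ext_iff.1 D.compl u
    simp only [mem_range, mem_compl_iff] at this
    constructor
    · rintro ⟨⟨o, v'⟩, h⟩ ⟨⟨k, v''⟩, h'⟩
      have h1 : D.j o = u := congrArg Prod.fst h
      have h2 : D.i k = u := congrArg Prod.fst h'
      exact this.1 ⟨o, h1⟩ ⟨k, h2⟩
    · intro h
      have h1 : ¬ ∃ k, D.i k = u := by
        rintro ⟨k, hk⟩
        exact h ⟨(k, v), by simp [hk]⟩
      obtain ⟨o, ho⟩ := this.2 h1
      exact ⟨(o, v), by simp [ho]⟩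

/-- what the Künneth theorem needs besides 285's `CohX`: compatibility of the cross product with
the connecting maps, and the unit class of the point -/
structure KX {F : Type} [Field F] (H : CohX F) where
  cr_del : ∀ {K U O : Type} [TopologicalSpace K] [T2Space K] [LocallyCompactSpace K]
    [TopologicalSpace U] [T2Space U] [LocallyCompactSpace U]
    [TopologicalSpace O] [T2Space O] [LocallyCompactSpace O] (D : Dec K U O)
    (V : Type) [TopologicalSpace V] [T2Space V] [LocallyCompactSpace V] (a : H.h K) (b : H.h V),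
    H.cr O V (H.del D a) b = H.del (decProd D V) (H.cr K V a b)
  /-- the unit class of the point -/
  one : H.h Unit
  eps_one : H.eps Unit one = one
  one_ne : one ≠ 0
  one_gen : ∀ x : H.h Unit, ∃ r : F, x = r • one
  one_cr : ∀ (V : Type) [TopologicalSpace V] [T2Space V] [LocallyCompactSpace V] (b : H.h V),
    H.map (PMap.ofHomeo (Homeomorph.punitProd V).symm) (H.cr Unit V one b) = b

variable {F : Type} [Field F] (H : CohX F)

variable {U V W U' V' K O : Type} [TopologicalSpace U] [T2Space U] [LocallyCompactSpace U]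
  [TopologicalSpace V] [T2Space V] [LocallyCompactSpace V]
  [TopologicalSpace W] [T2Space W] [LocallyCompactSpace W]
  [TopologicalSpace U'] [T2Space U'] [LocallyCompactSpace U']
  [TopologicalSpace V'] [T2Space V'] [LocallyCompactSpace V']
  [TopologicalSpace K] [T2Space K] [LocallyCompactSpace K]
  [TopologicalSpace O] [T2Space O] [LocallyCompactSpace O]

/-- the cross product as a map of the tensor product -/
noncomputable def crT (U V : Type) [TopologicalSpace U] [T2Space U] [LocallyCompactSpace U]
    [TopologicalSpace V] [T2Space V] [LocallyCompactSpace V] :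
    H.h U ⊗[F] H.h V →ₗ[F] H.h (U × V) := TensorProduct.lift (H.cr U V)

@[simp] theorem crT_tmul (a : H.h U) (b : H.h V) : crT H U V (a ⊗ₜ b) = H.cr U V a b := by
  simp [crT]

theorem crT_nat (f : PMap U U') (g : PMap V V') (t : H.h U' ⊗[F] H.h V') :
    H.map (f.smash g) (crT H U' V' t) = crT H U V (TensorProduct.map (H.map f) (H.map g) t) := by
  have : (H.map (f.smash g)) ∘ₗ (crT H U' V') =
      (crT H U V) ∘ₗ (TensorProduct.map (H.map f) (H.map g)) := by
    refine TensorProduct.ext' fun a b => ?_
    simp only [LinearMap.comp_apply, crT_tmul, TensorProduct.map_tmul]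
    exact H.cr_map f g a b
  exact LinearMap.congr_fun this t

/-- the Künneth class -/
def KU (U : Type) [TopologicalSpace U] [T2Space U] [LocallyCompactSpace U] : Prop :=
  ∀ (V : Type) [TopologicalSpace V] [T2Space V] [LocallyCompactSpace V],
    Function.Bijective (crT H U V)

/-! ### retracts -/

theorem map_comp_htp {f : PMap U V} {g : PMap V U} (h : (g.comp f).Homotopic (PMap.id U))
    (x : H.h U) : H.map f (H.map g x) = x := by
  rw [← H.map_comp, H.hmap h, H.map_id]

variable {H}

/-- a homotopy retract of a Künneth space is Künneth -/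
theorem KU.of_retract {f : PMap U V} {g : PMap V U} (h : (g.comp f).Homotopic (PMap.id U))
    (hV : KU H V) : KU H U := by
  intro W _ _ _
  have hh : ((g.smash (PMap.id W)).comp (f.smash (PMap.id W))).Homotopic (PMap.id (U × W)) := by
    rw [PMap.smash_comp]
    refine (h.smash (PMap.Homotopic.refl _)).trans (.of_eq ?_)
    exact PMap.smash_id
  have e1 : ∀ t, crT H U W (TensorProduct.map (H.map f) (H.map (PMap.id W)) t) =
      H.map (f.smash (PMap.id W)) (crT H V W t) := fun t => (crT_nat H f (PMap.id W) t).symm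
  have e2 : ∀ t, crT H V W (TensorProduct.map (H.map g) (H.map (PMap.id W)) t) =
      H.map (g.smash (PMap.id W)) (crT H U W t) := fun t => (crT_nat H g (PMap.id W) t).symm
  have e3 : ∀ t : H.h U ⊗[F] H.h W, TensorProduct.map (H.map f) (H.map (PMap.id W))
      (TensorProduct.map (H.map g) (H.map (PMap.id W)) t) = t := by
    intro t
    have : (TensorProduct.map (H.map f) (H.map (PMap.id W))) ∘ₗ
        (TensorProduct.map (H.map g) (H.map (PMap.id W))) = LinearMap.id := by
      refine TensorProduct.ext' fun a b => ?_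
      simp only [LinearMap.comp_apply, TensorProduct.map_tmul, LinearMap.id_apply]
      rw [map_comp_htp H h, H.map_id, H.map_id]
    exact LinearMap.congr_fun this t
  constructor
  · intro s t hst
    have h1 := congrArg (H.map (g.smash (PMap.id W))) hst
    rw [← e2, ← e2] at h1
    have h2 := (hV W).1 h1
    rw [← e3 s, h2, e3]
  · intro y
    obtain ⟨t, ht⟩ := (hV W).2 (H.map (g.smash (PMap.id W)) y)
    refine ⟨TensorProduct.map (H.map f) (H.map (PMap.id W)) t, ?_⟩
    rw [e1, ht]
    exact map_comp_htp H hh y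

theorem KU.of_homeo (e : U ≃ₜ V) (hV : KU H V) : KU H U :=
  KU.of_retract (f := PMap.ofHomeo e) (g := PMap.ofHomeo e.symm)
    (.of_eq (PMap.ofHomeo_symm_comp e)) hV

theorem fin_of_retract {f : PMap U V} {g : PMap V U} (h : (g.comp f).Homotopic (PMap.id U))
    (hV : H.Fin V) : H.Fin U := by
  have : FiniteDimensional F (H.h V) := hV
  exact Module.Finite.of_surjective (H.map f) (fun x => ⟨H.map g x, map_comp_htp H h x⟩)

/-! ### null spaces -/

theorem map_null {f : PMap U V} (hf : f.Null) (x : H.h V) : H.map f x = 0 := by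
  rw [H.hmap hf, H.map_zero']

theorem eq_zero_of_null (h : (PMap.id U).Null) (x : H.h U) : x = 0 := by
  rw [← H.map_id U x, map_null h]

theorem KU.of_null (h : (PMap.id U).Null) : KU H U := by
  intro V _ _ _
  have h1 : ∀ x : H.h U, x = 0 := eq_zero_of_null h
  have h2 : ∀ x : H.h (U × V), x = 0 := by
    refine eq_zero_of_null ?_
    have := h.smash_left (PMap.id V)
    rwa [PMap.smash_id] at this
  have h3 : ∀ t : H.h U ⊗[F] H.h V, t = 0 := by
    intro t
    induction t with
    | zero => rfl
    | tmul a b => rw [h1 a, TensorProduct.zero_tmul]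
    | add s t hs ht => rw [hs, ht, add_zero]
  exact ⟨fun s t _ => by rw [h3 s, h3 t], fun y => ⟨0, by rw [map_zero, h2 y]⟩⟩

theorem fin_of_null (h : (PMap.id U).Null) : H.Fin U := by
  have h1 : ∀ x : H.h U, x = 0 := eq_zero_of_null h
  have : Subsingleton (H.h U) := ⟨fun a b => by rw [h1 a, h1 b]⟩
  exact Module.Finite.of_surjective (0 : F →ₗ[F] H.h U) (fun x => ⟨0, Subsingleton.elim _ _⟩)

theorem null_of_isEmpty (U : Type) [TopologicalSpace U] [IsEmpty U] : (PMap.id U).Null :=
  .of_eq (PMap.ext fun x => isEmptyElim x)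

/-! ### two out of three -/

theorem exact_rT {A B C : Type} [AddCommGroup A] [Module F A] [AddCommGroup B] [Module F B]
    [AddCommGroup C] [Module F C] (M : Type) [AddCommGroup M] [Module F M]
    {f : A →ₗ[F] B} {g : B →ₗ[F] C} (h : Function.Exact f g) :
    Function.Exact (f.rTensor M) (g.rTensor M) :=
  Module.Flat.rTensor_exact M h

section dec

theorem smash_ofClosed (D : Dec K U O) (V : Type) [TopologicalSpace V] [T2Space V]
    [LocallyCompactSpace V] :
    (PMap.ofClosed D.i D.hi).smash (PMap.id V) =
      PMap.ofClosed (decProd D V).i (decProd D V).hi :=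
  PMap.ext fun _ => rfl

theorem smash_ofOpen (D : Dec K U O) (V : Type) [TopologicalSpace V] [T2Space V]
    [LocallyCompactSpace V] :
    (PMap.ofOpen D.j D.hj).smash (PMap.id V) =
      PMap.ofOpen (decProd D V).j (decProd D V).hj := by
  refine PMap.ext fun ⟨u, v⟩ => ?_
  by_cases hu : u ∈ range D.j
  · obtain ⟨o, rfl⟩ := hu
    have e1 : PMap.ofOpen (decProd D V).j (decProd D V).hj
        (((decProd D V).j (o, v) : U × V) : OnePoint (U × V)) = ((o, v) : O × V) :=
      PMap.ofOpen_coe _ _ (o, v)
    rw [PMap.smash_coe, PMap.ofOpen_coe]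
    exact e1.symm
  · rw [PMap.smash_coe, PMap.ofOpen_of_notMem _ _ hu, PMap.ofOpen_of_notMem]
    · rfl
    · rintro ⟨⟨o, v'⟩, h⟩
      exact hu ⟨o, congrArg Prod.fst h⟩

variable (H)

theorem comm_res (D : Dec K U O) (V : Type) [TopologicalSpace V] [T2Space V]
    [LocallyCompactSpace V] :
    (H.res (decProd D V)) ∘ₗ (crT H U V) = (crT H K V) ∘ₗ ((H.res D).rTensor (H.h V)) := by
  refine TensorProduct.ext' fun a b => ?_
  simp only [LinearMap.comp_apply, crT_tmul, LinearMap.rTensor_tmul]
  rw [Coh.res, ← smash_ofClosed, H.cr_map, H.map_id]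

theorem comm_ext (D : Dec K U O) (V : Type) [TopologicalSpace V] [T2Space V]
    [LocallyCompactSpace V] :
    (H.ext (decProd D V)) ∘ₗ (crT H O V) = (crT H U V) ∘ₗ ((H.ext D).rTensor (H.h V)) := by
  refine TensorProduct.ext' fun a b => ?_
  simp only [LinearMap.comp_apply, crT_tmul, LinearMap.rTensor_tmul]
  rw [Coh.ext, ← smash_ofOpen, H.cr_map, H.map_id]

variable {H} (X : KX H)
include X

theorem comm_del (D : Dec K U O) (V : Type) [TopologicalSpace V] [T2Space V]
    [LocallyCompactSpace V] :
    (H.del (decProd D V)) ∘ₗ (crT H K V) = (crT H O V) ∘ₗ ((H.del D).rTensor (H.h V)) := by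
  refine TensorProduct.ext' fun a b => ?_
  simp only [LinearMap.comp_apply, crT_tmul, LinearMap.rTensor_tmul]
  rw [X.cr_del]

/-- Künneth for the whole space -/
theorem KU.of_dec (D : Dec K U O) (hK : KU H K) (hO : KU H O) : KU H U := by
  intro V _ _ _
  exact LinearMap.bijective_of_surjective_of_bijective_of_bijective_of_injective
    ((H.del D).rTensor (H.h V)) ((H.ext D).rTensor (H.h V)) ((H.res D).rTensor (H.h V))
    ((H.del D).rTensor (H.h V))
    (H.del (decProd D V)) (H.ext (decProd D V)) (H.res (decProd D V)) (H.del (decProd D V))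
    (crT H K V) (crT H O V) (crT H U V) (crT H K V) (crT H O V)
    (comm_del X D V) (comm_ext H D V) (comm_res H D V) (comm_del X D V)
    (exact_rT _ (H.exactO D)) (exact_rT _ (H.exactU D)) (exact_rT _ (H.exactK D))
    (H.exactO _) (H.exactU _) (H.exactK _) (hK V).2 (hO V) (hK V) (hO V).1

/-- Künneth for the open part -/
theorem KU.open_of_dec (D : Dec K U O) (hK : KU H K) (hU : KU H U) : KU H O := by
  intro V _ _ _
  exact LinearMap.bijective_of_surjective_of_bijective_of_bijective_of_injective
    ((H.res D).rTensor (H.h V)) ((H.del D).rTensor (H.h V)) ((H.ext D).rTensor (H.h V))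
    ((H.res D).rTensor (H.h V))
    (H.res (decProd D V)) (H.del (decProd D V)) (H.ext (decProd D V)) (H.res (decProd D V))
    (crT H U V) (crT H K V) (crT H O V) (crT H U V) (crT H K V)
    (comm_res H D V) (comm_del X D V) (comm_ext H D V) (comm_res H D V)
    (exact_rT _ (H.exactK D)) (exact_rT _ (H.exactO D)) (exact_rT _ (H.exactU D))
    (H.exactK _) (H.exactO _) (H.exactU _) (hU V).2 (hK V) (hU V) (hK V).1


end dec

/-! ### products -/

section prod

theorem map_homeo_bijective (e : U ≃ₜ V) : Function.Bijective (H.map (PMap.ofHomeo e)) := by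
  constructor
  · intro x y hxy
    have := congrArg (H.map (PMap.ofHomeo e.symm)) hxy
    rwa [← H.map_comp, ← H.map_comp, PMap.ofHomeo_comp_symm, H.map_id, H.map_id] at this
  · intro x
    refine ⟨H.map (PMap.ofHomeo e.symm) x, ?_⟩
    rw [← H.map_comp, PMap.ofHomeo_symm_comp, H.map_id]

theorem crT_assoc (t : H.h U ⊗[F] H.h V ⊗[F] H.h W) :
    crT H (U × V) W ((crT H U V).rTensor (H.h W) t) =
      H.map (PMap.ofHomeo (Homeomorph.prodAssoc U V W)) (crT H U (V × W)
        ((crT H V W).lTensor (H.h U) (TensorProduct.assoc F _ _ _ t))) := by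
  have : (crT H (U × V) W) ∘ₗ ((crT H U V).rTensor (H.h W)) =
      (H.map (PMap.ofHomeo (Homeomorph.prodAssoc U V W))) ∘ₗ (crT H U (V × W)) ∘ₗ
        ((crT H V W).lTensor (H.h U)) ∘ₗ (TensorProduct.assoc F _ _ _).toLinearMap := by
    refine TensorProduct.ext_threefold fun a b c => ?_
    simp only [LinearMap.comp_apply, LinearMap.rTensor_tmul, crT_tmul,
      LinearEquiv.coe_coe, TensorProduct.assoc_tmul, LinearMap.lTensor_tmul]
    exact (H.cr_assoc a b c).symm
  exact LinearMap.congr_fun this t

theorem lTensor_bij {A B : Type} [AddCommGroup A] [Module F A] [AddCommGroup B] [Module F B]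
    (M : Type) [AddCommGroup M] [Module F M] {f : A →ₗ[F] B} (h : Function.Bijective f) :
    Function.Bijective (f.lTensor M) := by
  have e : f.lTensor M = (LinearEquiv.lTensor M (LinearEquiv.ofBijective f h)).toLinearMap :=
    TensorProduct.ext' fun _ _ => rfl
  rw [e]
  exact LinearEquiv.bijective _

theorem rTensor_bij {A B : Type} [AddCommGroup A] [Module F A] [AddCommGroup B] [Module F B]
    (M : Type) [AddCommGroup M] [Module F M] {f : A →ₗ[F] B} (h : Function.Bijective f) :
    Function.Bijective (f.rTensor M) := by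
  have e : f.rTensor M = (LinearEquiv.rTensor M (LinearEquiv.ofBijective f h)).toLinearMap :=
    TensorProduct.ext' fun _ _ => rfl
  rw [e]
  exact LinearEquiv.bijective _

theorem KU.prod (hU : KU H U) (hV : KU H V) : KU H (U × V) := by
  intro W _ _ _
  have h1 : Function.Bijective (fun t : H.h U ⊗[F] H.h V ⊗[F] H.h W =>
      crT H (U × V) W ((crT H U V).rTensor (H.h W) t)) := by
    simp only [crT_assoc]
    exact (map_homeo_bijective _).comp ((hU (V × W)).comp ((lTensor_bij _ (hV W)).comp
      (TensorProduct.assoc F _ _ _).bijective))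
  have h2 := rTensor_bij (H.h W) (hU V)
  constructor
  · intro s t hst
    obtain ⟨s, rfl⟩ := h2.2 s
    obtain ⟨t, rfl⟩ := h2.2 t
    rw [h1.1 hst]
  · intro y
    obtain ⟨t, ht⟩ := h1.2 y
    exact ⟨_, ht⟩

theorem fin_prod (hU : KU H U) (fU : H.Fin U) (fV : H.Fin V) : H.Fin (U × V) := by
  have : FiniteDimensional F (H.h U) := fU
  have : FiniteDimensional F (H.h V) := fV
  exact Module.Finite.of_surjective (crT H U V) (hU V).2

end prod

/-! ### the point -/

section point

variable (X : KX H)
include X

theorem tmul_one (V : Type) [TopologicalSpace V] (t : H.h Unit ⊗[F] H.h V) :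
    ∃ b, t = X.one ⊗ₜ b := by
  induction t with
  | zero => exact ⟨0, by rw [TensorProduct.tmul_zero]⟩
  | tmul a b =>
    obtain ⟨r, rfl⟩ := X.one_gen a
    exact ⟨r • b, by rw [TensorProduct.smul_tmul]⟩
  | add s t hs ht =>
    obtain ⟨b, rfl⟩ := hs
    obtain ⟨c, rfl⟩ := ht
    exact ⟨b + c, by rw [TensorProduct.tmul_add]⟩

theorem KU.unit : KU H Unit := by
  intro V _ _ _
  have e := map_homeo_bijective (H := H) (Homeomorph.punitProd V).symm
  constructor
  · refine (injective_iff_map_eq_zero _).2 fun t ht => ?_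
    obtain ⟨b, rfl⟩ := tmul_one X V t
    rw [crT_tmul] at ht
    have := X.one_cr V b
    rw [ht, map_zero] at this
    rw [← this, TensorProduct.tmul_zero]
  · intro y
    refine ⟨X.one ⊗ₜ H.map (PMap.ofHomeo (Homeomorph.punitProd V).symm) y, ?_⟩
    apply e.1
    rw [crT_tmul, X.one_cr]

theorem fin_unit : H.Fin Unit := by
  exact Module.Finite.of_surjective (LinearMap.toSpanSingleton F (H.h Unit) X.one) (fun x => by
    obtain ⟨r, rfl⟩ := X.one_gen x
    exact ⟨r, by simp⟩)

end point

end Crest.Agent.R090.Kun493
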