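import Crest.Agent.R090.Susp_528
import Crest.Agent.R090.Sm_202

-- ▼ part R090/Susp2_528
section

/-!
# Row 90, T1-ADD: smash with `ℂ` is the complex suspension isomorphism, levelwise
(owner helper528)
-/

set_option autoImplicit false
set_option linter.unusedSectionVars false
set_option linter.unusedVariables false

open Topology Filter Set

namespace Crest.Agent.R090.St528

open OnePoint Crest.Agent.R090.Sp962 Crest.Agent.R090.Grp528
open scoped unitInterval

universe u v w x

theorem hh_symm_congr' {U : Type u} {V : Type v} [TopologicalSpace U] [TopologicalSpace V]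
    {e e' : U ≃ₜ V} (h : hh e = hh e') : hh e.symm = hh e'.symm := by
  calc hh e.symm = (hh e.symm).comp ((hh e').comp (hh e'.symm)) := by
        rw [hh_comp_symm, comp_h1]
    _ = hh e'.symm := by rw [← h, hh_symm_comp_assoc]

/-- two `ℂ`-linear isomorphisms, with a parameter space on the left -/
theorem hh_linear_left (U : Type u) [TopologicalSpace U] [T2Space U] [LocallyCompactSpace U]
    {E : Type v} {F : Type w} [NormedAddCommGroup E] [NormedSpace ℂ E] [FiniteDimensional ℂ E]
    [NormedAddCommGroup F] [NormedSpace ℂ F] [FiniteDimensional ℂ F] (A B : E ≃L[ℂ] F) :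
    hh ((Homeomorph.refl U).prodCongr A.toHomeomorph) =
      hh ((Homeomorph.refl U).prodCongr B.toHomeomorph) :=
  HC.sound (Lin202.homotopic_smash_left A B)

/-- swap of `ℂ` and `ℂ^n` -/
noncomputable def linSw (n : ℕ) : (ℂ × (Fin n → ℂ)) ≃L[ℂ] ((Fin n → ℂ) × ℂ) :=
  ContinuousLinearEquiv.prodComm ℂ ℂ (Fin n → ℂ)

/-- `(c, (v, a)) ↦ ((c, v), a)` -/
noncomputable def linCy (n : ℕ) : (ℂ × (Fin (n + 1) → ℂ)) ≃L[ℂ] ((Fin (n + 1) → ℂ) × ℂ) :=
  LinearEquiv.toContinuousLinearEquiv
    { toFun := fun p => (Fin.cons (α := fun _ => ℂ) p.1 (fun i : Fin n => p.2 i.castSucc),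
        p.2 (Fin.last n))
      invFun := fun q => (q.1 0, Fin.snoc (α := fun _ => ℂ) (fun i : Fin n => q.1 i.succ) q.2)
      map_add' := fun p q => by
        refine Prod.ext (funext fun i => ?_) rfl
        refine Fin.cases ?_ (fun j => ?_) i <;> rfl
      map_smul' := fun c p => by
        refine Prod.ext (funext fun i => ?_) rfl
        refine Fin.cases ?_ (fun j => ?_) i <;> rfl
      left_inv := fun p => by
        refine Prod.ext rfl (funext fun i => ?_)
        refine Fin.lastCases ?_ (fun j => ?_) i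
        · simp
        · simp
      right_inv := fun q => by
        refine Prod.ext (funext fun i => ?_) ?_
        · refine Fin.cases ?_ (fun j => ?_) i
          · rfl
          · simp
        · simp }

variable {X : Type u} {Y : Type v} {Z : Type w}
variable [TopologicalSpace X] [TopologicalSpace Y] [TopologicalSpace Z]
variable [T2Space X] [LocallyCompactSpace X] [T2Space Y] [LocallyCompactSpace Y]
  [T2Space Z] [LocallyCompactSpace Z]

theorem hh_swS_eq (X : Type u) [TopologicalSpace X] [T2Space X] [LocallyCompactSpace X] (n : ℕ) :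
    hh (swS X ℂ (n + 1)) = hh ((phC X (n + 1)).trans (eS X (n + 1))) := by
  have e1 : hh (swS X ℂ (n + 1)) = (hh (Homeomorph.prodAssoc X (Fin (n + 1) → ℂ) ℂ).symm).comp
      ((hh ((Homeomorph.refl X).prodCongr (linSw (n + 1)).toHomeomorph)).comp
        (hh (Homeomorph.prodAssoc X ℂ (Fin (n + 1) → ℂ)))) := by
    rw [← hh_trans, ← hh_trans]
    exact hh_ext fun _ => rfl
  have e2 : hh ((phC X (n + 1)).trans (eS X (n + 1))) =
      (hh (Homeomorph.prodAssoc X (Fin (n + 1) → ℂ) ℂ).symm).comp
      ((hh ((Homeomorph.refl X).prodCongr (linCy n).toHomeomorph)).comp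
        (hh (Homeomorph.prodAssoc X ℂ (Fin (n + 1) → ℂ)))) := by
    rw [← hh_trans, ← hh_trans]
    exact hh_ext fun p => phC_eS X n p
  rw [e1, e2, hh_linear_left X (linSw (n + 1)) (linCy n)]

/-- levelwise smash product with `W` on the right -/
noncomputable def lvR (W : Type x) [TopologicalSpace W] [T2Space W] [LocallyCompactSpace W] {n : ℕ}
    (a : HC (S X n) (S Y n)) : HC (S (X × W) n) (S (Y × W) n) :=
  (hh (swS Y W n).symm).comp ((a.smash (h1 W)).comp (hh (swS X W n)))

/-- **smash with `ℂ` is the shift** -/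
theorem lvR_C {n : ℕ} (a : HC (S X (n + 1)) (S Y (n + 1))) : lvR ℂ a = shH (st a) := by
  rw [lvR, hh_swS_eq, hh_symm_congr' (hh_swS_eq Y n), shH, st, hh_trans]
  have h3 : hh ((phC Y (n + 1)).trans (eS Y (n + 1))).symm =
      (hh (phC Y (n + 1)).symm).comp (hh (eS Y (n + 1)).symm) := by
    rw [← hh_trans]; rfl
  rw [h3]
  simp only [HC.comp_assoc]

end Crest.Agent.R090.St528
end

-- ▼ part R090/SmIso_528

/-!
# Row 90, T1-ADD: suspension isomorphisms of the stable category (owner helper528)

* `smR_C : a.smR ℂ = St.shC a`; `smR_smR`, `smR_homeo`, `smR_unique`;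
* class `Sus W` : `smR W : St X Y → St (X × W) (Y × W)` is bijective for all `X Y`; instances for
  `ℂ`, `Io`, `ℝ`, `Fin n → ℂ`, `Fin n → ℝ`, products, points;
* `of_smR_level : (St.of n a).smR (Fin n → ℂ) = St.map a`.
-/

set_option autoImplicit false
set_option linter.unusedSectionVars false
set_option linter.unusedVariables false
set_option linter.style.haveILetI false

open Topology Filter Set

noncomputable section

namespace Crest.Agent.R090.SmIso528

open OnePoint Crest.Agent.R090.Sp962 Crest.Agent.R090.Grp528 Crest.Agent.R090.St528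
  Crest.Agent.R090.Sm202

universe u v w x y

variable {X : Type u} {Y : Type v} {Z : Type w} {W : Type x} {W' : Type y}
variable [TopologicalSpace X] [TopologicalSpace Y] [TopologicalSpace Z] [TopologicalSpace W]
  [TopologicalSpace W']
variable [T2Space X] [T2Space Y] [T2Space Z] [T2Space W] [T2Space W']
variable [LocallyCompactSpace X] [LocallyCompactSpace Y] [LocallyCompactSpace Z]
variable [LocallyCompactSpace W] [LocallyCompactSpace W']

/-! ## conjugation on stable maps -/

/-- conjugation of a stable map by homeomorphisms -/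
def cj {X' : Type*} {Y' : Type*} [TopologicalSpace X'] [TopologicalSpace Y'] [T2Space X']
    [T2Space Y'] [LocallyCompactSpace X'] [LocallyCompactSpace Y'] (e : X ≃ₜ X') (e' : Y ≃ₜ Y')
    (a : St X Y) : St X' Y' := (sh e').comp (a.comp (sh e.symm))

section cj

variable {X' : Type*} {Y' : Type*} [TopologicalSpace X'] [TopologicalSpace Y'] [T2Space X']
    [T2Space Y'] [LocallyCompactSpace X'] [LocallyCompactSpace Y']

theorem cj_symm_cj (e : X ≃ₜ X') (e' : Y ≃ₜ Y') (a : St X Y) : cj e.symm e'.symm (cj e e' a) = a := by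
  have h : e.symm.symm = e := rfl
  rw [cj, cj, h]
  simp only [St.comp_assoc, sh_symm_comp_assoc, sh_symm_comp, St.comp_id]

theorem cj_cj_symm (e : X ≃ₜ X') (e' : Y ≃ₜ Y') (a : St X' Y') :
    cj e e' (cj e.symm e'.symm a) = a := by
  have h : e.symm.symm = e := rfl
  rw [cj, cj, h]
  simp only [St.comp_assoc, sh_comp_symm_assoc, sh_comp_symm, St.comp_id]

theorem cj_bijective (e : X ≃ₜ X') (e' : Y ≃ₜ Y') : Function.Bijective (cj e e') :=
  Function.bijective_iff_has_inverse.2 ⟨cj e.symm e'.symm, cj_symm_cj e e', cj_cj_symm e e'⟩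

theorem cj_of (e : X ≃ₜ X') (e' : Y ≃ₜ Y') (n : ℕ) (a : HC (S X n) (S Y n)) :
    cj e e' (St.of n a) = St.of n (a.conj (e.prodCongr (Homeomorph.refl _))
      (e'.prodCongr (Homeomorph.refl _))) := by
  rw [cj, sh_eq, sh_eq, St.map_eq_of _ n, St.map_eq_of _ n, St.of_comp_of, St.of_comp_of,
    conj_def, hh_smash_h1, hh_smash_h1]
  rfl

end cj

/-! ## smash with `ℂ` -/

theorem levR_eq_lvR {n : ℕ} (a : HC (S X n) (S Y n)) : levR W a = lvR W a := rfl

theorem smR_C (a : St X Y) : a.smR ℂ = St.shC a := by
  obtain ⟨s, rfl⟩ := Quotient.exists_rep a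
  obtain ⟨N, h⟩ := s.ev
  refine Quotient.sound ⟨N + 1, fun n hn => ?_⟩
  obtain ⟨m, rfl⟩ := Nat.exists_eq_add_of_le' (show 1 ≤ n by omega)
  change levR ℂ (s.seq (m + 1)) = shH (s.seq (m + 2))
  rw [levR_eq_lvR, lvR_C, ← h (m + 1) (by omega)]

/-! ## functoriality in the fixed space -/

theorem levR_levR {n : ℕ} (a : HC (S X n) (S Y n)) :
    levR (W × W') a = (levR W' (levR W a)).conj ((asC X W W').prodCongr (Homeomorph.refl _))
      ((asC Y W W').prodCongr (Homeomorph.refl _)) := by
  rw [levR, levR, levR, conj_smash_h1, conj_conj, conj_conj, ← h1_smash_h1, ← conj_asC, conj_conj]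
  exact conj_ext (fun _ => rfl) (fun _ => rfl) _

theorem smR_smR (a : St X Y) :
    a.smR (W × W') = cj (asC X W W') (asC Y W W') ((a.smR W).smR W') := by
  obtain ⟨n, -, a, rfl⟩ := a.exists_of_ge 0
  rw [smR_of, smR_of, smR_of, cj_of, levR_levR]

theorem levR_homeo (e : W ≃ₜ W') {n : ℕ} (a : HC (S X n) (S Y n)) :
    levR W' a = (levR W a).conj (((Homeomorph.refl X).prodCongr e).prodCongr (Homeomorph.refl _))
      (((Homeomorph.refl Y).prodCongr e).prodCongr (Homeomorph.refl _)) := by
  have h : a.smash (h1 W') = (a.smash (h1 W)).conj ((Homeomorph.refl _).prodCongr e)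
      ((Homeomorph.refl _).prodCongr e) := by
    rw [← conj_smash, conj_refl, conj_h1]
  rw [levR, levR, h, conj_conj, conj_conj]
  exact conj_ext (fun _ => rfl) (fun _ => rfl) _

theorem smR_homeo (e : W ≃ₜ W') (a : St X Y) :
    a.smR W' = cj ((Homeomorph.refl X).prodCongr e) ((Homeomorph.refl Y).prodCongr e) (a.smR W) := by
  obtain ⟨n, -, a, rfl⟩ := a.exists_of_ge 0
  rw [smR_of, smR_of, cj_of, levR_homeo e]

/-- `X ≃ₜ X × W` for a one-point space `W` -/
def pu (X : Type u) (W : Type x) [TopologicalSpace X] [TopologicalSpace W] [Unique W] :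
    X ≃ₜ X × W where
  toFun x := (x, default)
  invFun p := p.1
  left_inv _ := rfl
  right_inv p := Prod.ext rfl (Subsingleton.elim _ _)
  continuous_toFun := by fun_prop
  continuous_invFun := by fun_prop

theorem smash_unique [Unique W] (a : HC X Y) :
    a.smash (h1 W) = a.conj (pu X W) (pu Y W) := by
  obtain ⟨f, rfl⟩ := HC.mk_surj a
  refine congrArg HC.mk (PMap.ext fun p => ?_)
  obtain ⟨x, w⟩ := p
  change sm (f x) (w : OnePoint W) = PMap.ofHomeo (pu Y W) (f x)
  generalize f x = z
  induction z using OnePoint.rec with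
  | infty => simp [PMap.map_inf]
  | coe z => rw [Unique.eq_default w]; rfl

theorem levR_unique [Unique W] {n : ℕ} (a : HC (S X n) (S Y n)) :
    levR W a = a.conj ((pu X W).prodCongr (Homeomorph.refl _))
      ((pu Y W).prodCongr (Homeomorph.refl _)) := by
  rw [levR, smash_unique, conj_conj]
  exact conj_ext (fun _ => rfl) (fun _ => rfl) _

theorem smR_unique [Unique W] (a : St X Y) : a.smR W = cj (pu X W) (pu Y W) a := by
  obtain ⟨n, -, a, rfl⟩ := a.exists_of_ge 0
  rw [smR_of, cj_of, levR_unique]

/-! ## the class of suspension spaces -/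

/-- `smR W` is bijective -/
class Sus (W : Type) [TopologicalSpace W] [T2Space W] [LocallyCompactSpace W] : Prop where
  bij : ∀ (X : Type u) (Y : Type u) [TopologicalSpace X] [TopologicalSpace Y] [T2Space X]
    [T2Space Y] [LocallyCompactSpace X] [LocallyCompactSpace Y],
    Function.Bijective (St.smR W : St X Y → St (X × W) (Y × W))

section sus

variable {V V' : Type} [TopologicalSpace V] [TopologicalSpace V'] [T2Space V] [T2Space V']
  [LocallyCompactSpace V] [LocallyCompactSpace V']

instance sus_C : Sus.{u} ℂ where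
  bij X Y _ _ _ _ _ _ := by
    have h : (St.smR ℂ : St X Y → St (X × ℂ) (Y × ℂ)) = St.shC := funext smR_C
    rw [h]
    exact (St.shC (X := X) (Y := Y)).bijective

instance sus_unique [Unique V] : Sus.{u} V where
  bij X Y _ _ _ _ _ _ := by
    have h : (St.smR V : St X Y → St (X × V) (Y × V)) = cj (pu X V) (pu Y V) := funext smR_unique
    rw [h]
    exact cj_bijective _ _

theorem sus_homeo (e : V ≃ₜ V') [Sus.{u} V] : Sus.{u} V' where
  bij X Y _ _ _ _ _ _ := by
    have h : (St.smR V' : St X Y → St (X × V') (Y × V')) =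
        cj ((Homeomorph.refl X).prodCongr e) ((Homeomorph.refl Y).prodCongr e) ∘ St.smR V :=
      funext (smR_homeo e)
    rw [h]
    exact (cj_bijective _ _).comp (Sus.bij X Y)

instance sus_prod [Sus.{u} V] [Sus.{u} V'] : Sus.{u} (V × V') where
  bij X Y _ _ _ _ _ _ := by
    have h : (St.smR (V × V') : St X Y → St (X × (V × V')) (Y × (V × V'))) =
        cj (asC X V V') (asC Y V V') ∘ St.smR V' ∘ St.smR V := funext smR_smR
    rw [h]
    exact (cj_bijective _ _).comp ((Sus.bij (X × V) (Y × V)).comp (Sus.bij X Y))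

/-- if `V × V` is a suspension space, so is `V` -/
theorem sus_of_sq (h : Sus.{u} (V × V)) : Sus.{u} V := by
  have key : ∀ (X : Type u) (Y : Type u) [TopologicalSpace X] [TopologicalSpace Y] [T2Space X]
      [T2Space Y] [LocallyCompactSpace X] [LocallyCompactSpace Y],
      Function.Bijective (fun a : St X Y => (a.smR V).smR V) := by
    intro X Y _ _ _ _ _ _
    have h2 : (St.smR (V × V) : St X Y → St (X × (V × V)) (Y × (V × V))) =
        cj (asC X V V) (asC Y V V) ∘ fun a : St X Y => (a.smR V).smR V := funext smR_smR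
    have h3 := h.bij X Y
    rw [h2] at h3
    exact (Function.Bijective.of_comp_iff' (cj_bijective (asC X V V) (asC Y V V)) _).1 h3
  have inj : ∀ (X : Type u) (Y : Type u) [TopologicalSpace X] [TopologicalSpace Y] [T2Space X]
      [T2Space Y] [LocallyCompactSpace X] [LocallyCompactSpace Y],
      Function.Injective (St.smR V : St X Y → St (X × V) (Y × V)) := by
    intro X Y _ _ _ _ _ _ a b hab
    exact (key X Y).1 (by simp only [hab])
  refine ⟨fun X Y _ _ _ _ _ _ => ⟨inj X Y, fun b => ?_⟩⟩
  obtain ⟨a, ha⟩ := (key X Y).2 (b.smR V)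
  exact ⟨a, inj _ _ ha⟩

instance sus_Io : Sus.{u} Io := by
  haveI : Sus.{u} (Io × Io) := sus_homeo cIo
  exact sus_of_sq inferInstance

instance sus_R : Sus.{u} ℝ := sus_homeo ioHomeo.symm

/-- `(Fin (n+1) → V) ≃ₜ V × (Fin n → V)` -/
def consH (V : Type) [TopologicalSpace V] (n : ℕ) : V × (Fin n → V) ≃ₜ (Fin (n + 1) → V) where
  toFun p := Fin.cons (α := fun _ => V) p.1 p.2
  invFun q := (q 0, fun i => q i.succ)
  left_inv p := rfl
  right_inv q := Fin.cons_self_tail q
  continuous_toFun := by
    refine continuous_pi fun i => ?_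
    refine Fin.cases ?_ (fun j => ?_) i
    · exact continuous_fst
    · exact (continuous_apply j).comp continuous_snd
  continuous_invFun := by
    refine (continuous_apply _).prodMk ?_
    exact continuous_pi fun i => continuous_apply _

instance sus_pow [Sus.{u} V] (n : ℕ) : Sus.{u} (Fin n → V) := by
  induction n with
  | zero => exact sus_unique
  | succ n ih => exact sus_homeo (consH V n)

theorem sus_pi {ι : Type} [Finite ι] [Sus.{u} V] : Sus.{u} (ι → V) := by
  obtain ⟨n, ⟨e⟩⟩ := Finite.exists_equiv_fin ι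
  exact sus_homeo (Homeomorph.piCongrLeft (Y := fun _ => V) e.symm)


end sus

/-! ## levels -/

theorem hh_swR_self (X : Type u) [TopologicalSpace X] [T2Space X] [LocallyCompactSpace X]
    (E : Type w) [NormedAddCommGroup E] [NormedSpace ℂ E] [FiniteDimensional ℂ E]
    [LocallyCompactSpace E] :
    hh (swR X E E) = h1 ((X × E) × E) := by
  have e1 : hh (swR X E E) = (hh (Homeomorph.prodAssoc X E E).symm).comp
      ((hh ((Homeomorph.refl X).prodCongr
        (ContinuousLinearEquiv.prodComm ℂ E E).toHomeomorph)).comp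
        (hh (Homeomorph.prodAssoc X E E))) := by
    rw [← hh_trans, ← hh_trans]
    exact hh_ext fun _ => rfl
  rw [e1, hh_linear_left X (ContinuousLinearEquiv.prodComm ℂ E E)
    (ContinuousLinearEquiv.refl ℂ (E × E))]
  rw [← hh_trans, ← hh_trans, ← hh_refl]
  exact hh_ext fun _ => rfl

/-- a class at level `n`, suspended by `ℂ^n`, is the class of the unstable map -/
theorem of_smR_level (n : ℕ) (a : HC (S X n) (S Y n)) :
    (St.of n a).smR (Fin n → ℂ) = St.map a := by
  rw [smR_of, St.map_eq_of a n]
  congr 1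
  have h : ∀ (Z : Type _) [TopologicalSpace Z] [T2Space Z] [LocallyCompactSpace Z],
      hh (swR Z (Fin n → ℂ) (Fin n → ℂ)) = hh (Homeomorph.refl _) := fun Z _ _ _ => by
    rw [hh_swR_self, hh_refl]
  rw [levR, conj_congr (h X) (hh_swR_self Y (Fin n → ℂ) |>.trans hh_refl.symm), conj_refl]

theorem mk_smR_level (n : ℕ) (f : PMap (S X n) (S Y n)) :
    (St.mk n f).smR (Fin n → ℂ) = St.ofP f := of_smR_level n (HC.mk f)

/-! ## desuspension -/

section des

variable {X Y Z : Type u}
variable [TopologicalSpace X] [TopologicalSpace Y] [TopologicalSpace Z]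
variable [T2Space X] [T2Space Y] [T2Space Z]
variable [LocallyCompactSpace X] [LocallyCompactSpace Y] [LocallyCompactSpace Z]

variable {V : Type} [TopologicalSpace V] [T2Space V] [LocallyCompactSpace V]

/-- smash with a suspension space is an isomorphism -/
def smE (X : Type u) (Y : Type u) (V : Type) [TopologicalSpace X] [TopologicalSpace Y]
    [TopologicalSpace V] [T2Space X] [T2Space Y] [T2Space V] [LocallyCompactSpace X]
    [LocallyCompactSpace Y] [LocallyCompactSpace V] [Sus.{u} V] :
    St X Y ≃+ St (X × V) (Y × V) :=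
  AddEquiv.ofBijective (smRHom X Y V) (Sus.bij X Y)


theorem smR_inj [Sus.{u} V] {a b : St X Y} : a.smR V = b.smR V ↔ a = b :=
  ⟨fun h => (Sus.bij X Y).1 h, fun h => h ▸ rfl⟩

theorem smR_eq_zero [Sus.{u} V] {a : St X Y} : a.smR V = 0 ↔ a = 0 := by
  rw [← smR_zero, smR_inj]

/-- desuspension -/
def des (V : Type) [TopologicalSpace V] [T2Space V] [LocallyCompactSpace V] [Sus.{u} V]
    (b : St (X × V) (Y × V)) : St X Y := (smE X Y V).symm b

@[simp] theorem des_smR [Sus.{u} V] (a : St X Y) : des V (a.smR V) = a :=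
  (smE X Y V).symm_apply_apply a

@[simp] theorem smR_des [Sus.{u} V] (b : St (X × V) (Y × V)) : (des V b).smR V = b :=
  (smE X Y V).apply_symm_apply b


@[simp] theorem des_zero [Sus.{u} V] : des V (0 : St (X × V) (Y × V)) = 0 :=
  map_zero (smE X Y V).symm


/-- a stable map from a map after smash product with any suspension space -/
def lev (V : Type) [TopologicalSpace V] [T2Space V] [LocallyCompactSpace V] [Sus.{u} V]
    (f : PMap (X × V) (Y × V)) : St X Y := des V (St.ofP f)








end des

end Crest.Agent.R090.SmIso528
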