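import Crest.Agent.R090.Sp_962
import Crest.Agent.R090.Ho_962
import Crest.Agent.R090.Lin_202
import Crest.Agent.R090.Strata_973
import Crest.Agent.R090.HasCells_933
import Crest.Agent.R090.CohT_253
import Crest.Agent.R090.Young_152
import Crest.Agent.R090.Kun_493
import Crest.Agent.R090.HSt_285
import Crest.Agent.R090.SmIso_528
import Crest.Agent.R090.SpineDefs_796
import Crest.Agent.R090.PowA_253
import Crest.Agent.R090.Prod_202

-- ▼ part R090/Start_902
section

/-!
# Row 90, A-START (owner helper902), part 1: the number of fixed words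

`LTh F` is the list of properties of the Lefschetz number `L` of the (co)homology theory that is used
(all of them are part of AS4 of helper58); `LTh.strat`: the Lefschetz number of a homeomorphism that
permutes the strata of a finite stratification; `LTh.L_perm`: if `V` is a finite union of complex cells,
the Lefschetz number of the permutation `g` of the coordinates of `κ → V` is the number of words
`w : κ → Fin n` with `w ∘ g = w`.
-/

set_option autoImplicit false
set_option linter.unusedSectionVars false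

open Topology Filter Set OnePoint
open Crest.Agent.R090.Sp962

namespace Crest.Agent.R090.Start902

/-- the properties of Lefschetz numbers -/
structure LTh (F : Type*) [Field F] where
  /-- finite dimensional homology -/
  Fd : ∀ (U : Type) [TopologicalSpace U] [T2Space U] [LocallyCompactSpace U], Prop
  /-- Lefschetz number -/
  L : ∀ {U : Type} [TopologicalSpace U] [T2Space U] [LocallyCompactSpace U], PMap U U → F
  fd_empty : ∀ (U : Type) [TopologicalSpace U] [T2Space U] [LocallyCompactSpace U] [IsEmpty U], Fd U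
  fd_cell : ∀ m : ℕ, Fd (Fin m → ℂ)
  fd_homeo : ∀ {U V : Type} [TopologicalSpace U] [T2Space U] [LocallyCompactSpace U]
    [TopologicalSpace V] [T2Space V] [LocallyCompactSpace V], (U ≃ₜ V) → Fd U → Fd V
  L_zero : ∀ {U : Type} [TopologicalSpace U] [T2Space U] [LocallyCompactSpace U],
    L (PMap.zero U U) = 0
  L_cell : ∀ m : ℕ, L (PMap.id (Fin m → ℂ)) = 1
  L_homotopic : ∀ {U : Type} [TopologicalSpace U] [T2Space U] [LocallyCompactSpace U]
    {f g : PMap U U}, f.Homotopic g → L f = L g
  L_comm : ∀ {U V : Type} [TopologicalSpace U] [T2Space U] [LocallyCompactSpace U]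
    [TopologicalSpace V] [T2Space V] [LocallyCompactSpace V] (f : PMap U V) (g : PMap V U),
    Fd U → Fd V → L (g.comp f) = L (f.comp g)
  fd_pair : ∀ {K U O : Type} [TopologicalSpace K] [T2Space K] [LocallyCompactSpace K]
    [TopologicalSpace U] [T2Space U] [LocallyCompactSpace U]
    [TopologicalSpace O] [T2Space O] [LocallyCompactSpace O]
    (i : K → U) (_ : IsClosedEmbedding i) (j : O → U) (_ : IsOpenEmbedding j),
    range j = (range i)ᶜ → Fd K → Fd O → Fd U
  L_pair : ∀ {K U O : Type} [TopologicalSpace K] [T2Space K] [LocallyCompactSpace K]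
    [TopologicalSpace U] [T2Space U] [LocallyCompactSpace U]
    [TopologicalSpace O] [T2Space O] [LocallyCompactSpace O]
    (i : K → U) (hi : IsClosedEmbedding i) (j : O → U) (hj : IsOpenEmbedding j),
    range j = (range i)ᶜ → Fd K → Fd O →
    ∀ (f : PMap U U) (fK : PMap K K) (fO : PMap O O),
      f.comp (PMap.ofClosed i hi) = (PMap.ofClosed i hi).comp fK →
      (PMap.ofOpen j hj).comp f = fO.comp (PMap.ofOpen j hj) → L f = L fK + L fO
  fd_parts : ∀ {U κ : Type} [Finite κ] [TopologicalSpace U] [T2Space U] [LocallyCompactSpace U]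
    (A : κ → Set U), (∀ w, IsClopen (A w)) → (∀ x, ∃! w, x ∈ A w) →
    (∀ w [LocallyCompactSpace (A w)], Fd (A w)) → Fd U
  L_parts : ∀ {U κ : Type} [Fintype κ] [TopologicalSpace U] [T2Space U] [LocallyCompactSpace U]
    (A : κ → Set U) (hA : ∀ w, IsClopen (A w)), (∀ x, ∃! w, x ∈ A w) →
    (∀ w [LocallyCompactSpace (A w)], Fd (A w)) → ∀ (f : PMap U U) (c : κ → F),
    (∀ w [LocallyCompactSpace (A w)], L ((PMap.ofOpen (Subtype.val : A w → U)
      (hA w).2.isOpenEmbedding_subtypeVal).comp (f.comp (PMap.ofClosed (Subtype.val : A w → U)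
      (hA w).1.isClosedEmbedding_subtypeVal))) = c w) → L f = ∑ w, c w

variable {F : Type*} [Field F] (T : LTh F)

section tools

variable {U V : Type} [TopologicalSpace U] [T2Space U] [LocallyCompactSpace U]
  [TopologicalSpace V] [T2Space V] [LocallyCompactSpace V]

/-- conjugation invariance -/
theorem LTh.L_conj (e : U ≃ₜ V) (f : PMap U U) (hU : T.Fd U) :
    T.L ((PMap.ofHomeo e).comp (f.comp (PMap.ofHomeo e.symm))) = T.L f := by
  have hV : T.Fd V := T.fd_homeo e hU
  have h := T.L_comm (f.comp (PMap.ofHomeo e.symm)) (PMap.ofHomeo e) hV hU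
  rw [h, PMap.comp_assoc, PMap.ofHomeo_symm_comp, PMap.comp_id]

theorem ofHomeo_conj (e : U ≃ₜ V) (t : U ≃ₜ U) (t' : V ≃ₜ V) (h : ∀ x, t' (e x) = e (t x)) :
    (PMap.ofHomeo e).comp ((PMap.ofHomeo t).comp (PMap.ofHomeo e.symm)) = PMap.ofHomeo t' := by
  refine PMap.ext fun x => ?_
  simp only [PMap.comp_apply, PMap.ofHomeo_coe]
  rw [← h, Homeomorph.apply_symm_apply]

theorem LTh.L_ofHomeo_conj (e : U ≃ₜ V) (t : U ≃ₜ U) (t' : V ≃ₜ V) (h : ∀ x, t' (e x) = e (t x))
    (hU : T.Fd U) : T.L (PMap.ofHomeo t') = T.L (PMap.ofHomeo t) := by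
  rw [← ofHomeo_conj e t t' h, T.L_conj e _ hU]

theorem pmap_eq_of_isEmpty [IsEmpty U] (f g : PMap U V) : f = g :=
  PMap.ext fun x => isEmptyElim x

theorem LTh.L_empty [IsEmpty U] (f : PMap U U) : T.L f = 0 := by
  rw [pmap_eq_of_isEmpty f (PMap.zero U U), T.L_zero]

end tools

/-! ## stratified homeomorphisms -/

section strat

variable {X : Type} [TopologicalSpace X] [T2Space X] [LocallyCompactSpace X]
  {ι : Type} [Fintype ι] [DecidableEq ι]

/-- a finite stratification: labels `st`, heights `N` -/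
structure IsStrat (st : X → ι) (N : ι → ℕ) : Prop where
  closed : ∀ l : ℕ, IsClosed {x | N (st x) ≤ l}
  closed_in : ∀ w : ι, ∃ C : Set X, IsClosed C ∧ {x | st x = w} = C ∩ {x | N (st x) = N w}

variable {st : X → ι} {N : ι → ℕ} (hs : IsStrat st N) (t : X ≃ₜ X) (τ : ι → ι)
  (ht : ∀ x, st (t x) = τ (st x)) (hτ : ∀ w, N (τ w) = N w)

theorem locallyCompact_of_locallyClosed {A : Set X} (h : IsLocallyClosed A) :
    LocallyCompactSpace A := h.locallyCompactSpace

include hs in
theorem IsStrat.closed_lt (l : ℕ) : IsClosed {x | N (st x) < l} := by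
  rcases l with _ | l
  · simp
  · have : {x | N (st x) < l + 1} = {x | N (st x) ≤ l} := by
      ext x; exact Nat.lt_succ_iff
    rw [this]; exact hs.closed l

include hs in
theorem IsStrat.isLocallyClosed_layer (l : ℕ) : IsLocallyClosed {x | N (st x) = l} := by
  have : {x | N (st x) = l} = {x | N (st x) ≤ l} ∩ {x | N (st x) < l}ᶜ := by
    ext x
    change N (st x) = l ↔ N (st x) ≤ l ∧ ¬ N (st x) < l
    omega
  rw [this]
  exact (hs.closed l).isLocallyClosed.inter (hs.closed_lt l).isOpen_compl.isLocallyClosed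

include hs in
theorem IsStrat.isLocallyClosed_stratum (w : ι) : IsLocallyClosed {x | st x = w} := by
  obtain ⟨C, hC, h⟩ := hs.closed_in w
  rw [h]
  exact hC.isLocallyClosed.inter (hs.isLocallyClosed_layer _)

/-- restriction of a homeomorphism to an invariant subset -/
def rst {X : Type} [TopologicalSpace X] (t : X ≃ₜ X) (A : Set X) (h : ∀ x, x ∈ A ↔ t x ∈ A) :
    A ≃ₜ A := t.subtype h

@[simp] theorem rst_apply {X : Type} [TopologicalSpace X] (t : X ≃ₜ X) (A : Set X)
    (h : ∀ x, x ∈ A ↔ t x ∈ A) (x : A) : ((rst t A h x : A) : X) = t x := rfl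

include hs in
theorem IsStrat.isClopen_part (l : ℕ) (w : {w : ι // N w = l}) :
    IsClopen {y : {x | N (st x) = l} | st y.1 = w.1} := by
  have hcl : ∀ w : {w : ι // N w = l}, IsClosed {y : {x | N (st x) = l} | st y.1 = w.1} := by
    intro w
    obtain ⟨C, hC, h⟩ := hs.closed_in w.1
    have : {y : {x | N (st x) = l} | st y.1 = w.1} = Subtype.val ⁻¹' C := by
      ext y
      have h1 : y.1 ∈ {x | st x = w.1} ↔ y.1 ∈ C ∩ {x | N (st x) = N w.1} := by rw [h]
      have h2 : N (st y.1) = N w.1 := by rw [w.2]; exact y.2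
      constructor
      · intro hy
        exact (h1.1 hy).1
      · intro hy
        exact h1.2 ⟨hy, h2⟩
    rw [this]
    exact hC.preimage continuous_subtype_val
  refine ⟨hcl w, ?_⟩
  have : {y : {x | N (st x) = l} | st y.1 = w.1}ᶜ =
      ⋃ w' : {w' : {w : ι // N w = l} // w' ≠ w}, {y : {x | N (st x) = l} | st y.1 = w'.1.1} := by
    ext y
    simp only [mem_compl_iff, mem_iUnion]
    constructor
    · intro hy
      exact ⟨⟨⟨st y.1, y.2⟩, fun h => hy (congrArg Subtype.val h)⟩, rfl⟩
    · rintro ⟨w', hw'⟩ hy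
      exact w'.2 (Subtype.ext (hw'.symm.trans hy))
  rw [← isClosed_compl_iff, this]
  exact isClosed_iUnion_of_finite fun w' => hcl w'.1

/-- a part of a layer is a stratum -/
def partHomeo (st : X → ι) (N : ι → ℕ) (l : ℕ) (w : {w : ι // N w = l}) :
    {y : {x | N (st x) = l} | st y.1 = w.1} ≃ₜ {x | st x = w.1} where
  toFun y := ⟨y.1.1, y.2⟩
  invFun x := ⟨⟨x.1, by
    have h : st x.1 = w.1 := x.2
    change N (st x.1) = l
    rw [h]; exact w.2⟩, x.2⟩
  left_inv _ := rfl
  right_inv _ := rfl
  continuous_toFun := by fun_prop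
  continuous_invFun := by fun_prop

include hs in
theorem LTh.fd_layer (l : ℕ) [LocallyCompactSpace {x | N (st x) = l}]
    (hFd : ∀ (w : ι) [LocallyCompactSpace {x | st x = w}], T.Fd {x | st x = w}) :
    T.Fd {x | N (st x) = l} := by
  refine T.fd_parts (κ := {w : ι // N w = l})
    (fun w => {y : {x | N (st x) = l} | st y.1 = w.1}) (hs.isClopen_part l) ?_ ?_
  · intro y
    exact ⟨⟨st y.1, y.2⟩, rfl, fun w' h => Subtype.ext h.symm⟩
  · intro w _
    have : LocallyCompactSpace {x | st x = w.1} :=
      locallyCompact_of_locallyClosed (hs.isLocallyClosed_stratum w.1)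
    exact T.fd_homeo (partHomeo st N l w).symm (hFd w.1)

include hs in
theorem LTh.L_layer (t : X ≃ₜ X) (τ : Equiv.Perm ι) (ht : ∀ x, st (t x) = τ (st x))
    (l : ℕ) [LocallyCompactSpace {x | N (st x) = l}]
    (hl : ∀ x, x ∈ {x | N (st x) = l} ↔ t x ∈ {x | N (st x) = l})
    (hFd : ∀ (w : ι) [LocallyCompactSpace {x | st x = w}], T.Fd {x | st x = w})
    (c : ι → F)
    (hc : ∀ (w : ι) [LocallyCompactSpace {x | st x = w}]
      (h : ∀ x, x ∈ {x | st x = w} ↔ t x ∈ {x | st x = w}),
        T.L (PMap.ofHomeo (rst t {x | st x = w} h)) = c w) :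
    T.L (PMap.ofHomeo (rst t {x | N (st x) = l} hl)) =
      ∑ w ∈ Finset.univ.filter (fun w => N w = l), if τ w = w then c w else 0 := by
  have hfin : ∀ (w : {w : ι // N w = l})
      [LocallyCompactSpace {y : {x | N (st x) = l} | st y.1 = w.1}],
      T.Fd {y : {x | N (st x) = l} | st y.1 = w.1} := by
    intro w _
    have : LocallyCompactSpace {x | st x = w.1} :=
      locallyCompact_of_locallyClosed (hs.isLocallyClosed_stratum w.1)
    exact T.fd_homeo (partHomeo st N l w).symm (hFd w.1)
  rw [T.L_parts (κ := {w : ι // N w = l}) (fun w => {y : {x | N (st x) = l} | st y.1 = w.1})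
    (hs.isClopen_part l) (fun y => ⟨⟨st y.1, y.2⟩, rfl, fun w' h => Subtype.ext h.symm⟩) hfin
    (PMap.ofHomeo (rst t {x | N (st x) = l} hl)) (fun w => if τ w.1 = w.1 then c w.1 else 0) ?_]
  · exact (Finset.sum_subtype _ (by simp) fun w => if τ w = w then c w else 0).symm
  · intro w _
    have : LocallyCompactSpace {x | st x = w.1} :=
      locallyCompact_of_locallyClosed (hs.isLocallyClosed_stratum w.1)
    by_cases hw : τ w.1 = w.1
    · rw [if_pos hw]
      have h : ∀ x, x ∈ {x | st x = w.1} ↔ t x ∈ {x | st x = w.1} := by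
        intro x
        change st x = w.1 ↔ st (t x) = w.1
        rw [ht]
        constructor
        · intro h; rw [h, hw]
        · intro h; exact τ.injective (h.trans hw.symm)
      rw [← hc w.1 h]
      have hsq : (PMap.ofOpen (Subtype.val : {y : {x | N (st x) = l} | st y.1 = w.1} → _)
          (hs.isClopen_part l w).2.isOpenEmbedding_subtypeVal).comp
          ((PMap.ofHomeo (rst t {x | N (st x) = l} hl)).comp (PMap.ofClosed (Subtype.val :
          {y : {x | N (st x) = l} | st y.1 = w.1} → _)
          (hs.isClopen_part l w).1.isClosedEmbedding_subtypeVal)) =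
          PMap.ofHomeo (((partHomeo st N l w).trans (rst t {x | st x = w.1} h)).trans
            (partHomeo st N l w).symm) := by
        refine PMap.ext fun y => ?_
        exact PMap.ofOpen_coe (Subtype.val : {y : {x | N (st x) = l} | st y.1 = w.1} → _)
          (hs.isClopen_part l w).2.isOpenEmbedding_subtypeVal
          ((((partHomeo st N l w).trans (rst t {x | st x = w.1} h)).trans
            (partHomeo st N l w).symm) y)
      rw [hsq]
      exact T.L_ofHomeo_conj (partHomeo st N l w).symm _ _ (fun x => by simp) (hFd w.1)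
    · rw [if_neg hw]
      have hz : (PMap.ofOpen (Subtype.val : {y : {x | N (st x) = l} | st y.1 = w.1} → _)
          (hs.isClopen_part l w).2.isOpenEmbedding_subtypeVal).comp
          ((PMap.ofHomeo (rst t {x | N (st x) = l} hl)).comp (PMap.ofClosed (Subtype.val :
          {y : {x | N (st x) = l} | st y.1 = w.1} → _)
          (hs.isClopen_part l w).1.isClosedEmbedding_subtypeVal)) = PMap.zero _ _ := by
        refine PMap.ext fun y => ?_
        refine PMap.ofOpen_of_notMem (Subtype.val : {y : {x | N (st x) = l} | st y.1 = w.1} → _)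
          (hs.isClopen_part l w).2.isOpenEmbedding_subtypeVal
          (y := rst t {x | N (st x) = l} hl y.1) ?_
        rintro ⟨z, hz⟩
        have h1 : st (t y.1.1) = w.1 := by
          have h2 : (z.1 : X) = t y.1.1 := congrArg Subtype.val hz
          rw [← h2]; exact z.2
        rw [ht] at h1
        have h3 : st y.1.1 = w.1 := y.2
        rw [h3] at h1
        exact hw h1
      rw [hz, T.L_zero]

/-- inclusion of `{N < l}` in `{N < l + 1}` -/
def incLow (st : X → ι) (N : ι → ℕ) (l : ℕ) : {x | N (st x) < l} → {x | N (st x) < l + 1} :=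
  fun x => ⟨x.1, Nat.lt_succ_of_lt x.2⟩

/-- inclusion of `{N = l}` in `{N < l + 1}` -/
def incLayer (st : X → ι) (N : ι → ℕ) (l : ℕ) : {x | N (st x) = l} → {x | N (st x) < l + 1} :=
  fun x => ⟨x.1, Nat.lt_succ_of_le (le_of_eq x.2)⟩

include hs in
theorem IsStrat.isClosedEmbedding_incLow (l : ℕ) : IsClosedEmbedding (incLow st N l) := by
  refine ⟨⟨?_, ?_⟩, ?_⟩
  · have h : IsInducing ((Subtype.val : {x | N (st x) < l + 1} → X) ∘ incLow st N l) :=
      IsInducing.subtypeVal
    exact IsInducing.of_comp (by unfold incLow; fun_prop) continuous_subtype_val h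
  · intro x y h
    exact Subtype.ext (congrArg (fun z : {x | N (st x) < l + 1} => z.1) h)
  · have : range (incLow st N l) = Subtype.val ⁻¹' {x | N (st x) < l} := by
      ext x
      constructor
      · rintro ⟨y, rfl⟩; exact y.2
      · intro hx; exact ⟨⟨x.1, hx⟩, rfl⟩
    rw [this]
    exact (hs.closed_lt l).preimage continuous_subtype_val

theorem range_incLayer (l : ℕ) : range (incLayer st N l) = (range (incLow st N l))ᶜ := by
  ext x
  constructor
  · rintro ⟨y, rfl⟩ ⟨z, hz⟩
    have h1 : (z.1 : X) = y.1 := congrArg Subtype.val hz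
    have h2 : N (st z.1) < l := z.2
    have h3 : N (st y.1) = l := y.2
    rw [h1] at h2
    omega
  · intro hx
    have h2 : N (st x.1) < l + 1 := x.2
    have h3 : ¬ N (st x.1) < l := fun h => hx ⟨⟨x.1, h⟩, rfl⟩
    exact ⟨⟨x.1, by change N (st x.1) = l; omega⟩, rfl⟩

include hs in
theorem IsStrat.isOpenEmbedding_incLayer (l : ℕ) : IsOpenEmbedding (incLayer st N l) := by
  refine ⟨⟨?_, ?_⟩, ?_⟩
  · have h : IsInducing ((Subtype.val : {x | N (st x) < l + 1} → X) ∘ incLayer st N l) :=
      IsInducing.subtypeVal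
    exact IsInducing.of_comp (by unfold incLayer; fun_prop) continuous_subtype_val h
  · intro x y h
    exact Subtype.ext (congrArg (fun z : {x | N (st x) < l + 1} => z.1) h)
  · rw [range_incLayer]
    exact (hs.isClosedEmbedding_incLow l).isClosed_range.isOpen_compl

include hs in
/-- **the Lefschetz number of a homeomorphism that permutes the strata** -/
theorem LTh.L_strat (t : X ≃ₜ X) (τ : Equiv.Perm ι) (ht : ∀ x, st (t x) = τ (st x))
    (hτ : ∀ w, N (τ w) = N w)
    (hFd : ∀ (w : ι) [LocallyCompactSpace {x | st x = w}], T.Fd {x | st x = w})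
    (c : ι → F)
    (hc : ∀ (w : ι) [LocallyCompactSpace {x | st x = w}]
      (h : ∀ x, x ∈ {x | st x = w} ↔ t x ∈ {x | st x = w}),
        T.L (PMap.ofHomeo (rst t {x | st x = w} h)) = c w) :
    T.Fd X ∧ T.L (PMap.ofHomeo t) = ∑ w, if τ w = w then c w else 0 := by
  have hN : ∀ x, N (st (t x)) = N (st x) := fun x => by rw [ht, hτ]
  have key : ∀ (l : ℕ) [LocallyCompactSpace {x | N (st x) < l}]
      (hl : ∀ x, x ∈ {x | N (st x) < l} ↔ t x ∈ {x | N (st x) < l}),
      T.Fd {x | N (st x) < l} ∧ T.L (PMap.ofHomeo (rst t {x | N (st x) < l} hl)) =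
        ∑ w ∈ Finset.univ.filter (fun w => N w < l), if τ w = w then c w else 0 := by
    intro l
    induction l with
    | zero =>
      intro _ hl
      have : IsEmpty {x | N (st x) < 0} := ⟨fun x => Nat.not_lt_zero _ x.2⟩
      exact ⟨T.fd_empty _, by rw [T.L_empty]; simp⟩
    | succ l ih =>
      intro _ hl
      have hl' : ∀ x, x ∈ {x | N (st x) < l} ↔ t x ∈ {x | N (st x) < l} := by
        intro x
        change N (st x) < l ↔ N (st (t x)) < l
        rw [hN]
      have hl'' : ∀ x, x ∈ {x | N (st x) = l} ↔ t x ∈ {x | N (st x) = l} := by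
        intro x
        change N (st x) = l ↔ N (st (t x)) = l
        rw [hN]
      have i1 : LocallyCompactSpace {x | N (st x) < l} :=
        locallyCompact_of_locallyClosed (hs.closed_lt l).isLocallyClosed
      have i2 : LocallyCompactSpace {x | N (st x) = l} :=
        locallyCompact_of_locallyClosed (hs.isLocallyClosed_layer l)
      obtain ⟨h1, h2⟩ := ih hl'
      have h3 := T.fd_layer hs l hFd
      refine ⟨T.fd_pair (incLow st N l) (hs.isClosedEmbedding_incLow l) (incLayer st N l)
        (hs.isOpenEmbedding_incLayer l) (range_incLayer l) h1 h3, ?_⟩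
      rw [T.L_pair (incLow st N l) (hs.isClosedEmbedding_incLow l) (incLayer st N l)
        (hs.isOpenEmbedding_incLayer l) (range_incLayer l) h1 h3
        (PMap.ofHomeo (rst t {x | N (st x) < l + 1} hl))
        (PMap.ofHomeo (rst t {x | N (st x) < l} hl'))
        (PMap.ofHomeo (rst t {x | N (st x) = l} hl'')) ?_ ?_, h2,
        T.L_layer hs t τ ht l hl'' hFd c hc]
      · have hd : Finset.univ.filter (fun w => N w < l + 1) =
            Finset.univ.filter (fun w => N w < l) ∪ Finset.univ.filter (fun w => N w = l) := by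
          ext w
          simp only [Finset.mem_filter, Finset.mem_union, Finset.mem_univ, true_and]
          omega
        rw [hd, Finset.sum_union]
        rw [Finset.disjoint_filter]
        intro w _ h1 h2
        omega
      · exact PMap.ext fun x => rfl
      · refine PMap.ext fun x => ?_
        have ho := hs.isOpenEmbedding_incLayer l
        change PMap.ofOpen (incLayer st N l) ho ((rst t {x | N (st x) < l + 1} hl x :
          {x | N (st x) < l + 1}) : OnePoint _) =
          PMap.ofHomeo (rst t {x | N (st x) = l} hl'')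
            (PMap.ofOpen (incLayer st N l) ho (x : OnePoint _))
        by_cases hx : N (st x.1) = l
        · have e1 : PMap.ofOpen (incLayer st N l) ho (x : OnePoint _) =
              ((⟨x.1, hx⟩ : {x | N (st x) = l}) : OnePoint _) :=
            PMap.ofOpen_coe (incLayer st N l) ho ⟨x.1, hx⟩
          have e2 : PMap.ofOpen (incLayer st N l) ho ((rst t {x | N (st x) < l + 1} hl x :
              {x | N (st x) < l + 1}) : OnePoint _) =
              ((rst t {x | N (st x) = l} hl'' ⟨x.1, hx⟩ : {x | N (st x) = l}) : OnePoint _) :=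
            PMap.ofOpen_coe (incLayer st N l) ho (rst t {x | N (st x) = l} hl'' ⟨x.1, hx⟩)
          rw [e1, e2]
          rfl
        · rw [PMap.ofOpen_of_notMem, PMap.ofOpen_of_notMem]
          · rfl
          · rintro ⟨y, hy⟩
            have : (y.1 : X) = x.1 := congrArg Subtype.val hy
            exact hx (this ▸ y.2)
          · rintro ⟨y, hy⟩
            have : (y.1 : X) = t x.1 := congrArg Subtype.val hy
            have h4 : N (st y.1) = l := y.2
            rw [this, hN] at h4
            exact hx h4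
  set l : ℕ := (Finset.univ.sup N) + 1 with hldef
  have hall : ∀ w, N w < l := fun w => Nat.lt_succ_of_le (Finset.le_sup (Finset.mem_univ w))
  have hl : ∀ x, x ∈ {x | N (st x) < l} ↔ t x ∈ {x | N (st x) < l} :=
    fun x => ⟨fun _ => hall _, fun _ => hall _⟩
  have i1 : LocallyCompactSpace {x | N (st x) < l} :=
    locallyCompact_of_locallyClosed (hs.closed_lt l).isLocallyClosed
  obtain ⟨h1, h2⟩ := key l hl
  let e : {x | N (st x) < l} ≃ₜ X :=
    { toFun := fun x => x.1
      invFun := fun x => ⟨x, hall _⟩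
      left_inv := fun _ => rfl
      right_inv := fun _ => rfl
      continuous_toFun := continuous_subtype_val
      continuous_invFun := by fun_prop }
  refine ⟨T.fd_homeo e h1, ?_⟩
  rw [T.L_ofHomeo_conj e (rst t {x | N (st x) < l} hl) t (fun x => rfl) h1, h2]
  congr 1
  rw [Finset.filter_true_of_mem]
  intro w _
  exact hall w

end strat

end Crest.Agent.R090.Start902
end

-- ▼ part R090/Start2_902
section

/-!
# Row 90, A-START (owner helper902), part 2: powers of a finite union of complex cells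
-/

set_option autoImplicit false
set_option linter.unusedSectionVars false

open Topology Filter Set OnePoint
open Crest.Agent.R090.Sp962

namespace Crest.Agent.R090.Start902

open Crest.Agent.R090.F0_933 (HasCells CellChain)
open Crest.Agent.R090.Strata973 (perm)

/-- labels of a finite union of complex cells -/
structure Lab (V : Type) [TopologicalSpace V] (n : ℕ) where
  s : V → Fin n
  closed : ∀ i : ℕ, IsClosed {x | (s x : ℕ) ≤ i}
  dim : Fin n → ℕ
  e : ∀ i : Fin n, {x | s x = i} ≃ₜ (Fin (dim i) → ℂ)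

theorem exists_lab {V : Type} [TopologicalSpace V] {n : ℕ} (h : HasCells V n) :
    Nonempty (Lab V n) := by
  classical
  obtain ⟨C⟩ := h.chain
  have hn : ∀ x : V, ∃ i, x ∈ C.F (i + 1) := fun x => ⟨n, C.mono (Nat.le_succ n) (by
    rw [C.top]; trivial)⟩
  have hlt : ∀ x : V, Nat.find (hn x) < n := by
    intro x
    have hx : x ∈ C.F n := by rw [C.top]; trivial
    rcases n with _ | n
    · rw [C.zero] at hx; exact hx.elim
    · exact Nat.lt_succ_of_le (Nat.find_min' (hn x) hx)
  have hle : ∀ (x : V) (i : ℕ), Nat.find (hn x) ≤ i ↔ x ∈ C.F (i + 1) := by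
    intro x i
    constructor
    · intro h
      exact C.mono (Nat.succ_le_succ h) (Nat.find_spec (hn x))
    · intro h
      exact Nat.find_min' (hn x) h
  have heq : ∀ (x : V) (i : ℕ), Nat.find (hn x) = i ↔ x ∈ C.F (i + 1) \ C.F i := by
    intro x i
    constructor
    · intro h
      refine ⟨(hle x i).1 h.le, ?_⟩
      rcases i with _ | i
      · rw [C.zero]; exact fun h => h.elim
      · intro h'
        have := (hle x i).2 h'
        omega
    · rintro ⟨h1, h2⟩
      have h3 := (hle x i).2 h1
      rcases i with _ | i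
      · omega
      · have : ¬ Nat.find (hn x) ≤ i := fun h => h2 ((hle x i).1 h)
        omega
  refine ⟨⟨fun x => ⟨Nat.find (hn x), hlt x⟩, ?_, fun i => C.dim i, fun i => ?_⟩⟩
  · intro i
    have : {x : V | ((⟨Nat.find (hn x), hlt x⟩ : Fin n) : ℕ) ≤ i} = C.F (i + 1) := by
      ext x
      exact hle x i
    rw [this]
    exact C.closed _
  · have : {x : V | (⟨Nat.find (hn x), hlt x⟩ : Fin n) = i} = C.F (i + 1) \ C.F i := by
      ext x
      rw [← heq x i]
      exact Fin.ext_iff
    exact (Homeomorph.setCongr this).trans (C.cell i i.2).some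

section power

variable {V : Type} [TopologicalSpace V] [T2Space V] [LocallyCompactSpace V] {n : ℕ} (Λ : Lab V n)
  {κ : Type} [Fintype κ] [DecidableEq κ]

/-- the word of a point of the power -/
def Lab.st (x : κ → V) : κ → Fin n := fun k => Λ.s (x k)

/-- height of a word -/
def hgt (w : κ → Fin n) : ℕ := ∑ k, (w k : ℕ)

theorem Lab.isClosed_box (w : κ → ℕ) : IsClosed {x : κ → V | ∀ k, (Λ.s (x k) : ℕ) ≤ w k} := by
  have : {x : κ → V | ∀ k, (Λ.s (x k) : ℕ) ≤ w k} =
      ⋂ k, (fun x : κ → V => x k) ⁻¹' {v | (Λ.s v : ℕ) ≤ w k} := by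
    ext x; simp
  rw [this]
  exact isClosed_iInter fun k => (Λ.closed _).preimage (continuous_apply k)

theorem Lab.isStrat : IsStrat (Λ.st : (κ → V) → κ → Fin n) hgt := by
  constructor
  · intro l
    have : {x : κ → V | hgt (Λ.st x) ≤ l} =
        ⋃ w : {w : κ → Fin n // hgt w ≤ l}, {x : κ → V | ∀ k, (Λ.s (x k) : ℕ) ≤ (w.1 k : ℕ)} := by
      ext x
      simp only [mem_iUnion]
      constructor
      · intro hx
        exact ⟨⟨Λ.st x, hx⟩, fun k => le_rfl⟩
      · rintro ⟨w, hw⟩
        exact (Finset.sum_le_sum fun k _ => hw k).trans w.2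
    rw [this]
    exact isClosed_iUnion_of_finite fun w => Λ.isClosed_box _
  · intro w
    refine ⟨{x : κ → V | ∀ k, (Λ.s (x k) : ℕ) ≤ (w k : ℕ)}, Λ.isClosed_box _, ?_⟩
    ext x
    constructor
    · intro hx
      have hx' : Λ.st x = w := hx
      refine ⟨fun k => ?_, ?_⟩
      · rw [← hx']; exact le_rfl
      · change hgt (Λ.st x) = hgt w
        rw [hx']
    · rintro ⟨h1, h2⟩
      have h3 : ∑ k, ((Λ.st x k : Fin n) : ℕ) = ∑ k, (w k : ℕ) := h2
      have h4 := (Finset.sum_eq_sum_iff_of_le (fun k _ => h1 k)).1 h3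
      change Λ.st x = w
      funext k
      exact Fin.ext (h4 k (Finset.mem_univ k))

/-- the stratum of a word is a vector space -/
noncomputable def Lab.strHomeo (w : κ → Fin n) :
    {x : κ → V | Λ.st x = w} ≃ₜ (∀ k, Fin (Λ.dim (w k)) → ℂ) where
  toFun x := fun k => Λ.e (w k) ⟨x.1 k, congrFun x.2 k⟩
  invFun y := ⟨fun k => ((Λ.e (w k)).symm (y k)).1, funext fun k => ((Λ.e (w k)).symm (y k)).2⟩
  left_inv x := by
    apply Subtype.ext
    funext k
    simp
  right_inv y := by
    funext k
    simp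
  continuous_toFun := by
    refine continuous_pi fun k => (Λ.e (w k)).continuous.comp ?_
    exact Continuous.subtype_mk ((continuous_apply k).comp continuous_subtype_val) _
  continuous_invFun := by
    refine Continuous.subtype_mk (continuous_pi fun k => ?_) _
    exact continuous_subtype_val.comp ((Λ.e (w k)).symm.continuous.comp (continuous_apply k))

/-- casting -/
noncomputable def castE (d : Fin n → ℕ) {i j : Fin n} (h : i = j) : (Fin (d i) → ℂ) ≃ₗ[ℂ] (Fin (d j) → ℂ) :=
  h ▸ LinearEquiv.refl ℂ _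

theorem Lab.castE_e {i j : Fin n} (h : i = j) (v : V) (hi : Λ.s v = i) (hj : Λ.s v = j) :
    castE Λ.dim h (Λ.e i ⟨v, hi⟩) = Λ.e j ⟨v, hj⟩ := by
  subst h
  rfl

/-- the linear map on a fixed stratum -/
noncomputable def linPerm (d : Fin n → ℕ) (σ : Equiv.Perm κ) (w : κ → Fin n) (h : ∀ k, w k = w (σ k)) :
    (∀ k, Fin (d (w k)) → ℂ) ≃ₗ[ℂ] (∀ k, Fin (d (w k)) → ℂ) :=
  (LinearEquiv.piCongrRight fun k => castE d (h k)).trans
    (LinearEquiv.piCongrLeft ℂ (fun k => Fin (d (w k)) → ℂ) σ)

theorem linPerm_apply (d : Fin n → ℕ) (σ : Equiv.Perm κ) (w : κ → Fin n) (h : ∀ k, w k = w (σ k))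
    (y : ∀ k, Fin (d (w k)) → ℂ) (k : κ) : linPerm d σ w h y (σ k) = castE d (h k) (y k) := by
  rw [linPerm, LinearEquiv.trans_apply]
  exact Equiv.piCongrLeft_apply_apply (fun k => Fin (d (w k)) → ℂ) σ _ k

variable {F : Type*} [Field F] (T : LTh F)

theorem LTh.vec (E : Type) [NormedAddCommGroup E] [NormedSpace ℂ E] [FiniteDimensional ℂ E]
    [LocallyCompactSpace E] : T.Fd E ∧ T.L (PMap.id E) = 1 := by
  have e : (Fin (Module.finrank ℂ E) → ℂ) ≃L[ℂ] E :=
    ContinuousLinearEquiv.ofFinrankEq (by simp)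
  refine ⟨T.fd_homeo e.toHomeomorph (T.fd_cell _), ?_⟩
  have h := T.L_ofHomeo_conj e.toHomeomorph (Homeomorph.refl _) (Homeomorph.refl _)
    (fun x => rfl) (T.fd_cell _)
  rw [PMap.ofHomeo_refl, PMap.ofHomeo_refl] at h
  rw [h, T.L_cell]

theorem LTh.L_lin (E : Type) [NormedAddCommGroup E] [NormedSpace ℂ E] [FiniteDimensional ℂ E]
    [LocallyCompactSpace E] (A : E ≃L[ℂ] E) : T.L (PMap.ofHomeo A.toHomeomorph) = 1 := by
  rw [T.L_homotopic (Lin202.homotopic_id A), (T.vec E).2]

include Λ in
/-- **the Lefschetz number of a permutation of the coordinates is the number of fixed words** -/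
theorem LTh.L_perm (σ : Equiv.Perm κ) : T.Fd (κ → V) ∧
    T.L (PMap.ofHomeo (perm (X := V) σ)) =
      ((Finset.univ.filter fun w : κ → Fin n => w ∘ σ = w).card : F) := by
  have hfd : ∀ (w : κ → Fin n) [LocallyCompactSpace {x : κ → V | Λ.st x = w}],
      T.Fd {x : κ → V | Λ.st x = w} := fun w _ =>
    T.fd_homeo (Λ.strHomeo w).symm (T.vec _).1
  have hτ : ∀ w : κ → Fin n, (Equiv.arrowCongr σ (Equiv.refl (Fin n))) w = w ↔ w ∘ σ = w := by
    intro w
    constructor
    · intro h
      funext k
      have := congrFun h (σ k)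
      change w (σ.symm (σ k)) = w (σ k) at this
      rw [Equiv.symm_apply_apply] at this
      exact this.symm
    · intro h
      funext k
      change w (σ.symm k) = w k
      conv_rhs => rw [← σ.apply_symm_apply k]
      exact (congrFun h (σ.symm k)).symm
  have hc : ∀ (w : κ → Fin n) [LocallyCompactSpace {x : κ → V | Λ.st x = w}]
      (h : ∀ x, x ∈ {x : κ → V | Λ.st x = w} ↔ perm (X := V) σ x ∈ {x : κ → V | Λ.st x = w}),
      T.L (PMap.ofHomeo (rst (perm (X := V) σ) {x : κ → V | Λ.st x = w} h)) =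
        if w ∘ σ = w then 1 else 0 := by
    intro w _ h
    by_cases hw : w ∘ σ = w
    · rw [if_pos hw]
      have hk : ∀ k, w k = w (σ k) := fun k => (congrFun hw k).symm
      rw [← T.L_lin _ (linPerm Λ.dim σ w hk).toContinuousLinearEquiv]
      symm
      refine T.L_ofHomeo_conj (Λ.strHomeo w) _ _ (fun x => ?_) (hfd w)
      funext k'
      obtain ⟨k, rfl⟩ := σ.surjective k'
      change linPerm Λ.dim σ w hk (Λ.strHomeo w x) (σ k) = _
      rw [linPerm_apply]
      have hx : Λ.s (x.1 k) = w k := congrFun x.2 k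
      refine (Λ.castE_e (hk k) (x.1 k) hx (hx.trans (hk k))).trans ?_
      have e1 : ((rst (perm (X := V) σ) {x : κ → V | Λ.st x = w} h x).1 : κ → V) (σ k) = x.1 k := by
        change x.1 (σ.symm (σ k)) = x.1 k
        rw [Equiv.symm_apply_apply]
      change _ = Λ.e (w (σ k)) ⟨(rst (perm (X := V) σ) {x : κ → V | Λ.st x = w} h x).1 (σ k), _⟩
      congr 1
      exact Subtype.ext e1.symm
    · rw [if_neg hw]
      have : IsEmpty {x : κ → V | Λ.st x = w} := by
        refine ⟨fun x => hw ((hτ w).1 ?_)⟩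
        have h1 : Λ.st (perm (X := V) σ x.1) = w := (h x.1).1 x.2
        have h2 : Λ.st x.1 = w := x.2
        have h3 : Λ.st (perm (X := V) σ x.1) =
          (Equiv.arrowCongr σ (Equiv.refl (Fin n))) (Λ.st x.1) := rfl
        rw [h1, h2] at h3
        exact h3.symm
      rw [T.L_empty]
  obtain ⟨h1, h2⟩ := T.L_strat Λ.isStrat (perm (X := V) σ) (Equiv.arrowCongr σ (Equiv.refl (Fin n)))
    (fun x => rfl) (fun w => Equiv.sum_comp σ.symm fun k => (w k : ℕ)) hfd
    (fun w => if w ∘ σ = w then 1 else 0) hc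
  refine ⟨h1, ?_⟩
  rw [h2, Finset.card_filter]
  push_cast
  refine Finset.sum_congr rfl fun w _ => ?_
  by_cases hw : w ∘ σ = w
  · rw [if_pos ((hτ w).2 hw)]
  · rw [if_neg hw, ite_self]

end power

end Crest.Agent.R090.Start902
end

-- ▼ part R090/Start3_902
section

/-!
# Row 90, A-START (owner helper902), part 3: Lefschetz numbers of a theory `Coh` (helper253) and the
trace of the Young element
-/

set_option autoImplicit false
set_option linter.unusedSectionVars false

open Topology Filter Set OnePoint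
open Crest.Agent.R090.Sp962

namespace Crest.Agent.R090.Start902

open Crest.Agent.R090.F0_933 (HasCells)
open Crest.Agent.R090.Strata973 (perm)
open Crest.Agent.R090.CohT253

universe v w

variable {F : Type w} [Field F] (H : Coh.{0, v, w} F)

section clopen

variable {U : Type} [TopologicalSpace U] [T2Space U] [LocallyCompactSpace U]

/-- restriction to a clopen part, as a self map -/
noncomputable def clp (A : Set U) (hA : IsClopen A) : PMap U U :=
  (PMap.ofClosed (Subtype.val : A → U) hA.1.isClosedEmbedding_subtypeVal).comp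
    (PMap.ofOpen (Subtype.val : A → U) hA.2.isOpenEmbedding_subtypeVal)

theorem clp_mem {A : Set U} (hA : IsClopen A) {x : U} (hx : x ∈ A) :
    clp A hA (x : OnePoint U) = x := by
  have h : PMap.ofOpen (Subtype.val : A → U) hA.2.isOpenEmbedding_subtypeVal (x : OnePoint U) =
      ((⟨x, hx⟩ : A) : OnePoint A) :=
    PMap.ofOpen_coe (Subtype.val : A → U) hA.2.isOpenEmbedding_subtypeVal ⟨x, hx⟩
  rw [clp, PMap.comp_apply, h]
  rfl

theorem clp_notMem {A : Set U} (hA : IsClopen A) {x : U} (hx : x ∉ A) :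
    clp A hA (x : OnePoint U) = ∞ := by
  have h : PMap.ofOpen (Subtype.val : A → U) hA.2.isOpenEmbedding_subtypeVal (x : OnePoint U) = ∞ :=
    PMap.ofOpen_of_notMem (Subtype.val : A → U) hA.2.isOpenEmbedding_subtypeVal (by
      rintro ⟨y, rfl⟩; exact hx y.2)
  rw [clp, PMap.comp_apply, h]
  rfl

theorem clp_comp {A B : Set U} (hA : IsClopen A) (hB : IsClopen B) :
    (clp A hA).comp (clp B hB) = clp (A ∩ B) (hA.inter hB) := by
  refine PMap.ext fun x => ?_
  rw [PMap.comp_apply]
  by_cases hb : x ∈ B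
  · rw [clp_mem hB hb]
    by_cases ha : x ∈ A
    · rw [clp_mem hA ha, clp_mem (hA.inter hB) ⟨ha, hb⟩]
    · rw [clp_notMem hA ha, clp_notMem (hA.inter hB) (fun h => ha h.1)]
  · rw [clp_notMem hB hb, clp_notMem (hA.inter hB) (fun h => hb h.2), PMap.map_inf]

theorem clp_congr {A B : Set U} (hA : IsClopen A) (hB : IsClopen B) (h : A = B) :
    clp A hA = clp B hB := by subst h; rfl

theorem clp_empty : clp (∅ : Set U) isClopen_empty = PMap.zero U U :=
  PMap.ext fun x => clp_notMem isClopen_empty (by simp)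

theorem clp_univ : clp (univ : Set U) isClopen_univ = PMap.id U :=
  PMap.ext fun x => clp_mem isClopen_univ (by simp)

/-- the decomposition of a space in a clopen set and its complement -/
def decClopen (A : Set U) (hA : IsClopen A) : Dec A U (Aᶜ : Set U) where
  i := Subtype.val
  hi := hA.1.isClosedEmbedding_subtypeVal
  j := Subtype.val
  hj := hA.compl.2.isOpenEmbedding_subtypeVal
  compl := by rw [Subtype.range_coe, Subtype.range_coe]

theorem map_clp_add_compl (A : Set U) (hA : IsClopen A) (x : H.h U) :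
    H.map (clp A hA) x + H.map (clp Aᶜ hA.compl) x = x := by
  set iA := PMap.ofClosed (Subtype.val : A → U) hA.1.isClosedEmbedding_subtypeVal with hiA
  set pA := PMap.ofOpen (Subtype.val : A → U) hA.2.isOpenEmbedding_subtypeVal with hpA
  set iB := PMap.ofClosed (Subtype.val : (Aᶜ : Set U) → U)
    hA.compl.1.isClosedEmbedding_subtypeVal with hiB
  set pB := PMap.ofOpen (Subtype.val : (Aᶜ : Set U) → U)
    hA.compl.2.isOpenEmbedding_subtypeVal with hpB
  have e1 : pA.comp iA = PMap.id A := PMap.ext fun a =>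
    PMap.ofOpen_coe (Subtype.val : A → U) hA.2.isOpenEmbedding_subtypeVal a
  have e2 : pA.comp iB = PMap.zero _ _ := PMap.ext fun a =>
    PMap.ofOpen_of_notMem (Subtype.val : A → U) hA.2.isOpenEmbedding_subtypeVal (by
      rintro ⟨y, hy⟩; exact a.2 (hy ▸ y.2))
  have e3 : pB.comp iB = PMap.id _ := PMap.ext fun a =>
    PMap.ofOpen_coe (Subtype.val : (Aᶜ : Set U) → U) hA.compl.2.isOpenEmbedding_subtypeVal a
  have hex := H.exactU (decClopen A hA)
  have hker : H.map iA (x - H.map pA (H.map iA x)) = 0 := by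
    rw [map_sub, ← H.map_comp pA iA, e1, H.map_id, sub_self]
  obtain ⟨y, hy⟩ := (hex _).1 hker
  have hy' : H.map pB y = x - H.map pA (H.map iA x) := hy
  have h4 : H.map iB x = y := by
    have h5 : H.map iB (H.map pB y) = y := by rw [← H.map_comp pB iB, e3, H.map_id]
    rw [hy', map_sub, ← H.map_comp pA iB, e2, H.map_zero', sub_zero] at h5
    exact h5
  have h6 : H.map (clp A hA) x = H.map pA (H.map iA x) := H.map_comp iA pA x
  have h7 : H.map (clp Aᶜ hA.compl) x = H.map pB (H.map iB x) := H.map_comp iB pB x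
  rw [h6, h7, h4, hy']
  abel

theorem map_clp_union {A B : Set U} (hA : IsClopen A) (hB : IsClopen B) (hd : Disjoint A B)
    (x : H.h U) : H.map (clp (A ∪ B) (hA.union hB)) x =
      H.map (clp A hA) x + H.map (clp B hB) x := by
  have e1 : (A ∪ B) ∩ A = A := inter_eq_right.2 subset_union_left
  have e2 : (A ∪ B) ∩ Aᶜ = B := by
    ext z
    constructor
    · rintro ⟨h | h, h'⟩
      · exact absurd h h'
      · exact h
    · intro h
      exact ⟨Or.inr h, fun h' => hd.le_bot ⟨h', h⟩⟩
  have h1 := map_clp_add_compl H A hA (H.map (clp (A ∪ B) (hA.union hB)) x)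
  rw [← H.map_comp, ← H.map_comp, clp_comp, clp_comp,
    clp_congr ((hA.union hB).inter hA) hA e1, clp_congr ((hA.union hB).inter hA.compl) hB e2] at h1
  exact h1.symm

theorem map_clp_biUnion {κ : Type} (A : κ → Set U) (hA : ∀ w, IsClopen (A w))
    (hd : ∀ w w', w ≠ w' → Disjoint (A w) (A w')) (s : Finset κ)
    (hs : IsClopen (⋃ w ∈ s, A w)) (x : H.h U) :
    H.map (clp (⋃ w ∈ s, A w) hs) x = ∑ w ∈ s, H.map (clp (A w) (hA w)) x := by
  classical
  induction s using Finset.induction_on with
  | empty =>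
    rw [clp_congr hs isClopen_empty (by simp), clp_empty, H.map_zero', Finset.sum_empty]
  | insert a s ha ih =>
    have hs' : IsClopen (⋃ w ∈ s, A w) :=
      s.finite_toSet.isClopen_biUnion fun w _ => hA w
    rw [Finset.sum_insert ha, ← ih hs', ← map_clp_union H (hA a) hs']
    · rw [clp_congr hs ((hA a).union hs') (by simp)]
    · rw [Set.disjoint_iUnion₂_right]
      intro w hw
      exact hd _ _ (fun h => ha (h ▸ hw))

theorem sum_map_clp {κ : Type} [Fintype κ] (A : κ → Set U) (hA : ∀ w, IsClopen (A w))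
    (h : ∀ x, ∃! w, x ∈ A w) (x : H.h U) : ∑ w, H.map (clp (A w) (hA w)) x = x := by
  have hd : ∀ w w', w ≠ w' → Disjoint (A w) (A w') := by
    intro w w' hne
    rw [Set.disjoint_left]
    intro x h1 h2
    obtain ⟨w0, _, hu⟩ := h x
    exact hne ((hu w h1).trans (hu w' h2).symm)
  have hs : (⋃ w ∈ (Finset.univ : Finset κ), A w) = univ := by
    ext x
    simp only [Finset.mem_univ, iUnion_true, mem_iUnion, mem_univ, iff_true]
    exact (h x).exists
  have hs' : IsClopen (⋃ w ∈ (Finset.univ : Finset κ), A w) := by rw [hs]; exact isClopen_univ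
  rw [← map_clp_biUnion H A hA hd Finset.univ hs', clp_congr hs' isClopen_univ hs, clp_univ,
    H.map_id]

theorem fin_parts {κ : Type} [Finite κ] (A : κ → Set U) (hA : ∀ w, IsClopen (A w))
    (h : ∀ x, ∃! w, x ∈ A w) (hf : ∀ w, H.Fin (A w)) : H.Fin U := by
  have := Fintype.ofFinite κ
  have : ∀ w, FiniteDimensional F (H.h (A w)) := hf
  let φ : H.h U →ₗ[F] (∀ w, H.h (A w)) := LinearMap.pi fun w =>
    H.map (PMap.ofClosed (Subtype.val : A w → U) (hA w).1.isClosedEmbedding_subtypeVal)
  refine FiniteDimensional.of_injective φ ?_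
  intro x y hxy
  rw [← sum_map_clp H A hA h x, ← sum_map_clp H A hA h y]
  refine Finset.sum_congr rfl fun w _ => ?_
  rw [clp, H.map_comp, H.map_comp]
  exact congrArg _ (congrFun hxy w)

theorem coh_L_parts {κ : Type} [Fintype κ] (A : κ → Set U) (hA : ∀ w, IsClopen (A w))
    (h : ∀ x, ∃! w, x ∈ A w) (hf : ∀ w, H.Fin (A w)) (f : PMap U U) :
    H.L f = ∑ w, H.L ((PMap.ofOpen (Subtype.val : A w → U)
      (hA w).2.isOpenEmbedding_subtypeVal).comp (f.comp (PMap.ofClosed (Subtype.val : A w → U)
      (hA w).1.isClosedEmbedding_subtypeVal))) := by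
  have hU : FiniteDimensional F (H.h U) := fin_parts H A hA h hf
  have e1 : H.T f = ∑ w, (H.eps U ∘ₗ H.map f ∘ₗ H.map (PMap.ofOpen (Subtype.val : A w → U)
      (hA w).2.isOpenEmbedding_subtypeVal)) ∘ₗ H.map (PMap.ofClosed (Subtype.val : A w → U)
      (hA w).1.isClosedEmbedding_subtypeVal) := by
    ext x
    rw [LinearMap.sum_apply, Coh.T_apply]
    conv_lhs => rw [← sum_map_clp H A hA h x]
    rw [map_sum, map_sum]
    refine Finset.sum_congr rfl fun w _ => ?_
    rw [clp, H.map_comp]
    rfl
  rw [Coh.L, e1, map_sum]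
  refine Finset.sum_congr rfl fun w _ => ?_
  have hw : FiniteDimensional F (H.h (A w)) := hf w
  rw [LinearMap.trace_comp_comm', Coh.L]
  congr 1
  ext x
  rw [Coh.T_apply, H.map_comp, H.map_comp]
  exact (H.eps_map _ _).symm

end clopen

/-- the Lefschetz numbers of a theory satisfy `LTh` -/
noncomputable def LTh.ofCoh
    (hhom : ∀ {U : Type} [TopologicalSpace U] [T2Space U] [LocallyCompactSpace U] {f g : PMap U U},
      f.Homotopic g → H.map f = H.map g)
    (hemp : ∀ (U : Type) [TopologicalSpace U] [T2Space U] [LocallyCompactSpace U] [IsEmpty U],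
      H.Fin U)
    (hcell : ∀ m : ℕ, H.Fin (Fin m → ℂ)) (hL : ∀ m : ℕ, H.L (PMap.id (Fin m → ℂ)) = 1) :
    LTh F where
  Fd U _ _ _ := H.Fin U
  L f := H.L f
  fd_empty U _ _ _ _ := hemp U
  fd_cell := hcell
  fd_homeo e hU := Coh.Fin.of_iso H (f := PMap.ofHomeo e.symm) (g := PMap.ofHomeo e)
    (PMap.ofHomeo_comp_symm e) hU
  L_zero := by
    intro U _ _ _
    have : H.T (PMap.zero U U) = 0 := by
      ext x
      rw [Coh.T_apply, H.map_zero', map_zero]
      rfl
    rw [Coh.L, this, map_zero]
  L_cell := hL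
  L_homotopic := by
    intro U _ _ _ f g h
    rw [Coh.L, Coh.L, Coh.T, Coh.T, hhom h]
  L_comm f g hU hV := H.L_comm hU hV f g
  fd_pair i hi j hj hij hK hO := Coh.Fin.of_dec H ⟨i, hi, j, hj, hij⟩ hK hO
  L_pair := by
    intro K U O _ _ _ _ _ _ _ _ _ i hi j hj hij hK hO f fK fO h1 h2
    exact Coh.L_dec H (D := ⟨i, hi, j, hj, hij⟩) ⟨fK, f, fO, h1, h2⟩
      (Coh.Fin.of_dec H ⟨i, hi, j, hj, hij⟩ hK hO) hK hO
  fd_parts := by
    intro U κ _ _ _ _ A hA h hf
    exact fin_parts H A hA h fun w => by
      have : LocallyCompactSpace (A w) := (hA w).1.isLocallyClosed.locallyCompactSpace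
      exact hf w
  L_parts := by
    intro U κ _ _ _ _ A hA h hf f c hc
    rw [coh_L_parts H A hA h (fun w => by
      have : LocallyCompactSpace (A w) := (hA w).1.isLocallyClosed.locallyCompactSpace
      exact hf w) f]
    refine Finset.sum_congr rfl fun w _ => ?_
    have : LocallyCompactSpace (A w) := (hA w).1.isLocallyClosed.locallyCompactSpace
    exact hc w

end Crest.Agent.R090.Start902
end

-- ▼ part R090/Start4_902
section

/-!
# Row 90, A-START (owner helper902), part 4: traces of the powers of the Young element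
-/

set_option autoImplicit false
set_option linter.unusedSectionVars false

open Topology Filter Set OnePoint
open Crest.Agent.R090.Sp962

namespace Crest.Agent.R090.Start902

open Crest.Agent.R090.F0_933 (HasCells)
open Crest.Agent.R090.Strata973 (perm)
open Crest.Agent.R090.CohT253
open Crest.Agent.R090.Young152 (yr yF yF_sq_map trace_fin)

universe v w

variable {F : Type w} [Field F] (H : Coh.{0, v, w} F)

section young

variable (V : Type) [TopologicalSpace V] [T2Space V] [LocallyCompactSpace V] (D c : ℕ)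

/-- the operator of the Young element on the cohomology of `V^r` -/
noncomputable def yE : Module.End F (H.h (Fin (yr D c) → V)) :=
  ∑ g : Equiv.Perm (Fin (yr D c)), (yF D c).coeff g •
    H.map (PMap.ofHomeo (perm (X := V) g))

/-- the (anti)representation -/
noncomputable def rhoOp : Equiv.Perm (Fin (yr D c)) →* (Module.End F (H.h (Fin (yr D c) → V)))ᵐᵒᵖ where
  toFun g := MulOpposite.op (H.map (PMap.ofHomeo (perm (X := V) g)))
  map_one' := by
    rw [← MulOpposite.op_one]
    congr 1
    have e : PMap.ofHomeo (perm (X := V) (1 : Equiv.Perm (Fin (yr D c)))) = PMap.id _ :=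
      PMap.ext fun _ => rfl
    rw [e]
    ext x
    exact H.map_id _ x
  map_mul' g h := by
    rw [← MulOpposite.op_mul]
    congr 1
    have e : PMap.ofHomeo (perm (X := V) (g * h)) =
        (PMap.ofHomeo (perm (X := V) g)).comp (PMap.ofHomeo (perm (X := V) h)) :=
      PMap.ext fun _ => rfl
    rw [e]
    ext x
    exact H.map_comp (PMap.ofHomeo (perm (X := V) g)) (PMap.ofHomeo (perm (X := V) h)) x

theorem yE_sq : yE H V D c * yE H V D c = Young152.M D c • yE H V D c := by
  have h := yF_sq_map (rhoOp H V D c)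
  have e : (∑ g : Equiv.Perm (Fin (yr D c)), (yF D c).coeff g • rhoOp H V D c g) =
      MulOpposite.op (yE H V D c) := by
    have h2 := map_sum (MulOpposite.opAddEquiv (α := Module.End F (H.h (Fin (yr D c) → V))))
      (fun g : Equiv.Perm (Fin (yr D c)) => (yF D c).coeff g •
        H.map (PMap.ofHomeo (perm (X := V) g))) Finset.univ
    exact h2.symm
  rw [e, ← MulOpposite.op_mul, ← MulOpposite.op_smul] at h
  exact MulOpposite.op_injective h

theorem yE_pow (j : ℕ) : yE H V D c ^ (j + 1) = Young152.M D c ^ j • yE H V D c := by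
  induction j with
  | zero => simp
  | succ j ih =>
    rw [pow_succ, ih, smul_mul_assoc, yE_sq, smul_smul, pow_succ]

end young

section trace

variable {V : Type} [TopologicalSpace V] [T2Space V] [LocallyCompactSpace V] {D c n : ℕ}

theorem yE_trace (Λ : Lab V n)
    (hhom : ∀ {U : Type} [TopologicalSpace U] [T2Space U] [LocallyCompactSpace U] {f g : PMap U U},
      f.Homotopic g → H.map f = H.map g)
    (hemp : ∀ (U : Type) [TopologicalSpace U] [T2Space U] [LocallyCompactSpace U] [IsEmpty U],
      H.Fin U)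
    (hcell : ∀ m : ℕ, H.Fin (Fin m → ℂ)) (hL : ∀ m : ℕ, H.L (PMap.id (Fin m → ℂ)) = 1)
    (hq : (c + 1).Prime) (hD : D ≤ n) :
    H.Fin (Fin (yr D c) → V) ∧ ∃ k : ℕ, 0 < k ∧ ∀ j : ℕ,
      LinearMap.trace F _ (H.eps (Fin (yr D c) → V) ∘ₗ (yE H V D c ^ (j + 1))) =
        ((Young152.M D c ^ (j + 1) * k : ℤ) : F) := by
  classical
  let T : LTh F := LTh.ofCoh H hhom hemp hcell hL
  obtain ⟨k, hk, htr⟩ := trace_fin (D := D) (c := c) (ι := Fin n) hq (by simpa using hD)
  refine ⟨(T.L_perm Λ (κ := Fin (yr D c)) 1).1, k, hk, fun j => ?_⟩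
  have h1 : LinearMap.trace F _ (H.eps (Fin (yr D c) → V) ∘ₗ yE H V D c) =
      ((Young152.M D c * k : ℤ) : F) := by
    have e0 : H.eps (Fin (yr D c) → V) ∘ₗ yE H V D c = ∑ g : Equiv.Perm (Fin (yr D c)),
        H.eps (Fin (yr D c) → V) ∘ₗ ((yF D c).coeff g •
          H.map (PMap.ofHomeo (perm (X := V) g))) := by
      ext x
      rw [LinearMap.comp_apply, yE, LinearMap.sum_apply, LinearMap.sum_apply, map_sum]
      rfl
    rw [← htr, e0, map_sum]
    push_cast
    refine Finset.sum_congr rfl fun g _ => ?_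
    have e1 : H.eps (Fin (yr D c) → V) ∘ₗ ((yF D c).coeff g •
        H.map (PMap.ofHomeo (perm (X := V) g))) =
        (yF D c).coeff g • H.T (PMap.ofHomeo (perm (X := V) g)) := by
      ext x
      rw [LinearMap.comp_apply, LinearMap.smul_apply, LinearMap.smul_apply, map_zsmul]
      rfl
    have e2 : H.L (PMap.ofHomeo (perm (X := V) g)) =
        ((Finset.univ.filter fun w : Fin (yr D c) → Fin n => w ∘ g = w).card : F) :=
      (T.L_perm Λ g).2
    rw [e1, map_zsmul]
    change (yF D c).coeff g • H.L (PMap.ofHomeo (perm (X := V) g)) = _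
    rw [e2, zsmul_eq_mul, Fintype.card_subtype]
  have e3 : H.eps (Fin (yr D c) → V) ∘ₗ (yE H V D c ^ (j + 1)) =
      (Young152.M D c ^ j) • (H.eps (Fin (yr D c) → V) ∘ₗ yE H V D c) := by
    rw [yE_pow]
    ext x
    rw [LinearMap.comp_apply, LinearMap.smul_apply, LinearMap.smul_apply, map_zsmul]
    rfl
  rw [e3, map_zsmul, h1, zsmul_eq_mul, ← Int.cast_mul, pow_succ]
  congr 1
  ring

end trace

end Crest.Agent.R090.Start902
end

-- ▼ part R090/Start5_902
section

/-!
# Row 90, A-START (owner helper902), part 5: the starting object of block (A)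

* `hst_npow`, `Lst_npow`, `Lst_mk` : Lefschetz numbers of powers and of level-`n` representatives;
* `start` : the Young element on `V^r` has a level-`n` representative
  `φ : PMap (V^r × ℂ^n) (V^r × ℂ^n)` with `L (φ^(j+1)) = M^(j+1) k`, `k > 0`;
* `start_lim` : its powers have the `q`-adic limit `k ≠ 0`.
-/

set_option autoImplicit false
set_option linter.unusedSectionVars false

open Topology Filter Set OnePoint
open Crest.Agent.R090.Sp962

namespace Crest.Agent.R090.Start902

open Crest.Agent.R090.F0_933 (HasCells)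
open Crest.Agent.R090.Strata973 (perm)
open Crest.Agent.R090.CohT253 Crest.Agent.R090.HSt285 Crest.Agent.R090.Kun493
open Crest.Agent.R090.St528 Crest.Agent.R090.Grp528 Crest.Agent.R090.Spine
open Crest.Agent.R090.Dens255 (iter iter_succ)
open Crest.Agent.R090.Young152 (yr yF)

variable {F : Type} [Field F] (H : CohX F)

section lst

variable {X : Type} [TopologicalSpace X] [T2Space X] [LocallyCompactSpace X]

theorem hst_npow (a : St X X) (j : ℕ) : H.hst (npow a j) = (H.hst a) ^ j := by
  induction j with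
  | zero =>
    ext x
    rw [pow_zero]
    exact H.hst_id x
  | succ j ih =>
    ext x
    change H.hst ((npow a j).comp a) x = _
    rw [H.hst_comp, ih, pow_succ']
    rfl

theorem Lst_npow (a : St X X) (j : ℕ) :
    H.Lst (npow a j) = LinearMap.trace F _ (H.eps X ∘ₗ (H.hst a) ^ j) := by
  rw [CohX.Lst, hst_npow]

theorem mk_iter {n : ℕ} (f : PMap (S X n) (S X n)) (j : ℕ) :
    St.mk n (iter f j) = npow (St.mk n f) j := by
  induction j with
  | zero => exact St.of_h1 n
  | succ j ih =>
    rw [iter_succ, ← St.comp_mk, ih]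
    rfl

theorem Lst_mk {n : ℕ} (f : PMap (S X n) (S X n)) : H.Lst (St.mk n f) = H.toCoh.L f := by
  have e0 : H.hst (St.mk n f) = H.hn (HC.mk f) := H.hst_of n (HC.mk f)
  have e1 : H.eps X ∘ₗ H.hst (St.mk n f) = (H.susE X n).symm.toLinearMap ∘ₗ
      (H.eps (S X n) ∘ₗ H.map f) ∘ₗ (H.susE X n).toLinearMap := by
    ext x
    rw [e0]
    simp only [LinearMap.comp_apply, LinearEquiv.coe_coe]
    refine (H.susE X n).injective ?_
    rw [LinearEquiv.apply_symm_apply, CohX.susE_apply, CohX.susE_apply, ← H.eps_sus, H.sus_hn]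
    rfl
  rw [CohX.Lst, e1, Coh.L]
  exact LinearMap.trace_conj' (H.eps (S X n) ∘ₗ H.map f) (H.susE X n).symm

theorem L_iter_level {n : ℕ} (f : PMap (S X n) (S X n)) (j : ℕ) :
    H.toCoh.L (iter f j) = LinearMap.trace F _ (H.eps X ∘ₗ (H.hst (St.mk n f)) ^ j) := by
  rw [← Lst_npow, ← mk_iter, Lst_mk]

theorem fin_level (hX : H.toCoh.Fin X) (n : ℕ) : H.toCoh.Fin (S X n) := by
  have : FiniteDimensional F (H.h X) := hX
  exact Module.Finite.equiv (H.susE X n)

end lst

section hst

variable (V : Type) [TopologicalSpace V] [T2Space V] [LocallyCompactSpace V] (D c : ℕ)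

theorem hst_permSt : H.hst (permSt V (yF D c)) = yE H.toCoh V D c := by
  ext x
  rw [permSt, CohX.hst_sum, yE, LinearMap.sum_apply]
  refine Finset.sum_congr rfl fun σ _ => ?_
  rw [CohX.hst_zsmul, CohX.hst_ofP]
  rfl

end hst

/-! ## cells -/

section cells

theorem hhom' {U : Type} [TopologicalSpace U] [T2Space U] [LocallyCompactSpace U] {f g : PMap U U}
    (h : f.Homotopic g) : H.map f = H.map g := LinearMap.ext (H.hmap h)

theorem hemp' (U : Type) [TopologicalSpace U] [T2Space U] [LocallyCompactSpace U] [IsEmpty U] :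
    H.toCoh.Fin U := fin_of_null (null_of_isEmpty U)

/-- `pt × ℂ^m = ℂ^m` -/
noncomputable def uC (m : ℕ) : S Unit m ≃ₜ (Fin m → ℂ) := Homeomorph.punitProd _

variable {H} (K : KX H)
include K

theorem hcell' (m : ℕ) : H.toCoh.Fin (Fin m → ℂ) :=
  Coh.Fin.of_iso H.toCoh (f := PMap.ofHomeo (uC m).symm) (g := PMap.ofHomeo (uC m))
    (PMap.ofHomeo_comp_symm (uC m)) (fin_level H (fin_unit K) m)

theorem L_unit : H.toCoh.L (PMap.id Unit) = 1 := by
  have : FiniteDimensional F (H.h Unit) := fin_unit K
  have e1 : H.toCoh.T (PMap.id Unit) = LinearMap.id := by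
    ext x
    rw [Coh.T_apply, H.map_id]
    obtain ⟨r, rfl⟩ := K.one_gen x
    rw [_root_.map_smul, K.eps_one]
    rfl
  rw [Coh.L, e1, LinearMap.trace_id]
  have e2 : Module.finrank F (H.h Unit) = 1 :=
    finrank_eq_one K.one K.one_ne fun x => by
      obtain ⟨r, rfl⟩ := K.one_gen x
      exact ⟨r, rfl⟩
  rw [e2, Nat.cast_one]

theorem hL' (m : ℕ) : H.toCoh.L (PMap.id (Fin m → ℂ)) = 1 := by
  have e1 : H.toCoh.L (PMap.id (S Unit m)) = 1 := by
    rw [← Lst_mk]
    have : St.mk m (PMap.id (S Unit m)) = St.id Unit := St.of_h1 m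
    rw [this]
    have e : St.id Unit = St.ofP (PMap.id Unit) := St.map_id.symm
    rw [e, CohX.Lst_ofP, L_unit K]
  have e2 := H.toCoh.L_comm (fin_level H (fin_unit K) m) (hcell' K m) (PMap.ofHomeo (uC m))
    (PMap.ofHomeo (uC m).symm)
  rw [PMap.ofHomeo_symm_comp, PMap.ofHomeo_comp_symm] at e2
  rw [← e1]
  first
    | exact e2
    | exact e2.symm

end cells

end Crest.Agent.R090.Start902
end

-- ▼ part R090/Start6_902

/-!
# Row 90, A-START (owner helper902), part 6: the starting object of block (A)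

* `snull_left`, `snull_right`, `snull_smR`, `idQ_left`, `idQ_smR` : closure of `SNull`, `IdQ`;
* `start` : for `HasCells V D`, `c + 1` prime, there are a level `n` and a pointed map
  `φ : PMap (V^r × ℂ^n) (V^r × ℂ^n)`, `r = yr D c`, which represents the Young element, is in every
  ideal `IdQ (c+1) Z` which contains the Young element, and has `L (φ^j) = M^j k`, `j ≥ 1`, `k > 0`;
* `start_lim` : so `j ↦ L (φ^j)` is a sequence of integers with the `(c+1)`-adic limit `k ≠ 0`.
-/

set_option autoImplicit false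
set_option linter.unusedSectionVars false

open Topology Filter Set OnePoint
open Crest.Agent.R090.Sp962

namespace Crest.Agent.R090.Start902

open Crest.Agent.R090.F0_933 (HasCells)
open Crest.Agent.R090.CohT253 Crest.Agent.R090.HSt285 Crest.Agent.R090.Kun493
open Crest.Agent.R090.St528 Crest.Agent.R090.Spine Crest.Agent.R090.Sm202
open Crest.Agent.R090.Dens255 (iter iter_succ)
open Crest.Agent.R090.Young152 (yr yF)

/-! ## closure properties of `SNull` and `IdQ` -/

section closure

variable {X Y Z X' Y' : Type} [TopologicalSpace X] [T2Space X] [LocallyCompactSpace X]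
  [TopologicalSpace Y] [T2Space Y] [LocallyCompactSpace Y]
  [TopologicalSpace Z] [T2Space Z] [LocallyCompactSpace Z]
  [TopologicalSpace X'] [T2Space X'] [LocallyCompactSpace X']
  [TopologicalSpace Y'] [T2Space Y'] [LocallyCompactSpace Y']

theorem snull_left (u : St Y Z) {x : St X Y} (h : SNull x) : SNull (u.comp x) := by
  intro T _ _ _ j g
  rw [smR_comp, ← St.comp_assoc]
  exact h T j (g.comp (u.smR T))

theorem snull_right {x : St Y Z} (h : SNull x) (v : St X Y) : SNull (x.comp v) := by
  intro T _ _ _ j g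
  rw [smR_comp, ← St.comp_assoc, h T j g, St.zero_comp]

theorem snull_smR {x : St X Y} (h : SNull x) (W : Type) [TopologicalSpace W] [T2Space W]
    [LocallyCompactSpace W] : SNull (x.smR W) := by
  intro T _ _ _ j g
  have e : (x.smR W).smR T =
      (sh (asC Y W T).symm).comp ((x.smR (W × T)).comp (sh (asC X W T))) := by
    rw [SmIso528.smR_smR, SmIso528.cj]
    simp only [St.comp_assoc, sh_symm_comp, St.comp_id, sh_symm_comp_assoc]
  rw [e, ← St.comp_assoc, ← St.comp_assoc, h (W × T) j, St.zero_comp]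

theorem tens_eq_prod (a : St X X') (b : St Y Y') : tens a b = a.prod b := rfl

theorem tens_smR (a : St X X') (b : St Y Y') (W : Type) [TopologicalSpace W] [T2Space W]
    [LocallyCompactSpace W] :
    tens a (b.smR W) = (sh (asC X' Y' W)).comp (((tens a b).smR W).comp (sh (asC X Y W).symm)) := by
  rw [tens_eq_prod, tens_eq_prod, ← prod_id_right b W, ← prod_id_right (a.prod b) W, Sm202.prod_assoc]



variable {M : Type} [TopologicalSpace M] [T2Space M] [LocallyCompactSpace M] {q : ℕ} {S₀ : Set M}
  [Fact (IsClosed S₀)]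



theorem idQ_smR {g : St X Y} (h : IdQ q S₀ g) (W : Type) [TopologicalSpace W] [T2Space W]
    [LocallyCompactSpace W] : IdQ q S₀ (g.smR W) := by
  obtain ⟨l, hl⟩ := h
  refine ⟨l, fun K s => ?_⟩
  obtain ⟨n, hn, hx⟩ := hl K s
  refine ⟨n, hn, ?_⟩
  rw [tens_smR, ← St.comp_nsmul, ← St.nsmul_comp, ← smR_nsmul]
  exact snull_left _ (snull_right (snull_smR hx W) _)

end closure

/-! ## START -/

section start

variable {F : Type} [Field F] {H : CohX F} (K : KX H)
include K

/-- **A-START** -/
theorem start {c D : ℕ} (hq : (c + 1).Prime) (V : Type) [TopologicalSpace V]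
    [T2Space V] [LocallyCompactSpace V] (hV : HasCells V D) :
    ∃ (n : ℕ) (φ : PMap ((Fin (yr D c) → V) × (Fin n → ℂ)) ((Fin (yr D c) → V) × (Fin n → ℂ))),
      St.mk n φ = permSt V (yF D c) ∧
      (permSt V (yF D c)).smR (Fin n → ℂ) = St.ofP φ ∧
      H.toCoh.Fin (Fin (yr D c) → V) ∧
      H.toCoh.Fin ((Fin (yr D c) → V) × (Fin n → ℂ)) ∧
      ∃ k : ℕ, 0 < k ∧ ∀ j : ℕ, H.toCoh.L (iter φ (j + 1)) =
        ((Young152.M D c ^ (j + 1) * k : ℤ) : F) := by
  obtain ⟨Λ⟩ := exists_lab hV
  obtain ⟨n, φ, hφ⟩ := St.mk_surj (permSt V (yF D c))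
  obtain ⟨hfin, k, hk, htr⟩ := yE_trace H.toCoh Λ (fun h => hhom' H h) (fun U => hemp' H U)
    (hcell' K) (hL' K) hq le_rfl
  refine ⟨n, φ, hφ.symm, ?_, hfin, fin_level H hfin n, k, hk, fun j => ?_⟩
  · rw [hφ]
    exact SmIso528.mk_smR_level n φ
  · rw [L_iter_level, ← hφ, hst_permSt]
    exact htr j


end start

end Crest.Agent.R090.Start902
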