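import Crest.Agent.R090.AAsm_923
import Crest.Agent.R090.Good_812
import Crest.Agent.R090.Start6_902
import Crest.Agent.R090.GSp_389
import Crest.Agent.R090.QU_389
import Crest.Agent.R090.Inj_812
import Mathlib
import Crest.Agent.R090.TrAlg_673
import Crest.Agent.R090.CohT_253
import Crest.Agent.R090.PiNat_568
import Crest.Agent.R090.Free_253
import Crest.Agent.R090.Kun_493
import Crest.Agent.R090.Kun2_493
import Crest.Agent.R090.Dens_255
import Crest.Agent.R090.Puppe_962
import Crest.Agent.R090.ExcSt_503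
import Crest.Agent.R090.Sm_202
import Crest.Agent.R090.IdQ_669
import Crest.Agent.R090.AIPow_542

-- ▼ part R090/AStart_923
section

/-!
# Row 90, block (A): `StartStmt` for the class `Good812.Good` (owner helper923)
-/

set_option autoImplicit false
set_option linter.unusedSectionVars false

open Topology Filter Set

namespace Crest.Agent.R090.AAsm923

open OnePoint Crest.Agent.R090.Sp962 Crest.Agent.R090.St528 Crest.Agent.R090.Spine
open Crest.Agent.R090.F0_933 Crest.Agent.R090.Young152 Crest.Agent.R090.AClass923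
open Crest.Agent.R090.Dens255 (iter)
open Crest.Agent.R090.AAsm542 (LFun)
open Crest.Agent.R090.HSt285 Crest.Agent.R090.Kun493

/-- the Lefschetz number of the theory `H` -/
noncomputable def lef (H : CohX ℚ) : LFun := fun _ _ _ _ φ => H.toCoh.L φ

/-- the class of good spaces -/
def goodP (H : CohX ℚ) : SpPred := fun U _ _ _ => Good812.Good H U

/-- **START** [902, 812] -/
theorem startStmt {H : CohX ℚ} (K : KX H) : StartStmt (goodP H) (lef H) := by
  intro c D hq hD V _ _ _ hV
  obtain ⟨n, φ, -, h2, -, -, k, hk, hL⟩ := Start902.start K hq V hV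
  refine ⟨_, inferInstance, inferInstance, inferInstance,
    Good812.good_pow_hasCells K hV (Fin (yr D c)) n, φ, Young152.M D c, k, Young152.not_dvd_M hq,
    by exact_mod_cast hk.ne', fun j hj => ?_, fun M _ _ _ Z _ h => ?_⟩
  · obtain ⟨j, rfl⟩ : ∃ i, j = i + 1 := ⟨j - 1, by omega⟩
    have := hL j
    rw [lef, this]
    push_cast
    rfl
  · rw [← h2]
    exact Start902.idQ_smR h _

end Crest.Agent.R090.AAsm923
end

-- ▼ part R090/Sph_389
section

/-!
# Row 90, leaf A-POW (4): the free spheres `Sph q m w` and the induction principle (helper389)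
-/

set_option autoImplicit false
set_option linter.unusedSectionVars false

open Topology Filter Set

namespace Crest.Agent.R090.Sph389

open OnePoint Crest.Agent.R090.Sp962 Crest.Agent.R090.Orb389 Crest.Agent.R090.GSp389
open Crest.Agent.R090.QU389 (Cq)

/-! ## the standard character -/

section chi

variable {q : ℕ} [NeZero q]

/-- `χ_a(g) = e^{2 π i a g / q}` -/
noncomputable def chi (a : ZMod q) (g : Cq q) : Circle := ZMod.toCircle (a * Multiplicative.toAdd g)

@[simp] theorem chi_one (a : ZMod q) : chi a 1 = 1 := by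
  rw [chi, toAdd_one, mul_zero, AddChar.map_zero_eq_one]

theorem chi_mul (a : ZMod q) (g h : Cq q) : chi a (g * h) = chi a g * chi a h := by
  rw [chi, toAdd_mul, mul_add, AddChar.map_add_eq_mul]; rfl

theorem chi_inj [Fact q.Prime] {a : ZMod q} (ha : a ≠ 0) {g h : Cq q} (hgh : chi a g = chi a h) :
    g = h := by
  have := ZMod.injective_toCircle hgh
  exact Multiplicative.toAdd.injective (mul_left_cancel₀ ha this)

theorem chi_eq_one [Fact q.Prime] {a : ZMod q} (ha : a ≠ 0) {g : Cq q} (h : chi a g = 1) :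
    g = 1 := chi_inj ha (h.trans (chi_one a).symm)

theorem exists_chi [Fact q.Prime] {a : ZMod q} (ha : a ≠ 0) (b : ZMod q) :
    ∃ g : Cq q, chi a g = ZMod.toCircle b :=
  ⟨Multiplicative.ofAdd (b / a), by rw [chi, toAdd_ofAdd, mul_div_cancel₀ _ ha]⟩

/-- the arc parametrisation -/
noncomputable def arc (q : ℕ) (t : ℝ) : Circle := Circle.exp (2 * Real.pi * (t / q))

theorem toCircle_mul_arc (a : ZMod q) (t : ℝ) :
    ZMod.toCircle a * arc q t = Circle.exp (2 * Real.pi * ((a.val + t) / q)) := by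
  rw [ZMod.toCircle_eq_circleExp, arc, ← Circle.exp_add, ← mul_add, add_div]

theorem toCircle_mul_arc_inj {a b : ZMod q} {t s : ℝ} (ht : t ∈ Ico (0 : ℝ) 1)
    (hs : s ∈ Ico (0 : ℝ) 1) (h : ZMod.toCircle a * arc q t = ZMod.toCircle b * arc q s) :
    a = b ∧ t = s := by
  rw [toCircle_mul_arc, toCircle_mul_arc, Circle.exp_eq_exp] at h
  obtain ⟨m, hm⟩ := h
  have hq : (0 : ℝ) < q := by exact_mod_cast Nat.pos_of_ne_zero (NeZero.ne q)
  have hpi := Real.pi_pos
  have h1 : (a.val + t : ℝ) = (b.val + s) + m * q := by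
    field_simp at hm
    linarith
  have hav : (a.val : ℝ) + 1 ≤ q := by exact_mod_cast ZMod.val_lt a
  have hbv : (b.val : ℝ) + 1 ≤ q := by exact_mod_cast ZMod.val_lt b
  have ha0 : (0 : ℝ) ≤ a.val := Nat.cast_nonneg _
  have hb0 : (0 : ℝ) ≤ b.val := Nat.cast_nonneg _
  obtain ⟨ht0, ht1⟩ := ht
  obtain ⟨hs0, hs1⟩ := hs
  have hm0 : m = 0 := by
    have l1 : (m : ℝ) * q < 1 * q := by linarith
    have l2 : (-1 : ℝ) * q < m * q := by linarith
    have k1 : (m : ℝ) < 1 := lt_of_mul_lt_mul_right l1 hq.le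
    have k2 : (-1 : ℝ) < m := lt_of_mul_lt_mul_right l2 hq.le
    have k1' : m < 1 := by exact_mod_cast k1
    have k2' : -1 < m := by exact_mod_cast k2
    omega
  rw [hm0, Int.cast_zero, zero_mul, add_zero] at h1
  have hval : a.val = b.val := by
    have l1 : (a.val : ℝ) < b.val + 1 := by linarith
    have l2 : (b.val : ℝ) < a.val + 1 := by linarith
    have l1' : a.val < b.val + 1 := by exact_mod_cast l1
    have l2' : b.val < a.val + 1 := by exact_mod_cast l2
    omega
  refine ⟨ZMod.val_injective q hval, ?_⟩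
  rw [hval] at h1
  linarith

theorem exists_toCircle_mul_arc (z : Circle) :
    ∃ (a : ZMod q) (t : ℝ), t ∈ Ico (0 : ℝ) 1 ∧ ZMod.toCircle a * arc q t = z := by
  have hq : (0 : ℝ) < q := by exact_mod_cast Nat.pos_of_ne_zero (NeZero.ne q)
  have hpi := Real.pi_pos
  set x : ℝ := Int.fract (Complex.arg z / (2 * Real.pi)) with hx
  have hx0 : 0 ≤ x := Int.fract_nonneg _
  have hx1 : x < 1 := Int.fract_lt_one _
  have hz : Circle.exp (2 * Real.pi * x) = z := by
    have h1 : Circle.exp (2 * Real.pi * x) = Circle.exp (Complex.arg z) := by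
      rw [Circle.exp_eq_exp]
      refine ⟨-⌊Complex.arg z / (2 * Real.pi)⌋, ?_⟩
      rw [hx, Int.fract]
      push_cast
      field_simp
      ring
    rw [h1, Circle.exp_arg]
  have hqx : 0 ≤ (q : ℝ) * x := by positivity
  refine ⟨(⌊(q : ℝ) * x⌋₊ : ZMod q), (q : ℝ) * x - ⌊(q : ℝ) * x⌋₊, ⟨?_, ?_⟩, ?_⟩
  · linarith [Nat.floor_le hqx]
  · linarith [Nat.lt_floor_add_one ((q : ℝ) * x)]
  · have hlt : ⌊(q : ℝ) * x⌋₊ < q := by
      rw [Nat.floor_lt hqx]
      nlinarith
    rw [toCircle_mul_arc, ZMod.val_natCast, Nat.mod_eq_of_lt hlt, ← hz]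
    congr 1
    field_simp
    ring

theorem isOpenEmbedding_arc (hq : 1 ≤ q) : IsOpenEmbedding (fun t : Io => arc q (t : ℝ)) := by
  have hq' : (0 : ℝ) < q := by exact_mod_cast hq
  have hpi := Real.pi_pos
  have hc : Continuous (fun t : ℝ => arc q t) := by
    unfold arc
    fun_prop
  refine .of_continuous_injective_isOpenMap (hc.comp continuous_subtype_val) ?_ ?_
  · intro s t h
    have h' : ZMod.toCircle (0 : ZMod q) * arc q s = ZMod.toCircle (0 : ZMod q) * arc q t :=
      congrArg _ h
    exact Subtype.ext (toCircle_mul_arc_inj ⟨s.2.1.le, s.2.2⟩ ⟨t.2.1.le, t.2.2⟩ h').2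
  · have h1 : IsOpenMap (fun t : Io => (t : ℝ)) := isOpen_Ioo.isOpenMap_subtype_val
    have h2 : IsOpenMap (fun t : ℝ => (2 * Real.pi / q) * t) :=
      (Homeomorph.mulLeft₀ (2 * Real.pi / q) (by positivity)).isOpenMap
    have h3 : IsOpenMap (Circle.exp : ℝ → Circle) := isLocalHomeomorph_circleExp.isOpenMap
    have e : (fun t : Io => arc q (t : ℝ)) =
        (Circle.exp : ℝ → Circle) ∘ (fun t : ℝ => (2 * Real.pi / q) * t) ∘ (fun t : Io => (t : ℝ)) := by
      funext t
      simp only [Function.comp, arc]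
      congr 1
      ring
    rw [e]
    exact h3.comp (h2.comp h1)

end chi

/-! ## `Tub = ℂ^m × S¹` -/

/-- `ℂ^m × S¹` with weights -/
def Tub (q m : ℕ) (_a : ZMod q) (_w : Fin m → ZMod q) : Type := (Fin m → ℂ) × Circle

namespace Tub

variable {q m : ℕ} {a : ZMod q} {w : Fin m → ZMod q}

/-- constructor -/
def mk (y : Fin m → ℂ) (z : Circle) : Tub q m a w := (y, z)

noncomputable instance : TopologicalSpace (Tub q m a w) := inferInstanceAs (TopologicalSpace ((Fin m → ℂ) × Circle))
instance : T2Space (Tub q m a w) := inferInstanceAs (T2Space ((Fin m → ℂ) × Circle))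
instance : LocallyCompactSpace (Tub q m a w) :=
  inferInstanceAs (LocallyCompactSpace ((Fin m → ℂ) × Circle))

variable [NeZero q]

noncomputable instance : SMul (Cq q) (Tub q m a w) :=
  ⟨fun g p => (fun i => (chi (w i) g : ℂ) * p.1 i, chi a g * p.2)⟩

theorem smul_fst (g : Cq q) (p : Tub q m a w) (i : Fin m) :
    (g • p).1 i = (chi (w i) g : ℂ) * p.1 i := rfl

theorem smul_snd (g : Cq q) (p : Tub q m a w) : (g • p).2 = chi a g * p.2 := rfl

noncomputable instance : MulAction (Cq q) (Tub q m a w) where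
  one_smul p := by
    refine Prod.ext (funext fun i => ?_) ?_
    · rw [smul_fst, chi_one, Circle.coe_one, one_mul]
    · rw [smul_snd, chi_one, one_mul]
  mul_smul g h p := by
    refine Prod.ext (funext fun i => ?_) ?_
    · rw [smul_fst, smul_fst, smul_fst, chi_mul, Circle.coe_mul, mul_assoc]
    · rw [smul_snd, smul_snd, smul_snd, chi_mul, mul_assoc]

instance : ContinuousConstSMul (Cq q) (Tub q m a w) where
  continuous_const_smul g := by
    change Continuous (fun p : (Fin m → ℂ) × Circle =>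
      ((fun i => (chi (w i) g : ℂ) * p.1 i, chi a g * p.2) : (Fin m → ℂ) × Circle))
    fun_prop

end Tub

/-- `Tub` as a free `G`-space -/
noncomputable abbrev tubG (q : ℕ) [Fact q.Prime] (m : ℕ) (a : ZMod q) (ha : a ≠ 0)
    (w : Fin m → ZMod q) : GSp (Cq q) where
  X := Tub q m a w
  free g x h := by
    have h1 : chi a g * x.2 = x.2 := congrArg Prod.snd h
    exact chi_eq_one ha (mul_eq_right.1 h1)

/-- the closed cell of `Tub` -/
noncomputable def tubPair (q : ℕ) [Fact q.Prime] (m : ℕ) (a : ZMod q) (ha : a ≠ 0)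
    (w : Fin m → ZMod q) :
    GPair (cellG (Cq q) (Fin m → ℂ)) (tubG q m a ha w) (cellG (Cq q) ((Fin m → ℂ) × Io)) where
  i := cellMap (T := tubG q m a ha w) (fun y => Tub.mk y 1)
  j := cellMap (T := tubG q m a ha w) (fun p : (Fin m → ℂ) × Io => Tub.mk p.1 (arc q p.2))
  ic := by
    refine isClosedEmbedding_cellMap (T := tubG q m a ha w) ?_ ?_
    · have h : Function.LeftInverse (Prod.fst : (Fin m → ℂ) × Circle → (Fin m → ℂ))
          (fun y => (y, 1)) := fun y => rfl
      exact h.isClosedEmbedding continuous_fst (continuous_id.prodMk continuous_const)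
    · intro g x y h
      have h1 : chi a g * 1 = 1 := congrArg Prod.snd h
      rw [mul_one] at h1
      exact chi_eq_one ha h1
  jo := by
    refine isOpenEmbedding_cellMap (T := tubG q m a ha w) ?_ ?_
    · exact IsOpenEmbedding.id.prodMap (isOpenEmbedding_arc (Nat.pos_of_ne_zero (NeZero.ne q)))
    · intro g x y h
      have h1 : chi a g * arc q x.2 = arc q y.2 := congrArg Prod.snd h
      have h2 : ZMod.toCircle (a * Multiplicative.toAdd g) * arc q x.2 =
          ZMod.toCircle (0 : ZMod q) * arc q y.2 := by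
        rw [AddChar.map_zero_eq_one, one_mul]; exact h1
      have h3 := (toCircle_mul_arc_inj ⟨x.2.2.1.le, x.2.2.2⟩ ⟨y.2.2.1.le, y.2.2.2⟩ h2).1
      have h4 : Multiplicative.toAdd g = 0 := (mul_eq_zero.1 h3).resolve_left ha
      exact Multiplicative.toAdd.injective h4
  ie g x := cellMap_smul _ g x
  je g x := cellMap_smul _ g x
  compl := by
    ext (p : Tub q m a w)
    rw [mem_compl_iff, range_cellMap, range_cellMap]
    constructor
    · rintro ⟨g, ⟨y, t⟩, rfl⟩ ⟨h, y', hy'⟩
      have h1 : chi a h * 1 = chi a g * arc q t := congrArg Prod.snd hy'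
      have h0 : arc q 0 = 1 := by
        rw [arc, zero_div, mul_zero, Circle.exp_zero]
      rw [← h0] at h1
      have h2 := (toCircle_mul_arc_inj ⟨le_rfl, one_pos⟩ ⟨t.2.1.le, t.2.2⟩ h1).2
      exact absurd h2 (ne_of_lt t.2.1)
    · intro hn
      obtain ⟨b, t, ht, hb⟩ := exists_toCircle_mul_arc (q := q) p.2
      obtain ⟨g, hg⟩ := exists_chi ha b
      have hmem : ∀ z : Circle, chi a g * z = p.2 →
          ∃ y : Fin m → ℂ, g • (Tub.mk y z : Tub q m a w) = p := by
        intro z hz
        refine ⟨(g⁻¹ • p).1, ?_⟩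
        have e : (Tub.mk (g⁻¹ • p).1 z : Tub q m a w) = g⁻¹ • p := by
          refine Prod.ext rfl ?_
          change z = (g⁻¹ • p).2
          rw [Tub.smul_snd, ← hz, ← mul_assoc, ← chi_mul, inv_mul_cancel, chi_one, one_mul]
        rw [e]
        exact smul_inv_smul g p
      rcases eq_or_lt_of_le ht.1 with h0 | h0
      · exfalso
        apply hn
        obtain ⟨y, hy⟩ := hmem 1 (by
          rw [hg, ← hb, ← h0, arc, zero_div, mul_zero, Circle.exp_zero])
        exact ⟨g, y, hy⟩
      · obtain ⟨y, hy⟩ := hmem (arc q t) (by rw [hg, hb])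
        exact ⟨g, (y, ⟨t, h0, ht.2⟩), hy⟩

/-! ## spheres -/

/-- the unit sphere of `ℂ^m` with weights `w` -/
def Sph (q m : ℕ) (_w : Fin m → ZMod q) : Type := {v : Fin m → ℂ // ∑ i, ‖v i‖ ^ 2 = 1}

namespace Sph

variable {q m : ℕ} {w : Fin m → ZMod q}

noncomputable instance : TopologicalSpace (Sph q m w) :=
  inferInstanceAs (TopologicalSpace {v : Fin m → ℂ // ∑ i, ‖v i‖ ^ 2 = 1})
instance : T2Space (Sph q m w) := inferInstanceAs (T2Space {v : Fin m → ℂ // ∑ i, ‖v i‖ ^ 2 = 1})

theorem isCompact_aux (m : ℕ) : IsCompact {v : Fin m → ℂ | ∑ i, ‖v i‖ ^ 2 = 1} := by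
  refine Metric.isCompact_of_isClosed_isBounded ?_ ?_
  · exact isClosed_eq (by fun_prop) continuous_const
  · refine (Metric.isBounded_closedBall (x := (0 : Fin m → ℂ)) (r := 1)).subset ?_
    intro v hv
    rw [mem_closedBall_zero_iff, pi_norm_le_iff_of_nonneg zero_le_one]
    intro i
    have h1 : ‖v i‖ ^ 2 ≤ ∑ i, ‖v i‖ ^ 2 :=
      Finset.single_le_sum (f := fun i => ‖v i‖ ^ 2) (fun _ _ => by positivity) (Finset.mem_univ i)
    rw [show ∑ i, ‖v i‖ ^ 2 = 1 from hv] at h1
    nlinarith [norm_nonneg (v i)]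

instance : CompactSpace (Sph q m w) := isCompact_iff_compactSpace.1 (isCompact_aux m)

@[fun_prop] theorem continuous_val : Continuous (fun v : Sph q m w => v.1) :=
  continuous_subtype_val

theorem isEmbedding_val : IsEmbedding (fun v : Sph q m w => v.1) := IsEmbedding.subtypeVal

theorem continuous_coord (i : Fin m) : Continuous (fun v : Sph q m w => v.1 i) :=
  (continuous_apply i).comp continuous_val

variable [NeZero q]

noncomputable instance : SMul (Cq q) (Sph q m w) :=
  ⟨fun g v => ⟨fun i => (chi (w i) g : ℂ) * v.1 i, by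
    have : ∀ i, ‖(chi (w i) g : ℂ) * v.1 i‖ = ‖v.1 i‖ := fun i => by
      rw [norm_mul, Circle.norm_coe, one_mul]
    simp only [this]
    exact v.2⟩⟩

theorem smul_val (g : Cq q) (v : Sph q m w) (i : Fin m) :
    (g • v).1 i = (chi (w i) g : ℂ) * v.1 i := rfl

noncomputable instance : MulAction (Cq q) (Sph q m w) where
  one_smul v := by
    refine Subtype.ext (funext fun i => ?_)
    rw [smul_val, chi_one, Circle.coe_one, one_mul]
  mul_smul g h v := by
    refine Subtype.ext (funext fun i => ?_)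
    rw [smul_val, smul_val, smul_val, chi_mul, Circle.coe_mul, mul_assoc]

instance : ContinuousConstSMul (Cq q) (Sph q m w) where
  continuous_const_smul g := by
    rw [isEmbedding_val.continuous_iff]
    refine continuous_pi fun i => ?_
    change Continuous (fun v : Sph q m w => (chi (w i) g : ℂ) * v.1 i)
    exact continuous_const.mul (continuous_coord i)

end Sph

/-- the sphere as a free `G`-space -/
noncomputable abbrev sphG (q : ℕ) [Fact q.Prime] (m : ℕ) (w : Fin m → ZMod q)
    (hw : ∀ i, w i ≠ 0) : GSp (Cq q) where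
  X := Sph q m w
  free g x h := by
    have h0 : ∃ i, x.1 i ≠ 0 := by
      by_contra hn
      push Not at hn
      have := x.2
      simp [hn] at this
    obtain ⟨i, hi⟩ := h0
    have h1 : (chi (w i) g : ℂ) * x.1 i = x.1 i := congrArg (fun v : Sph q m w => v.1 i) h
    have h2 : (chi (w i) g : ℂ) = 1 := by
      have h3 : (chi (w i) g : ℂ) * x.1 i = 1 * x.1 i := by rw [h1, one_mul]
      exact mul_right_cancel₀ hi h3
    exact chi_eq_one (hw i) (Circle.ext (by rw [h2, Circle.coe_one]))

section tub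

variable {q m : ℕ} {w : Fin (m + 1) → ZMod q}

/-- the radius -/
noncomputable def rad (y : Fin m → ℂ) : ℝ := Real.sqrt (1 + ∑ i, ‖y i‖ ^ 2)

theorem rad_sq (y : Fin m → ℂ) : rad y ^ 2 = 1 + ∑ i, ‖y i‖ ^ 2 :=
  Real.sq_sqrt (by positivity)

theorem rad_pos (y : Fin m → ℂ) : 0 < rad y := Real.sqrt_pos.2 (by positivity)

@[fun_prop] theorem continuous_rad : Continuous (rad : (Fin m → ℂ) → ℝ) := by
  unfold rad
  fun_prop

/-- open cell of the sphere -/
noncomputable def tubTo (w : Fin (m + 1) → ZMod q) (p : Tub q m (w 0) (fun i => w i.succ)) :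
    Sph q (m + 1) w :=
  ⟨Fin.cons (((rad p.1)⁻¹ : ℝ) * (p.2 : ℂ)) (fun i => ((rad p.1)⁻¹ : ℝ) * p.1 i), by
    have hr := rad_pos p.1
    rw [Fin.sum_univ_succ]
    simp only [Fin.cons_zero, Fin.cons_succ, norm_mul, Complex.norm_real, norm_inv,
      Real.norm_of_nonneg hr.le, Circle.norm_coe, mul_one, mul_pow]
    rw [← Finset.mul_sum, ← mul_one_add, ← rad_sq, inv_pow, inv_mul_cancel₀ (by positivity)]⟩

theorem tubTo_zero (p : Tub q m (w 0) (fun i => w i.succ)) :
    (tubTo w p).1 0 = ((rad p.1)⁻¹ : ℝ) * (p.2 : ℂ) := rfl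

theorem tubTo_succ (p : Tub q m (w 0) (fun i => w i.succ)) (i : Fin m) :
    (tubTo w p).1 i.succ = ((rad p.1)⁻¹ : ℝ) * p.1 i := rfl

theorem tubTo_ne (p : Tub q m (w 0) (fun i => w i.succ)) : (tubTo w p).1 0 ≠ 0 := by
  rw [tubTo_zero]
  have hr := rad_pos p.1
  refine mul_ne_zero ?_ (Circle.coe_ne_zero _)
  exact_mod_cast (inv_pos.2 hr).ne'

/-- inverse of `tubTo` -/
noncomputable def tubInv (w : Fin (m + 1) → ZMod q) (v : {v : Sph q (m + 1) w // v.1 0 ≠ 0}) :
    Tub q m (w 0) (fun i => w i.succ) :=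
  Tub.mk (fun i => ((‖v.1.1 0‖⁻¹ : ℝ) : ℂ) * v.1.1 i.succ)
    ⟨((‖v.1.1 0‖⁻¹ : ℝ) : ℂ) * v.1.1 0, by
      change _ ∈ Metric.sphere (0 : ℂ) 1
      rw [mem_sphere_zero_iff_norm, norm_mul, Complex.norm_real, norm_inv, norm_norm]
      exact inv_mul_cancel₀ (norm_ne_zero_iff.2 v.2)⟩

theorem rad_tubInv (v : {v : Sph q (m + 1) w // v.1 0 ≠ 0}) :
    rad (tubInv w v).1 = ‖v.1.1 0‖⁻¹ := by
  have h0 : 0 < ‖v.1.1 0‖ := norm_pos_iff.2 v.2
  have h1 := v.1.2
  rw [Fin.sum_univ_succ] at h1
  have h2 : rad (tubInv w v).1 ^ 2 = (‖v.1.1 0‖⁻¹) ^ 2 := by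
    rw [rad_sq]
    have : ∀ i, ‖(tubInv w v).1 i‖ ^ 2 = (‖v.1.1 0‖⁻¹) ^ 2 * ‖v.1.1 i.succ‖ ^ 2 := fun i => by
      change ‖((‖v.1.1 0‖⁻¹ : ℝ) : ℂ) * v.1.1 i.succ‖ ^ 2 = _
      rw [norm_mul, Complex.norm_real, norm_inv, norm_norm, mul_pow]
    simp only [this]
    rw [← Finset.mul_sum]
    have h3 : ∑ i : Fin m, ‖v.1.1 i.succ‖ ^ 2 = 1 - ‖v.1.1 0‖ ^ 2 := by linarith
    rw [h3]
    field_simp
    ring
  exact (pow_left_inj₀ (rad_pos _).le (inv_nonneg.2 h0.le) two_ne_zero).1 h2

/-- the open cell -/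
noncomputable def tubHomeo (w : Fin (m + 1) → ZMod q) :
    Tub q m (w 0) (fun i => w i.succ) ≃ₜ {v : Sph q (m + 1) w // v.1 0 ≠ 0} where
  toFun p := ⟨tubTo w p, tubTo_ne p⟩
  invFun := tubInv w
  left_inv p := by
    have hr := rad_pos p.1
    have h0 : ‖(tubTo w p).1 0‖⁻¹ = rad p.1 := by
      rw [tubTo_zero, norm_mul, Complex.norm_real, norm_inv, Real.norm_of_nonneg hr.le,
        Circle.norm_coe, mul_one, inv_inv]
    have hc : ((rad p.1 : ℝ) : ℂ) * (((rad p.1)⁻¹ : ℝ) : ℂ) = 1 := by
      rw [← Complex.ofReal_mul, mul_inv_cancel₀ hr.ne', Complex.ofReal_one]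
    refine Prod.ext (funext fun i => ?_) (Circle.ext ?_)
    · change ((‖(tubTo w p).1 0‖⁻¹ : ℝ) : ℂ) * (tubTo w p).1 i.succ = p.1 i
      rw [h0, tubTo_succ, ← mul_assoc, hc, one_mul]
    · change ((‖(tubTo w p).1 0‖⁻¹ : ℝ) : ℂ) * (tubTo w p).1 0 = p.2
      rw [h0, tubTo_zero, ← mul_assoc, hc, one_mul]
  right_inv v := by
    have h0 : ‖v.1.1 0‖ ≠ 0 := norm_ne_zero_iff.2 v.2
    have hc : ((‖v.1.1 0‖ : ℝ) : ℂ) * ((‖v.1.1 0‖⁻¹ : ℝ) : ℂ) = 1 := by
      rw [← Complex.ofReal_mul, mul_inv_cancel₀ h0, Complex.ofReal_one]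
    refine Subtype.ext (Subtype.ext (funext fun i => ?_))
    refine Fin.cases ?_ (fun i => ?_) i
    · change (((rad (tubInv w v).1)⁻¹ : ℝ) : ℂ) * (((‖v.1.1 0‖⁻¹ : ℝ) : ℂ) * v.1.1 0) = v.1.1 0
      rw [rad_tubInv, inv_inv, ← mul_assoc, hc, one_mul]
    · change (((rad (tubInv w v).1)⁻¹ : ℝ) : ℂ) * (((‖v.1.1 0‖⁻¹ : ℝ) : ℂ) * v.1.1 i.succ) = _
      rw [rad_tubInv, inv_inv, ← mul_assoc, hc, one_mul]
  continuous_toFun := by
    refine Continuous.subtype_mk ?_ _
    rw [Sph.isEmbedding_val.continuous_iff]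
    refine continuous_pi fun i => ?_
    have hr : Continuous (fun p : Tub q m (w 0) (fun i => w i.succ) =>
        (((rad p.1)⁻¹ : ℝ) : ℂ)) := by
      have h1 : Continuous (fun p : (Fin m → ℂ) × Circle => rad p.1) := by fun_prop
      exact Complex.continuous_ofReal.comp (h1.inv₀ fun p => (rad_pos _).ne')
    refine Fin.cases ?_ (fun i => ?_) i
    · exact hr.mul (continuous_subtype_val.comp continuous_snd)
    · exact hr.mul ((continuous_apply i).comp continuous_fst)
  continuous_invFun := by
    have h0 : Continuous (fun v : {v : Sph q (m + 1) w // v.1 0 ≠ 0} =>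
        ((‖v.1.1 0‖⁻¹ : ℝ) : ℂ)) := by
      have h1 : Continuous (fun v : {v : Sph q (m + 1) w // v.1 0 ≠ 0} => ‖v.1.1 0‖) :=
        ((Sph.continuous_coord 0).comp continuous_subtype_val).norm
      exact Complex.continuous_ofReal.comp (h1.inv₀ fun v => norm_ne_zero_iff.2 v.2)
    refine Continuous.prodMk (continuous_pi fun i => ?_) (Continuous.subtype_mk ?_ _)
    · exact h0.mul ((Sph.continuous_coord i.succ).comp continuous_subtype_val)
    · exact h0.mul ((Sph.continuous_coord 0).comp continuous_subtype_val)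

theorem isOpenEmbedding_tubTo : IsOpenEmbedding (tubTo w) := by
  have h1 : IsOpen {v : Sph q (m + 1) w | v.1 0 ≠ 0} :=
    isOpen_ne_fun (Sph.continuous_coord 0) continuous_const
  exact h1.isOpenEmbedding_subtypeVal.comp (tubHomeo w).isOpenEmbedding

theorem range_tubTo : range (tubTo w) = {v | v.1 0 ≠ 0} := by
  ext v
  constructor
  · rintro ⟨p, rfl⟩
    exact tubTo_ne p
  · intro hv
    exact ⟨(tubHomeo w).symm ⟨v, hv⟩, congrArg Subtype.val ((tubHomeo w).apply_symm_apply ⟨v, hv⟩)⟩

/-- the equatorial sphere -/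
def eq0 (w : Fin (m + 1) → ZMod q) (v : Sph q m (fun i => w i.succ)) : Sph q (m + 1) w :=
  ⟨Fin.cons 0 v.1, by
    rw [Fin.sum_univ_succ]
    simp only [Fin.cons_zero, Fin.cons_succ, norm_zero, ne_eq, OfNat.ofNat_ne_zero,
      not_false_eq_true, zero_pow, zero_add]
    exact v.2⟩

theorem eq0_zero (v : Sph q m (fun i => w i.succ)) : (eq0 w v).1 0 = 0 := rfl

theorem isClosedEmbedding_eq0 : IsClosedEmbedding (eq0 w) := by
  refine Continuous.isClosedEmbedding ?_ ?_
  · rw [Sph.isEmbedding_val.continuous_iff]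
    refine continuous_pi fun i => ?_
    refine Fin.cases ?_ (fun i => ?_) i
    · exact continuous_const
    · exact (continuous_apply i).comp Sph.continuous_val
  · intro v v' h
    refine Subtype.ext (funext fun i => ?_)
    exact congrArg (fun u : Sph q (m + 1) w => u.1 i.succ) h

theorem range_eq0 : range (eq0 w) = {v | v.1 0 = 0} := by
  ext v
  constructor
  · rintro ⟨u, rfl⟩
    exact eq0_zero u
  · intro hv
    have hv' : v.1 0 = 0 := hv
    refine ⟨⟨fun i => v.1 i.succ, ?_⟩, ?_⟩
    · have := v.2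
      rw [Fin.sum_univ_succ, hv'] at this
      simpa using this
    · refine Subtype.ext (funext fun i => ?_)
      refine Fin.cases ?_ (fun i => rfl) i
      exact hv'.symm

end tub

/-- the sphere of `ℂ^(m+1)`: closed equator, open complement `Tub` -/
noncomputable def sphPair (q : ℕ) [Fact q.Prime] (m : ℕ) (w : Fin (m + 1) → ZMod q)
    (hw : ∀ i, w i ≠ 0) :
    GPair (sphG q m (fun i => w i.succ) (fun i => hw i.succ)) (sphG q (m + 1) w hw)
      (tubG q m (w 0) (hw 0) (fun i => w i.succ)) where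
  i := eq0 w
  j := tubTo w
  ic := isClosedEmbedding_eq0
  jo := isOpenEmbedding_tubTo
  ie g v := by
    refine Subtype.ext (funext fun i => ?_)
    refine Fin.cases ?_ (fun i => ?_) i
    · rw [Sph.smul_val, eq0_zero, eq0_zero, mul_zero]
    · rfl
  je g p := by
    have hr : rad (g • p : Tub q m (w 0) (fun i => w i.succ)).1 = rad p.1 := by
      unfold rad
      congr 2
      refine Finset.sum_congr rfl fun i _ => ?_
      rw [Tub.smul_fst, norm_mul, Circle.norm_coe, one_mul]
    refine Subtype.ext (funext fun i => ?_)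
    refine Fin.cases ?_ (fun i => ?_) i
    · rw [Sph.smul_val, tubTo_zero, tubTo_zero, hr, Tub.smul_snd, Circle.coe_mul]
      ring
    · rw [Sph.smul_val, tubTo_succ, tubTo_succ, hr, Tub.smul_fst]
      ring
  compl := by
    rw [range_tubTo, range_eq0]
    rfl

/-- **INDUCTION PRINCIPLE** over the free strata of the sphere -/
theorem sph_induction (q : ℕ) [Fact q.Prime] (P : GSp (Cq q) → Prop)
    (hempty : ∀ T : GSp (Cq q), IsEmpty T.X → P T)
    (hcell : ∀ m : ℕ, P (cellG (Cq q) (Fin m → ℂ)))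
    (hcell' : ∀ m : ℕ, P (cellG (Cq q) ((Fin m → ℂ) × Io)))
    (hpair : ∀ {F T O : GSp (Cq q)}, GPair F T O → P F → P O → P T)
    (m : ℕ) (w : Fin m → ZMod q) (hw : ∀ i, w i ≠ 0) : P (sphG q m w hw) := by
  induction m with
  | zero =>
    refine hempty _ ⟨fun v => ?_⟩
    have := v.2
    simp at this
  | succ m ih =>
    exact hpair (sphPair q m w hw) (ih _ _)
      (hpair (tubPair q m (w 0) (hw 0) (fun i => w i.succ)) (hcell m) (hcell' m))

end Crest.Agent.R090.Sph389
end

-- ▼ part R090/PowR_389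
section

/-!
# Row 90, leaf A-POW (5): the power construction `RU = (QU × S)/C_q` and the self map `pw φ`
(helper389)

For `U` locally compact Hausdorff with an injective continuous `j : OnePoint U → (Fin k → ℂ)`:

* `cmap j : QU q U → Sph q (mm q k) (ww q k)` equivariant (normalised Fourier coefficients);
* `RU q k U = Bal (Cq q) (QU q U) (Sph ..)`;
* `eR : Orb QU → RU`, `pR : RU → Orb QU`, `pR ∘ eR = 1`;
* `Psi φ = (QU.map φ ∧ 1)/C_q`, `pw φ = eR ∘ (QU.map φ)/C_q ∘ pR`, with all identities.
-/

set_option autoImplicit false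
set_option linter.unusedSectionVars false

open Topology Filter Set

namespace Crest.Agent.R090.PowR389

open OnePoint Crest.Agent.R090.Sp962 Crest.Agent.R090.Orb389 Crest.Agent.R090.GSp389
open Crest.Agent.R090.Sph389 Crest.Agent.R090.QU389 Crest.Agent.R090.Pi568

/-! ## homeomorphic cells and the real form of the induction principle -/

section real

variable {G : Type} [Group G] [Finite G] [TopologicalSpace G] [DiscreteTopology G]

/-- homeomorphic cells give a (trivial) pair -/
noncomputable def cellPair {L L' : Type} [TopologicalSpace L] [T2Space L] [LocallyCompactSpace L]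
    [TopologicalSpace L'] [T2Space L'] [LocallyCompactSpace L'] (e : L ≃ₜ L') :
    GPair (cellG G L) (cellG G L') (cellG G Empty) where
  i := cellMap (T := cellG G L') (fun y => Cell.mk 1 (e y))
  j p := (p.2 : Empty).elim
  ic := by
    refine isClosedEmbedding_cellMap (T := cellG G L') ?_ ?_
    · have h1 : IsClosedEmbedding (fun y : L' => ((1, y) : G × L')) := by
        have h : Function.LeftInverse (Prod.snd : G × L' → L') (fun y => ((1 : G), y)) :=
          fun y => rfl
        exact h.isClosedEmbedding continuous_snd (continuous_const.prodMk continuous_id)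
      exact h1.comp e.isClosedEmbedding
    · intro g x y h
      have h1 : g * 1 = 1 := congrArg (fun p : Cell G L' => p.1) h
      rwa [mul_one] at h1
  jo := by
    refine .of_continuous_injective_isOpenMap ?_ ?_ ?_
    · refine continuous_iff_continuousAt.2 fun p => (p.2 : Empty).elim
    · intro p
      exact (p.2 : Empty).elim
    · intro s _
      have : s = ∅ := by
        ext p
        exact (p.2 : Empty).elim
      rw [this, image_empty]
      exact isOpen_empty
  ie g x := cellMap_smul _ g x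
  je _ p := (p.2 : Empty).elim
  compl := by
    ext p
    constructor
    · rintro ⟨x, -⟩
      exact (x.2 : Empty).elim
    · intro hn
      obtain ⟨g, y⟩ := p
      exact absurd ((range_cellMap (T := cellG G L') (fun y => Cell.mk 1 (e y)) (g, y)).2
        ⟨g, e.symm y, Prod.ext (mul_one g) (e.apply_symm_apply y)⟩) hn

theorem cell_congr {P : GSp G → Prop} (hempty : ∀ T : GSp G, IsEmpty T.X → P T)
    (hpair : ∀ {F T O : GSp G}, GPair F T O → P F → P O → P T)
    {L L' : Type} [TopologicalSpace L] [T2Space L] [LocallyCompactSpace L]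
    [TopologicalSpace L'] [T2Space L'] [LocallyCompactSpace L'] (e : L ≃ₜ L')
    (h : P (cellG G L)) : P (cellG G L') :=
  hpair (cellPair e) h (hempty _ ⟨fun p => (p.2 : Empty).elim⟩)

/-- `ℝ ≃ₜ (0,1)` -/
theorem exists_homeo_Io : Nonempty (ℝ ≃ₜ Io) := by
  have hpi := Real.pi_pos
  let f : Ioo (-(Real.pi / 2)) (Real.pi / 2) ≃ₜ ℝ := Real.tanOrderIso.toHomeomorph
  let g : Ioo (-(Real.pi / 2)) (Real.pi / 2) ≃ₜ Io :=
    { toFun := fun x => ⟨x / Real.pi + 1 / 2, by
        have := x.2.1
        have := x.2.2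
        constructor
        · have : -(Real.pi / 2) / Real.pi < x / Real.pi := by gcongr
          have h2 : -(Real.pi / 2) / Real.pi = -(1 / 2) := by field_simp
          linarith
        · have : x / Real.pi < (Real.pi / 2) / Real.pi := by gcongr
          have h2 : (Real.pi / 2) / Real.pi = 1 / 2 := by field_simp
          linarith⟩
      invFun := fun t => ⟨Real.pi * (t - 1 / 2), by
        have h1 := t.2.1
        have h2 := t.2.2
        constructor <;> nlinarith⟩
      left_inv := fun x => Subtype.ext (by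
        change Real.pi * (x / Real.pi + 1 / 2 - 1 / 2) = x
        field_simp
        ring)
      right_inv := fun t => Subtype.ext (by
        change Real.pi * (t - 1 / 2) / Real.pi + 1 / 2 = t
        field_simp
        ring)
      continuous_toFun := by
        refine Continuous.subtype_mk ?_ _
        fun_prop
      continuous_invFun := by
        refine Continuous.subtype_mk ?_ _
        fun_prop }
  exact ⟨f.symm.trans g⟩

theorem exists_homeo_C (m : ℕ) : Nonempty ((Fin (2 * m) → ℝ) ≃ₜ (Fin m → ℂ)) := by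
  have h : Module.finrank ℝ (Fin (2 * m) → ℝ) = Module.finrank ℝ (Fin m → ℂ) := by
    rw [Module.finrank_fin_fun, Module.finrank_pi_fintype]
    simp [Complex.finrank_real_complex, mul_comm]
  exact ⟨(ContinuousLinearEquiv.ofFinrankEq h).toHomeomorph⟩

theorem exists_homeo_CI (m : ℕ) :
    Nonempty ((Fin (2 * m + 1) → ℝ) ≃ₜ ((Fin m → ℂ) × Io)) := by
  obtain ⟨e⟩ := exists_homeo_C m
  obtain ⟨e'⟩ := exists_homeo_Io
  have h : Module.finrank ℝ (Fin (2 * m + 1) → ℝ) =
      Module.finrank ℝ ((Fin (2 * m) → ℝ) × ℝ) := by simp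
  exact ⟨(ContinuousLinearEquiv.ofFinrankEq h).toHomeomorph.trans (e.prodCongr e')⟩

/-- the induction principle with real cells -/
theorem sph_induction' (q : ℕ) [Fact q.Prime] (P : GSp (Cq q) → Prop)
    (hempty : ∀ T : GSp (Cq q), IsEmpty T.X → P T)
    (hcell : ∀ n : ℕ, P (cellG (Cq q) (Fin n → ℝ)))
    (hpair : ∀ {F T O : GSp (Cq q)}, GPair F T O → P F → P O → P T)
    (m : ℕ) (w : Fin m → ZMod q) (hw : ∀ i, w i ≠ 0) : P (sphG q m w hw) :=
  sph_induction q P hempty
    (fun m => by
      obtain ⟨e⟩ := exists_homeo_C m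
      exact cell_congr hempty hpair e (hcell _))
    (fun m => by
      obtain ⟨e⟩ := exists_homeo_CI m
      exact cell_congr hempty hpair e (hcell _))
    hpair m w hw

end real

/-! ## the equivariant map to the sphere -/

section cmap

variable (q : ℕ) [Fact q.Prime] (k : ℕ)

/-- index type of the Fourier coefficients -/
abbrev FI : Type := {a : ZMod q // a ≠ 0} × Fin k

/-- number of coordinates -/
noncomputable def mm : ℕ := Fintype.card (FI q k)

/-- enumeration of the coordinates -/
noncomputable def ff : Fin (mm q k) ≃ FI q k := (Fintype.equivFin (FI q k)).symm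

/-- the weights -/
noncomputable def ww (i : Fin (mm q k)) : ZMod q := (ff q k i).1.1

theorem ww_ne (i : Fin (mm q k)) : ww q k i ≠ 0 := (ff q k i).1.2

variable {q k}
variable {U : Type} [TopologicalSpace U]

/-- Fourier coefficient of the family `j (x i)` -/
noncomputable def fc (j : OnePoint U → (Fin k → ℂ)) (x : QU q U) (i : Fin (mm q k)) : ℂ :=
  ∑ s : ZMod q, ZMod.stdAddChar (-(s * (ff q k i).1.1)) * j (QU.inc q U x s) (ff q k i).2

theorem fc_smul (j : OnePoint U → (Fin k → ℂ)) (g : Cq q) (x : QU q U) (i : Fin (mm q k)) :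
    fc j (g • x) i = (chi (ww q k i) g : ℂ) * fc j x i := by
  unfold fc
  rw [Finset.mul_sum]
  refine Fintype.sum_equiv (Equiv.addRight (Multiplicative.toAdd g)) _ _ fun s => ?_
  rw [QU.inc_smul, Equiv.coe_addRight, ← mul_assoc, chi, ← ZMod.stdAddChar_apply,
    ← AddChar.map_add_eq_mul]
  congr 2
  rw [ww]
  ring

theorem exists_fc_ne (j : OnePoint U → (Fin k → ℂ)) (hj : Function.Injective j) (x : QU q U) :
    ∃ i, fc j x i ≠ 0 := by
  by_contra hn
  push Not at hn
  obtain ⟨s, t, hst⟩ := x.2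
  apply hst
  apply coe_injective
  apply hj
  funext κ
  set Φ : ZMod q → ℂ := fun s => j (QU.inc q U x s) κ with hΦ
  have h0 : ∀ a : ZMod q, a ≠ 0 → ZMod.dft Φ a = 0 := by
    intro a ha
    have := hn ((ff q k).symm (⟨a, ha⟩, κ))
    rw [ZMod.dft_apply]
    simpa [fc, hΦ] using this
  have h1 : ∀ s, Φ s = (q : ℂ)⁻¹ • ZMod.dft Φ 0 := by
    intro s
    have h2 : Φ s = (ZMod.dft.symm (ZMod.dft Φ)) s := by rw [LinearEquiv.symm_apply_apply]
    rw [h2, ZMod.invDFT_apply, Finset.sum_eq_single 0]
    · simp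
    · intro b _ hb
      rw [h0 b hb, smul_zero]
    · intro h; exact absurd (Finset.mem_univ _) h
  exact (h1 s).trans (h1 t).symm

/-- the norm of the vector of Fourier coefficients -/
noncomputable def fn (j : OnePoint U → (Fin k → ℂ)) (x : QU q U) : ℝ :=
  Real.sqrt (∑ i, ‖fc j x i‖ ^ 2)

theorem fn_pos (j : OnePoint U → (Fin k → ℂ)) (hj : Function.Injective j) (x : QU q U) :
    0 < fn j x := by
  obtain ⟨i, hi⟩ := exists_fc_ne j hj x
  refine Real.sqrt_pos.2 ?_
  refine Finset.sum_pos' (fun _ _ => by positivity) ⟨i, Finset.mem_univ _, ?_⟩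
  have := norm_pos_iff.2 hi
  positivity

theorem fn_sq (j : OnePoint U → (Fin k → ℂ)) (x : QU q U) :
    fn j x ^ 2 = ∑ i, ‖fc j x i‖ ^ 2 := Real.sq_sqrt (by positivity)

theorem fn_smul (j : OnePoint U → (Fin k → ℂ)) (g : Cq q) (x : QU q U) :
    fn j (g • x) = fn j x := by
  unfold fn
  congr 1
  refine Finset.sum_congr rfl fun i _ => ?_
  rw [fc_smul, norm_mul, Circle.norm_coe, one_mul]

/-- the equivariant map `QU q U → S` -/
noncomputable def cmap (j : OnePoint U → (Fin k → ℂ)) (hj : Function.Injective j) (x : QU q U) :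
    Sph q (mm q k) (ww q k) :=
  ⟨fun i => (((fn j x)⁻¹ : ℝ) : ℂ) * fc j x i, by
    have hr := fn_pos j hj x
    simp only [norm_mul, Complex.norm_real, norm_inv, Real.norm_of_nonneg hr.le, mul_pow]
    rw [← Finset.mul_sum, ← fn_sq, inv_pow, inv_mul_cancel₀ (by positivity)]⟩

theorem cmap_smul (j : OnePoint U → (Fin k → ℂ)) (hj : Function.Injective j) (g : Cq q)
    (x : QU q U) : cmap j hj (g • x) = g • cmap j hj x := by
  refine Subtype.ext (funext fun i => ?_)
  rw [Sph.smul_val]
  change (((fn j (g • x))⁻¹ : ℝ) : ℂ) * fc j (g • x) i =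
    (chi (ww q k i) g : ℂ) * ((((fn j x)⁻¹ : ℝ) : ℂ) * fc j x i)
  rw [fn_smul, fc_smul]
  ring

theorem continuous_fc (j : OnePoint U → (Fin k → ℂ)) (hjc : Continuous j) (i : Fin (mm q k)) :
    Continuous (fun x : QU q U => fc j x i) := by
  unfold fc
  refine continuous_finsetSum _ fun s _ => continuous_const.mul ?_
  exact (continuous_apply _).comp (hjc.comp (continuous_coe.comp
    ((continuous_apply s).comp QU.continuous_inc)))

theorem continuous_fn (j : OnePoint U → (Fin k → ℂ)) (hjc : Continuous j) :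
    Continuous (fun x : QU q U => fn j x) := by
  unfold fn
  refine Real.continuous_sqrt.comp (continuous_finsetSum _ fun i _ => ?_)
  exact (continuous_fc j hjc i).norm.pow 2

theorem continuous_cmap (j : OnePoint U → (Fin k → ℂ)) (hj : Function.Injective j)
    (hjc : Continuous j) : Continuous (cmap (q := q) j hj) := by
  rw [Sph.isEmbedding_val.continuous_iff]
  refine continuous_pi fun i => ?_
  have h1 := (continuous_fn (q := q) j hjc).inv₀ fun x => (fn_pos j hj x).ne'
  exact (Complex.continuous_ofReal.comp h1).mul (continuous_fc j hjc i)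

end cmap

/-! ## the power construction -/

/-- embedding data -/
structure Emb (k : ℕ) (U : Type) [TopologicalSpace U] where
  /-- the embedding -/
  j : OnePoint U → (Fin k → ℂ)
  cont : Continuous j
  inj : Function.Injective j

theorem exists_emb {U : Type} [TopologicalSpace U] (h : Inj812.Inj U) :
    ∃ k, Nonempty (Emb k U) := by
  obtain ⟨k, j, hj, hi⟩ := h
  refine ⟨k, ⟨⟨fun x i => (j x i : ℂ), ?_, ?_⟩⟩⟩
  · exact continuous_pi fun i => Complex.continuous_ofReal.comp ((continuous_apply i).comp hj)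
  · intro x y hxy
    refine hi (funext fun i => ?_)
    exact Complex.ofReal_injective (congrFun hxy i)

section ru

/-- the sphere of the construction -/
abbrev SS (q k : ℕ) [Fact q.Prime] : Type := Sph q (mm q k) (ww q k)

/-- the power construction -/
abbrev RU (q k : ℕ) [Fact q.Prime] (U : Type) : Type := Bal (Cq q) (QU q U) (SS q k)

variable {q : ℕ} [Fact q.Prime] {k : ℕ}
variable {U : Type} [TopologicalSpace U] [T2Space U] [LocallyCompactSpace U]
variable {V : Type} [TopologicalSpace V] [T2Space V] [LocallyCompactSpace V]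
variable {W : Type} [TopologicalSpace W] [T2Space W] [LocallyCompactSpace W]


/-- the projection `QU × S → QU` -/
noncomputable def fstP (q k : ℕ) [Fact q.Prime] (U : Type) [TopologicalSpace U] :
    PMap (QU q U × SS q k) (QU q U) :=
  ofProper Prod.fst isProperMap_fst_of_compactSpace

@[simp] theorem fstP_coe (p : QU q U × SS q k) :
    fstP q k U (p : OnePoint (QU q U × SS q k)) = (p.1 : OnePoint (QU q U)) := rfl

theorem fstP_equi : Equi (Cq q) (fstP q k U) := fun _ => PMap.ext fun _ => rfl

theorem isClosedEmbedding_sec (E : Emb k U) :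
    IsClosedEmbedding (fun x : QU q U => ((x, cmap E.j E.inj x) : QU q U × SS q k)) := by
  have h : Function.LeftInverse (Prod.fst : QU q U × SS q k → QU q U)
      (fun x : QU q U => ((x, cmap E.j E.inj x) : QU q U × SS q k)) := fun x => rfl
  exact h.isClosedEmbedding continuous_fst
    (continuous_id.prodMk (continuous_cmap E.j E.inj E.cont))

/-- the section `x ↦ (x, c x)` -/
noncomputable def sec (E : Emb k U) : PMap (QU q U) (QU q U × SS q k) :=
  PMap.ofClosed _ (isClosedEmbedding_sec E)

@[simp] theorem sec_coe (E : Emb k U) (x : QU q U) :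
    sec E (x : OnePoint (QU q U)) =
      (((x, cmap E.j E.inj x) : QU q U × SS q k) : OnePoint (QU q U × SS q k)) := rfl

theorem sec_equi (E : Emb k U) : Equi (Cq q) (sec (q := q) E) := by
  intro g
  refine PMap.ext fun x => ?_
  rw [PMap.comp_apply, PMap.comp_apply, actP_coe, sec_coe, sec_coe, actP_coe, cmap_smul]
  rfl

theorem fstP_sec (E : Emb k U) : (fstP q k U).comp (sec E) = PMap.id _ := PMap.ext fun _ => rfl


/-- the inclusion `[x] ↦ [x, c x]` -/
noncomputable def eR (E : Emb k U) : PMap (Orb (Cq q) (QU q U)) (RU q k U) :=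
  Orb.map (sec E) (sec_equi E)

/-- the projection `[x, v] ↦ [x]` -/
noncomputable def pR (q k : ℕ) [Fact q.Prime] (U : Type) [TopologicalSpace U] [T2Space U]
    [LocallyCompactSpace U] : PMap (RU q k U) (Orb (Cq q) (QU q U)) :=
  Orb.map (fstP q k U) fstP_equi

theorem eR_pr (E : Emb k U) :
    (eR E).comp (Orb.pr (Cq q) (QU q U)) = (Orb.pr (Cq q) (QU q U × SS q k)).comp (sec E) :=
  Orb.map_pr _ _

theorem pR_pr :
    (pR q k U).comp (Orb.pr (Cq q) (QU q U × SS q k)) =
      (Orb.pr (Cq q) (QU q U)).comp (fstP q k U) := Orb.map_pr _ _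

theorem pR_eR (E : Emb k U) : (pR q k U).comp (eR E) = PMap.id _ := by
  refine Orb.hom_ext ?_
  rw [PMap.comp_assoc, eR_pr, ← PMap.comp_assoc, pR_pr, PMap.comp_assoc, fstP_sec]
  rfl

/-- the map induced on `QU / C_q` -/
noncomputable def Qo (q : ℕ) [Fact q.Prime] (φ : PMap U V) :
    PMap (Orb (Cq q) (QU q U)) (Orb (Cq q) (QU q V)) :=
  Orb.map (QU.map q φ) (QU.map_equi φ)

theorem Qo_pr (φ : PMap U V) :
    (Qo q φ).comp (Orb.pr (Cq q) (QU q U)) = (Orb.pr (Cq q) (QU q V)).comp (QU.map q φ) :=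
  Orb.map_pr _ _

theorem Qo_comp (ψ : PMap V W) (φ : PMap U V) : Qo q (ψ.comp φ) = (Qo q ψ).comp (Qo q φ) := by
  refine Orb.hom_ext ?_
  rw [Qo_pr, PMap.comp_assoc, Qo_pr, ← PMap.comp_assoc, Qo_pr, PMap.comp_assoc, QU.map_comp]


/-- `[x, v] ↦ [φ x, v]` -/
noncomputable def Psi (q k : ℕ) [Fact q.Prime] (φ : PMap U V) : PMap (RU q k U) (RU q k V) :=
  Bal.map (QU.map_equi φ) (SS q k)

theorem Psi_pr (φ : PMap U V) :
    (Psi q k φ).comp (Orb.pr (Cq q) (QU q U × SS q k)) =
      (Orb.pr (Cq q) (QU q V × SS q k)).comp ((QU.map q φ).smash (PMap.id (SS q k))) :=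
  Bal.map_pr _ _

theorem Psi_comp (ψ : PMap V W) (φ : PMap U V) :
    Psi q k (ψ.comp φ) = (Psi q k ψ).comp (Psi q k φ) := by
  refine Orb.hom_ext ?_
  rw [Psi_pr, PMap.comp_assoc, Psi_pr, ← PMap.comp_assoc, Psi_pr, PMap.comp_assoc,
    PMap.smash_comp, QU.map_comp]
  rfl

theorem Psi_id : Psi q k (PMap.id U) = PMap.id _ := by
  refine Orb.hom_ext ?_
  rw [Psi_pr, QU.map_id, PMap.smash_id]
  rfl

theorem fstP_smash (φ : PMap U V) :
    (fstP q k V).comp ((QU.map q φ).smash (PMap.id (SS q k))) =
      (QU.map q φ).comp (fstP q k U) := by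
  refine PMap.ext fun x => ?_
  obtain ⟨x, v⟩ := x
  rw [PMap.comp_apply, PMap.comp_apply, PMap.smash_coe, fstP_coe]
  generalize QU.map q φ (x : OnePoint (QU q U)) = y
  induction y using OnePoint.rec with
  | infty => rfl
  | coe y => rfl

theorem pR_Psi (φ : PMap U V) :
    (pR q k V).comp (Psi q k φ) = (Qo q φ).comp (pR q k U) := by
  refine Orb.hom_ext ?_
  rw [PMap.comp_assoc, Psi_pr, ← PMap.comp_assoc, pR_pr, PMap.comp_assoc, fstP_smash,
    PMap.comp_assoc, pR_pr, ← PMap.comp_assoc (Qo q φ), Qo_pr, PMap.comp_assoc]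

/-- **the power operation** on self maps: `[x, v] ↦ [φ x, c (φ x)]` -/
noncomputable def pw (q : ℕ) [Fact q.Prime] {k : ℕ} (E : Emb k U) (φ : PMap U U) :
    PMap (RU q k U) (RU q k U) := (eR E).comp ((Qo q φ).comp (pR q k U))

theorem pw_comp (E : Emb k U) (ψ φ : PMap U U) :
    pw q E (ψ.comp φ) = (pw q E ψ).comp (pw q E φ) := by
  have key : ∀ y, pR q k U (eR E y) = y :=
    fun y => congrArg (fun f : PMap (Orb (Cq q) (QU q U)) (Orb (Cq q) (QU q U)) => f y) (pR_eR E)
  unfold pw
  rw [Qo_comp]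
  refine PMap.ext fun x => ?_
  simp only [PMap.comp_apply, key]

/-- the idempotent `[x, v] ↦ [x, c x]` -/
noncomputable def eps (q : ℕ) [Fact q.Prime] {k : ℕ} (E : Emb k U) : PMap (RU q k U) (RU q k U) :=
  (eR E).comp (pR q k U)


theorem pw_eq (E : Emb k U) (φ : PMap U U) : pw q E φ = (eps q E).comp (Psi q k φ) := by
  unfold pw eps
  rw [PMap.comp_assoc, pR_Psi]





/-- the covering self map `(x, v) ↦ (φ x, c (φ x))` of `QU × S` -/
noncomputable def Et (q : ℕ) [Fact q.Prime] {k : ℕ} (E : Emb k U) (φ : PMap U U) :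
    PMap (QU q U × SS q k) (QU q U × SS q k) :=
  (sec E).comp ((QU.map q φ).comp (fstP q k U))


/-- `pw φ` is covered by `Et φ` -/
theorem pw_pr (E : Emb k U) (φ : PMap U U) :
    (pw q E φ).comp (Orb.pr (Cq q) (QU q U × SS q k)) =
      (Orb.pr (Cq q) (QU q U × SS q k)).comp (Et q E φ) := by
  unfold pw Et
  rw [PMap.comp_assoc, PMap.comp_assoc, pR_pr, ← PMap.comp_assoc (Qo q φ), Qo_pr,
    PMap.comp_assoc, ← PMap.comp_assoc (eR E), eR_pr, PMap.comp_assoc]



end ru

end Crest.Agent.R090.PowR389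
end

-- ▼ part R090/GoodR_812
section

/-!
# Row 90, block (A): the power construction stays in the class `Good` (helper812)

* `bal_ind` : for every class `P` (923's `Cls`) with `P A`, `P (Bal (Cq q) A (Sph ..))`;
* `good_RU : Good H U → Good H (RU q k U)`, `good_QUS : Good H (QU q U × SS q k)`, `good_SS`.
-/

set_option autoImplicit false
set_option linter.unusedSectionVars false

open Topology Filter Set

namespace Crest.Agent.R090.GoodR812

open OnePoint Crest.Agent.R090.Sp962 Crest.Agent.R090.Orb389 Crest.Agent.R090.GSp389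
open Crest.Agent.R090.QU389 Crest.Agent.R090.Sph389 Crest.Agent.R090.PowR389
open Crest.Agent.R090.AClass923 Crest.Agent.R090.Good812 Crest.Agent.R090.HSt285
open Crest.Agent.R090.Kun493

variable {P : SpPred} (h : Cls P) {q : ℕ} [Fact q.Prime]
include h

/-- balanced products with a free sphere -/
theorem bal_ind {A : Type} [TopologicalSpace A] [T2Space A] [LocallyCompactSpace A]
    [MulAction (Cq q) A] [ContinuousConstSMul (Cq q) A] (hA : P A) (m : ℕ) (w : Fin m → ZMod q)
    (hw : ∀ i, w i ≠ 0) : P (Bal (Cq q) A (sphG q m w hw).X) := by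
  refine sph_induction' q (fun T => P (Bal (Cq q) A T.X)) ?_ ?_ ?_ m w hw
  · intro T hT
    have : IsEmpty (Bal (Cq q) A T.X) := ⟨fun y => by
      obtain ⟨⟨a, t⟩, _⟩ := Orb.mk_surj (G := Cq q) y
      exact hT.false t⟩
    exact h.empty _ this
  · intro n
    exact h.homeo (Bal.cell A (Fin n → ℝ)) (h.prod hA (h.cell n))
  · intro F T O p hF hO
    have hoc : OC (Bal.incl A p.ie) (Bal.incl A p.je) :=
      ⟨Bal.isClosedEmbedding_incl p.ie p.ic, Bal.isOpenEmbedding_incl p.je p.jo,
        Bal.range_compl A p⟩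
    exact h.total hoc hF hO


end Crest.Agent.R090.GoodR812

namespace Crest.Agent.R090.GoodR812

open OnePoint Crest.Agent.R090.Sp962 Crest.Agent.R090.Orb389 Crest.Agent.R090.GSp389
open Crest.Agent.R090.QU389 Crest.Agent.R090.Sph389 Crest.Agent.R090.PowR389
open Crest.Agent.R090.AClass923 Crest.Agent.R090.Good812 Crest.Agent.R090.HSt285
open Crest.Agent.R090.Kun493

variable {F : Type} [Field F] {H : CohX F} {q : ℕ} [Fact q.Prime]

/-- **the power construction stays in the class** -/
theorem good_RU (X : KX H) {U : Type} [TopologicalSpace U] [T2Space U] [LocallyCompactSpace U]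
    (h : Good H U) (k : ℕ) : Good H (RU q k U) :=
  bal_ind (goodCls X) (good_QU X q h) (mm q k) (ww q k) (ww_ne q k)



end Crest.Agent.R090.GoodR812
end

-- ▼ part R090/TrCyc_673
section

set_option autoImplicit false
set_option linter.unusedSectionVars false

namespace Crest.Agent.R090.TrCyc673

open Finset Equiv

variable {R : Type*} [CommRing R] {J : Type*} [Fintype J] [DecidableEq J]

/-- sums over walks with `n` steps -/
theorem walk (A : Matrix J J R) (n : ℕ) (F : J → J → R) :
    ∑ a, ∑ b, F a b * (A ^ n) a b = ∑ w : Fin (n + 1) → J,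
      F (w (Fin.last n)) (w 0) * ∏ i : Fin n, A (w i.succ) (w i.castSucc) := by
  induction n generalizing F with
  | zero =>
    rw [← (Equiv.funUnique (Fin 1) J).symm.sum_comp]
    apply Finset.sum_congr rfl
    intro a _
    rw [Finset.sum_eq_single a]
    · simp
    · intro b _ hb
      rw [pow_zero, Matrix.one_apply_ne (Ne.symm hb), mul_zero]
    · simp
  | succ n ih =>
    have h1 : ∑ a, ∑ b, F a b * (A ^ (n + 1)) a b =
        ∑ a, ∑ c, (∑ b, F a b * A c b) * (A ^ n) a c := by
      apply Finset.sum_congr rfl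
      intro a _
      simp only [pow_succ, Matrix.mul_apply, Finset.mul_sum, Finset.sum_mul]
      rw [Finset.sum_comm]
      apply Finset.sum_congr rfl
      intro c _
      apply Finset.sum_congr rfl
      intro b _
      ring
    rw [h1, ih, ← (Fin.consEquiv (fun _ : Fin (n + 2) => J)).sum_comp, Fintype.sum_prod_type,
      Finset.sum_comm]
    apply Finset.sum_congr rfl
    intro w _
    rw [Finset.sum_mul]
    apply Finset.sum_congr rfl
    intro b _
    have e1 : (Fin.consEquiv (fun _ : Fin (n + 2) => J)) (b, w) = Fin.cons b w := rfl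
    rw [e1, Fin.prod_univ_succ]
    have e2 : (Fin.cons b w : Fin (n + 2) → J) (Fin.last (n + 1)) = w (Fin.last n) := by
      rw [← Fin.succ_last, Fin.cons_succ]
    have e3 : (Fin.cons b w : Fin (n + 2) → J) 0 = b := rfl
    rw [e2, e3]
    have e4 : ∀ i : Fin n, A ((Fin.cons b w : Fin (n + 2) → J) i.succ.succ)
        ((Fin.cons b w : Fin (n + 2) → J) i.succ.castSucc) = A (w i.succ) (w i.castSucc) := by
      intro i
      rw [Fin.cons_succ, ← Fin.succ_castSucc, Fin.cons_succ]
    have e5 : A ((Fin.cons b w : Fin (n + 2) → J) (Fin.succ 0))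
        ((Fin.cons b w : Fin (n + 2) → J) (Fin.castSucc 0)) = A (w 0) b := by
      rw [Fin.cons_succ, Fin.castSucc_zero]; rfl
    rw [e5]
    simp only [e4]
    ring

/-- cyclic words, standard rotation -/
theorem sum_rot (A : Matrix J J R) (n : ℕ) (D : J → R) :
    ∑ w : Fin (n + 1) → J, D (w 0) * ∏ i, A (w (finRotate (n + 1) i)) (w i) =
      ∑ j, D j * (A ^ (n + 1)) j j := by
  have h := walk A n (fun a b => D b * A b a)
  have h1 : ∑ j, D j * (A ^ (n + 1)) j j =
      ∑ a, ∑ b, (D b * A b a) * (A ^ n) a b := by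
    rw [Finset.sum_comm]
    apply Finset.sum_congr rfl
    intro b _
    rw [pow_succ', Matrix.mul_apply, Finset.mul_sum]
    apply Finset.sum_congr rfl
    intro a _
    ring
  rw [h1, h]
  apply Finset.sum_congr rfl
  intro w _
  rw [Fin.prod_univ_castSucc, finRotate_last]
  have : ∀ i : Fin n, finRotate (n + 1) i.castSucc = i.succ := by
    intro i
    rw [finRotate_of_lt]
    · rfl
    · simp
  simp only [this]
  ring

section cycle

variable {ι : Type*} [Fintype ι] [DecidableEq ι]

/-- a full cycle on `ι` is conjugate to the standard rotation, with any base point -/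
theorem exists_conj (g : Perm ι) (hg : g.IsCycleOn ((univ : Finset ι) : Set ι)) {n : ℕ}
    (hn : Fintype.card ι = n + 1) (i₀ : ι) :
    ∃ τ : Fin (n + 1) ≃ ι, τ 0 = i₀ ∧ ∀ i, g (τ i) = τ (finRotate (n + 1) i) := by
  have hcard : #(univ : Finset ι) = n + 1 := by rw [Finset.card_univ, hn]
  let f : Fin (n + 1) → ι := fun k => (g ^ (k : ℕ)) i₀
  have hinj : Function.Injective f := by
    intro a b hab
    have h1 : (a : ℕ) ≡ (b : ℕ) [MOD #(univ : Finset ι)] :=
      (hg.pow_apply_eq_pow_apply (mem_univ i₀)).1 hab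
    rw [hcard] at h1
    have h2 := h1.eq_of_lt_of_lt a.2 b.2
    exact Fin.ext h2
  have hbij : Function.Bijective f := by
    rw [Fintype.bijective_iff_injective_and_card]
    exact ⟨hinj, by simp [hn]⟩
  refine ⟨Equiv.ofBijective f hbij, ?_, ?_⟩
  · show (g ^ ((0 : Fin (n + 1)) : ℕ)) i₀ = i₀
    simp
  · intro i
    show g ((g ^ (i : ℕ)) i₀) = (g ^ ((finRotate (n + 1) i : Fin (n + 1)) : ℕ)) i₀
    rw [← Perm.mul_apply, ← pow_succ']
    rw [hg.pow_apply_eq_pow_apply (mem_univ i₀), hcard]
    rcases Fin.eq_castSucc_or_eq_last i with ⟨j, rfl⟩ | rfl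
    · rw [coe_finRotate_of_ne_last (Fin.castSucc_lt_last j).ne]
    · rw [finRotate_last]
      simp [Nat.ModEq]

/-- **cyclic words**: a full cycle `g` -/
theorem sum_cycle (A : Matrix J J R) (g : Perm ι) (hg : g.IsCycleOn ((univ : Finset ι) : Set ι))
    (i₀ : ι) (D : J → R) :
    ∑ w : ι → J, D (w i₀) * ∏ i, A (w (g i)) (w i) =
      ∑ j, D j * (A ^ Fintype.card ι) j j := by
  obtain ⟨n, hn⟩ : ∃ n, Fintype.card ι = n + 1 := ⟨Fintype.card ι - 1, by
    have : 0 < Fintype.card ι := Fintype.card_pos_iff.2 ⟨i₀⟩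
    omega⟩
  obtain ⟨τ, h0, hτ⟩ := exists_conj g hg hn i₀
  rw [hn, ← sum_rot A n D, ← (Equiv.arrowCongr τ (Equiv.refl J)).sum_comp]
  apply Finset.sum_congr rfl
  intro w _
  have h1 : ∀ x, (Equiv.arrowCongr τ (Equiv.refl J)) w x = w (τ.symm x) := fun x => rfl
  have h2 : τ.symm i₀ = 0 := by rw [← h0, Equiv.symm_apply_apply]
  rw [h1, h2]
  congr 1
  rw [← τ.prod_comp]
  apply Finset.prod_congr rfl
  intro i _
  rw [h1, h1, hτ, Equiv.symm_apply_apply, Equiv.symm_apply_apply]

/-- parity is constant along words with non zero weight -/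
theorem parity_const (A : Matrix J J R) (odd : J → Bool)
    (hA : ∀ i j, odd i ≠ odd j → A i j = 0) (g : Perm ι)
    (hg : g.IsCycleOn ((univ : Finset ι) : Set ι)) (w : ι → J)
    (hw : ∏ i, A (w (g i)) (w i) ≠ 0) (i₀ i : ι) : odd (w i) = odd (w i₀) := by
  have h1 : ∀ i, odd (w (g i)) = odd (w i) := by
    intro i
    by_contra h
    apply hw
    exact Finset.prod_eq_zero (mem_univ i) (hA _ _ h)
  have h2 : ∀ (n : ℕ) (i : ι), odd (w ((g ^ n) i)) = odd (w i) := by
    intro n
    induction n with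
    | zero => intro i; simp
    | succ n ih =>
      intro i
      rw [pow_succ', Perm.mul_apply, h1, ih]
  obtain ⟨n, hn⟩ := hg.exists_pow_eq (mem_univ i₀) (mem_univ i)
  rw [← hn.2, h2]

/-- **super trace of (full cycle) ∘ `A^{⊗ι}`**.  `odd` is the parity of the basis vectors, `A` an
even matrix, `ks w` the Koszul sign with which `g` acts on the word `w` (only its values on
pure words are used). -/
theorem super_cyclic (A : Matrix J J R) (odd : J → Bool)
    (hA : ∀ i j, odd i ≠ odd j → A i j = 0) (g : Perm ι)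
    (hg : g.IsCycleOn ((univ : Finset ι) : Set ι)) (hne : Nonempty ι) (ks : (ι → J) → R)
    (h0 : ∀ w, (∀ i, odd (w i) = false) → ks w = 1)
    (h1 : ∀ w, (∀ i, odd (w i) = true) → ks w = (-1) ^ (Fintype.card ι + 1)) :
    ∑ w : ι → J, (-1) ^ #{i | odd (w i) = true} * ks w * ∏ i, A (w (g i)) (w i) =
      ∑ j, (if odd j then -1 else 1) * (A ^ Fintype.card ι) j j := by
  obtain ⟨i₀⟩ := hne
  rw [← sum_cycle A g hg i₀ (fun j => if odd j then -1 else 1)]
  apply Finset.sum_congr rfl
  intro w _
  by_cases hw : ∏ i, A (w (g i)) (w i) = 0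
  · rw [hw, mul_zero, mul_zero]
  · have hp := parity_const A odd hA g hg w hw i₀
    congr 1
    cases h : odd (w i₀) with
    | false =>
      have hall : ∀ i, odd (w i) = false := fun i => (hp i).trans h
      rw [h0 w hall]
      have : #{i | odd (w i) = true} = 0 := by
        rw [Finset.card_eq_zero, Finset.filter_eq_empty_iff]
        intro i _
        rw [hall i]
        decide
      rw [this]
      simp
    | true =>
      have hall : ∀ i, odd (w i) = true := fun i => (hp i).trans h
      rw [h1 w hall]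
      have : #{i | odd (w i) = true} = Fintype.card ι := by
        rw [Finset.filter_true_of_mem (fun i _ => hall i), Finset.card_univ]
      rw [this, ← pow_add]
      have : (-1 : R) ^ (Fintype.card ι + (Fintype.card ι + 1)) = -1 := by
        rw [← add_assoc, ← two_mul, pow_succ, pow_mul]
        simp
      rw [this]
      simp

/-- super trace of `A^{⊗ι}` itself -/
theorem super_pow (A : Matrix J J R) (odd : J → Bool) :
    ∑ w : ι → J, (-1) ^ #{i | odd (w i) = true} * ∏ i, A (w i) (w i) =
      (∑ j, (if odd j then -1 else 1) * A j j) ^ Fintype.card ι := by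
  rw [← Finset.card_univ (α := ι), ← Finset.prod_const, Finset.prod_univ_sum]
  have : (Fintype.piFinset fun _ : ι => (univ : Finset J)) = univ := by
    ext w; simp
  rw [this]
  apply Finset.sum_congr rfl
  intro w _
  rw [Finset.prod_mul_distrib]
  congr 1
  rw [Finset.prod_ite]
  simp


theorem isCycleOn_of_isCycle (g : Perm ι) (hg : g.IsCycle) (hs : g.support = univ) :
    g.IsCycleOn ((univ : Finset ι) : Set ι) := by
  have h := hg.isCycleOn
  have h2 : {x | g x ≠ x} = ((univ : Finset ι) : Set ι) := by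
    ext x
    have : x ∈ g.support := by rw [hs]; exact mem_univ x
    rw [Perm.mem_support] at this
    simpa using this
  rw [h2] at h
  exact h

end cycle

/-- the nontrivial rotations of `q` letters, `q` prime, are full cycles -/
theorem isCycle_rot {q : ℕ} (hq : q.Prime) {k : ℕ} (hk : 0 < k) (hkq : k < q) :
    ((finRotate q) ^ k).IsCycle ∧ ((finRotate q) ^ k).support = univ := by
  obtain ⟨m, rfl⟩ : ∃ m, q = m + 2 := ⟨q - 2, by have := hq.two_le; omega⟩
  have h1 : (finRotate (m + 2)).IsCycle := isCycle_finRotate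
  have h2 : (finRotate (m + 2)).support = univ := support_finRotate
  have h3 : orderOf (finRotate (m + 2)) = m + 2 := by
    rw [h1.orderOf, h2, Finset.card_univ, Fintype.card_fin]
  refine ⟨h1.isCycle_pow_pos_of_lt_prime_order (by rw [h3]; exact hq) k hk (by rw [h3]; exact hkq), ?_⟩
  rw [h1.support_pow_of_pos_of_lt_orderOf hk (by rw [h3]; exact hkq), h2]


end Crest.Agent.R090.TrCyc673
end

-- ▼ part R090/TrMul_673
section

set_option autoImplicit false
set_option linter.unusedSectionVars false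

namespace Crest.Agent.R090.TrMul673

open Module Finset
open Crest.Agent.R090.TrAlg673 Crest.Agent.R090.TrCyc673

section tri

variable {K : Type*} [Field K] {A B C : Type*} [AddCommGroup A] [Module K A]
  [FiniteDimensional K A] [AddCommGroup B] [Module K B] [FiniteDimensional K B]
  [AddCommGroup C] [Module K C] [FiniteDimensional K C]




end tri

section homog

variable {K : Type*} [Field K] {V : Type*} [AddCommGroup V] [Module K V] [FiniteDimensional K V]

/-- an involution has a basis of eigenvectors -/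
theorem exists_homog_basis (h2 : (2 : K) ≠ 0) (s : Module.End K V) (hs : ∀ x, s (s x) = x) :
    ∃ (odd : Fin (finrank K V) → Bool) (b : Basis (Fin (finrank K V)) K V),
      ∀ j, s (b j) = (if odd j then (-1 : K) else 1) • b j := by
  classical
  let P : Submodule K V := LinearMap.ker (s - 1)
  let M : Submodule K V := LinearMap.ker (s + 1)
  have hP : ∀ x, x ∈ P ↔ s x = x := by
    intro x
    rw [LinearMap.mem_ker, LinearMap.sub_apply, Module.End.one_apply, sub_eq_zero]
  have hM : ∀ x, x ∈ M ↔ s x = -x := by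
    intro x
    rw [LinearMap.mem_ker, LinearMap.add_apply, Module.End.one_apply, add_eq_zero_iff_eq_neg]
  have hc : IsCompl P M := by
    constructor
    · rw [Submodule.disjoint_def]
      intro x h1 h3
      rw [hP] at h1
      rw [hM] at h3
      have : x = -x := h1.symm.trans h3
      have h4 : (2 : K) • x = 0 := by
        rw [two_smul]
        nth_rewrite 1 [this]
        exact neg_add_cancel x
      exact (smul_eq_zero.1 h4).resolve_left h2
    · rw [codisjoint_iff, eq_top_iff]
      intro x _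
      rw [Submodule.mem_sup]
      refine ⟨(2 : K)⁻¹ • (x + s x), ?_, (2 : K)⁻¹ • (x - s x), ?_, ?_⟩
      · rw [hP, map_smul, map_add, hs, add_comm]
      · rw [hM, map_smul, map_sub, hs, ← smul_neg, neg_sub]
      · rw [← smul_add, add_add_sub_cancel, ← two_smul K, smul_smul, inv_mul_cancel₀ h2, one_smul]
  let bP := finBasis K P
  let bM := finBasis K M
  let e : (P × M) ≃ₗ[K] V := Submodule.prodEquivOfIsCompl P M hc
  let b0 : Basis (Fin (finrank K P) ⊕ Fin (finrank K M)) K V := (bP.prod bM).map e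
  have hcard : Fintype.card (Fin (finrank K P) ⊕ Fin (finrank K M)) = finrank K V := by
    rw [Module.finrank_eq_card_basis b0]
  let f : (Fin (finrank K P) ⊕ Fin (finrank K M)) ≃ Fin (finrank K V) :=
    Fintype.equivFinOfCardEq hcard
  refine ⟨fun j => (f.symm j).isRight, b0.reindex f, ?_⟩
  intro j
  rw [Basis.reindex_apply]
  show s (b0 (f.symm j)) = (if (f.symm j).isRight = true then (-1 : K) else 1) • b0 (f.symm j)
  rcases f.symm j with x | x
  · have h1 : b0 (Sum.inl x) = (bP x : V) := by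
      simp [b0, e]
    rw [h1]
    simp only [Sum.isRight_inl, Bool.false_eq_true, if_false, one_smul]
    exact (hP _).1 (bP x).2
  · have h1 : b0 (Sum.inr x) = (bM x : V) := by
      simp [b0, e]
    rw [h1]
    simp only [Sum.isRight_inr, if_true, neg_smul, one_smul]
    exact (hM _).1 (bM x).2

/-- the matrix of an endomorphism commuting with the involution is even -/
theorem toMatrix_even {J : Type*} [Fintype J] [DecidableEq J] (h2 : (2 : K) ≠ 0)
    (s : Module.End K V) (odd : J → Bool)
    (b : Basis J K V) (hb : ∀ j, s (b j) = (if odd j then (-1 : K) else 1) • b j)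
    (φ : Module.End K V) (hφ : ∀ x, φ (s x) = s (φ x)) (i j : J) (hij : odd i ≠ odd j) :
    LinearMap.toMatrix b b φ i j = 0 := by
  have hr : ∀ x i, b.repr (s x) i = (if odd i then (-1 : K) else 1) * b.repr x i := by
    intro x i
    have h3 : s x = ∑ k, ((if odd k then (-1 : K) else 1) * b.repr x k) • b k := by
      conv_lhs => rw [← b.sum_repr x]
      rw [map_sum]
      apply Finset.sum_congr rfl
      intro k _
      rw [map_smul, hb, smul_smul, mul_comm]
    rw [h3, map_sum, Finsupp.finsetSum_apply]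
    rw [Finset.sum_eq_single i]
    · rw [map_smul, Finsupp.smul_apply, b.repr_self, Finsupp.single_eq_same, smul_eq_mul, mul_one]
    · intro k _ hk
      rw [map_smul, Finsupp.smul_apply, b.repr_self, Finsupp.single_eq_of_ne (Ne.symm hk),
        smul_eq_mul, mul_zero]
    · intro h
      exact absurd (mem_univ i) h
  rw [LinearMap.toMatrix_apply]
  have h4 := hr (φ (b j)) i
  rw [← hφ, hb, map_smul, map_smul, Finsupp.smul_apply, smul_eq_mul] at h4
  have h5 : ((if odd j then (-1 : K) else 1) - (if odd i then (-1 : K) else 1)) *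
      b.repr (φ (b j)) i = 0 := by rw [sub_mul, h4, sub_self]
  rcases mul_eq_zero.1 h5 with h6 | h6
  · exfalso
    cases hi : odd i <;> cases hj : odd j <;> simp [hi, hj] at hij h6
    · apply h2
      have : (-1 : K) - 1 = -2 := by norm_num
      rw [this] at h6
      exact neg_eq_zero.1 h6
    · apply h2
      have : (1 : K) + 1 = 2 := by norm_num
      rw [← this]
      exact h6
  · exact h6

end homog

section mul

variable {K : Type*} [Field K] {V W : Type*} [AddCommGroup V] [Module K V]
  [FiniteDimensional K V] [AddCommGroup W] [Module K W]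
  {ι : Type*} [Fintype ι] [DecidableEq ι] {J : Type*} [Fintype J] [DecidableEq J]

/-- the values of `m` on words of a basis -/
theorem trace_word (b : Basis J K V) (m : MultilinearMap K (fun _ : ι => V) W)
    (B : Basis (ι → J) K W) (hB : ∀ w, B w = m (fun i => b (w i)))
    (φ : Module.End K V) (g : Equiv.Perm ι) (ks : (ι → J) → K) (sg : (ι → J) → K)
    (S T : Module.End K W)
    (hT : ∀ w, T (B w) = ks w • m (fun i => φ (b (w (g i)))))
    (hS : ∀ w, S (B w) = sg w • B w) :
    LinearMap.trace K W (S * T) =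
      ∑ w : ι → J, sg w * ks w * ∏ i, LinearMap.toMatrix b b φ (w i) (w (g i)) := by
  rw [LinearMap.trace_eq_matrix_trace K B, Matrix.trace]
  apply Finset.sum_congr rfl
  intro w _
  rw [Matrix.diag_apply, LinearMap.toMatrix_apply, Module.End.mul_apply, hT]
  have h1 : m (fun i => φ (b (w (g i)))) =
      ∑ v : ι → J, (∏ i, LinearMap.toMatrix b b φ (v i) (w (g i))) • B v := by
    have h2 : ∀ i, φ (b (w (g i))) = ∑ j, LinearMap.toMatrix b b φ j (w (g i)) • b j := by
      intro i
      conv_lhs => rw [← b.sum_repr (φ (b (w (g i))))]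
      apply Finset.sum_congr rfl
      intro j _
      rw [LinearMap.toMatrix_apply]
    simp only [h2]
    rw [m.map_sum]
    apply Finset.sum_congr rfl
    intro v _
    rw [m.map_smul_univ, hB]
  have h3 : S (ks w • ∑ v : ι → J, (∏ i, LinearMap.toMatrix b b φ (v i) (w (g i))) • B v) =
      ∑ v : ι → J, (ks w * ((∏ i, LinearMap.toMatrix b b φ (v i) (w (g i))) * sg v)) • B v := by
    rw [map_smul, map_sum, Finset.smul_sum]
    apply Finset.sum_congr rfl
    intro v _
    rw [map_smul, hS, smul_smul, smul_smul, mul_assoc]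
  rw [h1, h3, map_sum, Finsupp.finsetSum_apply, Finset.sum_eq_single w]
  · rw [map_smul, Finsupp.smul_apply, B.repr_self, Finsupp.single_eq_same, smul_eq_mul, mul_one]
    ring
  · intro v _ hv
    rw [map_smul, Finsupp.smul_apply, B.repr_self, Finsupp.single_eq_of_ne (Ne.symm hv),
      smul_eq_mul, mul_zero]
  · intro h
    exact absurd (mem_univ w) h

/-- **super trace of `φ^{⊗ι}` composed with a signed full cycle.** -/
theorem super_cyclic_mul (h2 : (2 : K) ≠ 0) (s : Module.End K V) (odd : J → Bool)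
    (b : Basis J K V) (hb : ∀ j, s (b j) = (if odd j then (-1 : K) else 1) • b j)
    (φ : Module.End K V) (hφ : ∀ x, φ (s x) = s (φ x))
    (m : MultilinearMap K (fun _ : ι => V) W)
    (B : Basis (ι → J) K W) (hB : ∀ w, B w = m (fun i => b (w i)))
    (g : Equiv.Perm ι) (hg : g.IsCycleOn ((univ : Finset ι) : Set ι)) (hne : Nonempty ι)
    (ks : (ι → J) → K) (h0 : ∀ w, (∀ i, odd (w i) = false) → ks w = 1)
    (h1 : ∀ w, (∀ i, odd (w i) = true) → ks w = (-1) ^ (Fintype.card ι + 1))
    (S T : Module.End K W)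
    (hT : ∀ w, T (B w) = ks w • m (fun i => φ (b (w (g i)))))
    (hS : ∀ v, S (m v) = m (fun i => s (v i))) :
    LinearMap.trace K W (S * T) =
      LinearMap.trace K V (s * φ ^ Fintype.card ι) := by
  have hSB : ∀ w, S (B w) = ((-1 : K) ^ #{i | odd (w i) = true}) • B w := by
    intro w
    rw [hB, hS]
    simp only [hb]
    rw [m.map_smul_univ]
    congr 1
    rw [Finset.prod_ite]
    simp
  rw [trace_word b m B hB φ g ks _ S T hT hSB]
  have hA : ∀ i j, odd i ≠ odd j → LinearMap.toMatrix b b φ i j = 0 :=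
    toMatrix_even h2 s odd b hb φ hφ
  have hg' : (g⁻¹).IsCycleOn ((univ : Finset ι) : Set ι) := hg.inv
  have h3 := super_cyclic (LinearMap.toMatrix b b φ) odd hA g⁻¹ hg' hne ks h0 h1
  have h4 : ∀ w : ι → J, ∏ i, LinearMap.toMatrix b b φ (w i) (w (g i)) =
      ∏ i, LinearMap.toMatrix b b φ (w (g⁻¹ i)) (w i) := by
    intro w
    rw [← Equiv.prod_comp g (fun i => LinearMap.toMatrix b b φ (w (g⁻¹ i)) (w i))]
    apply Finset.prod_congr rfl
    intro i _
    rw [← Equiv.Perm.mul_apply, inv_mul_cancel, Equiv.Perm.one_apply]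
  simp only [h4]
  rw [h3, LinearMap.trace_eq_matrix_trace K b, LinearMap.toMatrix_mul, LinearMap.toMatrix_pow,
    Matrix.trace]
  apply Finset.sum_congr rfl
  intro j _
  rw [Matrix.diag_apply, Matrix.mul_apply, Finset.sum_eq_single j]
  · congr 1
    rw [LinearMap.toMatrix_apply, hb, map_smul, Finsupp.smul_apply, b.repr_self,
      Finsupp.single_eq_same, smul_eq_mul, mul_one]
  · intro k _ hk
    rw [LinearMap.toMatrix_apply, hb, map_smul, Finsupp.smul_apply, b.repr_self,
      Finsupp.single_eq_of_ne (Ne.symm hk), smul_eq_mul, mul_zero, zero_mul]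
  · intro h
    exact absurd (mem_univ j) h

/-- **super trace of `φ^{⊗ι}`.** -/
theorem super_pow_mul (s : Module.End K V) (odd : J → Bool)
    (b : Basis J K V) (hb : ∀ j, s (b j) = (if odd j then (-1 : K) else 1) • b j)
    (φ : Module.End K V) (m : MultilinearMap K (fun _ : ι => V) W)
    (B : Basis (ι → J) K W) (hB : ∀ w, B w = m (fun i => b (w i)))
    (S T : Module.End K W) (hT : ∀ v, T (m v) = m (fun i => φ (v i)))
    (hS : ∀ v, S (m v) = m (fun i => s (v i))) :
    LinearMap.trace K W (S * T) = LinearMap.trace K V (s * φ) ^ Fintype.card ι := by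
  have hSB : ∀ w, S (B w) = ((-1 : K) ^ #{i | odd (w i) = true}) • B w := by
    intro w
    rw [hB, hS]
    simp only [hb]
    rw [m.map_smul_univ]
    congr 1
    rw [Finset.prod_ite]
    simp
  rw [trace_word b m B hB φ 1 (fun _ => 1) _ S T (by
    intro w
    rw [one_smul, hB, hT]
    rfl) hSB]
  have h3 := super_pow (ι := ι) (LinearMap.toMatrix b b φ) odd
  simp only [Equiv.Perm.one_apply, mul_one]
  rw [h3]
  congr 1
  rw [LinearMap.trace_eq_matrix_trace K b, LinearMap.toMatrix_mul, Matrix.trace]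
  apply Finset.sum_congr rfl
  intro j _
  rw [Matrix.diag_apply, Matrix.mul_apply, Finset.sum_eq_single j]
  · congr 1
    rw [LinearMap.toMatrix_apply, hb, map_smul, Finsupp.smul_apply, b.repr_self,
      Finsupp.single_eq_same, smul_eq_mul, mul_one]
  · intro k _ hk
    rw [LinearMap.toMatrix_apply, hb, map_smul, Finsupp.smul_apply, b.repr_self,
      Finsupp.single_eq_of_ne (Ne.symm hk), smul_eq_mul, mul_zero, zero_mul]
  · intro h
    exact absurd (mem_univ j) h

end mul

end Crest.Agent.R090.TrMul673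
end

-- ▼ part R090/PowTr_253
section

/-!
# Row 90, block (A): Lefschetz numbers of smash powers (owner helper253)

* `Cross H` : the axioms of the cross product (58's Koszul form);
* `Cross.cm n` : iterated cross product `h(U)^{⊗(n+1)} → h(U^{n+1})`, its naturality, the snoc form,
  the rotation law;
* `Cross.L_pow`, `Cross.L_rot`: `L(φ^{∧q}) = L(φ)^q`, `L(φ^{∧q} ∘ rot) = tr(ε φ^q)`.
-/

set_option autoImplicit false
set_option linter.unusedSectionVars false
set_option linter.checkUnivs false

namespace Crest.Agent.R090.CohT253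

open Topology Set Crest.Agent.R090.Sp962 Crest.Agent.R090.TrAlg673 Crest.Agent.R090.Pi568
open Crest.Agent.R090.TrMul673 Crest.Agent.R090.TrCyc673

universe u v w

/-- axioms of a cross product on a cohomology theory -/
structure Cross {F : Type w} [Field F] (H : Coh.{u, v, w} F) where
  x : ∀ {U V : Type u} [TopologicalSpace U] [TopologicalSpace V] [T2Space U]
    [LocallyCompactSpace U] [T2Space V] [LocallyCompactSpace V],
    H.h U →ₗ[F] H.h V →ₗ[F] H.h (U × V)
  nat : ∀ {U V U' V' : Type u} [TopologicalSpace U] [TopologicalSpace V] [TopologicalSpace U']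
    [TopologicalSpace V'] [T2Space U] [LocallyCompactSpace U] [T2Space V] [LocallyCompactSpace V]
    [T2Space U'] [LocallyCompactSpace U'] [T2Space V'] [LocallyCompactSpace V']
    (f : PMap U U') (g : PMap V V') (a : H.h U') (b : H.h V'),
    H.map (f.smash g) (x a b) = x (H.map f a) (H.map g b)
  assoc : ∀ {U V W : Type u} [TopologicalSpace U] [TopologicalSpace V] [TopologicalSpace W]
    [T2Space U] [LocallyCompactSpace U] [T2Space V] [LocallyCompactSpace V] [T2Space W]
    [LocallyCompactSpace W] (a : H.h U) (b : H.h V) (c : H.h W),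
    H.map (PMap.ofHomeo (Homeomorph.prodAssoc U V W)) (x a (x b c)) = x (x a b) c
  eps_x : ∀ {U V : Type u} [TopologicalSpace U] [TopologicalSpace V] [T2Space U]
    [LocallyCompactSpace U] [T2Space V] [LocallyCompactSpace V] (a : H.h U) (b : H.h V),
    H.eps (U × V) (x a b) = x (H.eps U a) (H.eps V b)
  comm_even : ∀ {U V : Type u} [TopologicalSpace U] [TopologicalSpace V] [T2Space U]
    [LocallyCompactSpace U] [T2Space V] [LocallyCompactSpace V] (a : H.h U) (b : H.h V),
    H.eps U a = a → H.map (PMap.ofHomeo (Homeomorph.prodComm U V)) (x b a) = x a b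
  comm_odd : ∀ {U V : Type u} [TopologicalSpace U] [TopologicalSpace V] [T2Space U]
    [LocallyCompactSpace U] [T2Space V] [LocallyCompactSpace V] (a : H.h U) (b : H.h V),
    H.eps U a = -a → H.map (PMap.ofHomeo (Homeomorph.prodComm U V)) (x b a) = x a (H.eps V b)

namespace Coh

variable {F : Type w} [Field F] (H : Coh.{u, v, w} F)

/-- linear equivalence of a homeomorphism -/
noncomputable def equivH {U V : Type u} [TopologicalSpace U] [TopologicalSpace V] (e : U ≃ₜ V) :
    H.h V ≃ₗ[F] H.h U :=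
  LinearEquiv.ofLinearMap (H.map (PMap.ofHomeo e)) (H.map (PMap.ofHomeo e.symm))
    (by
      ext x
      rw [LinearMap.comp_apply, ← H.map_comp, PMap.ofHomeo_symm_comp, H.map_id]
      rfl)
    (by
      ext x
      rw [LinearMap.comp_apply, ← H.map_comp, PMap.ofHomeo_comp_symm, H.map_id]
      rfl)

@[simp] theorem equivH_apply {U V : Type u} [TopologicalSpace U] [TopologicalSpace V] (e : U ≃ₜ V)
    (x : H.h V) : H.equivH e x = H.map (PMap.ofHomeo e) x := rfl

theorem map_homeo_comp {U V W : Type u} [TopologicalSpace U] [TopologicalSpace V]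
    [TopologicalSpace W] (e : U ≃ₜ V) (e' : V ≃ₜ W) (x : H.h W) :
    H.map (PMap.ofHomeo e) (H.map (PMap.ofHomeo e') x) = H.map (PMap.ofHomeo (e.trans e')) x := by
  rw [← H.map_comp, PMap.ofHomeo_comp]

end Coh

namespace Cross

variable {F : Type w} [Field F] {H : Coh.{u, v, w} F} (X : Cross H)

theorem nat_homeo {U V U' V' : Type u} [TopologicalSpace U] [TopologicalSpace V]
    [TopologicalSpace U'] [TopologicalSpace V'] [T2Space U] [LocallyCompactSpace U] [T2Space V]
    [LocallyCompactSpace V] [T2Space U'] [LocallyCompactSpace U'] [T2Space V']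
    [LocallyCompactSpace V'] (e : U ≃ₜ U') (e' : V ≃ₜ V') (a : H.h U') (b : H.h V') :
    H.map (PMap.ofHomeo (e.prodCongr e')) (X.x a b) =
      X.x (H.map (PMap.ofHomeo e) a) (H.map (PMap.ofHomeo e') b) := by
  rw [← PMap.smash_ofHomeo, X.nat]

variable {U : Type u} [TopologicalSpace U] [T2Space U] [LocallyCompactSpace U]

variable (U) in
/-- one step of the iterated cross product -/
noncomputable def cmSucc {n : ℕ}
    (m : MultilinearMap F (fun _ : Fin (n + 1) => H.h U) (H.h (Fin (n + 1) → U))) :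
    MultilinearMap F (fun _ : Fin (n + 2) => H.h U) (H.h (Fin (n + 2) → U)) :=
  LinearMap.uncurryLeft (M := fun _ : Fin (n + 2) => H.h U)
    { toFun := fun a =>
        ((H.map (PMap.ofHomeo (finSucc (fun _ : Fin (n + 2) => U)))) ∘ₗ
          (X.x a)).compMultilinearMap m
      map_add' := fun a b => by
        ext v
        simp
      map_smul' := fun c a => by
        ext v
        simp }

variable (U) in
/-- the iterated cross product -/
noncomputable def cm : ∀ n : ℕ,
    MultilinearMap F (fun _ : Fin (n + 1) => H.h U) (H.h (Fin (n + 1) → U))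
  | 0 => (H.map (PMap.ofHomeo (Homeomorph.funUnique (Fin 1) U))).compMultilinearMap
      (MultilinearMap.ofSubsingleton F (H.h U) (H.h U) (0 : Fin 1) LinearMap.id)
  | n + 1 => X.cmSucc U (cm n)

theorem cm_zero (v : Fin 1 → H.h U) :
    X.cm U 0 v = H.map (PMap.ofHomeo (Homeomorph.funUnique (Fin 1) U)) (v 0) := rfl

theorem cm_succ {n : ℕ} (v : Fin (n + 2) → H.h U) :
    X.cm U (n + 1) v = H.map (PMap.ofHomeo (finSucc (fun _ : Fin (n + 2) => U)))
      (X.x (v 0) (X.cm U n (fun i => v i.succ))) := rfl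

/-- naturality -/
theorem map_cm {V : Type u} [TopologicalSpace V] [T2Space V] [LocallyCompactSpace V] (n : ℕ)
    (f : PMap U V) (v : Fin (n + 1) → H.h V) :
    H.map (pow (Fin (n + 1)) f) (X.cm V n v) = X.cm U n (fun i => H.map f (v i)) := by
  induction n with
  | zero =>
    rw [cm_zero, cm_zero, ← H.map_comp, ← H.map_comp]
    congr 1
    congr 1
    refine PMap.ext fun p => ?_
    rw [PMap.comp_apply, PMap.comp_apply, PMap.ofHomeo_coe, pow_coe]
    by_cases h : f (p 0 : OnePoint U) = OnePoint.infty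
    · rw [smPi_of_inf (0 : Fin 1) h, PMap.map_inf]
      exact h.symm
    · obtain ⟨y, hy⟩ := OnePoint.ne_infty_iff_exists.1 h
      have : smPi (fun i : Fin 1 => f (p i : OnePoint U)) =
          ((fun _ => y : Fin 1 → V) : OnePoint (Fin 1 → V)) := smPi_eq_coe.2 fun i => by
        rw [Subsingleton.elim i 0, hy]
      rw [this, PMap.ofHomeo_coe]
      exact hy
  | succ n ih =>
    rw [cm_succ, cm_succ, ← H.map_comp]
    have h := finSucc_pi (U := fun _ : Fin (n + 2) => U) (V := fun _ : Fin (n + 2) => V)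
      (fun _ => f)
    change H.map ((PMap.ofHomeo (finSucc (fun _ : Fin (n + 2) => V))).comp
      (PMap.pi (fun _ : Fin (n + 2) => f))) _ = _
    rw [h, H.map_comp, X.nat]
    congr 1
    congr 1
    exact ih _

/-- parity -/
theorem eps_cm (n : ℕ) (v : Fin (n + 1) → H.h U) :
    H.eps _ (X.cm U n v) = X.cm U n (fun i => H.eps U (v i)) := by
  induction n with
  | zero => rw [cm_zero, cm_zero, H.eps_map]
  | succ n ih => rw [cm_succ, cm_succ, H.eps_map, X.eps_x, ih]

/-! ### bases -/

/-- Künneth for one pair -/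
def Kue (U V : Type u) [TopologicalSpace U] [T2Space U] [LocallyCompactSpace U]
    [TopologicalSpace V] [T2Space V] [LocallyCompactSpace V] : Prop :=
  Function.Bijective (TensorProduct.lift (X.x (U := U) (V := V)))

theorem exists_basis {J : Type*} [Fintype J] (b : Module.Basis J F (H.h U))
    (hK : ∀ n : ℕ, X.Kue U (Fin (n + 1) → U)) (n : ℕ) :
    ∃ B : Module.Basis (Fin (n + 1) → J) F (H.h (Fin (n + 1) → U)),
      ∀ w, B w = X.cm U n (fun i => b (w i)) := by
  induction n with
  | zero =>
    refine ⟨(b.map (H.equivH (Homeomorph.funUnique (Fin 1) U))).reindex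
      (Equiv.funUnique (Fin 1) J).symm, fun w => ?_⟩
    rw [Module.Basis.reindex_apply, Module.Basis.map_apply, cm_zero, Coh.equivH_apply]
    rfl
  | succ n ih =>
    obtain ⟨B, hB⟩ := ih
    refine ⟨(((b.tensorProduct B).map (LinearEquiv.ofBijective _ (hK n))).map
      (H.equivH (finSucc (fun _ : Fin (n + 2) => U)))).reindex
        (Fin.consEquiv (fun _ : Fin (n + 2) => J)), fun w => ?_⟩
    rw [Module.Basis.reindex_apply, Module.Basis.map_apply, Module.Basis.map_apply, cm_succ,
      Coh.equivH_apply, Module.Basis.tensorProduct_apply']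
    change H.map _ (TensorProduct.lift X.x (b (w 0) ⊗ₜ[F] B (fun i => w i.succ))) = _
    rw [TensorProduct.lift.tmul, hB]

/-! ### the last factor -/

variable (U) in
/-- initial part and last coordinate -/
def snocH (n : ℕ) : (Fin (n + 2) → U) ≃ₜ (Fin (n + 1) → U) × U where
  toFun x := (fun i => x i.castSucc, x (Fin.last (n + 1)))
  invFun p := Fin.snoc (α := fun _ => U) p.1 p.2
  left_inv x := by
    funext i
    refine Fin.lastCases ?_ (fun i => ?_) i
    · simp
    · simp
  right_inv p := by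
    refine Prod.ext ?_ ?_
    · funext i; simp
    · simp
  continuous_toFun := by fun_prop
  continuous_invFun := by
    refine continuous_pi fun i => ?_
    refine Fin.lastCases ?_ (fun i => ?_) i
    · simp only [Fin.snoc_last]; exact continuous_snd
    · simp only [Fin.snoc_castSucc]; exact (continuous_apply i).comp continuous_fst

@[simp] theorem snocH_apply (n : ℕ) (x : Fin (n + 2) → U) :
    snocH U n x = (fun i => x i.castSucc, x (Fin.last (n + 1))) := rfl

theorem cm_snoc (n : ℕ) (v : Fin (n + 2) → H.h U) :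
    X.cm U (n + 1) v = H.map (PMap.ofHomeo (snocH U n))
      (X.x (X.cm U n (fun i => v i.castSucc)) (v (Fin.last (n + 1)))) := by
  induction n with
  | zero =>
    have e1 : v 0 = H.map (PMap.ofHomeo (Homeomorph.refl U)) (v 0) := by
      rw [PMap.ofHomeo_refl, H.map_id]
    have e2 : v (Fin.last 1) = H.map (PMap.ofHomeo (Homeomorph.refl U)) (v (Fin.last 1)) := by
      rw [PMap.ofHomeo_refl, H.map_id]
    rw [cm_succ, cm_zero, cm_zero]
    conv_lhs => rw [e1]
    conv_rhs => rw [e2]
    rw [← X.nat_homeo, ← X.nat_homeo, H.map_homeo_comp, H.map_homeo_comp]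
    rfl
  | succ n ih =>
    have e1 : v 0 = H.map (PMap.ofHomeo (Homeomorph.refl U)) (v 0) := by
      rw [PMap.ofHomeo_refl, H.map_id]
    have e2 : v (Fin.last (n + 2)) =
        H.map (PMap.ofHomeo (Homeomorph.refl U)) (v (Fin.last (n + 2))) := by
      rw [PMap.ofHomeo_refl, H.map_id]
    rw [cm_succ, ih, cm_succ]
    conv_lhs => rw [e1]
    conv_rhs => rw [e2]
    rw [← X.nat_homeo, ← X.nat_homeo, H.map_homeo_comp, H.map_homeo_comp, ← X.assoc,
      H.map_homeo_comp]
    rfl

/-! ### rotation -/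

/-- the sign of a parity -/
def sgn (F : Type*) [Field F] (o : Bool) : F := if o then -1 else 1

variable (F) in
/-- the sign of one rotation -/
def ks1 {n : ℕ} (o : Fin (n + 2) → Bool) : F :=
  if o (Fin.last (n + 1)) then ∏ i : Fin (n + 1), sgn F (o i.castSucc) else 1

theorem finRotate_castSucc' {n : ℕ} (i : Fin (n + 1)) : finRotate (n + 2) i.castSucc = i.succ := by
  rw [finRotate_apply, Fin.coeSucc_eq_succ]

theorem finRotate_last' {n : ℕ} : finRotate (n + 2) (Fin.last (n + 1)) = 0 := by
  rw [finRotate_apply, Fin.last_add_one]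

theorem map_rot1 {n : ℕ} (o : Fin (n + 2) → Bool) (v : Fin (n + 2) → H.h U)
    (hv : ∀ i, H.eps U (v i) = sgn F (o i) • v i) :
    H.map (PMap.ofHomeo (reixc U (finRotate (n + 2)))) (X.cm U (n + 1) v) =
      ks1 F o • X.cm U (n + 1) (fun i => v ((finRotate (n + 2)).symm i)) := by
  have hh : (reixc U (finRotate (n + 2))).trans (snocH U n) =
      (finSucc (fun _ : Fin (n + 2) => U)).trans (Homeomorph.prodComm U (Fin (n + 1) → U)) := by
    refine Homeomorph.ext fun x => ?_
    refine Prod.ext ?_ ?_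
    · funext i
      change x (finRotate (n + 2) i.castSucc) = x i.succ
      rw [finRotate_castSucc']
    · change x (finRotate (n + 2) (Fin.last (n + 1))) = x 0
      rw [finRotate_last']
  have h0 : (finRotate (n + 2)).symm 0 = Fin.last (n + 1) := by
    rw [Equiv.symm_apply_eq, finRotate_last']
  have hs : ∀ i : Fin (n + 1), (finRotate (n + 2)).symm i.succ = i.castSucc := by
    intro i
    rw [Equiv.symm_apply_eq, finRotate_castSucc']
  rw [cm_snoc, H.map_homeo_comp, hh, ← H.map_homeo_comp, cm_succ, h0]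
  simp only [hs]
  rw [ks1]
  by_cases ho : o (Fin.last (n + 1)) = true
  · have hl : H.eps U (v (Fin.last (n + 1))) = - v (Fin.last (n + 1)) := by
      rw [hv, ho, sgn, if_pos rfl, neg_one_smul]
    have hl' : H.eps _ (X.cm U n (fun i => v i.castSucc)) =
        (∏ i : Fin (n + 1), sgn F (o i.castSucc)) • X.cm U n (fun i => v i.castSucc) := by
      rw [eps_cm]
      simp only [hv]
      rw [(X.cm U n).map_smul_univ]
    rw [X.comm_odd _ _ hl, hl', if_pos ho, map_smul, map_smul]
  · have hl : H.eps U (v (Fin.last (n + 1))) = v (Fin.last (n + 1)) := by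
      rw [hv, sgn, if_neg ho, one_smul]
    rw [X.comm_even _ _ hl, if_neg ho, one_smul]

variable (F) in
/-- the sign of `k` rotations -/
def ksR {n : ℕ} : ℕ → (Fin (n + 2) → Bool) → F
  | 0, _ => 1
  | k + 1, o => ks1 F o * ksR k (fun i => o ((finRotate (n + 2)).symm i))

theorem ks1_even {n : ℕ} (o : Fin (n + 2) → Bool) (ho : ∀ i, o i = false) : ks1 F o = 1 := by
  rw [ks1, if_neg (by rw [ho]; decide)]

theorem ks1_odd {n : ℕ} (o : Fin (n + 2) → Bool) (ho : ∀ i, o i = true) :
    ks1 F o = (-1) ^ (n + 1) := by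
  rw [ks1, if_pos (ho _)]
  simp [ho, sgn]

theorem ksR_even {n : ℕ} (k : ℕ) (o : Fin (n + 2) → Bool) (ho : ∀ i, o i = false) :
    ksR F k o = 1 := by
  induction k generalizing o with
  | zero => rfl
  | succ k ih => rw [ksR, ks1_even o ho, ih _ (fun i => ho _), one_mul]

theorem ksR_odd {n : ℕ} (k : ℕ) (o : Fin (n + 2) → Bool) (ho : ∀ i, o i = true) :
    ksR F k o = ((-1) ^ (n + 1)) ^ k := by
  induction k generalizing o with
  | zero => rw [ksR, pow_zero]
  | succ k ih => rw [ksR, ks1_odd o ho, ih _ (fun i => ho _), ← pow_succ' ((-1 : F) ^ (n + 1)) k]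

theorem map_rotk {n : ℕ} (k : ℕ) (o : Fin (n + 2) → Bool) (v : Fin (n + 2) → H.h U)
    (hv : ∀ i, H.eps U (v i) = sgn F (o i) • v i) :
    H.map (PMap.ofHomeo (reixc U ((finRotate (n + 2)) ^ k))) (X.cm U (n + 1) v) =
      ksR F k o • X.cm U (n + 1) (fun i => v (((finRotate (n + 2)) ^ k).symm i)) := by
  induction k generalizing o v with
  | zero =>
    rw [pow_zero, ksR, one_smul]
    change H.map (PMap.ofHomeo (reixc U (Equiv.refl _))) _ = _
    rw [reixc_refl, PMap.ofHomeo_refl, H.map_id]
    rfl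
  | succ k ih =>
    have e : ((finRotate (n + 2)) ^ (k + 1)) =
        (finRotate (n + 2)).trans ((finRotate (n + 2)) ^ k) := by
      rw [pow_succ]; rfl
    rw [e, ← reixc_trans, ← H.map_homeo_comp, X.map_rot1 o v hv, map_smul,
      ih (fun i => o ((finRotate (n + 2)).symm i)) _ (fun i => hv _), smul_smul, ksR]
    rfl

/-! ### Lefschetz numbers of powers -/

/-- iterates of a pointed self map -/
def iter (φ : PMap U U) : ℕ → PMap U U
  | 0 => PMap.id U
  | k + 1 => (iter φ k).comp φ

theorem map_iter (φ : PMap U U) (k : ℕ) : H.map (iter φ k) = (H.map φ) ^ k := by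
  induction k with
  | zero =>
    ext x
    rw [pow_zero]
    exact H.map_id U x
  | succ k ih =>
    ext x
    rw [iter, H.map_comp, ih, pow_succ']
    rfl

theorem L_iter (φ : PMap U U) (k : ℕ) :
    H.L (iter φ k) = LinearMap.trace F (H.h U) (H.eps U * H.map φ ^ k) := by
  rw [Coh.L, ← map_iter]
  rfl

theorem L_pow (h2 : (2 : F) ≠ 0) (hK : ∀ n : ℕ, X.Kue U (Fin (n + 1) → U)) (hU : H.Fin U) (n : ℕ)
    (φ : PMap U U) : H.L (pow (Fin (n + 2)) φ) = H.L φ ^ (n + 2) := by
  have : FiniteDimensional F (H.h U) := hU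
  obtain ⟨odd, b, hb⟩ := exists_homog_basis h2 (H.eps U) (H.eps_eps U)
  obtain ⟨B, hB⟩ := X.exists_basis b hK (n + 1)
  have h := super_pow_mul (H.eps U) odd b hb (H.map φ) (X.cm U (n + 1)) B hB
    (H.eps (Fin (n + 2) → U)) (H.map (pow (Fin (n + 2)) φ)) (fun v => X.map_cm (n + 1) φ v)
    (fun v => X.eps_cm (n + 1) v)
  rw [Fintype.card_fin] at h
  exact h

theorem L_rotk (h2 : (2 : F) ≠ 0) (hK : ∀ n : ℕ, X.Kue U (Fin (n + 1) → U)) (hU : H.Fin U)
    {n : ℕ} (hq : (n + 2).Prime) {k : ℕ} (hk : 0 < k) (hkq : k < n + 2) (φ : PMap U U) :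
    H.L ((pow (Fin (n + 2)) φ).comp (PMap.ofHomeo (reixc U ((finRotate (n + 2)) ^ k)))) =
      H.L (iter φ (n + 2)) := by
  have : FiniteDimensional F (H.h U) := hU
  obtain ⟨odd, b, hb⟩ := exists_homog_basis h2 (H.eps U) (H.eps_eps U)
  obtain ⟨B, hB⟩ := X.exists_basis b hK (n + 1)
  have hcyc := isCycle_rot hq hk hkq
  have hg := (isCycleOn_of_isCycle _ hcyc.1 hcyc.2).inv
  have hb' : ∀ j, H.eps U (H.map φ (b j)) = sgn F (odd j) • H.map φ (b j) := by
    intro j
    rw [H.eps_map, hb, map_smul]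
    rfl
  have h := super_cyclic_mul h2 (H.eps U) odd b hb (H.map φ)
    (fun x => (H.eps_map φ x).symm) (X.cm U (n + 1)) B hB ((finRotate (n + 2)) ^ k)⁻¹ hg ⟨0⟩
    (fun w => ksR F k (fun i => odd (w i)))
    (fun w hw => ksR_even k _ hw)
    (fun w hw => by
      rw [ksR_odd k _ hw, Fintype.card_fin]
      rcases hq.eq_two_or_odd' with h2' | hodd
      · have hn : n = 0 := by omega
        subst hn
        have hk1 : k = 1 := by omega
        subst hk1
        norm_num
      · have e1 : Even (n + 1) := by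
          have h3 : n + 2 = n + 1 + 1 := rfl
          rw [h3, Nat.odd_add_one, Nat.not_odd_iff_even] at hodd
          exact hodd
        have e2 : Even (n + 2 + 1) := by
          have h3 : n + 2 + 1 = (n + 1) + 2 := by omega
          rw [h3]
          exact e1.add even_two
        rw [e1.neg_one_pow, e2.neg_one_pow, one_pow])
    (H.eps (Fin (n + 2) → U))
    (H.map (PMap.ofHomeo (reixc U ((finRotate (n + 2)) ^ k))) ∘ₗ H.map (pow (Fin (n + 2)) φ))
    (fun w => by
      rw [LinearMap.comp_apply, hB, X.map_cm, X.map_rotk k (fun i => odd (w i)) _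
        (fun i => hb' (w i))]
      rfl)
    (fun v => X.eps_cm (n + 1) v)
  rw [Fintype.card_fin] at h
  rw [L_iter, ← h, Coh.L]
  congr 1
  ext x
  rw [Coh.T_apply, H.map_comp]
  rfl

theorem finRotate_pow_eq (n k : ℕ) :
    ((finRotate (n + 2)) ^ k : Equiv.Perm (Fin (n + 2))) =
      (Equiv.addRight (k : ZMod (n + 2)) : Equiv.Perm (ZMod (n + 2))) := by
  induction k with
  | zero =>
    refine Equiv.ext fun i => ?_
    let j : ZMod (n + 2) := i
    change j = j + ((0 : ℕ) : ZMod (n + 2))
    rw [Nat.cast_zero, add_zero]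
  | succ k ih =>
    refine Equiv.ext fun i => ?_
    rw [pow_succ, Equiv.Perm.mul_apply, ih, finRotate_apply]
    let j : ZMod (n + 2) := i
    change (j + 1) + (k : ZMod (n + 2)) = j + ((k + 1 : ℕ) : ZMod (n + 2))
    push_cast
    ring

/-- `L(φ^{∧q}) = L(φ)^q` -/
theorem L_powZ (h2 : (2 : F) ≠ 0) (hK : ∀ n : ℕ, X.Kue U (Fin (n + 1) → U)) (hU : H.Fin U)
    {q : ℕ} [hq : Fact q.Prime] (φ : PMap U U) : H.L (pow (ZMod q) φ) = H.L φ ^ q := by
  obtain ⟨n, rfl⟩ : ∃ n, q = n + 2 := ⟨q - 2, by have := hq.out.two_le; omega⟩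
  exact X.L_pow h2 hK hU n φ

/-- `L(φ^{∧q} ∘ rotation) = L(φ^q)` -/
theorem L_rotZ (h2 : (2 : F) ≠ 0) (hK : ∀ n : ℕ, X.Kue U (Fin (n + 1) → U)) (hU : H.Fin U)
    {q : ℕ} [hq : Fact q.Prime] (a : ZMod q) (ha : a ≠ 0) (φ : PMap U U) :
    H.L ((pow (ZMod q) φ).comp (PMap.ofHomeo (reixc U (Equiv.addRight a)))) = H.L (iter φ q) := by
  obtain ⟨n, rfl⟩ : ∃ n, q = n + 2 := ⟨q - 2, by have := hq.out.two_le; omega⟩
  have hv : 0 < a.val := by
    rw [Nat.pos_iff_ne_zero]
    intro h
    exact ha ((ZMod.val_eq_zero a).1 h)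
  have h := X.L_rotk h2 hK hU hq.out hv (ZMod.val_lt a) φ
  rw [finRotate_pow_eq, ZMod.natCast_val, ZMod.cast_id', id] at h
  exact h

end Cross

end Crest.Agent.R090.CohT253
private theorem rz_7bebdef366 : type_of% @_root_.Crest.Agent.R090.CohT253.Cross.iter.eq_def := @_root_.Crest.Agent.R090.CohT253.Cross.iter.eq_def -- L336
private theorem rz_333c233dc0 : type_of% @_root_.Crest.Agent.R090.CohT253.Cross.iter.eq_1 := @_root_.Crest.Agent.R090.CohT253.Cross.iter.eq_1 -- L336
private theorem rz_eff652873e : type_of% @_root_.Crest.Agent.R090.CohT253.Cross.ksR.eq_def := @_root_.Crest.Agent.R090.CohT253.Cross.ksR.eq_def -- L291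
private theorem rz_36170fbb3c : type_of% @_root_.Crest.Agent.R090.CohT253.Cross.ksR.eq_1 := @_root_.Crest.Agent.R090.CohT253.Cross.ksR.eq_1 -- L291
end

-- ▼ part R090/ATrace_253
section

/-!
# Row 90, leaf A-TRACE (owner helper253)

`q L(Φ) = L(φ)^q + (q-1) L(φ^q) - q L(φ)` for the self map `Φ` of `R U = (Q U × S)/C_q` induced by
a pointed self map `φ` of `U`.

* `decQ` : the diagonal of `U^q` and its complement `QU q U`;
* `L_QU` : `L(φ_Q ∘ g) = L(φ^{∧q} ∘ g) - L(φ)`;
* `sum_QU`: `Σ_g L(φ_Q ∘ g) = L(φ)^q + (q-1) L(φ^q) - q L(φ)`;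
* `L_orb` : the quotient; `trace_formula`.
-/

set_option autoImplicit false
set_option linter.unusedSectionVars false
set_option linter.checkUnivs false

namespace Crest.Agent.R090.CohT253

open Topology Set Crest.Agent.R090.Sp962 Crest.Agent.R090.Pi568 Crest.Agent.R090.Orb389
open Crest.Agent.R090.QU389

universe u v w

/-- 389's action as an `Act` -/
def actA (G : Type) [Group G] [Finite G] (W : Type u) [TopologicalSpace W] [MulAction G W]
    [ContinuousConstSMul G W] : Act G W where
  act g := actP g W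
  one := actP_one
  mul := actP_mul

@[simp] theorem actA_act (G : Type) [Group G] [Finite G] (W : Type u) [TopologicalSpace W] [MulAction G W]
    [ContinuousConstSMul G W] (g : G) : (actA G W).act g = actP g W := rfl

section

variable {q : ℕ} [NeZero q] {U : Type u} [TopologicalSpace U] [T2Space U] [LocallyCompactSpace U]

variable (q U) in
/-- the diagonal and its complement -/
def decQ : Dec U (ZMod q → U) (QU q U) where
  i := QU.diag q U
  hi := QU.isClosedEmbedding_diag
  j := QU.inc q U
  hj := QU.isOpenEmbedding_inc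
  compl := QU.range_inc

/-- the strict self map `φ^{∧q} ∘ g` of the pair -/
noncomputable def strQ (φ : PMap U U) (g : Cq q) : Coh.Strict (decQ q U) (decQ q U) where
  fK := φ
  fU := (pow (ZMod q) φ).comp (PMap.ofHomeo (rot g U))
  fO := (QU.map q φ).comp (actP g (QU q U))
  hK := by
    change ((pow (ZMod q) φ).comp (PMap.ofHomeo (rot g U))).comp
      (PMap.ofClosed (QU.diag q U) QU.isClosedEmbedding_diag) =
      (PMap.ofClosed (QU.diag q U) QU.isClosedEmbedding_diag).comp φ
    rw [PMap.comp_assoc, QU.rot_diag, QU.map_diag]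
  hO := by
    change (PMap.ofOpen (QU.inc q U) QU.isOpenEmbedding_inc).comp
      ((pow (ZMod q) φ).comp (PMap.ofHomeo (rot g U))) =
      ((QU.map q φ).comp (actP g (QU q U))).comp
        (PMap.ofOpen (QU.inc q U) QU.isOpenEmbedding_inc)
    rw [← PMap.comp_assoc, ← QU.map_collapse, PMap.comp_assoc, ← QU.rot_collapse, PMap.comp_assoc]

variable {F : Type w} [Field F] {H : Coh.{u, v, w} F} (X : Cross H)

theorem fin_QU (hU : H.Fin U) (hUq : H.Fin (ZMod q → U)) : H.Fin (QU q U) :=
  Coh.Fin.open_of_dec H (decQ q U) hU hUq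

theorem L_QU (hU : H.Fin U) (hUq : H.Fin (ZMod q → U)) (φ : PMap U U) (g : Cq q) :
    H.L ((QU.map q φ).comp (actP g (QU q U))) =
      H.L ((pow (ZMod q) φ).comp (PMap.ofHomeo (rot g U))) - H.L φ := by
  have h := H.L_dec (strQ φ g) hUq hU (fin_QU hU hUq)
  have h' : H.L ((pow (ZMod q) φ).comp (PMap.ofHomeo (rot g U))) =
      H.L φ + H.L ((QU.map q φ).comp (actP g (QU q U))) := h
  rw [h', add_sub_cancel_left]

end

section

variable {q : ℕ} [hq : Fact q.Prime] {U : Type u} [TopologicalSpace U] [T2Space U]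
  [LocallyCompactSpace U]

variable {F : Type w} [Field F] {H : Coh.{u, v, w} F} (X : Cross H)

theorem finZ (hK : ∀ n : ℕ, X.Kue U (Fin (n + 1) → U)) (hU : H.Fin U) : H.Fin (ZMod q → U) := by
  obtain ⟨n, rfl⟩ : ∃ n, q = n + 1 := ⟨q - 1, by have := hq.out.pos; omega⟩
  have : FiniteDimensional F (H.h U) := hU
  obtain ⟨B, -⟩ := X.exists_basis (Module.finBasis F (H.h U)) hK n
  have h : FiniteDimensional F (H.h (Fin (n + 1) → U)) := Module.Finite.of_basis B
  exact h

/-- **the sum over the group** -/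
theorem sum_QU (h2 : (2 : F) ≠ 0) (hK : ∀ n : ℕ, X.Kue U (Fin (n + 1) → U)) (hU : H.Fin U)
    (φ : PMap U U) :
    ∑ g : Cq q, H.L ((QU.map q φ).comp (actP g (QU q U))) =
      H.L φ ^ q + ((q : F) - 1) * H.L (Cross.iter φ q) - q * H.L φ := by
  classical
  have hUq : H.Fin (ZMod q → U) := finZ X hK hU
  have h1 : ∀ g : Cq q, H.L ((QU.map q φ).comp (actP g (QU q U))) =
      (if g = 1 then H.L φ ^ q else H.L (Cross.iter φ q)) - H.L φ := by
    intro g
    rw [L_QU hU hUq]
    congr 1
    by_cases hg : g = 1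
    · subst hg
      rw [if_pos rfl, rot_one, PMap.ofHomeo_refl, PMap.comp_id]
      exact X.L_powZ h2 hK hU φ
    · rw [if_neg hg]
      refine X.L_rotZ h2 hK hU _ (fun h => hg ?_) φ
      apply Multiplicative.toAdd.injective
      rw [h]; rfl
  rw [Finset.sum_congr rfl fun g _ => h1 g, Finset.sum_sub_distrib, Finset.sum_ite,
    Finset.sum_const, Finset.sum_const, Finset.sum_const, Finset.card_univ]
  have c1 : (Finset.univ.filter fun g : Cq q => g = 1).card = 1 := by
    rw [Finset.filter_eq', if_pos (Finset.mem_univ _), Finset.card_singleton]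
  have c0 : Fintype.card (Cq q) = q := by
    rw [Fintype.card_multiplicative, ZMod.card]
  have c2 : (Finset.univ.filter fun g : Cq q => ¬ g = 1).card = q - 1 := by
    have := Finset.card_filter_add_card_filter_not (s := (Finset.univ : Finset (Cq q)))
      (fun g : Cq q => g = 1)
    rw [c1, Finset.card_univ, c0] at this
    omega
  rw [c1, c2, c0, one_smul, nsmul_eq_mul, nsmul_eq_mul, Nat.cast_sub hq.out.one_lt.le,
    Nat.cast_one]

variable {E : Type u} [TopologicalSpace E] [T2Space E] [LocallyCompactSpace E]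
  [MulAction (Cq q) E] [ContinuousConstSMul (Cq q) E]

/-- **the quotient.** `E` is a free `C_q`-space with `π : E → Q`, `s : Q → E` equivariant,
`π s = 1`; `f` an equivariant self map of `Q`; `f'` the self map `[e] ↦ [s f π e]` of `E/C_q`. -/
theorem L_orb {Q : Type u} [TopologicalSpace Q] [MulAction (Cq q) Q]
    [ContinuousConstSMul (Cq q) Q] (hQ : H.QInv (actA (Cq q) E) (Orb.pr (Cq q) E))
    (hq0 : (q : F) ≠ 0) (hE : H.Fin E) (hQf : H.Fin Q) (π : PMap E Q) (s : PMap Q E)
    (hs : π.comp s = PMap.id Q) (hπe : Equi (Cq q) π) (hse : Equi (Cq q) s) (f : PMap Q Q)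
    (hf : Equi (Cq q) f) (f' : PMap (Orb (Cq q) E) (Orb (Cq q) E))
    (hf' : f'.comp (Orb.pr (Cq q) E) = (Orb.pr (Cq q) E).comp (s.comp (f.comp π))) :
    (q : F) * H.L f' = ∑ g : Cq q, H.L (f.comp (actP g Q)) := by
  have hcard : (Fintype.card (Cq q) : F) = q := by
    rw [Fintype.card_multiplicative, ZMod.card]
  have hcomm : ∀ g, (s.comp (f.comp π)).comp (actP g E) = (actP g E).comp (s.comp (f.comp π)) :=
    hse.comp (hf.comp hπe)
  have h := hQ.L_quot (by rw [hcard]; exact hq0) hE (s.comp (f.comp π)) f' hf'.symm hcomm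
  rw [hcard] at h
  rw [h]
  apply Finset.sum_congr rfl
  intro g _
  have e1 : (s.comp (f.comp π)).comp ((actA (Cq q) E).act g) =
      s.comp ((f.comp (actP g Q)).comp π) := by
    rw [actA_act, PMap.comp_assoc, PMap.comp_assoc, hπe g, PMap.comp_assoc]
  rw [e1, H.L_comm hE hQf ((f.comp (actP g Q)).comp π) s]
  congr 1
  rw [PMap.comp_assoc, hs, PMap.comp_id]

/-- **the trace formula** `q L(Φ) = L(φ)^q + (q-1) L(φ^q) - q L(φ)` -/
theorem trace_formula (h2 : (2 : F) ≠ 0) (hq0 : (q : F) ≠ 0)
    (hK : ∀ n : ℕ, X.Kue U (Fin (n + 1) → U)) (hU : H.Fin U)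
    (hQ : H.QInv (actA (Cq q) E) (Orb.pr (Cq q) E)) (hE : H.Fin E)
    (π : PMap E (QU q U)) (s : PMap (QU q U) E)
    (hs : π.comp s = PMap.id _) (hπe : Equi (Cq q) π) (hse : Equi (Cq q) s) (φ : PMap U U)
    (f' : PMap (Orb (Cq q) E) (Orb (Cq q) E))
    (hf' : f'.comp (Orb.pr (Cq q) E) = (Orb.pr (Cq q) E).comp (s.comp ((QU.map q φ).comp π))) :
    (q : F) * H.L f' = H.L φ ^ q + ((q : F) - 1) * H.L (Cross.iter φ q) - q * H.L φ := by
  rw [← sum_QU X h2 hK hU φ]
  exact L_orb hQ hq0 hE (fin_QU hU (finZ X hK hU)) π s hs hπe hse (QU.map q φ) (QU.map_equi φ)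
    f' hf'

end

end Crest.Agent.R090.CohT253
end

-- ▼ part R090/CrossX_253
section

/-!
# Row 90, leaf A-TRACE: binding to 285's `CohX` and 493's Künneth class (owner helper253)
-/

set_option autoImplicit false
set_option linter.unusedSectionVars false

namespace Crest.Agent.R090.CohT253

open Topology Set Crest.Agent.R090.Sp962 Crest.Agent.R090.Pi568 Crest.Agent.R090.Orb389
open Crest.Agent.R090.QU389 Crest.Agent.R090.HSt285 Crest.Agent.R090.Kun493

variable {F : Type} [Field F]

/-- the cross product of 285's structure in the form of `Cross` -/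
def crossOf (H : CohX F) : Cross H.toCoh where
  x := H.cr _ _
  nat f g a b := H.cr_map f g a b
  assoc a b c := H.cr_assoc a b c
  eps_x a b := H.eps_cr a b
  comm_even {U V} _ _ _ _ _ _ a b ha := by
    rw [← H.cr_comm_even a b ha, ← H.map_comp]
    have : (PMap.ofHomeo (Homeomorph.prodComm V U)).comp (PMap.ofHomeo (Homeomorph.prodComm U V)) =
        PMap.id (U × V) := PMap.ext fun _ => rfl
    rw [this, H.map_id]
  comm_odd {U V} _ _ _ _ _ _ a b ha := by
    have h := H.cr_comm_odd a (H.eps V b) ha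
    rw [H.eps_eps] at h
    rw [← h, ← H.map_comp]
    have : (PMap.ofHomeo (Homeomorph.prodComm V U)).comp (PMap.ofHomeo (Homeomorph.prodComm U V)) =
        PMap.id (U × V) := PMap.ext fun _ => rfl
    rw [this, H.map_id]

theorem kue_of_KU {H : CohX F} {U V : Type} [TopologicalSpace U] [T2Space U]
    [LocallyCompactSpace U] [TopologicalSpace V] [T2Space V] [LocallyCompactSpace V]
    (h : KU H U) : (crossOf H).Kue U V := h V

end Crest.Agent.R090.CohT253
end

-- ▼ part R090/ATraceR_253
section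

/-!
# Row 90, leaf A-TRACE: the literal trace formula for 389's `pw` (owner helper253)

`q L(pw φ) = L(φ)^q - L(φ) + (q-1) (L(φ^q) - L(φ))`  for `pw φ : PMap (RU q k U) (RU q k U)`.
-/

set_option autoImplicit false
set_option linter.unusedSectionVars false

namespace Crest.Agent.R090.ATraceR253

open Topology Set Crest.Agent.R090.Sp962 Crest.Agent.R090.Pi568 Crest.Agent.R090.Orb389
open Crest.Agent.R090.QU389 Crest.Agent.R090.HSt285 Crest.Agent.R090.Kun493
open Crest.Agent.R090.CohT253 Crest.Agent.R090.GSp389 Crest.Agent.R090.Sph389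
open Crest.Agent.R090.PowR389 Crest.Agent.R090.AClass923

variable {F : Type} [Field F] {H : CohX F} (X : KX H)
include X

/-- `ι × U` for a finite discrete `ι` -/
theorem cc_disc {ι : Type} [Finite ι] [TopologicalSpace ι] [DiscreteTopology ι] {U : Type}
    [TopologicalSpace U] [T2Space U] [LocallyCompactSpace U] (hU : CC H U) : CC H (ι × U) := by
  obtain ⟨n, ⟨e⟩⟩ := Finite.exists_equiv_fin ι
  have h1 : CC H (Fin n × U) := (cls_CC X).sigma_fin hU n
  refine CC.of_homeo ?_ h1
  exact
    { toEquiv := e.prodCongr (Equiv.refl U)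
      continuous_toFun :=
        (continuous_of_discreteTopology.comp continuous_fst).prodMk continuous_snd
      continuous_invFun :=
        (continuous_of_discreteTopology.comp continuous_fst).prodMk continuous_snd }

/-- the free spheres -/
theorem cc_sph (q : ℕ) [Fact q.Prime] (m : ℕ) (w : Fin m → ZMod q) (hw : ∀ i, w i ≠ 0) :
    CC H (sphG q m w hw).X :=
  sph_induction' q (fun T => CC H T.X)
    (fun T hT => by
      have := hT
      exact CC.of_isEmpty)
    (fun n => cc_disc X (CC.fin_pow X (CC.real X) n))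
    (fun {F T O} p hF hO => CC.of_dec X ⟨p.i, p.ic, p.j, p.jo, p.compl⟩ hF hO)
    m w hw

variable {q : ℕ} [Fact q.Prime] {k : ℕ}
variable {U : Type} [TopologicalSpace U] [T2Space U] [LocallyCompactSpace U]

theorem cc_QU (hU : CC H U) : CC H (QU q U) :=
  CC.open_of_dec X (decQ q U) hU (CC.pi X hU)

theorem cc_E (hU : CC H U) : CC H (QU q U × SS q k) :=
  (cc_QU X hU).prod (cc_sph X q (mm q k) (ww q k) (ww_ne q k))

/-- **the trace formula**, from the quotient theorem `hQ` (149's `qinv_orb`) -/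
theorem L_pw (h2 : (2 : F) ≠ 0) (hq0 : (q : F) ≠ 0) (hU : CC H U)
    (hQ : H.QInv (actA (Cq q) (QU q U × SS q k)) (Orb.pr (Cq q) (QU q U × SS q k)))
    (E : Emb k U) (φ : PMap U U) :
    (q : F) * H.L (pw q E φ) =
      H.L φ ^ q - H.L φ + ((q : F) - 1) * (H.L (Dens255.iter φ q) - H.L φ) := by
  have h := trace_formula (crossOf H) h2 hq0 (fun n => kue_of_KU hU.ku) hU.fin hQ
    (cc_E X hU).fin (fstP q k U) (sec E) (fstP_sec E) fstP_equi (sec_equi E) φ (pw q E φ)
    (pw_pr E φ)
  have e : Dens255.iter φ q = Cross.iter φ q := by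
    clear h hQ
    generalize q = n
    induction n with
    | zero => rfl
    | succ n ih => rw [Dens255.iter, ih, Cross.iter]
  rw [h, e]
  ring

end Crest.Agent.R090.ATraceR253
end

-- ▼ part R090/QBal_253
section

/-!
# Row 90, leaf A-TRACE: `(A × S)/C_q` has the invariant cohomology, for every theory `Coh`
(owner helper253), and the trace formula without hypotheses.
-/

set_option autoImplicit false
set_option linter.unusedSectionVars false
set_option linter.checkUnivs false

namespace Crest.Agent.R090.CohT253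

open Topology Set Crest.Agent.R090.Sp962 Crest.Agent.R090.Pi568 Crest.Agent.R090.Orb389
open Crest.Agent.R090.QU389 Crest.Agent.R090.GSp389 Crest.Agent.R090.Sph389
open Crest.Agent.R090.PowR389

universe v w

variable {F : Type w} [Field F] {H : Coh.{0, v, w} F}

/-- transport of `QInv` along homeomorphisms -/
theorem Coh.QInv.of_homeo {G : Type} [Group G] [Fintype G] {U U' B B' : Type}
    [TopologicalSpace U] [TopologicalSpace U'] [TopologicalSpace B] [TopologicalSpace B']
    {A : Act G U} {A' : Act G U'} (e : U ≃ₜ U') (b : B ≃ₜ B') {p : PMap U B} {p' : PMap U' B'}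
    (hp : p'.comp (PMap.ofHomeo e) = (PMap.ofHomeo b).comp p)
    (hA : ∀ g, (A'.act g).comp (PMap.ofHomeo e) = (PMap.ofHomeo e).comp (A.act g))
    (h : H.QInv A' p') : H.QInv A p := by
  have hp2 : p = (PMap.ofHomeo b.symm).comp (p'.comp (PMap.ofHomeo e)) := by
    rw [hp, ← PMap.comp_assoc, PMap.ofHomeo_symm_comp, PMap.id_comp]
  refine ⟨fun g => ?_, ?_, ?_⟩
  · rw [hp2, PMap.comp_assoc, PMap.comp_assoc, ← hA, ← PMap.comp_assoc p', h.inv]
  · rw [hp2]
    intro x y hxy
    rw [H.map_comp, H.map_comp, H.map_comp, H.map_comp] at hxy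
    have h1 := (H.equivH e).injective hxy
    have h2 := h.inj h1
    exact (H.equivH b.symm).injective h2
  · intro x hx
    obtain ⟨y, hy⟩ := h.surj (H.map (PMap.ofHomeo e.symm) x) (fun g => by
      have h3 : (PMap.ofHomeo e.symm).comp (A'.act g) = (A.act g).comp (PMap.ofHomeo e.symm) := by
        have h4 := congrArg (fun f : PMap U U' =>
          (PMap.ofHomeo e.symm).comp (f.comp (PMap.ofHomeo e.symm))) (hA g)
        simp only [PMap.comp_assoc] at h4
        rw [PMap.ofHomeo_comp_symm, PMap.comp_id, ← PMap.comp_assoc (PMap.ofHomeo e.symm)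
          (PMap.ofHomeo e), PMap.ofHomeo_symm_comp, PMap.id_comp] at h4
        exact h4
      rw [← H.map_comp, h3, H.map_comp, hx])
    refine ⟨H.map (PMap.ofHomeo b) y, ?_⟩
    rw [← H.map_comp, ← hp, H.map_comp, hy, ← H.map_comp, PMap.ofHomeo_symm_comp, H.map_id]

section bal

variable {G : Type} [Group G] [Fintype G] [TopologicalSpace G] [DiscreteTopology G]
variable (A : Type) [TopologicalSpace A] [T2Space A] [LocallyCompactSpace A] [MulAction G A]
  [ContinuousConstSMul G A]

theorem smash_id_ofOpen {T T' : Type} [TopologicalSpace T] [T2Space T] [LocallyCompactSpace T]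
    [TopologicalSpace T'] [T2Space T'] [LocallyCompactSpace T'] (i : T → T')
    (h : IsOpenEmbedding i) : (PMap.id A).smash (PMap.ofOpen i h) =
      PMap.ofOpen (Prod.map id i) (IsOpenEmbedding.id.prodMap h) := by
  refine PMap.ext fun x => ?_
  obtain ⟨a, t⟩ := x
  rw [PMap.smash_coe]
  by_cases ht : t ∈ range i
  · obtain ⟨s, rfl⟩ := ht
    rw [PMap.ofOpen_coe]
    have : ((a, i s) : A × T') = Prod.map id i (a, s) := rfl
    rw [this, PMap.ofOpen_coe]
    rfl
  · rw [PMap.ofOpen_of_notMem _ _ ht, sm_inf_right, PMap.ofOpen_of_notMem]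
    rintro ⟨⟨b, s⟩, hb⟩
    exact ht ⟨s, congrArg Prod.snd hb⟩

theorem ofOpen_actP {O T : Type} [TopologicalSpace O] [MulAction G O] [ContinuousConstSMul G O]
    [TopologicalSpace T] [T2Space T] [MulAction G T] [ContinuousConstSMul G T] (j : O → T)
    (hj : IsOpenEmbedding j) (je : ∀ (g : G) x, j (g • x) = g • j x) (g : G) :
    (PMap.ofOpen j hj).comp (actP g T) = (actP g O).comp (PMap.ofOpen j hj) := by
  refine PMap.ext fun x => ?_
  rw [PMap.comp_apply, PMap.comp_apply, actP_coe]
  by_cases hx : x ∈ range j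
  · obtain ⟨y, rfl⟩ := hx
    rw [← je, PMap.ofOpen_coe, PMap.ofOpen_coe, actP_coe]
  · rw [PMap.ofOpen_of_notMem _ _ hx, PMap.map_inf, PMap.ofOpen_of_notMem]
    rintro ⟨y, hy⟩
    exact hx ⟨g⁻¹ • y, by rw [je, hy, inv_smul_smul]⟩

theorem ofClosed_actP {K T : Type} [TopologicalSpace K] [MulAction G K] [ContinuousConstSMul G K]
    [TopologicalSpace T] [MulAction G T] [ContinuousConstSMul G T] (i : K → T)
    (hi : IsClosedEmbedding i) (ie : ∀ (g : G) x, i (g • x) = g • i x) (g : G) :
    (actP g T).comp (PMap.ofClosed i hi) = (PMap.ofClosed i hi).comp (actP g K) := by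
  refine PMap.ext fun x => ?_
  rw [PMap.comp_apply, PMap.comp_apply, actP_coe, PMap.ofClosed_coe, PMap.ofClosed_coe, actP_coe,
    ie]

/-- `A × T` for a pair -/
def decA {F' T O : GSp G} (p : GPair F' T O) : Dec (A × F'.X) (A × T.X) (A × O.X) where
  i := Prod.map id p.i
  hi := IsClosedEmbedding.id.prodMap p.ic
  j := Prod.map id p.j
  hj := IsOpenEmbedding.id.prodMap p.jo
  compl := by
    ext ⟨a, t⟩
    have := Set.ext_iff.1 p.compl t
    simp only [mem_range, mem_compl_iff] at this
    constructor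
    · rintro ⟨⟨b, s⟩, h⟩ ⟨⟨b', s'⟩, h'⟩
      exact this.1 ⟨s, congrArg Prod.snd h⟩ ⟨s', congrArg Prod.snd h'⟩
    · intro h
      obtain ⟨s, hs⟩ := this.2 (by
        rintro ⟨s, hs⟩
        exact h ⟨(a, s), Prod.ext rfl hs⟩)
      exact ⟨(a, s), Prod.ext rfl hs⟩

/-- the quotient of `A × T` for a pair -/
def decB {F' T O : GSp G} (p : GPair F' T O) :
    Dec (Bal G A F'.X) (Bal G A T.X) (Bal G A O.X) where
  i := Bal.incl A p.ie
  hi := Bal.isClosedEmbedding_incl p.ie p.ic
  j := Bal.incl A p.je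
  hj := Bal.isOpenEmbedding_incl p.je p.jo
  compl := Bal.range_compl A p

/-- the projection is strict -/
def strPr {F' T O : GSp G} (p : GPair F' T O) : Coh.Strict (decA A p) (decB A p) where
  fK := Orb.pr G (A × F'.X)
  fU := Orb.pr G (A × T.X)
  fO := Orb.pr G (A × O.X)
  hK := PMap.ext fun _ => rfl
  hO := by
    have h := Bal.collapse_pr (G := G) (A := A) p.je p.jo
    rw [smash_id_ofOpen] at h
    exact h

/-- the action is strict -/
def strAct {F' T O : GSp G} (p : GPair F' T O) (g : G) :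
    Coh.Strict (decA A p) (decA A p) where
  fK := actP g (A × F'.X)
  fU := actP g (A × T.X)
  fO := actP g (A × O.X)
  hK := ofClosed_actP _ _ (fun g x => prodMap_smul p.ie g x) g
  hO := ofOpen_actP _ _ (fun g x => prodMap_smul p.je g x) g

theorem qinv_pair (hG : (Fintype.card G : F) ≠ 0) {F' T O : GSp G} (p : GPair F' T O)
    (hF : H.QInv (actA G (A × F'.X)) (Orb.pr G (A × F'.X)))
    (hO : H.QInv (actA G (A × O.X)) (Orb.pr G (A × O.X))) :
    H.QInv (actA G (A × T.X)) (Orb.pr G (A × T.X)) :=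
  Coh.QInv.of_dec hG (strPr A p) (strAct A p) (fun _ => rfl) (fun _ => rfl) (fun _ => rfl)
    (fun g => Orb.pr_actP g) hF hO

theorem qinv_empty (T : GSp G) (hT : IsEmpty T.X) :
    H.QInv (actA G (A × T.X)) (Orb.pr G (A × T.X)) := by
  have h1 : IsEmpty (A × T.X) := inferInstance
  have h2 : IsEmpty (Orb G (A × T.X)) := by
    refine ⟨fun x => ?_⟩
    obtain ⟨y, -⟩ := Orb.mk_surj (G := G) x
    exact isEmptyElim y
  refine ⟨fun g => Orb.pr_actP g, fun x y _ => ?_, fun x _ => ⟨0, ?_⟩⟩
  · rw [Coh.eq_zero_of_isEmpty x, Coh.eq_zero_of_isEmpty y]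
  · rw [map_zero, Coh.eq_zero_of_isEmpty x]

/-- left translations of `G × C` -/
def actL (G : Type) [Group G] [TopologicalSpace G] [DiscreteTopology G] (C : Type)
    [TopologicalSpace C] : Act G (G × C) where
  act g := PMap.ofHomeo
    { toFun := fun x => (g * x.1, x.2)
      invFun := fun x => (g⁻¹ * x.1, x.2)
      left_inv := fun x => by simp
      right_inv := fun x => by simp
      continuous_toFun :=
        (continuous_of_discreteTopology.comp continuous_fst).prodMk continuous_snd
      continuous_invFun :=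
        (continuous_of_discreteTopology.comp continuous_fst).prodMk continuous_snd }
  one := PMap.ext fun x => by simp
  mul g h := PMap.ext fun x => by simp [mul_assoc]

/-- `A × (G × L) ≃ G × (A × L)` -/
def untw (L : Type) [TopologicalSpace L] : A × Cell G L ≃ₜ G × (A × L) where
  toFun p := (p.2.1, (p.2.1⁻¹ • p.1, p.2.2))
  invFun p := (p.1 • p.2.1, (p.1, p.2.2))
  left_inv p := by
    obtain ⟨a, g, y⟩ := p
    simp
  right_inv p := by
    obtain ⟨g, a, y⟩ := p
    simp
  continuous_toFun := by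
    have h1 : Continuous (fun p : A × Cell G L => p.2.1) := continuous_fst.comp continuous_snd
    have h2 : Continuous (fun p : A × Cell G L => p.2.2) := continuous_snd.comp continuous_snd
    refine h1.prodMk (Continuous.prodMk ?_ h2)
    have h3 : Continuous (fun x : G × A => x.1⁻¹ • x.2) := by
      rw [continuous_prod_of_discrete_left]
      intro g
      exact continuous_const_smul g⁻¹
    exact h3.comp (h1.prodMk continuous_fst)
  continuous_invFun := by
    have h3 : Continuous (fun x : G × A => x.1 • x.2) := by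
      rw [continuous_prod_of_discrete_left]
      intro g
      exact continuous_const_smul g
    refine Continuous.prodMk (h3.comp (continuous_fst.prodMk
      (continuous_fst.comp continuous_snd))) ?_
    exact continuous_fst.prodMk (continuous_snd.comp continuous_snd)

theorem qinv_cell (L : Type) [TopologicalSpace L] [T2Space L] [LocallyCompactSpace L] :
    H.QInv (actA G (A × (cellG G L).X)) (Orb.pr G (A × (cellG G L).X)) := by
  have h0 : H.QInv (actL G (A × L)) (Coh.projD G (A × L)) :=
    Coh.QInv.free (A × L) _ (fun g x => rfl)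
  refine Coh.QInv.of_homeo (untw A L) (Bal.cell A L).symm ?_ ?_ h0
  · exact PMap.ext fun x => rfl
  · intro g
    refine PMap.ext fun x => ?_
    obtain ⟨a, h, y⟩ := x
    change (((g * h, (h⁻¹ • a, y)) : G × (A × L)) : OnePoint (G × (A × L))) =
      (((g * h, ((g * h)⁻¹ • g • a, y)) : G × (A × L)) : OnePoint (G × (A × L)))
    rw [mul_inv_rev, mul_smul, inv_smul_smul]

end bal

/-- **`(A × S)/C_q`** -/
theorem qinv_sph (A : Type) (q : ℕ) [Fact q.Prime] (hq0 : (q : F) ≠ 0) [TopologicalSpace A]
    [T2Space A] [LocallyCompactSpace A] [MulAction (Cq q) A] [ContinuousConstSMul (Cq q) A]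
    (m : ℕ) (w : Fin m → ZMod q) (hw : ∀ i, w i ≠ 0) :
    H.QInv (actA (Cq q) (A × (sphG q m w hw).X)) (Orb.pr (Cq q) (A × (sphG q m w hw).X)) := by
  have hG : (Fintype.card (Cq q) : F) ≠ 0 := by
    rw [Fintype.card_multiplicative, ZMod.card]; exact hq0
  exact sph_induction' q
    (fun T => H.QInv (actA (Cq q) (A × T.X)) (Orb.pr (Cq q) (A × T.X)))
    (fun T hT => qinv_empty A T hT) (fun n => qinv_cell A (Fin n → ℝ))
    (fun p hF hO => qinv_pair A hG p hF hO) m w hw

end Crest.Agent.R090.CohT253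

namespace Crest.Agent.R090.ATraceR253

open Topology Set Crest.Agent.R090.Sp962 Crest.Agent.R090.Orb389
open Crest.Agent.R090.QU389 Crest.Agent.R090.HSt285 Crest.Agent.R090.Kun493
open Crest.Agent.R090.CohT253 Crest.Agent.R090.Sph389 Crest.Agent.R090.PowR389

/-- **THE TRACE FORMULA** -/
theorem L_pw' {F : Type} [Field F] {H : CohX F} (X : KX H) {q : ℕ} [Fact q.Prime] {k : ℕ}
    {U : Type} [TopologicalSpace U] [T2Space U] [LocallyCompactSpace U]
    (h2 : (2 : F) ≠ 0) (hq0 : (q : F) ≠ 0) (hU : CC H U) (E : Emb k U) (φ : PMap U U) :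
    (q : F) * H.L (pw q E φ) =
      H.L φ ^ q - H.L φ + ((q : F) - 1) * (H.L (Dens255.iter φ q) - H.L φ) :=
  L_pw X h2 hq0 hU (qinv_sph (QU q U) q hq0 (mm q k) (ww q k) (ww_ne q k)) E φ

/-- over `ℚ` -/
theorem L_pwQ {H : CohX ℚ} (X : KX H) {q : ℕ} [hq : Fact q.Prime] {k : ℕ}
    {U : Type} [TopologicalSpace U] [T2Space U] [LocallyCompactSpace U]
    (hU : CC H U) (E : Emb k U) (φ : PMap U U) :
    (q : ℚ) * H.L (pw q E φ) =
      H.L φ ^ q - H.L φ + ((q : ℚ) - 1) * (H.L (Dens255.iter φ q) - H.L φ) :=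
  L_pw' X two_ne_zero (by exact_mod_cast hq.out.ne_zero) hU E φ

end Crest.Agent.R090.ATraceR253
end

-- ▼ part R090/Cof_962
section

/-!
# Row 90, T1: closed subspaces with a deformation (NDR) (owner helper962)

`Z ⊆ M` closed, `phi : M → ℝ`, `h : I × M⁺ → M⁺` a pointed homotopy starting at the identity, keeping
`Z` in `Z ∪ {∞}`, and moving `{phi ≤ 1/2}` into `Z ∪ {∞}` at time `1` (helper255's `Ndr`, hypotheses
spelled out).  Then the collapse `MC (Z → M) → M \ Z` is a pointed homotopy equivalence, and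
`[M \ Z, W] → [M, W] → [Z, W]` is exact.
-/

set_option autoImplicit false
set_option linter.unusedSectionVars false

open Topology Filter Set

namespace Crest.Agent.R090.Sp962

open OnePoint
open scoped unitInterval

universe u v w x



section

variable {M : Type u} [TopologicalSpace M] [T2Space M] [LocallyCompactSpace M]
variable {Z : Set M}

/-- inclusion of a closed subspace -/
def incl (hZ : IsClosed Z) : PMap Z M := PMap.ofClosed Subtype.val hZ.isClosedEmbedding_subtypeVal

@[simp] theorem incl_coe (hZ : IsClosed Z) (z : Z) :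
    incl hZ (z : OnePoint Z) = ((z : M) : OnePoint M) := rfl

/-- collapse onto the open complement -/
noncomputable def col (hZ : IsClosed Z) : PMap M (Zᶜ : Set M) :=
  PMap.ofOpen Subtype.val hZ.isOpen_compl.isOpenEmbedding_subtypeVal


theorem col_mem (hZ : IsClosed Z) {x : M} (hx : x ∈ Z) : col hZ (x : OnePoint M) = ∞ :=
  PMap.ofOpen_of_notMem _ _ (by rintro ⟨y, rfl⟩; exact y.2 hx)

theorem col_incl (hZ : IsClosed Z) (z : OnePoint Z) : col hZ (incl hZ z) = ∞ := by
  induction z using OnePoint.rec with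
  | infty => rw [(incl hZ).map_inf, (col hZ).map_inf]
  | coe z => exact col_mem hZ z.2




theorem incl_injective (hZ : IsClosed Z) : Function.Injective (incl hZ) := by
  intro a b h
  induction a using OnePoint.rec with
  | infty =>
    induction b using OnePoint.rec with
    | infty => rfl
    | coe b => exact absurd h (infty_ne_coe _)
  | coe a =>
    induction b using OnePoint.rec with
    | infty => exact absurd h (coe_ne_infty _)
    | coe b =>
      have := coe_injective (show ((a : M) : OnePoint M) = ((b : M) : OnePoint M) from h)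
      rw [Subtype.ext this]


open Classical in
/-- partial inverse of the inclusion -/
noncomputable def rz (hZ : IsClosed Z) (x : OnePoint M) : OnePoint Z :=
  if h : x ∈ range (incl hZ) then h.choose else ∞

theorem incl_rz (hZ : IsClosed Z) {x : OnePoint M} (h : x ∈ range (incl hZ)) :
    incl hZ (rz hZ x) = x := by
  rw [rz, dif_pos h]
  exact h.choose_spec

@[simp] theorem rz_incl (hZ : IsClosed Z) (z : OnePoint Z) : rz hZ (incl hZ z) = z :=
  incl_injective hZ (incl_rz hZ ⟨z, rfl⟩)



variable [LocallyCompactSpace Z]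

/-- collapse of the cone -/
noncomputable def kap (hZ : IsClosed Z) : PMap (MC (incl hZ)) (Zᶜ : Set M) :=
  MC.desc (incl hZ) (col hZ) (fun _ _ => ∞) continuous_const (fun _ => rfl) (fun _ => rfl)
    (fun a => (col_incl hZ a).symm)

@[simp] theorem kap_i (hZ : IsClosed Z) (x : OnePoint M) :
    kap hZ (MC.i (incl hZ) x) = col hZ x := MC.desc_i _ _ _ _ _ _ _ _





end

end Crest.Agent.R090.Sp962
end

-- ▼ part R090/IdEx_503
section

/-!
# Row 90, A-IDEAL (helper503, for 669): Borsuk exactness with a parameter space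

`exPair_oc`, `exPair_MC`, `exPair_closed`: middle exactness for sphere targets, any parameter `B`;
`eInj_c`: `c : MC incl → O` is injective on classes with sphere target, any parameter;
`mc_square_c`, `mc_square_p`: strict maps of pairs.
-/

set_option autoImplicit false
set_option linter.unusedSectionVars false
set_option linter.unusedVariables false

open Topology Filter Set

namespace Crest.Agent.R090.Exc503

open OnePoint Crest.Agent.R090.Sp962 Crest.R090.Hep865
open Crest.Agent.R090.Grp528 Crest.Agent.R090.St528 Crest.Agent.R090.Sm202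
open scoped unitInterval

variable {F U O : Type}
variable [TopologicalSpace F] [TopologicalSpace U] [TopologicalSpace O]
variable [T2Space F] [T2Space U] [T2Space O]
variable [LocallyCompactSpace F] [LocallyCompactSpace U] [LocallyCompactSpace O]
variable {i : F → U} {e : O → U}

/-- middle exactness, with a parameter, any sphere target -/
theorem exPair_oc' {E : Type} [TopologicalSpace E] [T2Space E] [LocallyCompactSpace E]
    (hE : SphT.{0} E) (h : OC i e) (B : Type) [TopologicalSpace B] [T2Space B]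
    [LocallyCompactSpace B] (y : St (U × B) E) (hy : y.comp ((St.ofP h.incl).smR B) = 0) :
    ∃ z : St (O × B) E, y = z.comp ((St.ofP h.coll).smR B) := by
  rw [smR_ofP, ← h.prodRight_incl] at hy
  obtain ⟨z, hz⟩ := (h.prodRight B).st_exists_coll hE y hy
  refine ⟨z, ?_⟩
  rw [smR_ofP, ← h.prodRight_coll]
  exact hz

/-- **(a)** -/
theorem exPair_oc (h : OC i e) (B : Type) [TopologicalSpace B] [T2Space B]
    [LocallyCompactSpace B] (N : ℕ) (y : St (U × B) (Fin N → ℝ))
    (hy : y.comp ((St.ofP h.incl).smR B) = 0) :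
    ∃ z : St (O × B) (Fin N → ℝ), y = z.comp ((St.ofP h.coll).smR B) :=
  exPair_oc' (SphT.fd _) h B y hy

/-- **(b)** -/
theorem exPair_MC (f : PMap F U) (B : Type) [TopologicalSpace B] [T2Space B]
    [LocallyCompactSpace B] (N : ℕ) (y : St (MC f × B) (Fin N → ℝ))
    (hy : y.comp ((St.ofP (MC.i f)).smR B) = 0) :
    ∃ z : St ((F × Io) × B) (Fin N → ℝ), y = z.comp ((St.ofP (MC.p f)).smR B) := by
  rw [← OC.ofMC_incl] at hy
  obtain ⟨z, hz⟩ := exPair_oc (OC.ofMC f) B N y hy
  refine ⟨z, ?_⟩
  rw [OC.ofMC_coll] at hz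
  exact hz

/-- **(c)** -/
theorem eInj_c' {E : Type} [TopologicalSpace E] [T2Space E] [LocallyCompactSpace E]
    (hE : SphT.{0} E) (h : OC i e) (B : Type) [TopologicalSpace B] [T2Space B]
    [LocallyCompactSpace B] (y : St (O × B) E) (hy : y.comp ((St.ofP h.c).smR B) = 0) :
    y = 0 := by
  have hn : (PMap.id ((F × Ic) × B)).Null := by
    rw [← PMap.smash_id]
    exact (null_cone F).smash_left _
  refine (h.cone.prodRight B).st_collapse_inj hE hn ?_
  rw [h.cone.prodRight_coll, ← smR_ofP]
  exact hy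

/-- **(c)** -/
theorem eInj_c (h : OC i e) (B : Type) [TopologicalSpace B] [T2Space B]
    [LocallyCompactSpace B] (N : ℕ) (y : St (O × B) (Fin N → ℝ))
    (hy : y.comp ((St.ofP h.c).smR B) = 0) : y = 0 := eInj_c' (SphT.fd _) h B y hy





section map

variable {F' U' O' : Type}
variable [TopologicalSpace F'] [TopologicalSpace U'] [TopologicalSpace O']
variable [T2Space F'] [T2Space U'] [T2Space O']
variable [LocallyCompactSpace F'] [LocallyCompactSpace U'] [LocallyCompactSpace O']
variable {i' : F' → U'} {e' : O' → U'}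

/-- **(e1)** -/
theorem mc_square_c (h : OC i e) (h' : OC i' e') (φ : PMap F F')
    (ψ : PMap U U') (χ : PMap O O') (hsq : ψ.comp h.incl = h'.incl.comp φ)
    (hsq' : h'.coll.comp ψ = χ.comp h.coll) :
    (St.ofP h'.c).comp (St.ofP (mcMap φ ψ hsq)) = (St.ofP χ).comp (St.ofP h.c) := by
  rw [← St.ofP_comp, ← St.ofP_comp, OC.c_comp_mcMap h h' φ ψ χ hsq hsq']

/-- **(e2)** -/
theorem mc_square_p {f : PMap F U} {f' : PMap F' U'} (φ : PMap F F')
    (ψ : PMap U U') (hsq : ψ.comp f = f'.comp φ) :
    (St.ofP (MC.p f')).comp (St.ofP (mcMap φ ψ hsq)) =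
      ((St.ofP φ).smR Io).comp (St.ofP (MC.p f)) := by
  rw [smR_ofP, ← St.ofP_comp, ← St.ofP_comp, p_comp_mcMap]


end map

end Crest.Agent.R090.Exc503
end

-- ▼ part R090/PIdIn_503
section

/-!
# Row 90, A-IDEAL (helper503): `ExPair`/`EInj` for closed/open pairs and the instance `PId`
-/

set_option autoImplicit false
set_option linter.unusedSectionVars false
set_option linter.unusedVariables false

open Topology Filter Set

namespace Crest.Agent.R090.Exc503

open OnePoint Crest.Agent.R090.Sp962 Crest.R090.Hep865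
open Crest.Agent.R090.Grp528 Crest.Agent.R090.St528 Crest.Agent.R090.Sm202
open Crest.Agent.R090.IdS669 Crest.Agent.R090.Spine

section pair

variable {F U O : Type}
variable [TopologicalSpace F] [TopologicalSpace U] [TopologicalSpace O]
variable [T2Space F] [T2Space U] [T2Space O]
variable [LocallyCompactSpace F] [LocallyCompactSpace U] [LocallyCompactSpace O]
variable {i : F → U} {e : O → U}

theorem OC.exPair (h : OC i e) : ExPair (St.ofP h.incl) (St.ofP h.coll) := by
  intro B _ _ _ N y hy
  exact exPair_oc h B N y hy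

theorem MC.exPair (f : PMap F U) : ExPair (St.ofP (MC.i f)) (St.ofP (MC.p f)) := by
  intro B _ _ _ N y hy
  exact exPair_MC f B N y hy

theorem OC.eInj (h : OC i e) : EInj (St.ofP h.c) := by
  intro B _ _ _ N y hy
  exact eInj_c h B N y hy


end pair

/-- the instance of `PId` for the ideal `IdQ q Z` -/
theorem pid {M : Type} [TopologicalSpace M] [T2Space M] [LocallyCompactSpace M] {q : ℕ}
    (hq : q.Prime) (Z : Set M) [Fact (IsClosed Z)] :
    AIPow542.PId (fun {U V} _ _ _ _ _ _ f => IdQ q Z (St.ofP f)) where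
  left g f h := by
    rw [St.ofP_comp]
    exact h.comp_left _
  right f g h := by
    rw [St.ofP_comp]
    exact h.comp_right _
  smash f h W _ _ _ := by
    rw [← smR_ofP]
    exact h.smR W
  empty := by
    intro U V _ _ _ _ _ _ _ f
    have : f = PMap.zero U V := PMap.ext fun x => (IsEmpty.false x).elim
    rw [this, St.ofP_zero]
    exact IdQ.zero hq.one_lt.ne'
  total := by
    intro F U O _ _ _ _ _ _ _ _ _ i hi e he hc fF fU fO h1 h2 hF hO
    have h : OC i e := ⟨hi, he, hc⟩
    rw [St.ofP_comp]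
    refine h.exPair.idQ_sq hq (φA := St.ofP fF) (φO := St.ofP fO) ?_ ?_ hF hO
    · rw [← St.ofP_comp, ← St.ofP_comp]
      exact congrArg St.ofP h1
    · rw [← St.ofP_comp, ← St.ofP_comp]
      exact congrArg St.ofP h2
  rot := by
    intro F U O _ _ _ _ _ _ _ _ _ i hi e he hc fF fU fO h1 h2 hF hU
    have h : OC i e := ⟨hi, he, hc⟩
    have h1' : fU.comp h.incl = h.incl.comp fF := h1
    have h2' : h.coll.comp fU = fO.comp h.coll := h2
    rw [St.ofP_comp]
    refine (MC.exPair h.incl).idQ_open hq h.eInj (φ := St.ofP fU)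
      (φC := St.ofP (mcMap fF fU h1')) (φA := (St.ofP fF).smR Io) (φO := St.ofP fO)
      (c := St.ofP h.coll) ?_ ?_ ?_ ?_ (hF.smR Io) hU
    · exact h.ofP_c_comp_i
    · rw [← St.ofP_comp, ← St.ofP_comp]
      exact congrArg St.ofP h2'.symm
    · exact mc_square_c h h fF fU fO h1' h2'
    · exact mc_square_p fF fU h1'

end Crest.Agent.R090.Exc503
end

-- ▼ part R090/AStep_923

/-!
# Row 90, block (A): `StepStmt` for the class `Good812.Good` (owner helper923)
-/

set_option autoImplicit false
set_option linter.unusedSectionVars false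

open Topology Filter Set

namespace Crest.Agent.R090.AAsm923

open OnePoint Crest.Agent.R090.Sp962 Crest.Agent.R090.St528 Crest.Agent.R090.Spine
open Crest.Agent.R090.Dens255 (iter iter_zero iter_succ)
open Crest.Agent.R090.AIPow542 (PId iter_two)
open Crest.Agent.R090.AAsm542 (iter_mult)
open Crest.Agent.R090.HSt285 Crest.Agent.R090.Kun493 Crest.Agent.R090.PowR389
open Crest.Agent.R090.QU389 Crest.Agent.R090.GSp389 Crest.Agent.R090.Sph389

section psi

variable {q : ℕ} [Fact q.Prime] {k : ℕ}
variable {U : Type} [TopologicalSpace U] [T2Space U] [LocallyCompactSpace U]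

theorem Psi_iter (φ : PMap U U) (n : ℕ) : Psi q k (iter φ n) = iter (Psi q k φ) n := by
  induction n with
  | zero => exact Psi_id
  | succ n ih => rw [iter_succ, Psi_comp, ih, iter_succ]

theorem iter_pw (E : Emb k U) (φ : PMap U U) {n : ℕ} (hn : 1 ≤ n) :
    iter (pw q E φ) n = (eps q E).comp (iter (Psi q k φ) n) := by
  rw [← iter_mult (fun φ ψ => pw_comp E φ ψ) φ hn, pw_eq, Psi_iter]

end psi

/-- **STEP** [542, 389, 253, 503, 669, 812] -/
theorem stepStmt_good {H : CohX ℚ} (K : KX H) : StepStmt (goodP H) (lef H) := by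
  intro q hq M _ _ _ Z _ U
  have : Fact q.Prime := ⟨hq⟩
  have hU : Good812.Good H U.X := U.good
  obtain ⟨k, ⟨E⟩⟩ := exists_emb hU.inj
  refine ⟨⟨RU q k U.X, GoodR812.good_RU K hU k⟩, pw q E, fun φ ψ => pw_comp E φ ψ, fun φ hφ => ?_,
    fun φ => ATraceR253.L_pwQ K hU.cc E φ⟩
  have hp := Exc503.pid hq Z
  have h2 : IdQ q Z (St.ofP (iter (QU.map q φ) 2)) := hp.qu hφ
  obtain ⟨n, hn⟩ := hp.bal_ind (QU.map_equi φ) h2
    (sphG q (mm q k) (ww q k) (ww_ne q k))
    (fun P h1 h2 h3 => sph_induction' q P h1 h2 h3 _ _ _)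
  have hn' : IdQ q Z (St.ofP (iter (Psi q k φ) (n + 1))) := hp.iter_ge (Nat.le_succ n) hn
  refine ⟨n + 1, Nat.succ_le_succ (Nat.zero_le n), ?_⟩
  change IdQ q Z (St.ofP (iter (pw q E φ) (n + 1)))
  rw [iter_pw E φ (Nat.succ_le_succ (Nat.zero_le n))]
  exact hp.left _ _ hn'

end Crest.Agent.R090.AAsm923
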