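import Crest.Agent.R090.Puppe_962
import Crest.Agent.R090.Lin_202

/-!
# Row 90, F1d: swaps of odd letters are `-1`, permutations of even spheres are `1`
(owner helper541; leaf F1d of 893 #20233)

* `RI : ℝ ≃ₜ Io` with `RI (-t) = flipIo (RI t)`;
* `swap_real`, `swap_odd` : the swap of two copies of `E × ℝ` (`E` complex, finite dimensional) is
  homotopic to the reflection of the last real coordinate;
* `precompH g` : permutation of the coordinates of `κ → X`;
* `stratumSwap` : the swap of two equal odd letters of a stratum is homotopic to a flip of one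
  suspension coordinate (`exists_flip`);
* `precompH_even` : permutations of `κ → (Y × E)` are `(permutation of κ → Y) × 1`.
-/

set_option autoImplicit false
set_option linter.unusedSectionVars false

open Topology Filter Set

namespace Crest.Agent.R090.F1d541

open OnePoint Crest.Agent.R090.Sp962 Crest.Agent.R090.Lin202
open scoped unitInterval

universe u v w

/-! ## the real line and the suspension coordinate -/

/-- homeomorphism of the line with the suspension coordinate -/
noncomputable def RI : ℝ ≃ₜ Io where
  toFun x := ⟨Real.sigmoid x, Real.sigmoid_pos x, Real.sigmoid_lt_one x⟩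
  invFun y := -Real.log ((y : ℝ)⁻¹ - 1)
  left_inv x := by
    simp [Real.sigmoid_def]
  right_inv y := by
    have h1 : (0 : ℝ) < (y : ℝ)⁻¹ - 1 := by
      have := y.2
      rw [sub_pos, one_lt_inv₀ this.1]
      exact this.2
    apply Subtype.ext
    simp [Real.sigmoid_def, Real.exp_log h1]
  continuous_toFun := by
    refine Continuous.subtype_mk ?_ _
    exact continuous_sigmoid
  continuous_invFun := by
    have h1 : Continuous fun y : Io => (y : ℝ)⁻¹ - 1 :=
      (continuous_subtype_val.inv₀ fun y => ne_of_gt y.2.1).sub continuous_const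
    refine (h1.log fun y => ?_).neg
    have := y.2
    refine ne_of_gt ?_
    rw [sub_pos, one_lt_inv₀ this.1]
    exact this.2

theorem RI_neg (x : ℝ) : RI (-x) = MC.flipIo (RI x) := by
  apply Subtype.ext
  exact Real.sigmoid_neg x

/-! ## swaps -/

/-- the reflection of the line -/
def neg : ℝ ≃ₜ ℝ := Homeomorph.neg ℝ

theorem swap_real : (PMap.ofHomeo (Homeomorph.prodComm ℝ ℝ)).Homotopic
    (PMap.ofHomeo ((Homeomorph.refl ℝ).prodCongr neg)) := by
  symm
  refine homotopic_of_linear_family (E := ℝ × ℝ) (F := ℝ × ℝ)
    (fun t => LinearMap.prod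
      (Real.cos (t * (Real.pi / 2)) • LinearMap.fst ℝ ℝ ℝ +
        Real.sin (t * (Real.pi / 2)) • LinearMap.snd ℝ ℝ ℝ)
      (Real.sin (t * (Real.pi / 2)) • LinearMap.fst ℝ ℝ ℝ -
        Real.cos (t * (Real.pi / 2)) • LinearMap.snd ℝ ℝ ℝ)) ?_ ?_ ?_ ?_
  · have : Continuous fun p : I × (ℝ × ℝ) =>
        (Real.cos (p.1 * (Real.pi / 2)) * p.2.1 + Real.sin (p.1 * (Real.pi / 2)) * p.2.2,
          Real.sin (p.1 * (Real.pi / 2)) * p.2.1 - Real.cos (p.1 * (Real.pi / 2)) * p.2.2) := by
      fun_prop
    exact this
  · intro t
    refine (injective_iff_map_eq_zero _).2 ?_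
    rintro ⟨x, y⟩ h
    have h' : (Real.cos (t * (Real.pi / 2)) * x + Real.sin (t * (Real.pi / 2)) * y,
          Real.sin (t * (Real.pi / 2)) * x - Real.cos (t * (Real.pi / 2)) * y) = ((0 : ℝ), (0 : ℝ)) := h
    rw [Prod.mk.injEq] at h'
    replace h := h'
    obtain ⟨h1, h2⟩ := h
    have h3 := Real.sin_sq_add_cos_sq (t * (Real.pi / 2))
    set c := Real.cos (t * (Real.pi / 2))
    set s := Real.sin (t * (Real.pi / 2))
    have hx : x = 0 := by
      have : (s ^ 2 + c ^ 2) * x = 0 := by linear_combination c * h1 + s * h2
      rwa [h3, one_mul] at this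
    have hy : y = 0 := by
      have : (s ^ 2 + c ^ 2) * y = 0 := by linear_combination s * h1 - c * h2
      rwa [h3, one_mul] at this
    rw [hx, hy]; rfl
  · rintro ⟨x, y⟩
    rw [PMap.ofHomeo_coe, coe_eq_coe]
    simp [neg]
  · rintro ⟨x, y⟩
    rw [PMap.ofHomeo_coe, coe_eq_coe]
    simp

section odd

variable (E : Type*) [NormedAddCommGroup E] [NormedSpace ℂ E] [FiniteDimensional ℂ E]


end odd

/-! ## letters -/

section letter

variable {O : Type u} [TopologicalSpace O] [T2Space O] [LocallyCompactSpace O]
  {S' : Type w} [TopologicalSpace S'] [T2Space S'] [LocallyCompactSpace S']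
  {E : Type v} [NormedAddCommGroup E] [NormedSpace ℂ E] [FiniteDimensional ℂ E]



/-- the flip conjugated by a homeomorphism with a suspension -/
def flipBy {S : Type*} {W : Type*} [TopologicalSpace S] [TopologicalSpace W] (h : S ≃ₜ W × Io) :
    S ≃ₜ S :=
  (h.trans ((Homeomorph.refl W).prodCongr MC.flipIo)).trans h.symm


end letter

/-! ## strata of words -/

section stratum

variable {κ : Type w} {X : Type u} [TopologicalSpace X]

/-- the stratum of a word -/
abbrev Str (P : κ → Set X) : Type (max u w) := {x : κ → X // ∀ i, x i ∈ P i}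


variable [DecidableEq κ]


theorem swap_mem (P : κ → Set X) (a b : κ) (hP : P a = P b) (x : Str P) (i : κ) :
    x.1 (Equiv.swap a b i) ∈ P i := by
  by_cases h : i = a
  · rw [h, Equiv.swap_apply_left, hP]; exact x.2 b
  · by_cases h' : i = b
    · rw [h', Equiv.swap_apply_right, ← hP]; exact x.2 a
    · rw [Equiv.swap_apply_of_ne_of_ne h h']; exact x.2 i

/-- the swap of the coordinates `a`, `b` of a stratum -/
def swapStr (P : κ → Set X) (a b : κ) (hP : P a = P b) : Str P ≃ₜ Str P where
  toFun x := ⟨fun i => x.1 (Equiv.swap a b i), swap_mem P a b hP x⟩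
  invFun x := ⟨fun i => x.1 (Equiv.swap a b i), swap_mem P a b hP x⟩
  left_inv x := by
    apply Subtype.ext; funext i; simp
  right_inv x := by
    apply Subtype.ext; funext i; simp
  continuous_toFun := by
    refine Continuous.subtype_mk (continuous_pi fun i => ?_) _
    exact (continuous_apply (Equiv.swap a b i)).comp continuous_subtype_val
  continuous_invFun := by
    refine Continuous.subtype_mk (continuous_pi fun i => ?_) _
    exact (continuous_apply (Equiv.swap a b i)).comp continuous_subtype_val

@[simp] theorem swapStr_val (P : κ → Set X) (a b : κ) (hP : P a = P b) (x : Str P) :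
    (swapStr P a b hP x).1 = x.1 ∘ Equiv.swap a b := rfl




variable {E : Type v} [NormedAddCommGroup E] [NormedSpace ℂ E] [FiniteDimensional ℂ E]


/-! ### contractible letters -/





end stratum

/-! ### the cone coordinate is contractible -/

/-- the height of a point of the cone coordinate -/
def ht (z : OnePoint Ic) : ℝ := z.elim 0 fun t => (t : ℝ)

theorem ht_qC {t : ℝ} (h : t ∈ Icc (0 : ℝ) 1) : ht (qC t) = t := by
  rcases eq_or_lt_of_le h.1 with h0 | h0
  · rw [← h0, qC_zero]; rfl
  · rw [qC_of_mem ⟨h0, h.2⟩]; rfl

@[fun_prop] theorem continuous_ht : Continuous ht := by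
  have h1 : Continuous (fun t : I => qC (t : ℝ)) := continuous_qC.comp continuous_subtype_val
  have h2 : IsQuotientMap (fun t : I => qC (t : ℝ)) :=
    h1.isClosedMap.isQuotientMap h1 qC_surjective
  refine h2.continuous_iff.2 ?_
  have : ht ∘ (fun t : I => qC (t : ℝ)) = fun t : I => (t : ℝ) := by
    funext t
    exact ht_qC t.2
  rw [this]
  exact continuous_subtype_val

theorem null_Ic : (PMap.id Ic).Null := by
  refine PMap.Homotopic.of (fun p => qC ((1 - (p.1 : ℝ)) * ht p.2)) ?_ ?_ ?_ ?_
  · fun_prop
  · intro x
    simp [ht]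
  · intro x
    simp
  · intro t
    simp [ht]





/-! ## permutations of even spheres -/

section perm

variable {κ : Type w}

/-- permutation of coordinates `x ↦ x ∘ g` -/
def precompH (X : Type u) [TopologicalSpace X] (g : Equiv.Perm κ) : (κ → X) ≃ₜ (κ → X) where
  toFun x := x ∘ g
  invFun x := x ∘ g.symm
  left_inv x := by funext i; simp
  right_inv x := by funext i; simp
  continuous_toFun := continuous_pi fun i => continuous_apply _
  continuous_invFun := continuous_pi fun i => continuous_apply _

@[simp] theorem precompH_apply (X : Type u) [TopologicalSpace X] (g : Equiv.Perm κ) (x : κ → X) :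
    precompH X g x = x ∘ g := rfl


variable {Y : Type u} [TopologicalSpace Y] {E : Type v}


variable [NormedAddCommGroup E] [NormedSpace ℂ E] [FiniteDimensional ℂ E] [Fintype κ]

/-- permutations of complex vector spaces are homotopic to the identity -/
theorem precompH_homotopic_id (g : Equiv.Perm κ) :
    (PMap.ofHomeo (precompH E g)).Homotopic (PMap.id (κ → E)) := by
  have h := homotopic_id (E := κ → E)
    (LinearEquiv.funCongrLeft ℂ E g).toContinuousLinearEquiv
  refine PMap.Homotopic.trans (.of_eq ?_) h
  refine PMap.ext fun x => ?_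
  rfl



end perm

end Crest.Agent.R090.F1d541
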