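import Crest.Agent.R090.Cone_962
import Crest.Agent.R090.Puppe_962
import Crest.Agent.R090.St2_528

-- ▼ part R090/Cov_128
section

/-!
# Row 90, T1: covariant exactness, unstable ladder (owner helper128)

`f : PMap X Y`, `h : PMap W Y`, `i ∘ h : W → MC f` null homotopic ⟹ there is
`k : PMap (W × Io) (X × Io)` with `(f ∧ 1) ∘ k` homotopic to `h ∧ 1`.
-/

set_option autoImplicit false
set_option linter.unusedSectionVars false

open Topology Filter Set

namespace Crest.Agent.R090.Sp962

open OnePoint
open scoped unitInterval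

universe u v w x

/-! ## maps out of a suspension -/

section ofS

variable {W : Type u} {Z : Type v} [TopologicalSpace W] [TopologicalSpace Z]
  [T2Space W] [LocallyCompactSpace W]

theorem continuous_smqI : Continuous (fun p : OnePoint W × I => sm p.1 (qI p.2)) :=
  continuous_fst.sm962 (continuous_qI.comp (continuous_subtype_val.comp continuous_snd))

theorem smqI_surjective : Function.Surjective (fun p : OnePoint W × I => sm p.1 (qI p.2)) := by
  intro z
  obtain ⟨⟨a, s⟩, rfl⟩ := sm_surjective z
  obtain ⟨t, rfl⟩ := qI_surjective s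
  exact ⟨(a, t), rfl⟩

/-- raw map out of the suspension -/
noncomputable def liftS (F : OnePoint W → ℝ → OnePoint Z) (z : OnePoint (W × Io)) : OnePoint Z :=
  z.elim ∞ fun p => F p.1 p.2

theorem liftS_sm (F : OnePoint W → ℝ → OnePoint Z) (hinf : ∀ t, F ∞ t = ∞) (h0 : ∀ a, F a 0 = ∞)
    (h1 : ∀ a, F a 1 = ∞) (a : OnePoint W) {t : ℝ} (ht : t ∈ Icc (0 : ℝ) 1) :
    liftS F (sm a (qI t)) = F a t := by
  rcases eq_or_lt_of_le ht.1 with h | h
  · rw [← h, qI_zero, sm_inf_right, h0]; rfl
  rcases eq_or_lt_of_le ht.2 with h' | h'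
  · rw [h', qI_one, sm_inf_right, h1]; rfl
  induction a using OnePoint.rec with
  | infty => rw [sm_inf_left, hinf]; rfl
  | coe a => rw [qI_of_mem ⟨h, h'⟩]; rfl

/-- pointed map out of the suspension -/
noncomputable def ofS (F : OnePoint W → ℝ → OnePoint Z)
    (hF : Continuous (fun p : OnePoint W × I => F p.1 p.2)) (hinf : ∀ t, F ∞ t = ∞)
    (h0 : ∀ a, F a 0 = ∞) (h1 : ∀ a, F a 1 = ∞) : PMap (W × Io) Z where
  toFun := liftS F
  cont := by
    refine (continuous_smqI.isClosedMap.isQuotientMap continuous_smqI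
      smqI_surjective).continuous_iff.2 ?_
    have : (liftS F) ∘ (fun p : OnePoint W × I => sm p.1 (qI p.2)) = fun p => F p.1 p.2 := by
      funext p
      exact liftS_sm F hinf h0 h1 p.1 p.2.2
    rw [this]
    exact hF
  map_inf := rfl

theorem ofS_sm (F : OnePoint W → ℝ → OnePoint Z)
    (hF : Continuous (fun p : OnePoint W × I => F p.1 p.2)) (hinf : ∀ t, F ∞ t = ∞)
    (h0 : ∀ a, F a 0 = ∞) (h1 : ∀ a, F a 1 = ∞) (a : OnePoint W) {t : ℝ}
    (ht : t ∈ Icc (0 : ℝ) 1) : ofS F hF hinf h0 h1 (sm a (qI t)) = F a t :=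
  liftS_sm F hinf h0 h1 a ht

/-- homotopies between maps out of a suspension -/
theorem Homotopic_of_S {f g : PMap (W × Io) Z} (F : I × (OnePoint W × I) → OnePoint Z)
    (hF : Continuous F) (hf : ∀ a t, F (0, (a, t)) = f (sm a (qI t)))
    (hg : ∀ a t, F (1, (a, t)) = g (sm a (qI t)))
    (hinf : ∀ r t, F (r, (∞, t)) = ∞) (h0 : ∀ r a, F (r, (a, 0)) = ∞)
    (h1 : ∀ r a, F (r, (a, 1)) = ∞) : f.Homotopic g := by
  let G : I × OnePoint (W × Io) → OnePoint Z := fun p =>
    p.2.elim ∞ fun z => F (p.1, ((z.1 : OnePoint W), ⟨z.2.1, z.2.2.1.le, z.2.2.2.le⟩))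
  have hG : ∀ (r : I) (a : OnePoint W) (t : I), G (r, sm a (qI t)) = F (r, (a, t)) := by
    intro r a t
    rcases eq_or_lt_of_le t.2.1 with h | h
    · have ht : t = 0 := Subtype.ext h.symm
      subst ht
      rw [Set.Icc.coe_zero, qI_zero, sm_inf_right, h0]
      rfl
    rcases eq_or_lt_of_le t.2.2 with h' | h'
    · have ht : t = 1 := Subtype.ext h'
      subst ht
      rw [Set.Icc.coe_one, qI_one, sm_inf_right, h1]
      rfl
    induction a using OnePoint.rec with
    | infty => rw [sm_inf_left, hinf]; rfl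
    | coe a => rw [qI_of_mem ⟨h, h'⟩]; rfl
  have hc : Continuous (fun p : I × (OnePoint W × I) => (p.1, sm p.2.1 (qI p.2.2))) :=
    continuous_fst.prodMk (continuous_smqI.comp continuous_snd)
  have hs : Function.Surjective
      (fun p : I × (OnePoint W × I) => (p.1, sm p.2.1 (qI p.2.2))) := by
    rintro ⟨k, q⟩
    obtain ⟨p, hp⟩ := smqI_surjective q
    exact ⟨(k, p), by simpa using hp⟩
  refine PMap.Homotopic.of G ?_ ?_ ?_ (fun _ => rfl)
  · refine (hc.isClosedMap.isQuotientMap hc hs).continuous_iff.2 ?_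
    have : G ∘ (fun p : I × (OnePoint W × I) => (p.1, sm p.2.1 (qI p.2.2))) = F := by
      funext p
      exact hG p.1 p.2.1 p.2.2
    rw [this]
    exact hF
  · rintro ⟨a, t⟩
    have := hf a ⟨t.1, t.2.1.le, t.2.2.le⟩
    simp only [qI_coe, sm_coe] at this
    rw [← this]
    rfl
  · rintro ⟨a, t⟩
    have := hg a ⟨t.1, t.2.1.le, t.2.2.le⟩
    simp only [qI_coe, sm_coe] at this
    rw [← this]
    rfl

end ofS

/-! ## the ladder -/

section ladder

variable {X : Type u} {Y : Type v} {W : Type w}
variable [TopologicalSpace X] [TopologicalSpace Y] [TopologicalSpace W]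
variable [T2Space X] [LocallyCompactSpace X] [T2Space Y] [LocallyCompactSpace Y]
  [T2Space W] [LocallyCompactSpace W]

/-- `Ĝ_l : MC f → Y ∧ Io`, `(a, t) ↦ (f a, t - l)`, `y ↦ (y, 1 - l)` -/
noncomputable def gh (f : PMap X Y) (l : ℝ) (z : OnePoint (MC f)) : OnePoint (Y × Io) :=
  MC.lift f (fun a t => sm (f a) (qI (t - l))) (fun y => sm y (qI (1 - l))) z

@[simp] theorem gh_inf (f : PMap X Y) (l : ℝ) : gh f l ∞ = ∞ := by
  change sm (∞ : OnePoint Y) (qI (1 - l)) = ∞
  simp

@[simp] theorem gh_i (f : PMap X Y) (l : ℝ) (y : OnePoint Y) :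
    gh f l (MC.i f y) = sm y (qI (1 - l)) := MC.lift_i f _ _ y

theorem gh_q (f : PMap X Y) {l : ℝ} (hl : 0 ≤ l) (a : OnePoint X) {t : ℝ} (ht : t ∈ Icc (0 : ℝ) 1) :
    gh f l (MC.q f a t) = sm (f a) (qI (t - l)) := by
  refine MC.lift_q f _ _ ?_ ?_ ?_ a ht
  · intro t; simp
  · intro a
    rw [qI_of_le (by linarith)]; simp
  · intro a; rfl

theorem continuous_gh (f : PMap X Y) :
    Continuous (fun p : I × OnePoint (MC f) => gh f p.1 p.2) := by
  refine MC.continuous_of f ?_ ?_
  · have : (fun p : I × (OnePoint X × I) => gh f p.1 (MC.q f p.2.1 p.2.2)) =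
        fun p => sm (f p.2.1) (qI ((p.2.2 : ℝ) - p.1)) := by
      funext p
      exact gh_q f p.1.2.1 p.2.1 p.2.2.2
    change Continuous (fun p : I × (OnePoint X × I) => gh f p.1 (MC.q f p.2.1 p.2.2))
    rw [this]
    exact (f.cont.comp (by fun_prop)).sm962 (continuous_qI.comp (by fun_prop))
  · have : (fun p : I × OnePoint Y => gh f p.1 (MC.i f p.2)) =
        fun p => sm p.2 (qI (1 - (p.1 : ℝ))) := by
      funext p
      exact gh_i f _ _
    change Continuous (fun p : I × OnePoint Y => gh f p.1 (MC.i f p.2))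
    rw [this]
    exact continuous_snd.sm962 (continuous_qI.comp (by fun_prop))

theorem gh_zero (f : PMap X Y) (z : OnePoint (MC f)) :
    gh f 0 z = f.smash (PMap.id Io) (MC.p f z) := by
  revert z
  refine MC.cases f ?_ ?_
  · intro a t ht
    rw [gh_q f le_rfl a ht, MC.p_q, PMap.smash_sm, sub_zero]
    rfl
  · intro y
    rw [gh_i, MC.p_i, sub_zero, qI_one, sm_inf_right, PMap.map_inf]

theorem gh_one (f : PMap X Y) (z : OnePoint (MC f)) : gh f 1 z = ∞ := by
  revert z
  refine MC.cases f ?_ ?_
  · intro a t ht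
    rw [gh_q f zero_le_one a ht, qI_of_le (by linarith [ht.2]), sm_inf_right]
  · intro y
    rw [gh_i, sub_self, qI_zero, sm_inf_right]

end ladder

/-! ## the abstract ladder -/

section abs

variable {A : Type u} {B : Type v} {C : Type x} {W : Type w}
variable [TopologicalSpace A] [TopologicalSpace B] [TopologicalSpace C] [TopologicalSpace W]
variable [T2Space A] [LocallyCompactSpace A] [T2Space B] [LocallyCompactSpace B]
  [T2Space C] [LocallyCompactSpace C] [T2Space W] [LocallyCompactSpace W]

/-- the data which give covariant exactness of `A → B → C` -/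
structure Lad (F : PMap A B) (i : PMap B C) where
  /-- the pinch map -/
  p : PMap C (A × Io)
  /-- the sliding homotopy -/
  γ : I × OnePoint C → OnePoint (B × Io)
  cont : Continuous γ
  γ_i : ∀ l y, γ (l, i y) = sm y (qI (1 - (l : ℝ)))
  γ_zero : ∀ z, γ (0, z) = F.smash (PMap.id Io) (p z)
  γ_one : ∀ z, γ (1, z) = ∞
  p_i : ∀ y, p (i y) = ∞

theorem Lad.γ_inf {F : PMap A B} {i : PMap B C} (L : Lad F i) (l : I) : L.γ (l, ∞) = ∞ := by
  have := L.γ_i l ∞
  rwa [PMap.map_inf, sm_inf_left] at this

/-- **the abstract ladder** -/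
theorem Lad.exists_ladder {F : PMap A B} {i : PMap B C} (L : Lad F i) (h : PMap W B)
    (hn : (i.comp h).Null) : ∃ k : PMap (W × Io) (A × Io),
      ((F.smash (PMap.id Io)).comp k).Homotopic (h.smash (PMap.id Io)) := by
  obtain ⟨H, hH, H0, H1, Hi⟩ := hn.exists
  -- the cone map
  let N : OnePoint W → ℝ → OnePoint C := fun w s =>
    H (Set.projIcc (0 : ℝ) 1 zero_le_one (1 - s), w)
  have hN : Continuous (fun p : OnePoint W × ℝ => N p.1 p.2) :=
    hH.comp ((continuous_projIcc.comp (by fun_prop)).prodMk continuous_fst)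
  have N0 : ∀ w, N w 0 = ∞ := by
    intro w
    have : Set.projIcc (0 : ℝ) 1 zero_le_one (1 - 0) = 1 := by
      rw [sub_zero]; exact Set.projIcc_right _
    change H (Set.projIcc (0 : ℝ) 1 zero_le_one (1 - 0), w) = ∞
    rw [this, H1]; rfl
  have N1 : ∀ w, N w 1 = i (h w) := by
    intro w
    have : Set.projIcc (0 : ℝ) 1 zero_le_one (1 - 1) = 0 := by
      rw [sub_self]; exact Set.projIcc_left _
    change H (Set.projIcc (0 : ℝ) 1 zero_le_one (1 - 1), w) = _
    rw [this, H0]; rfl
  have Ni : ∀ s, N ∞ s = ∞ := fun s => Hi _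
  let K : OnePoint W → ℝ → OnePoint (A × Io) := fun w s => L.p (N w s)
  have hK : Continuous (fun p : OnePoint W × I => K p.1 p.2) :=
    L.p.cont.comp (hN.comp (continuous_fst.prodMk (continuous_subtype_val.comp continuous_snd)))
  refine ⟨ofS K hK (fun t => by simp only [K, Ni, PMap.map_inf])
    (fun a => by simp only [K, N0, PMap.map_inf]) (fun a => by simp only [K, N1, L.p_i]), ?_⟩
  -- the middle maps
  let M : I × (OnePoint W × I) → OnePoint (B × Io) := fun p =>
    if (p.2.2 : ℝ) ≤ 1 / 2 then L.γ (p.1, N p.2.1 (2 * p.2.2))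
    else sm (h p.2.1) (qI (2 * p.2.2 - p.1))
  have hM : Continuous M := by
    refine Continuous.if_le ?_ ?_ (continuous_subtype_val.comp (continuous_snd.comp continuous_snd))
      continuous_const ?_
    · exact L.cont.comp (continuous_fst.prodMk
        (hN.comp ((continuous_fst.comp continuous_snd).prodMk (by fun_prop))))
    · exact (h.cont.comp (by fun_prop)).sm962 (continuous_qI.comp (by fun_prop))
    · intro p hp
      have h2 : 2 * (p.2.2 : ℝ) = 1 := by rw [hp]; norm_num
      rw [h2, N1, L.γ_i]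
  have Mi : ∀ r t, M (r, (∞, t)) = ∞ := by
    intro r t
    simp only [M, Ni, L.γ_inf, PMap.map_inf, sm_inf_left, ite_self]
  have M0 : ∀ r a, M (r, (a, 0)) = ∞ := by
    intro r a
    simp only [M, Set.Icc.coe_zero, mul_zero, N0, L.γ_inf]
    rw [if_pos (by norm_num)]
  have M1 : ∀ r a, M (r, (a, 1)) = ∞ := by
    intro r a
    simp only [M, Set.Icc.coe_one]
    rw [if_neg (by norm_num), qI_of_ge (by have := r.2.2; linarith), sm_inf_right]
  -- the intermediate maps as pointed maps
  have hMr : ∀ r : I, ∃ m : PMap (W × Io) (B × Io), ∀ a (t : I), m (sm a (qI t)) = M (r, (a, t)) := by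
    intro r
    refine ⟨ofS (fun a t => M (r, (a, Set.projIcc (0 : ℝ) 1 zero_le_one t))) ?_ ?_ ?_ ?_, ?_⟩
    · exact hM.comp (continuous_const.prodMk (continuous_fst.prodMk
        (continuous_projIcc.comp (by fun_prop))))
    · intro t; exact Mi _ _
    · intro a; rw [Set.projIcc_left]; exact M0 _ _
    · intro a; rw [Set.projIcc_right]; exact M1 _ _
    · intro a t
      rw [ofS_sm _ _ _ _ _ a t.2, Set.projIcc_val]
  obtain ⟨m0, hm0⟩ := hMr 0
  obtain ⟨m1, hm1⟩ := hMr 1
  have hm : m0.Homotopic m1 := by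
    refine Homotopic_of_S M hM ?_ ?_ Mi M0 M1
    · intro a t; exact (hm0 a t).symm
    · intro a t; exact (hm1 a t).symm
  -- left end
  have hleft : ((F.smash (PMap.id Io)).comp (ofS K hK (fun t => by simp only [K, Ni, PMap.map_inf])
    (fun a => by simp only [K, N0, PMap.map_inf])
    (fun a => by simp only [K, N1, L.p_i]))).Homotopic m0 := by
    refine Homotopic_of_S (fun p => L.γ (0, N p.2.1 (min 1 ((1 + (p.1 : ℝ)) * p.2.2)))) ?_ ?_ ?_
      ?_ ?_ ?_
    · exact L.cont.comp (continuous_const.prodMk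
        (hN.comp ((continuous_fst.comp continuous_snd).prodMk (by fun_prop))))
    · intro a t
      rw [PMap.comp_apply, ofS_sm _ _ _ _ _ a t.2]
      simp only [Set.Icc.coe_zero, add_zero, one_mul]
      rw [min_eq_right t.2.2, L.γ_zero]
    · intro a t
      rw [hm0]
      simp only [M, Set.Icc.coe_zero, Set.Icc.coe_one, sub_zero]
      split_ifs with ht
      · rw [min_eq_right (by linarith)]
        norm_num
      · push Not at ht
        rw [min_eq_left (by linarith), N1, L.γ_i, Set.Icc.coe_zero, sub_zero, qI_one,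
          sm_inf_right, qI_of_ge (by linarith), sm_inf_right]
    · intro r t
      simp only [Ni, L.γ_inf]
    · intro r a
      simp only [Set.Icc.coe_zero, mul_zero]
      rw [min_eq_right zero_le_one, N0, L.γ_inf]
    · intro r a
      simp only [Set.Icc.coe_one, mul_one]
      rw [min_eq_left (by have := r.2.1; linarith), N1, L.γ_i, Set.Icc.coe_zero, sub_zero,
        qI_one, sm_inf_right]
  -- right end
  have hright : m1.Homotopic (h.smash (PMap.id Io)) := by
    refine Homotopic_of_S (fun p => sm (h p.2.1) (qI ((2 - (p.1 : ℝ)) * p.2.2 - (1 - p.1)))) ?_ ?_ ?_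
      ?_ ?_ ?_
    · exact (h.cont.comp (by fun_prop)).sm962 (continuous_qI.comp (by fun_prop))
    · intro a t
      rw [hm1]
      simp only [M, Set.Icc.coe_zero, Set.Icc.coe_one, sub_zero]
      split_ifs with ht
      · rw [L.γ_one, qI_of_le (by linarith), sm_inf_right]
      · rfl
    · intro a t
      rw [PMap.smash_sm]
      simp only [Set.Icc.coe_one, PMap.id_apply]
      congr 2
      ring
    · intro r t
      simp
    · intro r a
      simp only [Set.Icc.coe_zero, mul_zero]
      rw [qI_of_le (by have := r.2.2; linarith), sm_inf_right]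
    · intro r a
      simp only [Set.Icc.coe_one, mul_one]
      rw [qI_of_ge (by linarith), sm_inf_right]
  exact hleft.trans (hm.trans hright)

end abs

section ladder2

variable {X : Type u} {Y : Type v} {W : Type w}
variable [TopologicalSpace X] [TopologicalSpace Y] [TopologicalSpace W]
variable [T2Space X] [LocallyCompactSpace X] [T2Space Y] [LocallyCompactSpace Y]
  [T2Space W] [LocallyCompactSpace W]

/-- the ladder data of the mapping cone -/
noncomputable def ladMC (f : PMap X Y) : Lad f (MC.i f) where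
  p := MC.p f
  γ q := gh f q.1 q.2
  cont := continuous_gh f
  γ_i _ _ := gh_i f _ _
  γ_zero z := gh_zero f z
  γ_one z := gh_one f z
  p_i y := MC.p_i f y

/-- **the ladder** (covariant exactness, unstable form) -/
theorem exists_ladder (f : PMap X Y) (h : PMap W Y) (hn : ((MC.i f).comp h).Null) :
    ∃ k : PMap (W × Io) (X × Io),
      ((f.smash (PMap.id Io)).comp k).Homotopic (h.smash (PMap.id Io)) :=
  (ladMC f).exists_ladder h hn

end ladder2

/-! ## smashing the ladder data with a fixed object -/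

section smashLad

variable {A : Type u} {B : Type v} {C : Type x} {D : Type w}
variable [TopologicalSpace A] [TopologicalSpace B] [TopologicalSpace C] [TopologicalSpace D]
variable [T2Space A] [LocallyCompactSpace A] [T2Space B] [LocallyCompactSpace B]
  [T2Space C] [LocallyCompactSpace C] [T2Space D] [LocallyCompactSpace D]

/-- `(A × Io) × D ≃ (A × D) × Io` -/
def shR (A : Type u) (D : Type w) [TopologicalSpace A] [TopologicalSpace D] :
    (A × Io) × D ≃ₜ (A × D) × Io where
  toFun p := ((p.1.1, p.2), p.1.2)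
  invFun p := ((p.1.1, p.2), p.1.2)
  left_inv _ := rfl
  right_inv _ := rfl
  continuous_toFun := by fun_prop
  continuous_invFun := by fun_prop

theorem shR_sm (a : OnePoint A) (t : OnePoint Io) (d : OnePoint D) :
    PMap.ofHomeo (shR A D) (sm (sm a t) d) = sm (sm a d) t := by
  induction a using OnePoint.rec with
  | infty => simp
  | coe a =>
    induction t using OnePoint.rec with
    | infty => simp
    | coe t =>
      induction d using OnePoint.rec with
      | infty => simp
      | coe d => rfl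

/-- smashing the ladder data on the right -/
noncomputable def Lad.smR {F : PMap A B} {i : PMap B C} (L : Lad F i) (D : Type w)
    [TopologicalSpace D] [T2Space D] [LocallyCompactSpace D] :
    Lad (F.smash (PMap.id D)) (i.smash (PMap.id D)) where
  p := (PMap.ofHomeo (shR A D)).comp (L.p.smash (PMap.id D))
  γ q := PMap.ofHomeo (shR B D) (q.2.elim ∞ fun c => sm (L.γ (q.1, c.1)) (c.2 : OnePoint D))
  cont := by
    refine (PMap.cont _).comp (continuous_of_sm' ?_)
    have : (fun p : I × (OnePoint C × OnePoint D) =>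
        ((sm p.2.1 p.2.2).elim ∞ fun c => sm (L.γ (p.1, c.1)) (c.2 : OnePoint D) :
          OnePoint ((B × Io) × D))) =
        fun p => sm (L.γ (p.1, p.2.1)) p.2.2 := by
      funext p
      obtain ⟨l, c, d⟩ := p
      induction c using OnePoint.rec with
      | infty => simp [L.γ_inf]
      | coe c =>
        induction d using OnePoint.rec with
        | infty => simp
        | coe d => rfl
    change Continuous (fun p : I × (OnePoint C × OnePoint D) =>
        ((sm p.2.1 p.2.2).elim ∞ fun c => sm (L.γ (p.1, c.1)) (c.2 : OnePoint D) :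
          OnePoint ((B × Io) × D)))
    rw [this]
    exact (L.cont.comp (by fun_prop)).sm962 (by fun_prop)
  γ_i l y := by
    have key : ∀ (c : OnePoint C) (d : OnePoint D),
        ((sm c d).elim ∞ fun c => sm (L.γ (l, c.1)) (c.2 : OnePoint D) :
          OnePoint ((B × Io) × D)) = sm (L.γ (l, c)) d := by
      intro c d
      induction c using OnePoint.rec with
      | infty => simp [L.γ_inf]
      | coe c =>
        induction d using OnePoint.rec with
        | infty => simp
        | coe d => rfl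
    obtain ⟨⟨b, d⟩, rfl⟩ := sm_surjective y
    simp only [PMap.smash_sm, PMap.id_apply]
    rw [key, L.γ_i, shR_sm]
  γ_zero z := by
    obtain ⟨⟨c, d⟩, rfl⟩ := sm_surjective z
    have key : ((sm c d).elim ∞ fun c => sm (L.γ (0, c.1)) (c.2 : OnePoint D) :
          OnePoint ((B × Io) × D)) = sm (L.γ (0, c)) d := by
      induction c using OnePoint.rec with
      | infty => simp [L.γ_inf]
      | coe c =>
        induction d using OnePoint.rec with
        | infty => simp
        | coe d => rfl
    simp only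
    rw [key, L.γ_zero, PMap.comp_apply, PMap.smash_sm, PMap.id_apply]
    obtain ⟨⟨a, t⟩, hat⟩ := sm_surjective (L.p c)
    simp only at hat
    rw [← hat, PMap.smash_sm, PMap.id_apply, shR_sm, shR_sm, PMap.smash_sm, PMap.smash_sm]
    rfl
  γ_one z := by
    induction z using OnePoint.rec with
    | infty => rfl
    | coe z =>
      change PMap.ofHomeo (shR B D) (sm (L.γ (1, z.1)) (z.2 : OnePoint D)) = ∞
      rw [L.γ_one, sm_inf_left, PMap.map_inf]
  p_i y := by
    obtain ⟨⟨b, d⟩, rfl⟩ := sm_surjective y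
    simp only [PMap.smash_sm, PMap.comp_apply]
    rw [L.p_i, sm_inf_left, PMap.map_inf]

end smashLad

end Crest.Agent.R090.Sp962
end

-- ▼ part R090/CovSt_128

/-!
# Row 90, T1: covariant exactness in the stable category (owner helper128)

For `f : PMap U V` and an arbitrary fixed `D`:
* `cov1` : `h : St W (V × D)`, `(i ∧ 1) ∘ h = 0` ⟹ `h = (f ∧ 1) ∘ k`;
* `cov2` : `h : St W (MC f × D)`, `(p ∧ 1) ∘ h = 0` ⟹ `h = (i ∧ 1) ∘ k`;
* `cov3` : `h : St W ((U × Io) × D)`, `((f ∧ 1) ∧ 1) ∘ h = 0` ⟹ `h = (p ∧ 1) ∘ k`.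
The same without `D` (`cov1'`, `cov2'`, `cov3'`) and with `D` on the left (`cov1L`, …).
-/

set_option autoImplicit false
set_option linter.unusedSectionVars false

open Topology Filter Set

namespace Crest.Agent.R090.CovSt128

open OnePoint Crest.Agent.R090.Sp962 Crest.Agent.R090.Grp528 Crest.Agent.R090.St528
open scoped unitInterval

universe u v w x y

section

variable {A : Type u} {B : Type v} {C : Type x} {W : Type w} {D : Type y}
variable [TopologicalSpace A] [TopologicalSpace B] [TopologicalSpace C] [TopologicalSpace W]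
  [TopologicalSpace D]
variable [T2Space A] [LocallyCompactSpace A] [T2Space B] [LocallyCompactSpace B]
  [T2Space C] [LocallyCompactSpace C] [T2Space W] [LocallyCompactSpace W]
  [T2Space D] [LocallyCompactSpace D]

/-- the level `n` representative of a class of maps -/
noncomputable abbrev lv (n : ℕ) (a : HC A B) : HC (S A n) (S B n) := a.smash (h1 (Fin n → ℂ))

theorem st_lv (n : ℕ) (a : HC A B) : st (lv n a) = lv (n + 1) a := by
  obtain ⟨f, rfl⟩ := HC.mk_surj a
  refine congrArg HC.mk (PMap.ext fun p => ?_)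
  obtain ⟨x, v⟩ := p
  change PMap.ofHomeo (eS B n).symm (sm (sm (f x) ((fun i : Fin n => v i.castSucc : Fin n → ℂ) :
    OnePoint (Fin n → ℂ))) ((v (Fin.last n) : ℂ) : OnePoint ℂ)) = sm (f x) (v : OnePoint _)
  generalize f x = y
  induction y using OnePoint.rec with
  | infty => simp
  | coe y =>
    change (((eS B n).symm ((y, fun i : Fin n => v i.castSucc), v (Fin.last n)) : S B (n + 1)) :
      OnePoint (S B (n + 1))) = ((y, v) : B × (Fin (n + 1) → ℂ))
    congr 1
    exact (eS B n).symm_apply_apply (y, v)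

theorem stN_lv (n k : ℕ) (a : HC A B) : stN (lv n a) k = lv (n + k) a := by
  induction k with
  | zero => rfl
  | succ k ih => rw [stN_succ, ih, st_lv]; rfl

theorem map_comp_assoc (b : HC B C) (a : HC A B) (h : St W A) :
    (St.map b).comp ((St.map a).comp h) = (St.map (b.comp a)).comp h := by
  rw [St.map_comp, St.comp_assoc]

/-- a stable map killed by an unstable one, at a finite level -/
theorem exists_level (i : PMap B C) (h : St W B) (hi : (St.ofP i).comp h = 0) :
    ∃ (n : ℕ) (h0 : PMap (S W n) (S B n)), h = St.of n (HC.mk h0) ∧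
      ((i.smash (PMap.id (Fin n → ℂ))).comp h0).Null := by
  obtain ⟨n, _, a, rfl⟩ := h.exists_of_ge 0
  rw [St.ofP, St.map_eq_of _ n, St.of_comp_of, ← St.of_zero n, St.of_eq_iff] at hi
  obtain ⟨k, hk⟩ := hi
  have hz : stN (hzero (S W n) (S C n)) k = hzero _ _ := by
    clear hk
    induction k with
    | zero => rfl
    | succ k ih => rw [stN_succ, ih, st_hzero]; rfl
  rw [stN_comp, stN_lv, hz] at hk
  obtain ⟨h0, hh0⟩ := HC.mk_surj (stN a k)
  refine ⟨n + k, h0, ?_, ?_⟩
  · rw [hh0, St.of_stN]
  · rw [← hh0] at hk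
    exact HC.mk_eq.1 hk

/-- **covariant exactness, stable form** -/
theorem Lad.exact {F : PMap A B} {i : PMap B C} (L : Lad F i) (h : St W B)
    (hi : (St.ofP i).comp h = 0) : ∃ k : St W A, (St.ofP F).comp k = h := by
  obtain ⟨n, h0, rfl, hn⟩ := exists_level i h hi
  obtain ⟨k0, hk0⟩ := (L.smR (Fin n → ℂ)).exists_ladder h0 hn
  refine ⟨St.of (n + 1) ((hh (lev A n).symm).comp
    (((HC.mk k0).smash (h1 Io)).comp (hh (lev W n)))), ?_⟩
  rw [St.ofP, St.map_eq_of _ (n + 1), St.of_comp_of, ← St.of_st (HC.mk h0), st_eq_lev]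
  change St.of (n + 1) ((lv (n + 1) (HC.mk F)).comp _) = _
  rw [← st_lv, st_eq_lev]
  congr 1
  simp only [HC.comp_assoc, hh_comp_symm_assoc]
  have hk : ((lv n (HC.mk F)).smash (h1 Io)).comp (HC.mk k0) = (HC.mk h0).smash (h1 Io) :=
    HC.sound hk0
  rw [← HC.comp_assoc (((lv n (HC.mk F)).smash (h1 Io)).smash (h1 Io)), HC.smash_comp, hk, comp_h1]

end

/-! ## the covariant exact sequences of a mapping cone, smashed with `D` -/

section cone

variable {U : Type u} {V : Type v} {W : Type w} {D : Type y}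
variable [TopologicalSpace U] [TopologicalSpace V] [TopologicalSpace W] [TopologicalSpace D]
variable [T2Space U] [LocallyCompactSpace U] [T2Space V] [LocallyCompactSpace V]
  [T2Space W] [LocallyCompactSpace W] [T2Space D] [LocallyCompactSpace D]

/-- exactness at `V` -/
theorem cov1 (f : PMap U V) (h : St W (V × D))
    (hi : (St.ofP ((MC.i f).smash (PMap.id D))).comp h = 0) :
    ∃ k : St W (U × D), (St.ofP (f.smash (PMap.id D))).comp k = h :=
  Lad.exact ((ladMC f).smR D) h hi

/-- exactness at `MC f` -/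
theorem cov2 (f : PMap U V) (h : St W (MC f × D))
    (hp : (St.ofP ((MC.p f).smash (PMap.id D))).comp h = 0) :
    ∃ k : St W (V × D), (St.ofP ((MC.i f).smash (PMap.id D))).comp k = h := by
  obtain ⟨r, hr⟩ := MC.exists_p f (MC.i (MC.i f)) (MC.i_comp_null (MC.i f))
  refine cov1 (MC.i f) h ?_
  have e : HC.mk ((MC.i (MC.i f)).smash (PMap.id D)) =
      (HC.mk (r.smash (PMap.id D))).comp (HC.mk ((MC.p f).smash (PMap.id D))) := by
    rw [HC.comp_mk, PMap.smash_comp]
    exact HC.sound (hr.smash (PMap.Homotopic.refl _))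
  rw [St.ofP, e, ← map_comp_assoc, hp, St.comp_zero]

/-- exactness at `U × Io` -/
theorem cov3 (f : PMap U V) (h : St W ((U × Io) × D))
    (hp : (St.ofP ((f.smash (PMap.id Io)).smash (PMap.id D))).comp h = 0) :
    ∃ k : St W (MC f × D), (St.ofP ((MC.p f).smash (PMap.id D))).comp k = h := by
  obtain ⟨r, hr⟩ := MC.exists_susp f (MC.i (MC.p f)) (MC.i_comp_null (MC.p f))
  refine cov1 (MC.p f) h ?_
  have e : HC.mk ((MC.i (MC.p f)).smash (PMap.id D)) =
      (HC.mk (r.smash (PMap.id D))).comp (HC.mk ((f.smash (PMap.id Io)).smash (PMap.id D))) := by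
    rw [HC.comp_mk, PMap.smash_comp]
    exact HC.sound (hr.smash (PMap.Homotopic.refl _))
  rw [St.ofP, e, ← map_comp_assoc, hp, St.comp_zero]

/-! ### without `D` -/

/-- exactness at `V` -/
theorem cov1' (f : PMap U V) (h : St W V) (hi : (St.ofP (MC.i f)).comp h = 0) :
    ∃ k : St W U, (St.ofP f).comp k = h :=
  Lad.exact (ladMC f) h hi

/-- exactness at `MC f` -/
theorem cov2' (f : PMap U V) (h : St W (MC f)) (hp : (St.ofP (MC.p f)).comp h = 0) :
    ∃ k : St W V, (St.ofP (MC.i f)).comp k = h := by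
  obtain ⟨r, hr⟩ := MC.exists_p f (MC.i (MC.i f)) (MC.i_comp_null (MC.i f))
  refine cov1' (MC.i f) h ?_
  rw [St.ofP, HC.sound hr, ← HC.comp_mk, ← map_comp_assoc, hp, St.comp_zero]

/-- exactness at `U × Io` -/
theorem cov3' (f : PMap U V) (h : St W (U × Io))
    (hp : (St.ofP (f.smash (PMap.id Io))).comp h = 0) :
    ∃ k : St W (MC f), (St.ofP (MC.p f)).comp k = h := by
  obtain ⟨r, hr⟩ := MC.exists_susp f (MC.i (MC.p f)) (MC.i_comp_null (MC.p f))
  refine cov1' (MC.p f) h ?_
  rw [St.ofP, HC.sound hr, ← HC.comp_mk, ← map_comp_assoc, hp, St.comp_zero]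

/-! ### `D` on the left -/

theorem swap_smash {U' : Type*} {V' : Type*} [TopologicalSpace U'] [TopologicalSpace V']
    [T2Space U'] [LocallyCompactSpace U'] [T2Space V'] [LocallyCompactSpace V']
    (f : PMap U V) (g : PMap U' V') :
    (PMap.ofHomeo (Homeomorph.prodComm V V')).comp (f.smash g) =
      (g.smash f).comp (PMap.ofHomeo (Homeomorph.prodComm U U')) := by
  refine PMap.ext fun p => ?_
  obtain ⟨a, b⟩ := p
  change PMap.ofHomeo (Homeomorph.prodComm V V') (sm (f a) (g b)) = sm (g b) (f a)
  generalize f a = a'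
  generalize g b = b'
  induction a' using OnePoint.rec with
  | infty => simp
  | coe a' =>
    induction b' using OnePoint.rec with
    | infty => simp
    | coe b' => rfl

theorem ofP_swap {U' : Type*} {V' : Type*} [TopologicalSpace U'] [TopologicalSpace V']
    [T2Space U'] [LocallyCompactSpace U'] [T2Space V'] [LocallyCompactSpace V']
    (f : PMap U V) (g : PMap U' V') (h : St W (U × U')) :
    (St.ofP (PMap.ofHomeo (Homeomorph.prodComm V V'))).comp ((St.ofP (f.smash g)).comp h) =
      (St.ofP (g.smash f)).comp ((St.ofP (PMap.ofHomeo (Homeomorph.prodComm U U'))).comp h) := by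
  rw [St.ofP, St.ofP, St.ofP, St.ofP, map_comp_assoc, map_comp_assoc, HC.comp_mk, HC.comp_mk,
    swap_smash]


theorem exact_left {X : Type x} [TopologicalSpace X] [T2Space X] [LocallyCompactSpace X]
    (f : PMap U V) (g : PMap V X)
    (H : ∀ h : St W (V × D), (St.ofP (g.smash (PMap.id D))).comp h = 0 →
      ∃ k : St W (U × D), (St.ofP (f.smash (PMap.id D))).comp k = h)
    (h : St W (D × V)) (hg : (St.ofP ((PMap.id D).smash g)).comp h = 0) :
    ∃ k : St W (D × U), (St.ofP ((PMap.id D).smash f)).comp k = h := by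
  obtain ⟨k, hk⟩ := H ((St.ofP (PMap.ofHomeo (Homeomorph.prodComm D V))).comp h) (by
    rw [← ofP_swap, hg, St.comp_zero])
  refine ⟨(St.ofP (PMap.ofHomeo (Homeomorph.prodComm U D))).comp k, ?_⟩
  rw [← ofP_swap, hk, ← St.comp_assoc]
  have := St.ofP_homeo_symm_comp (Homeomorph.prodComm D V)
  rw [Homeomorph.prodComm_symm] at this
  rw [this, St.id_comp]

/-- exactness at `V` -/
theorem cov1L (f : PMap U V) (h : St W (D × V))
    (hi : (St.ofP ((PMap.id D).smash (MC.i f))).comp h = 0) :
    ∃ k : St W (D × U), (St.ofP ((PMap.id D).smash f)).comp k = h :=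
  exact_left f (MC.i f) (cov1 f) h hi

/-- exactness at `MC f` -/
theorem cov2L (f : PMap U V) (h : St W (D × MC f))
    (hp : (St.ofP ((PMap.id D).smash (MC.p f))).comp h = 0) :
    ∃ k : St W (D × V), (St.ofP ((PMap.id D).smash (MC.i f))).comp k = h :=
  exact_left (MC.i f) (MC.p f) (cov2 f) h hp

/-- exactness at `U × Io` -/
theorem cov3L (f : PMap U V) (h : St W (D × (U × Io)))
    (hp : (St.ofP ((PMap.id D).smash (f.smash (PMap.id Io)))).comp h = 0) :
    ∃ k : St W (D × MC f), (St.ofP ((PMap.id D).smash (MC.p f))).comp k = h :=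
  exact_left (MC.p f) (f.smash (PMap.id Io)) (cov3 f) h hp

end cone

end Crest.Agent.R090.CovSt128
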