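import Crest.Agent.R090.Cone_962

-- ▼ part R090/Grp_528
section

/-!
# Row 90, T1-ADD (1): the group structure on `[U × Io, V]` (owner helper528)

`Io = Ioo (0:ℝ) 1` is the suspension coordinate.
-/

set_option autoImplicit false
set_option linter.unusedSectionVars false

open Topology Filter Set

namespace Crest.Agent.R090.Grp528

open OnePoint Crest.Agent.R090.Sp962
open scoped unitInterval

universe u v w x

theorem qI_not {x : ℝ} (h : x ∉ Ioo (0 : ℝ) 1) : qI x = ∞ := by
  rw [mem_Ioo, not_and_or, not_lt, not_lt] at h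
  rcases h with h | h
  · exact qI_of_le h
  · exact qI_of_ge h


variable {U : Type u} {V : Type v} {W : Type w} {X : Type x}
variable [TopologicalSpace U] [TopologicalSpace V] [TopologicalSpace W] [TopologicalSpace X]

section quot

variable [T2Space U] [LocallyCompactSpace U]

theorem continuous_smI : Continuous (fun p : I × OnePoint U => sm p.2 (qI (p.1 : ℝ))) :=
  continuous_snd.sm962 (continuous_qI.comp (continuous_subtype_val.comp continuous_fst))

theorem smI_surjective : Function.Surjective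
    (fun p : I × OnePoint U => sm p.2 (qI (p.1 : ℝ))) := by
  intro q
  obtain ⟨⟨a, b⟩, rfl⟩ := sm_surjective q
  obtain ⟨t, rfl⟩ := qI_surjective b
  exact ⟨(t, a), rfl⟩

/-- continuity of a map out of `K × (U × Io)⁺` -/
theorem continuous_of_smI' {K : Type*} [TopologicalSpace K] [T2Space K] [CompactSpace K]
    {Y : Type*} [TopologicalSpace Y] {g : K × OnePoint (U × Io) → Y}
    (h : Continuous (fun p : K × (I × OnePoint U) => g (p.1, sm p.2.2 (qI (p.2.1 : ℝ))))) :
    Continuous g := by
  have hc : Continuous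
      (fun p : K × (I × OnePoint U) => (p.1, sm p.2.2 (qI (p.2.1 : ℝ)))) :=
    continuous_fst.prodMk (continuous_smI.comp continuous_snd)
  have hs : Function.Surjective
      (fun p : K × (I × OnePoint U) => (p.1, sm p.2.2 (qI (p.2.1 : ℝ)))) := by
    rintro ⟨k, q⟩
    obtain ⟨p, hp⟩ := smI_surjective q
    exact ⟨(k, p), by simpa using hp⟩
  exact (hc.isClosedMap.isQuotientMap hc hs).continuous_iff.2 h

theorem continuous_of_smI {Y : Type*} [TopologicalSpace Y] {g : OnePoint (U × Io) → Y}
    (h : Continuous (fun p : I × OnePoint U => g (sm p.2 (qI (p.1 : ℝ))))) :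
    Continuous g :=
  ((continuous_smI (U := U)).isClosedMap.isQuotientMap continuous_smI
    smI_surjective).continuous_iff.2 h

theorem ext_smI {f g : PMap (U × Io) V}
    (h : ∀ (u : OnePoint U) (t : ℝ), f (sm u (qI t)) = g (sm u (qI t))) : f = g := by
  refine PMap.ext fun p => ?_
  obtain ⟨u, t⟩ := p
  have := h u t
  rwa [qI_coe] at this

end quot

/-! ## mapping space -/

/-- pointed maps with the compact-open topology -/
abbrev Mp (U : Type u) (V : Type v) [TopologicalSpace U] [TopologicalSpace V] :=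
  {f : C(OnePoint U, OnePoint V) // f ∞ = ∞}

/-- constant map -/
def Mp.zero (U : Type u) (V : Type v) [TopologicalSpace U] [TopologicalSpace V] : Mp U V :=
  ⟨ContinuousMap.const _ ∞, rfl⟩

section path

variable [T2Space U] [LocallyCompactSpace U]

/-- a map out of a suspension as a loop -/
noncomputable def toPath (f : PMap (U × Io) V) : Path (Mp.zero U V) (Mp.zero U V) where
  toFun t := ⟨⟨fun u => f (sm u (qI (t : ℝ))), f.cont.comp (continuous_id.sm962 continuous_const)⟩,
    by simp⟩
  continuous_toFun := by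
    refine Continuous.subtype_mk ?_ _
    exact (ContinuousMap.curry ⟨fun p : I × OnePoint U => f (sm p.2 (qI (p.1 : ℝ))),
      f.cont.comp continuous_smI⟩).continuous
  source' := by
    apply Subtype.ext; ext u; simp [Mp.zero]
  target' := by
    apply Subtype.ext; ext u; simp [Mp.zero]

theorem toPath_apply (f : PMap (U × Io) V) (t : I) (u : OnePoint U) :
    (toPath f t).1 u = f (sm u (qI (t : ℝ))) := rfl

theorem path_zero (γ : Path (Mp.zero U V) (Mp.zero U V)) (u : OnePoint U) : (γ 0).1 u = ∞ := by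
  rw [γ.source]; rfl

theorem path_one (γ : Path (Mp.zero U V) (Mp.zero U V)) (u : OnePoint U) : (γ 1).1 u = ∞ := by
  rw [γ.target]; rfl

theorem path_inf (γ : Path (Mp.zero U V) (Mp.zero U V)) (t : I) : (γ t).1 ∞ = ∞ := (γ t).2

/-- auxiliary: uncurried function on `(U × Io)⁺` -/
def unc (G : I → OnePoint U → OnePoint V) (x : OnePoint (U × Io)) : OnePoint V :=
  x.elim ∞ fun p => G ⟨p.2.1, p.2.2.1.le, p.2.2.2.le⟩ p.1

theorem unc_sm (G : I → OnePoint U → OnePoint V) (h0 : ∀ u, G 0 u = ∞) (h1 : ∀ u, G 1 u = ∞)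
    (hi : ∀ t, G t ∞ = ∞) (t : I) (u : OnePoint U) :
    unc G (sm u (qI (t : ℝ))) = G t u := by
  induction u using OnePoint.rec with
  | infty => simp [unc, hi]
  | coe u =>
    by_cases h : (t : ℝ) ∈ Ioo (0 : ℝ) 1
    · rw [qI_of_mem h]; rfl
    · rw [qI_not h, sm_inf_right]
      rw [mem_Ioo, not_and_or, not_lt, not_lt] at h
      rcases h with h | h
      · have : t = 0 := Subtype.ext (le_antisymm h t.2.1)
        rw [this, h0]; rfl
      · have : t = 1 := Subtype.ext (le_antisymm t.2.2 h)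
        rw [this, h1]; rfl

/-- a loop as a map out of a suspension -/
noncomputable def ofPath (γ : Path (Mp.zero U V) (Mp.zero U V)) : PMap (U × Io) V where
  toFun := unc fun t => (γ t).1
  cont := by
    refine continuous_of_smI ?_
    have : (fun p : I × OnePoint U => unc (fun t => (γ t).1) (sm p.2 (qI (p.1 : ℝ)))) =
        fun p => (γ p.1).1 p.2 := by
      funext p
      exact unc_sm _ (path_zero γ) (path_one γ) (path_inf γ) _ _
    rw [this]
    exact ContinuousEval.continuous_eval.comp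
      ((continuous_subtype_val.comp (γ.continuous.comp continuous_fst)).prodMk continuous_snd)
  map_inf := rfl

theorem ofPath_sm (γ : Path (Mp.zero U V) (Mp.zero U V)) (t : I) (u : OnePoint U) :
    ofPath γ (sm u (qI (t : ℝ))) = (γ t).1 u :=
  unc_sm _ (path_zero γ) (path_one γ) (path_inf γ) _ _

@[simp] theorem toPath_ofPath (γ : Path (Mp.zero U V) (Mp.zero U V)) : toPath (ofPath γ) = γ := by
  refine Path.ext (funext fun t => ?_)
  apply Subtype.ext
  ext u
  rw [toPath_apply, ofPath_sm]

@[simp] theorem ofPath_toPath (f : PMap (U × Io) V) : ofPath (toPath f) = f := by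
  refine PMap.ext fun p => ?_
  obtain ⟨u, t⟩ := p
  have := ofPath_sm (toPath f) ⟨t.1, t.2.1.le, t.2.2.le⟩ (u : OnePoint U)
  rw [toPath_apply] at this
  rwa [qI_coe] at this

theorem toPath_homotopic {f g : PMap (U × Io) V} (h : f.Homotopic g) :
    (toPath f).Homotopic (toPath g) := by
  obtain ⟨H, hH, H0, H1, Hi⟩ := h.exists
  have hc : Continuous (fun p : (I × I) × OnePoint U => H (p.1.1, sm p.2 (qI (p.1.2 : ℝ)))) := by
    refine hH.comp ((by fun_prop : Continuous fun p : (I × I) × OnePoint U => p.1.1).prodMk ?_)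
    exact continuous_snd.sm962 (continuous_qI.comp (by fun_prop))
  refine ⟨⟨⟨⟨fun p => ⟨ContinuousMap.curry ⟨_, hc⟩ p, ?_⟩, ?_⟩, ?_, ?_⟩, ?_⟩⟩
  · simp [Hi]
  · exact Continuous.subtype_mk (ContinuousMap.curry ⟨_, hc⟩).continuous _
  · intro t
    apply Subtype.ext
    ext u
    exact H0 _
  · intro t
    apply Subtype.ext
    ext u
    exact H1 _
  · intro t x hx
    apply Subtype.ext
    ext u
    change H (t, sm u (qI (x : ℝ))) = (toPath f x).1 u
    rw [toPath_apply]
    have hx' : qI (x : ℝ) = ∞ := by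
      rcases hx with rfl | rfl
      · simp
      · simp
    rw [hx', sm_inf_right, Hi]; simp

theorem ofPath_homotopic {γ δ : Path (Mp.zero U V) (Mp.zero U V)} (h : γ.Homotopic δ) :
    (ofPath γ).Homotopic (ofPath δ) := by
  obtain ⟨F⟩ := h
  have h0 : ∀ (s : I) (u : OnePoint U), (F (s, 0)).1 u = ∞ := fun s u => by
    rw [F.source]; rfl
  have h1 : ∀ (s : I) (u : OnePoint U), (F (s, 1)).1 u = ∞ := fun s u => by
    rw [F.target]; rfl
  have hsm : ∀ (s t : I) (u : OnePoint U),
      unc (fun t => (F (s, t)).1) (sm u (qI (t : ℝ))) = (F (s, t)).1 u := fun s t u =>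
    unc_sm (fun t => (F (s, t)).1) (h0 s) (h1 s) (fun t => (F (s, t)).2) t u
  refine PMap.Homotopic.of (fun p => unc (fun t => (F (p.1, t)).1) p.2) ?_ ?_ ?_ ?_
  · refine continuous_of_smI' ?_
    have : (fun p : I × (I × OnePoint U) =>
        unc (fun t => (F (p.1, t)).1) (sm p.2.2 (qI (p.2.1 : ℝ)))) =
        fun p => (F (p.1, p.2.1)).1 p.2.2 := by
      funext p
      exact hsm _ _ _
    change Continuous (fun p : I × (I × OnePoint U) =>
        unc (fun t => (F (p.1, t)).1) (sm p.2.2 (qI (p.2.1 : ℝ))))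
    rw [this]
    exact ContinuousEval.continuous_eval.comp
      ((continuous_subtype_val.comp (F.continuous.comp (by fun_prop))).prodMk (by fun_prop))
  · intro x
    change unc (fun t => (F (0, t)).1) x = unc (fun t => (γ t).1) x
    simp
  · intro x
    change unc (fun t => (F (1, t)).1) x = unc (fun t => (δ t).1) x
    simp
  · intro t; rfl

theorem homotopic_iff {f g : PMap (U × Io) V} :
    f.Homotopic g ↔ (toPath f).Homotopic (toPath g) :=
  ⟨toPath_homotopic, fun h => by simpa using ofPath_homotopic h⟩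

end path

/-! ## group operations on maps out of a suspension -/

section ops

variable [T2Space U] [LocallyCompactSpace U]

/-- sum -/
noncomputable def padd (f g : PMap (U × Io) V) : PMap (U × Io) V :=
  ofPath ((toPath f).trans (toPath g))

/-- negative -/
noncomputable def pneg (f : PMap (U × Io) V) : PMap (U × Io) V :=
  ofPath (toPath f).symm

theorem toPath_zero : toPath (PMap.zero (U × Io) V) = Path.refl _ := by
  refine Path.ext (funext fun t => ?_)
  apply Subtype.ext
  ext u
  rfl

theorem padd_smI (f g : PMap (U × Io) V) (t : I) (u : OnePoint U) :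
    padd f g (sm u (qI (t : ℝ))) =
      if (t : ℝ) ≤ 1 / 2 then f (sm u (qI (2 * t))) else g (sm u (qI (2 * t - 1))) := by
  rw [padd, ofPath_sm, Path.trans_apply]
  split_ifs with h
  · rfl
  · rfl

/-- the formula for the sum, all real parameters -/
theorem padd_sm (f g : PMap (U × Io) V) (t : ℝ) (u : OnePoint U) :
    padd f g (sm u (qI t)) =
      if t ≤ 1 / 2 then f (sm u (qI (2 * t))) else g (sm u (qI (2 * t - 1))) := by
  by_cases h0 : t ≤ 0
  · rw [qI_of_le h0, if_pos (by linarith), qI_of_le (by linarith)]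
    simp
  by_cases h1 : 1 ≤ t
  · rw [qI_of_ge h1, if_neg (by linarith), qI_of_ge (by linarith)]
    simp
  exact padd_smI f g ⟨t, by linarith, by linarith⟩ u

theorem pneg_sm (f : PMap (U × Io) V) (t : ℝ) (u : OnePoint U) :
    pneg f (sm u (qI t)) = f (sm u (qI (1 - t))) := by
  by_cases h0 : t ≤ 0
  · rw [qI_of_le h0, qI_of_ge (by linarith)]
    simp
  by_cases h1 : 1 ≤ t
  · rw [qI_of_ge h1, qI_of_le (by linarith)]
    simp
  exact ofPath_sm (toPath f).symm ⟨t, by linarith, by linarith⟩ u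

theorem padd_congr {f f' g g' : PMap (U × Io) V} (hf : f.Homotopic f') (hg : g.Homotopic g') :
    (padd f g).Homotopic (padd f' g') :=
  ofPath_homotopic ((toPath_homotopic hf).hcomp (toPath_homotopic hg))

theorem pneg_congr {f f' : PMap (U × Io) V} (hf : f.Homotopic f') :
    (pneg f).Homotopic (pneg f') := ofPath_homotopic (toPath_homotopic hf).symm₂

theorem padd_assoc (f g h : PMap (U × Io) V) :
    (padd (padd f g) h).Homotopic (padd f (padd g h)) := by
  rw [homotopic_iff]
  simp only [padd, toPath_ofPath]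
  exact Path.Homotopic.trans_assoc _ _ _

theorem zero_padd (f : PMap (U × Io) V) : (padd (PMap.zero _ _) f).Homotopic f := by
  rw [homotopic_iff]
  simp only [padd, toPath_ofPath, toPath_zero]
  exact Path.Homotopic.refl_trans _

theorem padd_zero (f : PMap (U × Io) V) : (padd f (PMap.zero _ _)).Homotopic f := by
  rw [homotopic_iff]
  simp only [padd, toPath_ofPath, toPath_zero]
  exact Path.Homotopic.trans_refl _

theorem pneg_padd (f : PMap (U × Io) V) : (padd (pneg f) f).Homotopic (PMap.zero _ _) := by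
  rw [homotopic_iff]
  simp only [padd, pneg, toPath_ofPath, toPath_zero]
  exact Path.Homotopic.symm_trans _


/-! ### naturality -/

theorem comp_padd (k : PMap V W) (f g : PMap (U × Io) V) :
    k.comp (padd f g) = padd (k.comp f) (k.comp g) := by
  refine ext_smI fun u t => ?_
  rw [PMap.comp_apply, padd_sm, padd_sm]
  split_ifs <;> rfl


theorem padd_comp [T2Space X] [LocallyCompactSpace X] (k : PMap X U) (f g : PMap (U × Io) V) :
    (padd f g).comp (k.smash (PMap.id Io)) =
      padd (f.comp (k.smash (PMap.id Io))) (g.comp (k.smash (PMap.id Io))) := by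
  refine ext_smI fun u t => ?_
  rw [PMap.comp_apply, PMap.smash_sm, PMap.id_apply, padd_sm, padd_sm]
  split_ifs <;> rw [PMap.comp_apply, PMap.smash_sm, PMap.id_apply]


/-! ### the second coordinate and Eckmann–Hilton -/

/-- exchange of the last two suspension coordinates -/
def sw (U : Type u) [TopologicalSpace U] : (U × Io) × Io ≃ₜ (U × Io) × Io where
  toFun p := ((p.1.1, p.2), p.1.2)
  invFun p := ((p.1.1, p.2), p.1.2)
  left_inv _ := rfl
  right_inv _ := rfl
  continuous_toFun := by fun_prop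
  continuous_invFun := by fun_prop

theorem sw_sm (u : OnePoint U) (s t : OnePoint Io) :
    PMap.ofHomeo (sw U) (sm (sm u s) t) = sm (sm u t) s := by
  induction u using OnePoint.rec with
  | infty => simp
  | coe u =>
    induction s using OnePoint.rec with
    | infty => simp
    | coe s =>
      induction t using OnePoint.rec with
      | infty => simp
      | coe t => rfl

theorem sw_sw : (PMap.ofHomeo (sw U)).comp (PMap.ofHomeo (sw U)) = PMap.id _ :=
  PMap.ext fun _ => rfl

/-- sum along the first of two suspension coordinates -/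
noncomputable def padd' (f g : PMap ((U × Io) × Io) V) : PMap ((U × Io) × Io) V :=
  (padd (f.comp (PMap.ofHomeo (sw U))) (g.comp (PMap.ofHomeo (sw U)))).comp (PMap.ofHomeo (sw U))

theorem padd'_sm (f g : PMap ((U × Io) × Io) V) (s : ℝ) (t : OnePoint Io) (u : OnePoint U) :
    padd' f g (sm (sm u (qI s)) t) =
      if s ≤ 1 / 2 then f (sm (sm u (qI (2 * s))) t) else g (sm (sm u (qI (2 * s - 1))) t) := by
  rw [padd', PMap.comp_apply, sw_sm, padd_sm]
  split_ifs <;> rw [PMap.comp_apply, sw_sm]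

theorem ext_smII {f g : PMap ((U × Io) × Io) V}
    (h : ∀ (u : OnePoint U) (s t : ℝ), f (sm (sm u (qI s)) (qI t)) = g (sm (sm u (qI s)) (qI t))) :
    f = g := by
  refine PMap.ext fun p => ?_
  obtain ⟨⟨u, s⟩, t⟩ := p
  have := h u s t
  rwa [qI_coe, qI_coe] at this

theorem padd_interchange (a b c d : PMap ((U × Io) × Io) V) :
    padd (padd' a b) (padd' c d) = padd' (padd a c) (padd b d) := by
  refine ext_smII fun u s t => ?_
  by_cases h1 : s ≤ 1 / 2 <;> by_cases h2 : t ≤ 1 / 2 <;>
    simp only [padd'_sm, padd_sm, h1, h2, if_true, if_false]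

/-! ### classes -/

/-- sum of classes -/
noncomputable def hadd (a b : HC (U × Io) V) : HC (U × Io) V :=
  Quot.map₂ padd (fun _ _ _ h => padd_congr (.refl _) h) (fun _ _ _ h => padd_congr h (.refl _)) a b

/-- negative of a class -/
noncomputable def hneg (a : HC (U × Io) V) : HC (U × Io) V :=
  Quot.map pneg (fun _ _ h => pneg_congr h) a

/-- the zero class -/
def hzero (U : Type u) (V : Type v) [TopologicalSpace U] [TopologicalSpace V] : HC U V :=
  HC.mk (PMap.zero U V)

theorem hadd_mk (f g : PMap (U × Io) V) : hadd (HC.mk f) (HC.mk g) = HC.mk (padd f g) := rfl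

theorem hneg_mk (f : PMap (U × Io) V) : hneg (HC.mk f) = HC.mk (pneg f) := rfl

theorem hadd_assoc (a b c : HC (U × Io) V) : hadd (hadd a b) c = hadd a (hadd b c) := by
  obtain ⟨a, rfl⟩ := HC.mk_surj a
  obtain ⟨b, rfl⟩ := HC.mk_surj b
  obtain ⟨c, rfl⟩ := HC.mk_surj c
  exact HC.sound (padd_assoc a b c)

theorem hzero_hadd (a : HC (U × Io) V) : hadd (hzero _ _) a = a := by
  obtain ⟨a, rfl⟩ := HC.mk_surj a
  exact HC.sound (zero_padd a)

theorem hadd_hzero (a : HC (U × Io) V) : hadd a (hzero _ _) = a := by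
  obtain ⟨a, rfl⟩ := HC.mk_surj a
  exact HC.sound (padd_zero a)

theorem hneg_hadd (a : HC (U × Io) V) : hadd (hneg a) a = hzero _ _ := by
  obtain ⟨a, rfl⟩ := HC.mk_surj a
  exact HC.sound (pneg_padd a)


/-- `[U × Io, V]` is a group -/
@[reducible] noncomputable def addGroupHC (U : Type u) (V : Type v) [TopologicalSpace U]
    [TopologicalSpace V] [T2Space U] [LocallyCompactSpace U] : AddGroup (HC (U × Io) V) :=
  letI : Add (HC (U × Io) V) := ⟨hadd⟩
  letI : Zero (HC (U × Io) V) := ⟨hzero _ _⟩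
  letI : Neg (HC (U × Io) V) := ⟨hneg⟩
  AddGroup.ofLeftAxioms hadd_assoc hzero_hadd hneg_hadd

theorem comp_hadd (k : HC V W) (a b : HC (U × Io) V) :
    k.comp (hadd a b) = hadd (k.comp a) (k.comp b) := by
  obtain ⟨a, rfl⟩ := HC.mk_surj a
  obtain ⟨b, rfl⟩ := HC.mk_surj b
  obtain ⟨k, rfl⟩ := HC.mk_surj k
  simp only [hadd_mk, HC.comp_mk, comp_padd]


theorem hadd_comp [T2Space X] [LocallyCompactSpace X] (k : HC X U) (a b : HC (U × Io) V) :
    (hadd a b).comp (k.smash (HC.mk (PMap.id Io))) =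
      hadd (a.comp (k.smash (HC.mk (PMap.id Io)))) (b.comp (k.smash (HC.mk (PMap.id Io)))) := by
  obtain ⟨a, rfl⟩ := HC.mk_surj a
  obtain ⟨b, rfl⟩ := HC.mk_surj b
  obtain ⟨k, rfl⟩ := HC.mk_surj k
  simp only [hadd_mk, HC.comp_mk, HC.smash_mk, padd_comp]


/-- sum of classes along the first of two suspension coordinates -/
noncomputable def hadd' (a b : HC ((U × Io) × Io) V) : HC ((U × Io) × Io) V :=
  (hadd (a.comp (HC.mk (PMap.ofHomeo (sw U)))) (b.comp (HC.mk (PMap.ofHomeo (sw U))))).comp
    (HC.mk (PMap.ofHomeo (sw U)))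

theorem hadd'_mk (f g : PMap ((U × Io) × Io) V) :
    hadd' (HC.mk f) (HC.mk g) = HC.mk (padd' f g) := rfl

theorem hsw_hsw : (HC.mk (PMap.ofHomeo (sw U))).comp (HC.mk (PMap.ofHomeo (sw U))) =
    HC.mk (PMap.id _) := by
  rw [HC.comp_mk, sw_sw]

theorem comp_sw_sw (a : HC ((U × Io) × Io) V) :
    (a.comp (HC.mk (PMap.ofHomeo (sw U)))).comp (HC.mk (PMap.ofHomeo (sw U))) = a := by
  rw [HC.comp_assoc, hsw_hsw, HC.comp_id]

theorem hzero_comp (k : HC X U) : (hzero U V).comp k = hzero X V := by
  obtain ⟨k, rfl⟩ := HC.mk_surj k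
  exact congrArg HC.mk (PMap.ext fun _ => rfl)

theorem comp_hzero (k : HC V W) : k.comp (hzero U V) = hzero U W := by
  obtain ⟨k, rfl⟩ := HC.mk_surj k
  exact congrArg HC.mk (PMap.ext fun _ => by simp)

theorem hadd_interchange (a b c d : HC ((U × Io) × Io) V) :
    hadd (hadd' a b) (hadd' c d) = hadd' (hadd a c) (hadd b d) := by
  obtain ⟨a, rfl⟩ := HC.mk_surj a
  obtain ⟨b, rfl⟩ := HC.mk_surj b
  obtain ⟨c, rfl⟩ := HC.mk_surj c
  obtain ⟨d, rfl⟩ := HC.mk_surj d
  simp only [hadd_mk, hadd'_mk, padd_interchange]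

theorem hadd_isUnital : EckmannHilton.IsUnital (hadd (U := U × Io) (V := V)) (hzero _ _) where
  left_id := hzero_hadd
  right_id := hadd_hzero

theorem hadd'_isUnital : EckmannHilton.IsUnital (hadd' (U := U) (V := V)) (hzero _ _) where
  left_id a := by
    rw [hadd', hzero_comp, hzero_hadd, comp_sw_sw]
  right_id a := by
    rw [hadd', hzero_comp, hadd_hzero, comp_sw_sw]

/-- both coordinates give the same sum -/
theorem hadd_eq_hadd' : hadd (U := U × Io) (V := V) = hadd' :=
  EckmannHilton.mul hadd_isUnital hadd'_isUnital hadd_interchange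

theorem hadd_comm (a b : HC ((U × Io) × Io) V) : hadd a b = hadd b a := by
  have := (EckmannHilton.mul_comm hadd_isUnital hadd'_isUnital hadd_interchange).comm a b
  rwa [← hadd_eq_hadd'] at this

end ops

end Crest.Agent.R090.Grp528
end

-- ▼ part R090/St_528

/-!
# Row 90, T1-ADD (2): the stable category (owner helper528)

* `gadd e` : sum on `HC A V` along a suspension coordinate `e : A ≃ₜ B × Io`;
* `S X n = X × (Fin n → ℂ)`, `st : HC (S X n) (S Y n) → HC (S X (n+1)) (S Y (n+1))`;
* `St X Y` : germs at infinity of sequences `s n : HC (S X n) (S Y n)` with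
  `s (n+1) = st (s n)` eventually; `St.of n a`, `St.comp`, `AddCommGroup (St X Y)`.
-/

set_option autoImplicit false
set_option linter.unusedSectionVars false

open Topology Filter Set

namespace Crest.Agent.R090.Sp962

open OnePoint

/-- `ℝ ≃ₜ Io` -/
noncomputable def ioHomeo : ℝ ≃ₜ Io :=
  (orderIsoIooNegOneOne ℝ).toHomeomorph.trans
    { toFun := fun x => ⟨(x.1 + 1) / 2, by constructor <;> [linarith [x.2.1]; linarith [x.2.2]]⟩
      invFun := fun x => ⟨2 * x.1 - 1, by constructor <;> [linarith [x.2.1]; linarith [x.2.2]]⟩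
      left_inv := fun x => by apply Subtype.ext; simp only []; ring
      right_inv := fun x => by apply Subtype.ext; simp only []; ring
      continuous_toFun := by fun_prop
      continuous_invFun := by fun_prop }

end Crest.Agent.R090.Sp962

namespace Crest.Agent.R090.St528

open OnePoint Crest.Agent.R090.Sp962 Crest.Agent.R090.Grp528
open scoped unitInterval

universe u v w x a' b' b''

variable {U : Type u} {V : Type v} {W : Type w} {X : Type x}
variable [TopologicalSpace U] [TopologicalSpace V] [TopologicalSpace W] [TopologicalSpace X]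

/-- the class of a homeomorphism -/
def hh (e : U ≃ₜ V) : HC U V := HC.mk (PMap.ofHomeo e)

/-- identity class -/
def h1 (U : Type u) [TopologicalSpace U] : HC U U := HC.mk (PMap.id U)

@[simp] theorem hh_refl : hh (Homeomorph.refl U) = h1 U := by simp [hh, h1]

theorem hh_trans (e : U ≃ₜ V) (e' : V ≃ₜ W) : hh (e.trans e') = (hh e').comp (hh e) := by
  rw [hh, hh, hh, HC.comp_mk, PMap.ofHomeo_comp]

@[simp] theorem hh_symm_comp (e : U ≃ₜ V) : (hh e.symm).comp (hh e) = h1 U := by
  rw [hh, hh, HC.comp_mk, PMap.ofHomeo_symm_comp]; rfl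

@[simp] theorem hh_comp_symm (e : U ≃ₜ V) : (hh e).comp (hh e.symm) = h1 V := by
  rw [hh, hh, HC.comp_mk, PMap.ofHomeo_comp_symm]; rfl

@[simp] theorem comp_h1 (a : HC U V) : a.comp (h1 U) = a := HC.comp_id a

@[simp] theorem h1_comp (a : HC U V) : (h1 V).comp a = a := HC.id_comp a

@[simp] theorem hh_symm_comp_assoc (e : U ≃ₜ V) (a : HC W U) :
    (hh e.symm).comp ((hh e).comp a) = a := by
  rw [← HC.comp_assoc, hh_symm_comp, h1_comp]

@[simp] theorem hh_comp_symm_assoc (e : U ≃ₜ V) (a : HC W V) :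
    (hh e).comp ((hh e.symm).comp a) = a := by
  rw [← HC.comp_assoc, hh_comp_symm, h1_comp]

theorem hh_ext {e e' : U ≃ₜ V} (h : ∀ x, e x = e' x) : hh e = hh e' := by
  rw [Homeomorph.ext h]

section smash

variable {U' : Type*} {V' : Type*}
  [TopologicalSpace U'] [TopologicalSpace V']
  [T2Space U] [LocallyCompactSpace U] [T2Space V]
  [T2Space U'] [LocallyCompactSpace U'] [T2Space V']

theorem hh_smash (e : U ≃ₜ V) (e' : U' ≃ₜ V') :
    (hh e).smash (hh e') = hh (e.prodCongr e') := by
  rw [hh, hh, hh, HC.smash_mk, PMap.smash_ofHomeo]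

@[simp] theorem h1_smash_h1 : (h1 U).smash (h1 U') = h1 (U × U') := by simp [h1]

theorem hh_smash_h1 (e : U ≃ₜ V) :
    (hh e).smash (h1 U') = hh (e.prodCongr (Homeomorph.refl U')) := by
  rw [← hh_refl, hh_smash]

@[simp] theorem hzero_smash (b : HC U' V') : (hzero U V).smash b = hzero _ _ := by
  obtain ⟨b, rfl⟩ := HC.mk_surj b
  simp [hzero]

@[simp] theorem smash_hzero (a : HC U V) : a.smash (hzero U' V') = hzero _ _ := by
  obtain ⟨a, rfl⟩ := HC.mk_surj a
  simp [hzero]

end smash

/-! ## sum along a coordinate -/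

section gadd

variable {A : Type a'} [TopologicalSpace A] [T2Space A] [LocallyCompactSpace A]
variable {B : Type b'} [TopologicalSpace B] [T2Space B] [LocallyCompactSpace B]
variable {B' : Type b''} [TopologicalSpace B'] [T2Space B'] [LocallyCompactSpace B']

/-- sum along the coordinate `e` -/
noncomputable def gadd (e : A ≃ₜ B × Io) (a b : HC A W) : HC A W :=
  (hadd (a.comp (hh e.symm)) (b.comp (hh e.symm))).comp (hh e)

/-- negative along the coordinate `e` -/
noncomputable def gneg (e : A ≃ₜ B × Io) (a : HC A W) : HC A W :=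
  (hneg (a.comp (hh e.symm))).comp (hh e)

theorem gadd_assoc (e : A ≃ₜ B × Io) (a b c : HC A W) :
    gadd e (gadd e a b) c = gadd e a (gadd e b c) := by
  simp only [gadd, HC.comp_assoc, hh_comp_symm, comp_h1, hadd_assoc]

theorem zero_gadd (e : A ≃ₜ B × Io) (a : HC A W) : gadd e (hzero _ _) a = a := by
  simp only [gadd, hzero_comp, hzero_hadd, HC.comp_assoc, hh_symm_comp, comp_h1]

theorem gadd_zero (e : A ≃ₜ B × Io) (a : HC A W) : gadd e a (hzero _ _) = a := by
  simp only [gadd, hzero_comp, hadd_hzero, HC.comp_assoc, hh_symm_comp, comp_h1]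

theorem gneg_gadd (e : A ≃ₜ B × Io) (a : HC A W) : gadd e (gneg e a) a = hzero _ _ := by
  simp only [gadd, gneg, HC.comp_assoc, hh_comp_symm, comp_h1, hneg_hadd, hzero_comp]

theorem comp_gadd (e : A ≃ₜ B × Io) (k : HC W V) (a b : HC A W) :
    k.comp (gadd e a b) = gadd e (k.comp a) (k.comp b) := by
  simp only [gadd, ← HC.comp_assoc, comp_hadd]


/-- naturality in the source -/
theorem gadd_comp {A' : Type*} [TopologicalSpace A'] [T2Space A'] [LocallyCompactSpace A']
    (e : A ≃ₜ B × Io) (e' : A' ≃ₜ B' × Io) (k : HC B' B) (a b : HC A W) :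
    (gadd e a b).comp ((hh e.symm).comp ((k.smash (h1 Io)).comp (hh e'))) =
      gadd e' (a.comp ((hh e.symm).comp ((k.smash (h1 Io)).comp (hh e'))))
        (b.comp ((hh e.symm).comp ((k.smash (h1 Io)).comp (hh e')))) := by
  simp only [gadd, HC.comp_assoc, hh_comp_symm_assoc, hh_comp_symm, comp_h1]
  rw [← HC.comp_assoc, h1, hadd_comp, HC.comp_assoc, HC.comp_assoc]


/-- change of the base part -/
theorem gadd_base (e : A ≃ₜ B × Io) (h : B ≃ₜ B') (a b : HC A W) :
    gadd (e.trans (h.prodCongr (Homeomorph.refl Io))) a b = gadd e a b := by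
  have key := gadd_comp e (e.trans (h.prodCongr (Homeomorph.refl Io))) (hh h.symm) a b
  have h2 : (hh e.symm).comp (((hh h.symm).smash (h1 Io)).comp
      (hh (e.trans (h.prodCongr (Homeomorph.refl Io))))) = h1 A := by
    rw [hh_smash_h1, ← hh_trans, ← hh_trans, ← hh_refl]
    refine hh_ext fun x => ?_
    change e.symm (h.symm (h (e x).1), (e x).2) = x
    rw [h.symm_apply_apply]
    exact e.symm_apply_apply x
  rw [h2, comp_h1, comp_h1, comp_h1] at key
  exact key.symm

/-- both of two suspension coordinates give the same sum -/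
theorem gadd_eh (e : A ≃ₜ (B × Io) × Io) (a b : HC A W) :
    gadd (e.trans (sw B)) a b = gadd e a b := by
  have h0 : gadd e a b = (hadd' (a.comp (hh e.symm)) (b.comp (hh e.symm))).comp (hh e) := by
    rw [gadd, hadd_eq_hadd' (U := B) (V := W)]
  have h3 : hh (e.trans (sw B)).symm = (hh e.symm).comp (hh (sw B)) := by
    rw [← hh_trans]; rfl
  rw [h0, gadd, hadd', h3, hh_trans, ← HC.comp_assoc, ← HC.comp_assoc, ← HC.comp_assoc]
  rfl

theorem gadd_comm (e : A ≃ₜ (B × Io) × Io) (a b : HC A W) :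
    gadd e a b = gadd e b a := by
  rw [gadd, hadd_comm, gadd]

/-- associativity homeomorphism used for smash products -/
def e3 (e : A ≃ₜ B × Io) (C : Type*) [TopologicalSpace C] : A × C ≃ₜ (B × C) × Io :=
  (e.prodCongr (Homeomorph.refl C)).trans
    { toFun := fun p => ((p.1.1, p.2), p.1.2)
      invFun := fun p => ((p.1.1, p.2), p.1.2)
      left_inv := fun _ => rfl
      right_inv := fun _ => rfl
      continuous_toFun := by fun_prop
      continuous_invFun := by fun_prop }

/-- smash product of a sum with an identity, unstable formula -/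
theorem padd_smash (f g : PMap (B × Io) W) (C : Type*) [TopologicalSpace C] [T2Space C]
    [LocallyCompactSpace C] [T2Space W] :
    (padd f g).smash (PMap.id C) =
      (padd ((f.smash (PMap.id C)).comp (PMap.ofHomeo (e3 (Homeomorph.refl (B × Io)) C).symm))
        ((g.smash (PMap.id C)).comp (PMap.ofHomeo (e3 (Homeomorph.refl (B × Io)) C).symm))).comp
        (PMap.ofHomeo (e3 (Homeomorph.refl (B × Io)) C)) := by
  refine PMap.ext fun p => ?_
  obtain ⟨⟨b, t⟩, c⟩ := p
  have e1 : (PMap.ofHomeo (e3 (Homeomorph.refl (B × Io)) C)) (((b, t), c) : (B × Io) × C) =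
      sm (((b, c) : B × C) : OnePoint (B × C)) (qI (t : ℝ)) := by
    rw [qI_coe]; rfl
  have e2 : ∀ s : OnePoint Io, (PMap.ofHomeo (e3 (Homeomorph.refl (B × Io)) C).symm)
      (sm (((b, c) : B × C) : OnePoint (B × C)) s) =
        sm (sm (b : OnePoint B) s) (c : OnePoint C) := by
    intro s
    induction s using OnePoint.rec with
    | infty => simp
    | coe s => rfl
  rw [PMap.comp_apply, e1, padd_sm, PMap.smash_coe]
  have e4 : (((b, t) : B × Io) : OnePoint (B × Io)) = sm (b : OnePoint B) (qI (t : ℝ)) := by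
    rw [qI_coe]; rfl
  rw [e4, padd_sm]
  split_ifs
  · rw [PMap.comp_apply, e2, PMap.smash_sm]
  · rw [PMap.comp_apply, e2, PMap.smash_sm]

theorem hadd_smash (a b : HC (B × Io) W) (C : Type*) [TopologicalSpace C] [T2Space C]
    [LocallyCompactSpace C] [T2Space W] :
    (hadd a b).smash (h1 C) =
      gadd (e3 (Homeomorph.refl (B × Io)) C) (a.smash (h1 C)) (b.smash (h1 C)) := by
  obtain ⟨f, rfl⟩ := HC.mk_surj a
  obtain ⟨g, rfl⟩ := HC.mk_surj b
  exact congrArg HC.mk (padd_smash f g C)

/-- transport along a homeomorphism of the source -/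
theorem gadd_hh {A' : Type*} [TopologicalSpace A'] [T2Space A'] [LocallyCompactSpace A']
    (e : A ≃ₜ B × Io) (f : A' ≃ₜ A) (a b : HC A W) :
    (gadd e a b).comp (hh f) = gadd (f.trans e) (a.comp (hh f)) (b.comp (hh f)) := by
  have h3 : hh (f.trans e).symm = (hh f.symm).comp (hh e.symm) := by
    rw [← hh_trans]; rfl
  rw [gadd, gadd, h3, hh_trans]
  simp only [HC.comp_assoc, hh_comp_symm_assoc]

theorem gadd_smash (e : A ≃ₜ B × Io) (a b : HC A W) (C : Type*) [TopologicalSpace C] [T2Space C]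
    [LocallyCompactSpace C] [T2Space W] :
    (gadd e a b).smash (h1 C) = gadd (e3 e C) (a.smash (h1 C)) (b.smash (h1 C)) := by
  have h2 : ∀ c : HC (B × Io) W, (c.comp (hh e)).smash (h1 C) =
      (c.smash (h1 C)).comp (hh (e.prodCongr (Homeomorph.refl C))) := by
    intro c
    rw [← hh_smash_h1, HC.smash_comp, comp_h1]
  have h4 : ∀ c : HC A W, c = (c.comp (hh e.symm)).comp (hh e) := by
    intro c
    rw [HC.comp_assoc, hh_symm_comp, comp_h1]
  rw [gadd, h2, hadd_smash, gadd_hh, ← h2, ← h2, ← h4, ← h4]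
  rfl

/-- change of the base part, pointwise form -/
theorem gadd_base' (e : A ≃ₜ B × Io) (h : B ≃ₜ B') (e' : A ≃ₜ B' × Io)
    (he : ∀ x, e' x = (h (e x).1, (e x).2)) (a b : HC A W) :
    gadd e' a b = gadd e a b := by
  have : e' = e.trans (h.prodCongr (Homeomorph.refl Io)) := Homeomorph.ext he
  rw [this, gadd_base]

end gadd

/-! ## levels -/

/-- `n`-fold complex suspension -/
abbrev S (X : Type u) (n : ℕ) : Type u := X × (Fin n → ℂ)

/-- `ℂ^(n+1) = ℂ^n × ℂ` -/
def eS (X : Type u) [TopologicalSpace X] (n : ℕ) : S X (n + 1) ≃ₜ S X n × ℂ where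
  toFun p := ((p.1, fun i => p.2 i.castSucc), p.2 (Fin.last n))
  invFun q := (q.1.1, Fin.snoc (α := fun _ => ℂ) q.1.2 q.2)
  left_inv p := by
    obtain ⟨x, v⟩ := p
    simp only [Prod.mk.injEq, true_and]
    exact Fin.snoc_init_self v
  right_inv q := by
    obtain ⟨⟨x, v⟩, c⟩ := q
    simp
  continuous_toFun := by fun_prop
  continuous_invFun := by
    refine continuous_fst.fst.prodMk ?_
    exact Continuous.finSnoc (A := fun _ => ℂ) (continuous_fst.snd) continuous_snd

/-- `ℂ ≃ₜ Io × Io` -/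
noncomputable def cIo : ℂ ≃ₜ Io × Io :=
  Complex.equivRealProdCLM.toHomeomorph.trans (ioHomeo.prodCongr ioHomeo)

/-- `U × ℂ ≃ₜ (U × Io) × Io` -/
noncomputable def cH (U : Type u) [TopologicalSpace U] : U × ℂ ≃ₜ (U × Io) × Io where
  toFun p := ((p.1, (cIo p.2).1), (cIo p.2).2)
  invFun q := (q.1.1, cIo.symm (q.1.2, q.2))
  left_inv p := by simp
  right_inv q := by simp
  continuous_toFun := by fun_prop
  continuous_invFun := by fun_prop

/-- the last suspension coordinates of level `n+1` -/
noncomputable def lev (X : Type u) [TopologicalSpace X] (n : ℕ) :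
    S X (n + 1) ≃ₜ (S X n × Io) × Io := (eS X n).trans (cH (S X n))

section levels

variable {Y : Type v} [TopologicalSpace Y] {Z : Type w} [TopologicalSpace Z]
variable {X : Type u} [TopologicalSpace X]
variable [T2Space X] [LocallyCompactSpace X] [T2Space Y] [LocallyCompactSpace Y]
  [T2Space Z] [LocallyCompactSpace Z]

/-- stabilisation -/
noncomputable def st {n : ℕ} (a : HC (S X n) (S Y n)) : HC (S X (n + 1)) (S Y (n + 1)) :=
  (hh (eS Y n).symm).comp ((a.smash (h1 ℂ)).comp (hh (eS X n)))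

theorem st_comp {n : ℕ} (b : HC (S Y n) (S Z n)) (a : HC (S X n) (S Y n)) :
    st (b.comp a) = (st b).comp (st a) := by
  simp only [st, HC.comp_assoc, hh_comp_symm_assoc]
  rw [← HC.comp_assoc (b.smash (h1 ℂ)), HC.smash_comp, comp_h1]

theorem st_h1 {n : ℕ} : st (h1 (S X n)) = h1 (S X (n + 1)) := by
  rw [st, h1_smash_h1, h1_comp, hh_symm_comp]

theorem st_hzero {n : ℕ} : st (hzero (S X n) (S Y n)) = hzero _ _ := by
  rw [st, hzero_smash, hzero_comp, comp_hzero]


/-- sum at level `n+1` -/
noncomputable def sadd {n : ℕ} (a b : HC (S X (n + 1)) W) : HC (S X (n + 1)) W :=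
  gadd (lev X n) a b

/-- negative at level `n+1` -/
noncomputable def sneg {n : ℕ} (a : HC (S X (n + 1)) W) : HC (S X (n + 1)) W :=
  gneg (lev X n) a

theorem cH_natural (k : HC X Y) :
    k.smash (h1 ℂ) = (hh (cH Y).symm).comp (((k.smash (h1 Io)).smash (h1 Io)).comp (hh (cH X))) := by
  obtain ⟨f, rfl⟩ := HC.mk_surj k
  refine congrArg HC.mk (PMap.ext fun p => ?_)
  obtain ⟨x, c⟩ := p
  change sm (f x) (c : OnePoint ℂ) = (PMap.ofHomeo (cH Y).symm) (sm (sm (f x) ((cIo c).1 : OnePoint Io))
    ((cIo c).2 : OnePoint Io))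
  generalize f x = y
  induction y using OnePoint.rec with
  | infty => simp
  | coe y =>
    change _ = (((cH Y).symm ((y, (cIo c).1), (cIo c).2) : Y × ℂ) : OnePoint (Y × ℂ))
    simp [cH]

theorem st_eq_lev {n : ℕ} (a : HC (S X n) (S Y n)) :
    st a = (hh (lev Y n).symm).comp (((a.smash (h1 Io)).smash (h1 Io)).comp (hh (lev X n))) := by
  rw [st, cH_natural, lev, lev, hh_trans]
  have h3 : hh ((eS Y n).trans (cH (S Y n))).symm = (hh (eS Y n).symm).comp (hh (cH (S Y n)).symm) := by
    rw [← hh_trans]; rfl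
  rw [h3]
  simp only [HC.comp_assoc]

theorem sadd_st {n : ℕ} (a b : HC (S Y (n + 1)) W) (k : HC (S X n) (S Y n)) :
    (sadd a b).comp (st k) = sadd (a.comp (st k)) (b.comp (st k)) := by
  rw [st_eq_lev, sadd, sadd, gadd_comp]


theorem sadd_eq {n : ℕ} (a b : HC (S X (n + 2)) W) :
    gadd ((eS X (n + 1)).trans (e3 (lev X n) ℂ)) a b = gadd (lev X (n + 1)) a b := by
  have h1 := gadd_base' ((eS X (n + 1)).trans (e3 (lev X n) ℂ)) (cH (S X n × Io))
    (((eS X (n + 1)).trans (e3 (lev X n) ℂ)).trans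
      ((cH (S X n × Io)).prodCongr (Homeomorph.refl Io))) (fun _ => rfl) a b
  rw [← h1, ← gadd_eh]
  have h2 := gadd_base' (lev X (n + 1))
    (((lev X n).prodCongr (Homeomorph.refl Io)).trans
      { toFun := fun p => ((p.1.1, p.2), p.1.2)
        invFun := fun p => ((p.1.1, p.2), p.1.2)
        left_inv := fun _ => rfl
        right_inv := fun _ => rfl
        continuous_toFun := by fun_prop
        continuous_invFun := by fun_prop } : S X (n + 1) × Io ≃ₜ ((S X n × Io) × Io) × Io)
    ((((eS X (n + 1)).trans (e3 (lev X n) ℂ)).trans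
      ((cH (S X n × Io)).prodCongr (Homeomorph.refl Io))).trans (sw _)) (fun _ => rfl) a b
  rw [h2]

/-- stabilisation is additive -/
theorem st_sadd {n : ℕ} (a b : HC (S X (n + 1)) (S Y (n + 1))) :
    st (sadd a b) = sadd (st a) (st b) := by
  rw [st, sadd, gadd_smash, gadd_hh, comp_gadd, sadd_eq]
  rfl

theorem sadd_comm {n : ℕ} (a b : HC (S X (n + 1)) W) : sadd a b = sadd b a := gadd_comm _ _ _

end levels

/-! ## stable maps -/

section stable

/-- eventually compatible sequences -/
structure Pre (X : Type u) (Y : Type v) [TopologicalSpace X] [TopologicalSpace Y]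
    [T2Space X] [LocallyCompactSpace X] [T2Space Y] [LocallyCompactSpace Y] where
  /-- the sequence -/
  seq : ∀ n : ℕ, HC (S X n) (S Y n)
  ev : ∃ N, ∀ n, N ≤ n → seq (n + 1) = st (seq n)

variable {X : Type u} {Y : Type v} {Z : Type w} {Z' : Type x}
variable [TopologicalSpace X] [TopologicalSpace Y] [TopologicalSpace Z] [TopologicalSpace Z']
variable [T2Space X] [LocallyCompactSpace X] [T2Space Y] [LocallyCompactSpace Y]
  [T2Space Z] [LocallyCompactSpace Z] [T2Space Z'] [LocallyCompactSpace Z']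

/-- eventual equality -/
instance Pre.setoid (X : Type u) (Y : Type v) [TopologicalSpace X] [TopologicalSpace Y]
    [T2Space X] [LocallyCompactSpace X] [T2Space Y] [LocallyCompactSpace Y] :
    Setoid (Pre X Y) where
  r s t := ∃ N, ∀ n, N ≤ n → s.seq n = t.seq n
  iseqv :=
    { refl := fun _ => ⟨0, fun _ _ => rfl⟩
      symm := fun ⟨N, h⟩ => ⟨N, fun n hn => (h n hn).symm⟩
      trans := fun ⟨N, h⟩ ⟨M, k⟩ => ⟨max N M, fun n hn =>
        (h n (le_of_max_le_left hn)).trans (k n (le_of_max_le_right hn))⟩ }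

/-- **stable maps** `{X⁺, Y⁺}` -/
def St (X : Type u) (Y : Type v) [TopologicalSpace X] [TopologicalSpace Y]
    [T2Space X] [LocallyCompactSpace X] [T2Space Y] [LocallyCompactSpace Y] : Type (max u v) :=
  Quotient (Pre.setoid X Y)

/-- iterated stabilisation -/
noncomputable def stN {n : ℕ} (a : HC (S X n) (S Y n)) :
    ∀ k : ℕ, HC (S X (n + k)) (S Y (n + k))
  | 0 => a
  | k + 1 => st (stN a k)

@[simp] theorem stN_zero {n : ℕ} (a : HC (S X n) (S Y n)) : stN a 0 = a := rfl

theorem stN_succ {n : ℕ} (a : HC (S X n) (S Y n)) (k : ℕ) : stN a (k + 1) = st (stN a k) := rfl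

open Classical in
/-- the sequence generated by a map at level `k` -/
noncomputable def gen (k : ℕ) (a : HC (S X k) (S Y k)) : ∀ n : ℕ, HC (S X n) (S Y n)
  | 0 => if h : k = 0 then h ▸ a else hzero _ _
  | n + 1 => if h : k = n + 1 then h ▸ a else st (gen k a n)

theorem gen_self (k : ℕ) (a : HC (S X k) (S Y k)) : gen k a k = a := by
  cases k with
  | zero => simp [gen]
  | succ k => simp [gen]

theorem gen_succ (k : ℕ) (a : HC (S X k) (S Y k)) (n : ℕ) (h : k ≤ n) :
    gen k a (n + 1) = st (gen k a n) := by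
  rw [gen, dif_neg (by omega)]

theorem gen_add (k : ℕ) (a : HC (S X k) (S Y k)) (j : ℕ) : gen k a (k + j) = stN a j := by
  induction j with
  | zero => exact gen_self k a
  | succ j ih =>
    change gen k a (k + j + 1) = _
    rw [gen_succ _ _ _ (by omega), ih, stN_succ]

/-- the class of a map at level `k` -/
noncomputable def St.of (k : ℕ) (a : HC (S X k) (S Y k)) : St X Y :=
  Quotient.mk _ ⟨gen k a, k, fun n hn => gen_succ k a n hn⟩

/-- the class of a pointed map at level `k` -/
noncomputable def St.mk (k : ℕ) (f : PMap (S X k) (S Y k)) : St X Y := St.of k (HC.mk f)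

theorem Pre.seq_add (s : Pre X Y) {N : ℕ} (h : ∀ n, N ≤ n → s.seq (n + 1) = st (s.seq n))
    {n : ℕ} (hn : N ≤ n) (k : ℕ) : s.seq (n + k) = stN (s.seq n) k := by
  induction k with
  | zero => rfl
  | succ k ih =>
    change s.seq (n + k + 1) = _
    rw [h _ (by omega), ih, stN_succ]

theorem Pre.mk_eq_of (s : Pre X Y) {N : ℕ} (h : ∀ n, N ≤ n → s.seq (n + 1) = st (s.seq n))
    {n : ℕ} (hn : N ≤ n) : (Quotient.mk _ s : St X Y) = St.of n (s.seq n) := by
  refine Quotient.sound ⟨n, fun m hm => ?_⟩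
  obtain ⟨k, rfl⟩ := Nat.exists_eq_add_of_le hm
  change s.seq (n + k) = gen n (s.seq n) (n + k)
  rw [gen_add, s.seq_add h hn]

/-- every stable map is represented at all high levels -/
theorem St.exists_of (s : St X Y) : ∃ N, ∀ n, N ≤ n → ∃ a, s = St.of n a := by
  obtain ⟨s, rfl⟩ := Quotient.exists_rep s
  obtain ⟨N, h⟩ := s.ev
  exact ⟨N, fun n hn => ⟨s.seq n, s.mk_eq_of h hn⟩⟩

theorem St.exists_of_ge (s : St X Y) (M : ℕ) : ∃ n, M ≤ n ∧ ∃ a, s = St.of n a := by
  obtain ⟨N, h⟩ := s.exists_of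
  exact ⟨max N M, le_max_right _ _, h _ (le_max_left _ _)⟩

theorem St.exists_of₂ (s : St X Y) (t : St Z Z') (M : ℕ) :
    ∃ n, M ≤ n ∧ (∃ a, s = St.of n a) ∧ ∃ b, t = St.of n b := by
  obtain ⟨N, h⟩ := s.exists_of
  obtain ⟨N', h'⟩ := t.exists_of
  exact ⟨max M (max N N'), le_max_left _ _, h _ (by omega), h' _ (by omega)⟩


theorem St.of_eq_iff {n : ℕ} {a b : HC (S X n) (S Y n)} :
    St.of n a = St.of n b ↔ ∃ k, stN a k = stN b k := by
  constructor
  · intro h
    obtain ⟨N, h⟩ := Quotient.exact h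
    refine ⟨N, ?_⟩
    have := h (n + N) (by omega)
    change gen n a (n + N) = gen n b (n + N) at this
    rwa [gen_add, gen_add] at this
  · rintro ⟨k, hk⟩
    refine Quotient.sound ⟨n + k, fun m hm => ?_⟩
    obtain ⟨j, rfl⟩ := Nat.exists_eq_add_of_le hm
    change gen n a (n + k + j) = gen n b (n + k + j)
    induction j with
    | zero =>
      change gen n a (n + k) = gen n b (n + k)
      rw [gen_add, gen_add, hk]
    | succ j ih =>
      change gen n a (n + k + j + 1) = gen n b (n + k + j + 1)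
      rw [gen_succ _ _ _ (by omega), gen_succ _ _ _ (by omega), ih (by omega)]

@[simp] theorem St.of_st {n : ℕ} (a : HC (S X n) (S Y n)) : St.of (n + 1) (st a) = St.of n a := by
  refine Quotient.sound ⟨n + 1, fun m hm => ?_⟩
  change gen (n + 1) (st a) m = gen n a m
  obtain ⟨j, rfl⟩ := Nat.exists_eq_add_of_le hm
  rw [gen_add]
  have : gen n a (n + 1 + j) = stN (st a) j := by
    induction j with
    | zero =>
      change gen n a (n + 1) = _
      rw [gen_succ _ _ _ le_rfl, gen_self]; rfl
    | succ j ih =>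
      change gen n a (n + 1 + j + 1) = _
      rw [gen_succ _ _ _ (by omega), ih (by omega)]; rfl
  rw [this]

@[simp] theorem St.of_stN {n : ℕ} (a : HC (S X n) (S Y n)) (k : ℕ) :
    St.of (n + k) (stN a k) = St.of n a := by
  induction k with
  | zero => rfl
  | succ k ih => exact (St.of_st _).trans ih

/-! ### composition -/

/-- composition of stable maps -/
noncomputable def St.comp (t : St Y Z) (s : St X Y) : St X Z :=
  Quotient.map₂ (fun (t : Pre Y Z) (s : Pre X Y) =>
    (⟨fun n => (t.seq n).comp (s.seq n), by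
      obtain ⟨N, h⟩ := t.ev
      obtain ⟨M, k⟩ := s.ev
      refine ⟨max N M, fun n hn => ?_⟩
      rw [h n (le_of_max_le_left hn), k n (le_of_max_le_right hn), st_comp]⟩ : Pre X Z))
    (by
      rintro t t' ⟨N, h⟩ s s' ⟨M, k⟩
      refine ⟨max N M, fun n hn => ?_⟩
      change (t.seq n).comp (s.seq n) = (t'.seq n).comp (s'.seq n)
      rw [h n (le_of_max_le_left hn), k n (le_of_max_le_right hn)]) t s

theorem stN_comp {n : ℕ} (b : HC (S Y n) (S Z n)) (a : HC (S X n) (S Y n)) (k : ℕ) :
    stN (b.comp a) k = (stN b k).comp (stN a k) := by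
  induction k with
  | zero => rfl
  | succ k ih => rw [stN_succ, ih, st_comp]; rfl

@[simp] theorem St.of_comp_of {n : ℕ} (b : HC (S Y n) (S Z n)) (a : HC (S X n) (S Y n)) :
    (St.of n b).comp (St.of n a) = St.of n (b.comp a) := by
  refine Quotient.sound ⟨n, fun m hm => ?_⟩
  obtain ⟨k, rfl⟩ := Nat.exists_eq_add_of_le hm
  change (gen n b (n + k)).comp (gen n a (n + k)) = gen n (b.comp a) (n + k)
  rw [gen_add, gen_add, gen_add, stN_comp]

/-- identity stable map -/
noncomputable def St.id (X : Type u) [TopologicalSpace X] [T2Space X] [LocallyCompactSpace X] :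
    St X X := Quotient.mk _ ⟨fun n => h1 (S X n), 0, fun n _ => st_h1.symm⟩

theorem St.comp_assoc (u : St Z Z') (t : St Y Z) (s : St X Y) :
    (u.comp t).comp s = u.comp (t.comp s) := by
  obtain ⟨u, rfl⟩ := Quotient.exists_rep u
  obtain ⟨t, rfl⟩ := Quotient.exists_rep t
  obtain ⟨s, rfl⟩ := Quotient.exists_rep s
  exact Quotient.sound ⟨0, fun n _ => HC.comp_assoc _ _ _⟩

@[simp] theorem St.comp_id (s : St X Y) : s.comp (St.id X) = s := by
  obtain ⟨s, rfl⟩ := Quotient.exists_rep s
  exact Quotient.sound ⟨0, fun n _ => comp_h1 _⟩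

@[simp] theorem St.id_comp (s : St X Y) : (St.id Y).comp s = s := by
  obtain ⟨s, rfl⟩ := Quotient.exists_rep s
  exact Quotient.sound ⟨0, fun n _ => h1_comp _⟩

theorem St.of_h1 (n : ℕ) : St.of n (h1 (S X n)) = St.id X :=
  ((Pre.mk_eq_of (⟨fun n => h1 (S X n), 0, fun n _ => st_h1.symm⟩ : Pre X X)
    (fun _ _ => st_h1.symm) (Nat.zero_le n))).symm

/-! ### additive structure -/

/-- sum at all levels (zero at level `0`) -/
noncomputable def add' (a b : ∀ n, HC (S X n) (S Y n)) : ∀ n, HC (S X n) (S Y n)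
  | 0 => hzero _ _
  | n + 1 => sadd (a (n + 1)) (b (n + 1))

/-- negative at all levels (zero at level `0`) -/
noncomputable def neg' (a : ∀ n, HC (S X n) (S Y n)) : ∀ n, HC (S X n) (S Y n)
  | 0 => hzero _ _
  | n + 1 => sneg (a (n + 1))

theorem sadd_assoc {n : ℕ} (a b c : HC (S X (n + 1)) Z) :
    sadd (sadd a b) c = sadd a (sadd b c) := gadd_assoc _ _ _ _

theorem hzero_sadd {n : ℕ} (a : HC (S X (n + 1)) Z) : sadd (hzero _ _) a = a := zero_gadd _ _

theorem sadd_hzero {n : ℕ} (a : HC (S X (n + 1)) Z) : sadd a (hzero _ _) = a := gadd_zero _ _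

theorem sneg_sadd {n : ℕ} (a : HC (S X (n + 1)) Z) : sadd (sneg a) a = hzero _ _ := gneg_gadd _ _

theorem st_sneg {n : ℕ} (a : HC (S X (n + 1)) (S Y (n + 1))) : st (sneg a) = sneg (st a) := by
  have h : sadd (st (sneg a)) (st a) = hzero _ _ := by
    rw [← st_sadd, sneg_sadd, st_hzero]
  calc st (sneg a) = sadd (st (sneg a)) (sadd (st a) (sneg (st a))) := by
        rw [sadd_comm (st a), sneg_sadd, sadd_hzero]
    _ = sneg (st a) := by rw [← sadd_assoc, h, hzero_sadd]

noncomputable instance : Add (St X Y) where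
  add s t := Quotient.map₂ (fun (s t : Pre X Y) => (⟨add' s.seq t.seq, by
      obtain ⟨N, h⟩ := s.ev
      obtain ⟨M, k⟩ := t.ev
      refine ⟨max N M + 1, fun n hn => ?_⟩
      obtain ⟨m, rfl⟩ := Nat.exists_eq_add_of_le' (show 1 ≤ n by omega)
      change sadd (s.seq (m + 2)) (t.seq (m + 2)) = st (sadd (s.seq (m + 1)) (t.seq (m + 1)))
      rw [h (m + 1) (by omega), k (m + 1) (by omega), st_sadd]⟩ : Pre X Y))
    (by
      rintro s s' ⟨N, h⟩ t t' ⟨M, k⟩
      refine ⟨max N M + 1, fun n hn => ?_⟩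
      obtain ⟨m, rfl⟩ := Nat.exists_eq_add_of_le' (show 1 ≤ n by omega)
      change sadd (s.seq (m + 1)) (t.seq (m + 1)) = sadd (s'.seq (m + 1)) (t'.seq (m + 1))
      rw [h (m + 1) (by omega), k (m + 1) (by omega)]) s t

noncomputable instance : Neg (St X Y) where
  neg s := Quotient.map (fun (s : Pre X Y) => (⟨neg' s.seq, by
      obtain ⟨N, h⟩ := s.ev
      refine ⟨N + 1, fun n hn => ?_⟩
      obtain ⟨m, rfl⟩ := Nat.exists_eq_add_of_le' (show 1 ≤ n by omega)
      change sneg (s.seq (m + 2)) = st (sneg (s.seq (m + 1)))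
      rw [h (m + 1) (by omega), st_sneg]⟩ : Pre X Y))
    (by
      rintro s s' ⟨N, h⟩
      refine ⟨N + 1, fun n hn => ?_⟩
      obtain ⟨m, rfl⟩ := Nat.exists_eq_add_of_le' (show 1 ≤ n by omega)
      change sneg (s.seq (m + 1)) = sneg (s'.seq (m + 1))
      rw [h (m + 1) (by omega)]) s

noncomputable instance : Zero (St X Y) where
  zero := Quotient.mk _ ⟨fun n => hzero _ _, 0, fun n _ => st_hzero.symm⟩

theorem St.ext_succ {s t : Pre X Y} (h : ∀ n, s.seq (n + 1) = t.seq (n + 1)) :
    (Quotient.mk _ s : St X Y) = Quotient.mk _ t := by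
  refine Quotient.sound ⟨1, fun n hn => ?_⟩
  obtain ⟨m, rfl⟩ := Nat.exists_eq_add_of_le' hn
  exact h m

theorem St.add_assoc' (a b c : St X Y) : a + b + c = a + (b + c) := by
  obtain ⟨a, rfl⟩ := Quotient.exists_rep a
  obtain ⟨b, rfl⟩ := Quotient.exists_rep b
  obtain ⟨c, rfl⟩ := Quotient.exists_rep c
  exact St.ext_succ fun n => sadd_assoc _ _ _

theorem St.zero_add' (a : St X Y) : 0 + a = a := by
  obtain ⟨a, rfl⟩ := Quotient.exists_rep a
  exact St.ext_succ fun n => hzero_sadd _

theorem St.neg_add' (a : St X Y) : -a + a = 0 := by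
  obtain ⟨a, rfl⟩ := Quotient.exists_rep a
  exact St.ext_succ fun n => sneg_sadd _

theorem St.add_comm' (a b : St X Y) : a + b = b + a := by
  obtain ⟨a, rfl⟩ := Quotient.exists_rep a
  obtain ⟨b, rfl⟩ := Quotient.exists_rep b
  exact St.ext_succ fun n => sadd_comm _ _

noncomputable instance : AddCommGroup (St X Y) where
  toAddGroup := AddGroup.ofLeftAxioms St.add_assoc' St.zero_add' St.neg_add'
  add_comm := St.add_comm'

theorem St.of_add_of {n : ℕ} (a b : HC (S X (n + 1)) (S Y (n + 1))) :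
    St.of (n + 1) a + St.of (n + 1) b = St.of (n + 1) (sadd a b) := by
  refine Quotient.sound ⟨n + 1, fun m hm => ?_⟩
  change add' (gen (n + 1) a) (gen (n + 1) b) m = gen (n + 1) (sadd a b) m
  induction m, hm using Nat.le_induction with
  | base =>
    change sadd (gen (n + 1) a (n + 1)) (gen (n + 1) b (n + 1)) = gen (n + 1) (sadd a b) (n + 1)
    rw [gen_self, gen_self, gen_self]
  | succ m hm ih =>
    obtain ⟨j, rfl⟩ := Nat.exists_eq_add_of_le' (show 1 ≤ m by omega)
    change sadd (gen (n + 1) a (j + 1 + 1)) (gen (n + 1) b (j + 1 + 1)) =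
      gen (n + 1) (sadd a b) (j + 1 + 1)
    rw [gen_succ _ _ _ hm, gen_succ _ _ _ hm, gen_succ _ _ _ hm, ← st_sadd, ← ih]
    rfl

theorem St.of_zero (n : ℕ) : St.of n (hzero (S X n) (S Y n)) = 0 :=
  ((Pre.mk_eq_of (⟨fun n => hzero _ _, 0, fun n _ => st_hzero.symm⟩ : Pre X Y)
    (fun _ _ => st_hzero.symm) (Nat.zero_le n))).symm

theorem St.neg_of {n : ℕ} (a : HC (S X (n + 1)) (S Y (n + 1))) :
    -St.of (n + 1) a = St.of (n + 1) (sneg a) := by
  have h : St.of (n + 1) (sneg a) + St.of (n + 1) a = 0 := by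
    rw [St.of_add_of, sneg_sadd, St.of_zero]
  exact (eq_neg_of_add_eq_zero_left h).symm

theorem St.comp_add (t : St Y Z) (a b : St X Y) : t.comp (a + b) = t.comp a + t.comp b := by
  obtain ⟨a, rfl⟩ := Quotient.exists_rep a
  obtain ⟨b, rfl⟩ := Quotient.exists_rep b
  obtain ⟨t, rfl⟩ := Quotient.exists_rep t
  exact St.ext_succ fun n => comp_gadd _ _ _ _

theorem St.add_comp (a b : St Y Z) (s : St X Y) : (a + b).comp s = a.comp s + b.comp s := by
  obtain ⟨a, rfl⟩ := Quotient.exists_rep a
  obtain ⟨b, rfl⟩ := Quotient.exists_rep b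
  obtain ⟨s, rfl⟩ := Quotient.exists_rep s
  obtain ⟨N, h⟩ := s.ev
  refine Quotient.sound ⟨N + 1, fun n hn => ?_⟩
  obtain ⟨m, rfl⟩ := Nat.exists_eq_add_of_le' (show 1 ≤ n by omega)
  change (sadd (a.seq (m + 1)) (b.seq (m + 1))).comp (s.seq (m + 1)) =
    sadd ((a.seq (m + 1)).comp (s.seq (m + 1))) ((b.seq (m + 1)).comp (s.seq (m + 1)))
  rw [h m (by omega), sadd_st]

end stable

end Crest.Agent.R090.St528
private theorem rz_6f2f69c868 : type_of% @_root_.Crest.Agent.R090.St528.gen.eq_def := @_root_.Crest.Agent.R090.St528.gen.eq_def -- L434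
private theorem rz_b9a27176f1 : type_of% @_root_.Crest.Agent.R090.St528.gen.eq_1 := @_root_.Crest.Agent.R090.St528.gen.eq_1 -- L434
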