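import Crest.Agent.R090.StCat_865
import Crest.Agent.R090.F1d_541
import Crest.Agent.R090.CovSt_128
import Crest.Agent.R090.MCSm_962
import Crest.Agent.R090.St3_528
import Crest.Agent.R090.Lin_202
import Crest.Agent.R090.Sm_202
import Mathlib
import Crest.Agent.R090.FMTgt_305
import Crest.Agent.R090.Ho_962
import Crest.Agent.R090.St_528

-- ▼ part R090/StCat2_865
section

/-!
# Row 90: the stable category: sums and the swap of two circles (helper865)
-/

set_option autoImplicit false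
set_option linter.unusedSectionVars false

open Topology Filter Set CategoryTheory MonoidalCategory

noncomputable section

namespace Crest.Agent.R090.StCat865

open OnePoint Crest.Agent.R090.Sp962 Crest.Agent.R090.Grp528 Crest.Agent.R090.St528
  Crest.Agent.R090.Sm202

/-! ## sums -/

instance {A B : Type} [TopologicalSpace A] [TopologicalSpace B] [LocallyCompactSpace A]
    [LocallyCompactSpace B] : LocallyCompactSpace (A ⊕ B) := by
  constructor
  rintro (x | x) n hn
  · have h1 : Sum.inl ⁻¹' n ∈ 𝓝 x := IsOpenEmbedding.inl.continuous.continuousAt hn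
    obtain ⟨s, hs, hsn, hc⟩ := local_compact_nhds h1
    refine ⟨Sum.inl '' s, ?_, by rintro _ ⟨y, hy, rfl⟩; exact hsn hy,
      hc.image IsOpenEmbedding.inl.continuous⟩
    exact IsOpenEmbedding.inl.image_mem_nhds.2 hs
  · have h1 : Sum.inr ⁻¹' n ∈ 𝓝 x := IsOpenEmbedding.inr.continuous.continuousAt hn
    obtain ⟨s, hs, hsn, hc⟩ := local_compact_nhds h1
    refine ⟨Sum.inr '' s, ?_, by rintro _ ⟨y, hy, rfl⟩; exact hsn hy,
      hc.image IsOpenEmbedding.inr.continuous⟩
    exact IsOpenEmbedding.inr.image_mem_nhds.2 hs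

section sum

variable (A B : Type) [TopologicalSpace A] [TopologicalSpace B] [T2Space A] [T2Space B]

/-- inclusion of the first summand -/
def inlP : PMap A (A ⊕ B) := PMap.ofClosed Sum.inl IsClosedEmbedding.inl
/-- inclusion of the second summand -/
def inrP : PMap B (A ⊕ B) := PMap.ofClosed Sum.inr IsClosedEmbedding.inr
/-- projection to the first summand -/
def prlP : PMap (A ⊕ B) A := PMap.ofOpen Sum.inl IsOpenEmbedding.inl
/-- projection to the second summand -/
def prrP : PMap (A ⊕ B) B := PMap.ofOpen Sum.inr IsOpenEmbedding.inr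

theorem prlP_inlP : (prlP A B).comp (inlP A B) = PMap.id A :=
  PMap.ext fun x => PMap.ofOpen_coe _ IsOpenEmbedding.inl x

theorem prrP_inrP : (prrP A B).comp (inrP A B) = PMap.id B :=
  PMap.ext fun x => PMap.ofOpen_coe _ IsOpenEmbedding.inr x

theorem prrP_inlP : (prrP A B).comp (inlP A B) = PMap.zero A B :=
  PMap.ext fun x => PMap.ofOpen_of_notMem _ IsOpenEmbedding.inr (by
    rintro ⟨y, hy⟩
    cases hy)

theorem prlP_inrP : (prlP A B).comp (inrP A B) = PMap.zero B A :=
  PMap.ext fun x => PMap.ofOpen_of_notMem _ IsOpenEmbedding.inl (by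
    rintro ⟨y, hy⟩
    cases hy)

end sum

theorem sum (A B : LC) : ∃ (D : LC) (i₁ : A ⟶ D) (i₂ : B ⟶ D) (p₁ : D ⟶ A) (p₂ : D ⟶ B),
    i₁ ≫ p₁ = 𝟙 A ∧ i₂ ≫ p₂ = 𝟙 B ∧ i₁ ≫ p₂ = 0 ∧ i₂ ≫ p₁ = 0 := by
  refine ⟨LC.of (A ⊕ B), St.ofP (inlP A B), St.ofP (inrP A B), St.ofP (prlP A B),
    St.ofP (prrP A B), ?_, ?_, ?_, ?_⟩
  · change (St.ofP (prlP A B)).comp (St.ofP (inlP A B)) = St.id A
    rw [← St.ofP_comp, prlP_inlP, St.ofP_id]
  · change (St.ofP (prrP A B)).comp (St.ofP (inrP A B)) = St.id B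
    rw [← St.ofP_comp, prrP_inrP, St.ofP_id]
  · change (St.ofP (prrP A B)).comp (St.ofP (inlP A B)) = 0
    rw [← St.ofP_comp, prrP_inlP, St.ofP_zero]
  · change (St.ofP (prlP A B)).comp (St.ofP (inrP A B)) = 0
    rw [← St.ofP_comp, prlP_inrP, St.ofP_zero]

/-! ## the swap of two circles -/

theorem sh_swap_io : sh (Homeomorph.prodComm Io Io) = -St.id (Io × Io) := by
  have h1 : sh (Homeomorph.prodComm ℝ ℝ) = sh ((Homeomorph.refl ℝ).prodCongr F1d541.neg) :=
    St.ofP_congr F1d541.swap_real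
  have h2 : sh (Homeomorph.prodComm Io Io) =
      (sh (F1d541.RI.prodCongr F1d541.RI)).comp ((sh (Homeomorph.prodComm ℝ ℝ)).comp
        (sh (F1d541.RI.prodCongr F1d541.RI).symm)) := by
    rw [← sh_trans, ← sh_trans]
    refine sh_ext ?_
    rintro ⟨x, y⟩
    change (y, x) = (F1d541.RI (F1d541.RI.symm y), F1d541.RI (F1d541.RI.symm x))
    rw [Homeomorph.apply_symm_apply, Homeomorph.apply_symm_apply]
  rw [h2, h1, ← sh_trans, ← sh_trans]
  have h3 : sh (((F1d541.RI.prodCongr F1d541.RI).symm.trans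
      ((Homeomorph.refl ℝ).prodCongr F1d541.neg)).trans (F1d541.RI.prodCongr F1d541.RI)) =
      sh (fl Io) := by
    refine sh_ext ?_
    rintro ⟨x, y⟩
    change (F1d541.RI (F1d541.RI.symm x), F1d541.RI (-(F1d541.RI.symm y))) = (x, MC.flipIo y)
    rw [Homeomorph.apply_symm_apply, F1d541.RI_neg, Homeomorph.apply_symm_apply]
  rw [h3]
  exact St.ofMap_fl

theorem neg_io : (β_ (LC.of Io) (LC.of Io)).hom = - 𝟙 (LC.of Io ⊗ LC.of Io) := sh_swap_io

end Crest.Agent.R090.StCat865
end
end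

-- ▼ part R090/WcokSt_314
section

/-!
# Row 90, DUAL: weak cokernels in the stable category (owner helper314), level of `St528`

* `contra1` : contravariant exactness of `U → V → MC f`;
* `contra1L` : the same smashed with a fixed object on the left;
* `lev_swap` : `1_F ∧ a` is the stabilisation of an unstable class, for `a` of level `n`,
  `F = ℂ^n`.
-/

set_option autoImplicit false
set_option linter.unusedSectionVars false

open Topology Filter Set

namespace Crest.Agent.R090.Wcok314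

open OnePoint Crest.Agent.R090.Sp962 Crest.Agent.R090.Grp528 Crest.Agent.R090.St528
open scoped unitInterval

universe u v w x y

section contra

variable {U : Type u} {V : Type v} {W : Type w} {D : Type y}
variable [TopologicalSpace U] [TopologicalSpace V] [TopologicalSpace W] [TopologicalSpace D]
variable [T2Space U] [LocallyCompactSpace U] [T2Space V] [LocallyCompactSpace V]
  [T2Space W] [LocallyCompactSpace W] [T2Space D] [LocallyCompactSpace D]

/-- contravariant exactness at `V` -/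
theorem contra1 (f : PMap U V) (h : St V W) (hf : h.comp (St.ofP f) = 0) :
    ∃ h' : St (MC f) W, h'.comp (St.ofP (MC.i f)) = h := by
  obtain ⟨n, -, a, rfl⟩ := h.exists_of_ge 0
  rw [St.ofP, St.map_eq_of _ n, St.of_comp_of, St.of_eq_zero_iff] at hf
  obtain ⟨k, hk⟩ := hf
  rw [stN_comp, stN_smash, h1, HC.smash_mk] at hk
  obtain ⟨b, hb⟩ := HC.mk_surj (stN a k)
  rw [← St.of_stN a k, ← hb]
  rw [← hb] at hk
  have hn : (b.comp (f.smash (PMap.id (Fin (n + k) → ℂ)))).Null := HC.mk_eq.1 hk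
  obtain ⟨g, hg⟩ := MC.exists_desc (f.smash (PMap.id (Fin (n + k) → ℂ))) b hn
  refine ⟨St.mk (n + k) (g.comp (PMap.ofHomeo (MC.smR f (Fin (n + k) → ℂ)).symm)), ?_⟩
  rw [St.mk, St.ofP, St.map_eq_of _ (n + k), St.of_comp_of, h1, HC.smash_mk, HC.comp_mk]
  rw [← MC.smR_i, ← PMap.comp_assoc, PMap.comp_assoc g, PMap.ofHomeo_symm_comp, PMap.comp_id, hg]

/-- the same, smashed with `D` on the left -/
theorem contra1L (f : PMap U V) (h : St (D × V) W)
    (hf : h.comp (St.ofP ((PMap.id D).smash f)) = 0) :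
    ∃ h' : St (D × MC f) W, h'.comp (St.ofP ((PMap.id D).smash (MC.i f))) = h := by
  obtain ⟨k, hk⟩ := contra1 ((PMap.id D).smash f) h hf
  refine ⟨k.comp (St.ofP (PMap.ofHomeo (MC.smL f D).symm)), ?_⟩
  rw [St.comp_assoc, ← St.ofP_comp, ← MC.smL_i, ← PMap.comp_assoc, PMap.ofHomeo_symm_comp,
    PMap.id_comp, hk]

end contra

section level

variable {X : Type u} {Y : Type v} [TopologicalSpace X] [TopologicalSpace Y]
variable [T2Space X] [LocallyCompactSpace X] [T2Space Y] [LocallyCompactSpace Y]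

/-- exchange of the two copies of `F` in `(F × X) × F` -/
def exch (F : Type w) (X : Type u) [TopologicalSpace F] [TopologicalSpace X] :
    (F × X) × F ≃ₜ (F × X) × F where
  toFun p := ((p.2, p.1.2), p.1.1)
  invFun p := ((p.2, p.1.2), p.1.1)
  left_inv _ := rfl
  right_inv _ := rfl
  continuous_toFun := by fun_prop
  continuous_invFun := by fun_prop

/-- `(F × X) × F ≃ (F × F) × X` -/
def eFF (F : Type w) (X : Type u) [TopologicalSpace F] [TopologicalSpace X] :
    (F × X) × F ≃ₜ (F × F) × X where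
  toFun p := ((p.1.1, p.2), p.1.2)
  invFun p := ((p.1.1, p.2), p.1.2)
  left_inv _ := rfl
  right_inv _ := rfl
  continuous_toFun := by fun_prop
  continuous_invFun := by fun_prop

theorem hh_exch (n : ℕ) : hh (exch (Fin n → ℂ) X) = h1 (((Fin n → ℂ) × X) × (Fin n → ℂ)) := by
  have e : hh (exch (Fin n → ℂ) X) = (hh (eFF (Fin n → ℂ) X).symm).comp
      (((hh (Homeomorph.prodComm (Fin n → ℂ) (Fin n → ℂ))).smash (h1 X)).comp
        (hh (eFF (Fin n → ℂ) X))) := by
    rw [hh_smash_h1, ← hh_trans, ← hh_trans]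
    exact hh_ext fun _ => rfl
  have e2 : hh (Homeomorph.prodComm (Fin n → ℂ) (Fin n → ℂ)) = h1 _ :=
    HC.sound (Lin202.homotopic_swap' (Fin n → ℂ))
  rw [e, e2, h1_smash_h1, h1_comp, hh_symm_comp]

/-- `1_F ∧ a` is the stabilisation of an unstable class -/
theorem lev_swap {n : ℕ} (a : HC (S X n) (S Y n)) :
    (hh (Homeomorph.prodAssoc (Fin n → ℂ) Y (Fin n → ℂ)).symm).comp
      (((h1 (Fin n → ℂ)).smash a).comp (hh (Homeomorph.prodAssoc (Fin n → ℂ) X (Fin n → ℂ)))) =
    ((hh (Homeomorph.prodComm Y (Fin n → ℂ))).comp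
      (a.comp (hh (Homeomorph.prodComm (Fin n → ℂ) X)))).smash (h1 (Fin n → ℂ)) := by
  have key : ((hh (Homeomorph.prodComm Y (Fin n → ℂ))).comp
      (a.comp (hh (Homeomorph.prodComm (Fin n → ℂ) X)))).smash (h1 (Fin n → ℂ)) =
      (hh (exch (Fin n → ℂ) Y)).comp (((hh (Homeomorph.prodAssoc (Fin n → ℂ) Y (Fin n → ℂ)).symm).comp
      (((h1 (Fin n → ℂ)).smash a).comp
        (hh (Homeomorph.prodAssoc (Fin n → ℂ) X (Fin n → ℂ))))).comp
          (hh (exch (Fin n → ℂ) X).symm)) := by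
    obtain ⟨f, rfl⟩ := HC.mk_surj a
    refine congrArg HC.mk (PMap.ext fun p => ?_)
    obtain ⟨⟨v, x⟩, c⟩ := p
    change sm (PMap.ofHomeo (Homeomorph.prodComm Y (Fin n → ℂ)) (f ((x, v) : X × (Fin n → ℂ))))
      (c : OnePoint (Fin n → ℂ)) =
      PMap.ofHomeo (exch (Fin n → ℂ) Y) (PMap.ofHomeo
        (Homeomorph.prodAssoc (Fin n → ℂ) Y (Fin n → ℂ)).symm
        (sm (c : OnePoint (Fin n → ℂ)) (f ((x, v) : X × (Fin n → ℂ)))))
    generalize f ((x, v) : X × (Fin n → ℂ)) = z
    induction z using OnePoint.rec with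
    | infty => simp
    | coe z => rfl
  rw [key, hh_exch, h1_comp]
  have e3 : hh (exch (Fin n → ℂ) X).symm = h1 _ := by
    have : (exch (Fin n → ℂ) X).symm = exch (Fin n → ℂ) X := Homeomorph.ext fun _ => rfl
    rw [this, hh_exch]
  rw [e3, comp_h1]

end level

section wcok

open Crest.Agent.R090.Sm202

variable {A : Type u} {B : Type v} {X : Type w} {E : Type x} {F : Type y}
variable [TopologicalSpace A] [TopologicalSpace B] [TopologicalSpace X] [TopologicalSpace E]
  [TopologicalSpace F]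
variable [T2Space A] [LocallyCompactSpace A] [T2Space B] [LocallyCompactSpace B]
  [T2Space X] [LocallyCompactSpace X] [T2Space E] [LocallyCompactSpace E]
  [T2Space F] [LocallyCompactSpace F]

/-- `X × (F × B) ≃ F × (X × B)` -/
def sig (X : Type w) (F : Type y) (B : Type v) [TopologicalSpace X] [TopologicalSpace F]
    [TopologicalSpace B] : X × (F × B) ≃ₜ F × (X × B) where
  toFun p := (p.2.1, (p.1, p.2.2))
  invFun p := (p.2.1, (p.1, p.2.2))
  left_inv _ := rfl
  right_inv _ := rfl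
  continuous_toFun := by fun_prop
  continuous_invFun := by fun_prop

/-- naturality of `sig` -/
theorem sig_nat (X : Type w) (F : Type y) [TopologicalSpace X] [TopologicalSpace F] [T2Space X]
    [LocallyCompactSpace X] [T2Space F] [LocallyCompactSpace F] (g : St A B) :
    (sh (sig X F B)).comp ((g.smL F).smL X) = ((g.smL X).smL F).comp (sh (sig X F A)) := by
  obtain ⟨n, -, a, rfl⟩ := g.exists_of_ge 0
  rw [smL_of, smL_of, smL_of, smL_of, sh_eq, sh_eq, St.map_eq_of _ n, St.map_eq_of _ n,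
    St.of_comp_of, St.of_comp_of]
  congr 1
  obtain ⟨a, rfl⟩ := HC.mk_surj a
  refine congrArg HC.mk (PMap.ext fun p => ?_)
  obtain ⟨⟨x, f, b⟩, v⟩ := p
  change ((PMap.ofHomeo (sig X F B)).smash (PMap.id (Fin n → ℂ)))
      (PMap.ofHomeo (asC X (F × B) (Fin n → ℂ)).symm (sm (x : OnePoint X)
        (PMap.ofHomeo (asC F B (Fin n → ℂ)).symm (sm (f : OnePoint F)
          (a ((b, v) : A × (Fin n → ℂ))))))) =
    PMap.ofHomeo (asC F (X × B) (Fin n → ℂ)).symm (sm (f : OnePoint F)
        (PMap.ofHomeo (asC X B (Fin n → ℂ)).symm (sm (x : OnePoint X)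
          (a ((b, v) : A × (Fin n → ℂ))))))
  generalize a ((b, v) : A × (Fin n → ℂ)) = z
  induction z using OnePoint.rec with
  | infty => simp
  | coe z => rfl

/-- a stable map becomes unstable after suspension with `ℂ^n` -/
theorem exists_smL_eq (g : St A B) : ∃ (n : ℕ) (g0 : PMap ((Fin n → ℂ) × A) ((Fin n → ℂ) × B)),
    g.smL (Fin n → ℂ) = St.ofP g0 := by
  obtain ⟨n, -, a, rfl⟩ := g.exists_of_ge 0
  obtain ⟨g0, hg0⟩ := HC.mk_surj ((hh (Homeomorph.prodComm B (Fin n → ℂ))).comp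
      (a.comp (hh (Homeomorph.prodComm (Fin n → ℂ) A))))
  refine ⟨n, g0, ?_⟩
  rw [smL_of, St.ofP, hg0, St.map_eq_of _ n, ← lev_swap]
  rfl

/-- **weak cokernels**, with suspension coordinate `F = ℂ^n` on the left -/
theorem wcok (g : St A B) : ∃ (n : ℕ) (g0 : PMap ((Fin n → ℂ) × A) ((Fin n → ℂ) × B)),
    g.smL (Fin n → ℂ) = St.ofP g0 ∧
    (St.ofP (MC.i g0)).comp (g.smL (Fin n → ℂ)) = 0 ∧
    ∀ {X : Type w} {E : Type x} [TopologicalSpace X] [TopologicalSpace E] [T2Space X]
      [LocallyCompactSpace X] [T2Space E] [LocallyCompactSpace E] (u : St (X × B) E),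
      u.comp (g.smL X) = 0 → ∃ u' : St (X × MC g0) ((Fin n → ℂ) × E),
        u'.comp ((St.ofP (MC.i g0)).smL X) =
          (u.smL (Fin n → ℂ)).comp (sh (sig X (Fin n → ℂ) B)) := by
  obtain ⟨n, g0, hg⟩ := exists_smL_eq g
  refine ⟨n, g0, hg, ?_, ?_⟩
  · rw [hg, ← St.ofP_comp, St.ofP_null (MC.i_comp_null g0)]
  · intro X E _ _ _ _ _ _ u hu
    obtain ⟨u', hu'⟩ := contra1L (D := X) g0
      ((u.smL (Fin n → ℂ)).comp (sh (sig X (Fin n → ℂ) B))) (by
        rw [← smL_ofP, ← hg, St.comp_assoc, sig_nat, ← St.comp_assoc, ← smL_comp, hu, smL_zero,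
          St.zero_comp])
    exact ⟨u', by rw [smL_ofP, hu']⟩

end wcok

end Crest.Agent.R090.Wcok314
end

-- ▼ part R090/Dual_698
section

/-!
# Row 90, DUAL: formal duality by induction on the target (owner helper698)

Abstract part, in a preadditive symmetric monoidal category.  `X` is fixed.  For a target `W` we
consider `Surj W` and `Inj W`; both hold for the unit, are stable under `W ↦ W ⊗ R` and under
cones.  At the end `W = X` gives a (one sided) dual of `X`.
-/

set_option autoImplicit false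
set_option linter.unusedSectionVars false

open CategoryTheory MonoidalCategory BraidedCategory Limits

namespace Crest.Agent.R090.Dual698

universe v u

variable {C : Type u} [Category.{v} C] [MonoidalCategory C] [SymmetricCategory C]

/-- exchange `X ⊗ (F ⊗ A) ⟶ F ⊗ (X ⊗ A)` -/
def bX (X F A : C) : X ⊗ (F ⊗ A) ⟶ F ⊗ (X ⊗ A) :=
  (α_ X F A).inv ≫ (β_ X F).hom ▷ A ≫ (α_ F X A).hom

theorem bX_natural (X F : C) {A B : C} (a : A ⟶ B) :
    X ◁ (F ◁ a) ≫ bX X F B = bX X F A ≫ F ◁ (X ◁ a) := by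
  unfold bX
  simp only [Category.assoc]
  rw [associator_inv_naturality_right_assoc, whisker_exchange_assoc, associator_naturality_right]


theorem bX_tensor (X F G A : C) :
    X ◁ (α_ F G A).hom ≫ bX X F (G ⊗ A) ≫ F ◁ bX X G A =
      bX X (F ⊗ G) A ≫ (α_ F G (X ⊗ A)).hom := by
  unfold bX
  rw [BraidedCategory.braiding_tensor_right_hom]
  monoidal

theorem bX_assoc_right (X F A W : C) :
    (α_ X (F ⊗ A) W).inv ≫ bX X F A ▷ W ≫ (α_ F (X ⊗ A) W).hom =
      X ◁ (α_ F A W).hom ≫ bX X F (A ⊗ W) ≫ F ◁ (α_ X A W).inv := by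
  unfold bX
  monoidal

theorem bX_unit (X A : C) : bX X (𝟙_ C) A = X ◁ (λ_ A).hom ≫ (λ_ (X ⊗ A)).inv := by
  unfold bX
  rw [braiding_tensorUnit_right]
  monoidal

/-- pairing -/
def Th {X A B E W : C} (g : A ⟶ B ⊗ W) (u : X ⊗ B ⟶ E) : X ⊗ A ⟶ E ⊗ W :=
  X ◁ g ≫ (α_ X B W).inv ≫ u ▷ W

/-- suspension of a map into `B ⊗ W` -/
def sG {A B W : C} (F : C) (g : A ⟶ B ⊗ W) : F ⊗ A ⟶ (F ⊗ B) ⊗ W :=
  F ◁ g ≫ (α_ F B W).inv

/-- suspension of a functional -/
def sU {X B E : C} (F : C) (u : X ⊗ B ⟶ E) : X ⊗ (F ⊗ B) ⟶ F ⊗ E :=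
  bX X F B ≫ F ◁ u

/-- suspension of a map `X ⊗ A ⟶ E ⊗ W` -/
def sH {X A E W : C} (F : C) (h : X ⊗ A ⟶ E ⊗ W) : X ⊗ (F ⊗ A) ⟶ (F ⊗ E) ⊗ W :=
  bX X F A ≫ F ◁ h ≫ (α_ F E W).inv

section Th

variable {X A A' B B' E E' W W' : C}

theorem Th_post (g : A ⟶ B ⊗ W) (u : X ⊗ B ⟶ E) (w : W ⟶ W') :
    Th (g ≫ B ◁ w) u = Th g u ≫ E ◁ w := by
  unfold Th
  simp only [Category.assoc, MonoidalCategory.whiskerLeft_comp]
  rw [← whisker_exchange, associator_inv_naturality_right_assoc]

theorem Th_pre (a : A' ⟶ A) (g : A ⟶ B ⊗ W) (u : X ⊗ B ⟶ E) :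
    Th (a ≫ g) u = X ◁ a ≫ Th g u := by
  unfold Th
  simp only [Category.assoc, MonoidalCategory.whiskerLeft_comp]

theorem Th_mid (g : A ⟶ B ⊗ W) (b : B ⟶ B') (u : X ⊗ B' ⟶ E) :
    Th (g ≫ b ▷ W) u = Th g (X ◁ b ≫ u) := by
  unfold Th
  simp only [Category.assoc, MonoidalCategory.whiskerLeft_comp, comp_whiskerRight]
  rw [associator_inv_naturality_middle_assoc]

theorem Th_right (g : A ⟶ B ⊗ W) (u : X ⊗ B ⟶ E) (e : E ⟶ E') :
    Th g (u ≫ e) = Th g u ≫ e ▷ W := by
  unfold Th
  simp only [Category.assoc, comp_whiskerRight]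

theorem Th_susp (F : C) (g : A ⟶ B ⊗ W) (u : X ⊗ B ⟶ E) :
    Th (sG F g) (sU F u) = sH F (Th g u) := by
  unfold Th sG sU sH
  simp only [Category.assoc, MonoidalCategory.whiskerLeft_comp, comp_whiskerRight]
  have h1 := bX_assoc_right X F B W
  have h2 := bX_natural X F g
  have h3 : (α_ X (F ⊗ B) W).inv ≫ bX X F B ▷ W =
      X ◁ (α_ F B W).hom ≫ bX X F (B ⊗ W) ≫ F ◁ (α_ X B W).inv ≫ (α_ F (X ⊗ B) W).inv := by
    rw [← cancel_mono (α_ F (X ⊗ B) W).hom]
    simp only [Category.assoc, h1, Iso.inv_hom_id, Category.comp_id]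
  have h4 : X ◁ (α_ F B W).inv ≫ X ◁ (α_ F B W).hom = 𝟙 _ := by
    rw [← MonoidalCategory.whiskerLeft_comp, Iso.inv_hom_id, MonoidalCategory.whiskerLeft_id]
  rw [reassoc_of% h3, reassoc_of% h4, reassoc_of% h2, associator_inv_naturality_middle]

theorem sG_post (F : C) (g : A ⟶ B ⊗ W) (w : W ⟶ W') :
    sG F (g ≫ B ◁ w) = sG F g ≫ (F ⊗ B) ◁ w := by
  unfold sG
  simp only [Category.assoc, MonoidalCategory.whiskerLeft_comp]
  rw [associator_inv_naturality_right]


theorem sG_mid (F : C) (g : A ⟶ B ⊗ W) (b : B ⟶ B') :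
    sG F (g ≫ b ▷ W) = sG F g ≫ (F ◁ b) ▷ W := by
  unfold sG
  simp only [Category.assoc, MonoidalCategory.whiskerLeft_comp]
  rw [associator_inv_naturality_middle]

theorem sH_post (F : C) (h : X ⊗ A ⟶ E ⊗ W) (w : W ⟶ W') :
    sH F (h ≫ E ◁ w) = sH F h ≫ (F ⊗ E) ◁ w := by
  unfold sH
  simp only [Category.assoc, MonoidalCategory.whiskerLeft_comp]
  rw [associator_inv_naturality_right]

theorem sU_pre (F : C) (b : B ⟶ B') (u : X ⊗ B' ⟶ E) :
    sU F (X ◁ b ≫ u) = X ◁ (F ◁ b) ≫ sU F u := by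
  unfold sU
  rw [reassoc_of% (bX_natural X F b), MonoidalCategory.whiskerLeft_comp]

/-- two suspensions are one suspension -/
theorem sH_sH (F G : C) (h : X ⊗ A ⟶ E ⊗ W) :
    X ◁ (α_ F G A).hom ≫ sH F (sH G h) ≫ (α_ F G E).inv ▷ W = sH (F ⊗ G) h := by
  unfold sH
  simp only [Category.assoc, MonoidalCategory.whiskerLeft_comp]
  rw [reassoc_of% (bX_tensor X F G A)]
  congr 1
  monoidal

theorem sG_sG (F G : C) (g : A ⟶ B ⊗ W) :
    (α_ F G A).hom ≫ sG F (sG G g) ≫ (α_ F G B).inv ▷ W = sG (F ⊗ G) g := by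
  unfold sG
  simp only [Category.assoc, MonoidalCategory.whiskerLeft_comp]
  monoidal

theorem sU_sU (F G : C) (u : X ⊗ B ⟶ E) :
    X ◁ (α_ F G B).hom ≫ sU F (sU G u) ≫ (α_ F G E).inv = sU (F ⊗ G) u := by
  unfold sU
  simp only [Category.assoc, MonoidalCategory.whiskerLeft_comp]
  rw [reassoc_of% (bX_tensor X F G B)]
  congr 1
  monoidal

end Th

/-! ### Additive part -/

section Add

variable [Preadditive C] [MonoidalPreadditive C]

variable {X A A' B B' E E' W W' : C}

theorem Th_add_left (g g' : A ⟶ B ⊗ W) (u : X ⊗ B ⟶ E) :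
    Th (g + g') u = Th g u + Th g' u := by
  unfold Th
  simp only [MonoidalPreadditive.whiskerLeft_add, Preadditive.add_comp]

theorem Th_zero_left (u : X ⊗ B ⟶ E) : Th (0 : A ⟶ B ⊗ W) u = 0 := by
  unfold Th
  simp only [MonoidalPreadditive.whiskerLeft_zero, zero_comp]


theorem Th_neg_left (g : A ⟶ B ⊗ W) (u : X ⊗ B ⟶ E) : Th (-g) u = - Th g u := by
  rw [eq_neg_iff_add_eq_zero, ← Th_add_left, neg_add_cancel, Th_zero_left]

theorem Th_sub_left (g g' : A ⟶ B ⊗ W) (u : X ⊗ B ⟶ E) :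
    Th (g - g') u = Th g u - Th g' u := by
  rw [sub_eq_add_neg, Th_add_left, Th_neg_left, ← sub_eq_add_neg]


theorem sH_zero (F : C) : sH F (0 : X ⊗ A ⟶ E ⊗ W) = 0 := by
  unfold sH
  simp only [MonoidalPreadditive.whiskerLeft_zero, zero_comp, comp_zero]

theorem sH_add (F : C) (h h' : X ⊗ A ⟶ E ⊗ W) : sH F (h + h') = sH F h + sH F h' := by
  unfold sH
  simp only [MonoidalPreadditive.whiskerLeft_add, Preadditive.add_comp, Preadditive.comp_add]





variable (C) in
/-- what is needed of the stable category -/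
structure Data where
  /-- spheres -/
  Sph : C → Prop
  unit : Sph (𝟙_ C)
  tensor : ∀ {F G : C}, Sph F → Sph G → Sph (F ⊗ G)
  /-- the circle -/
  R : C
  sphR : Sph R
  neg : (β_ R R).hom = - 𝟙 (R ⊗ R)
  sum : ∀ A B : C, ∃ (D : C) (i₁ : A ⟶ D) (i₂ : B ⟶ D) (p₁ : D ⟶ A) (p₂ : D ⟶ B),
    i₁ ≫ p₁ = 𝟙 A ∧ i₂ ≫ p₂ = 𝟙 B ∧ i₁ ≫ p₂ = 0 ∧ i₂ ≫ p₁ = 0
  wcok : ∀ {A B : C} (g : A ⟶ B), ∃ (F B' : C) (c : F ⊗ B ⟶ B'), Sph F ∧ F ◁ g ≫ c = 0 ∧
    ∀ {X E : C} (u : X ⊗ B ⟶ E), X ◁ g ≫ u = 0 → ∃ u' : X ⊗ B' ⟶ F ⊗ E, X ◁ c ≫ u' = sU F u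

/-- every `h : X ⊗ A ⟶ E ⊗ W` is, after suspension, a pairing -/
def Surj (D : Data C) (X W : C) : Prop :=
  ∀ (A E : C) (h : X ⊗ A ⟶ E ⊗ W), ∃ (F B : C) (g : F ⊗ A ⟶ B ⊗ W) (u : X ⊗ B ⟶ F ⊗ E),
    D.Sph F ∧ Th g u = sH F h

/-- if a pairing is zero, then there is a reason -/
def Inj (D : Data C) (X W : C) : Prop :=
  ∀ (A B E : C) (g : A ⟶ B ⊗ W) (u : X ⊗ B ⟶ E), Th g u = 0 →
    ∃ (F B' : C) (c : F ⊗ B ⟶ B') (u' : X ⊗ B' ⟶ F ⊗ E),
      D.Sph F ∧ X ◁ c ≫ u' = sU F u ∧ sG F g ≫ c ▷ W = 0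

/-- the induction statement -/
def PP (D : Data C) (X W : C) : Prop := Surj D X W ∧ Inj D X W

/-! #### The unit -/

theorem surj_unit (D : Data C) (X : C) : Surj D X (𝟙_ C) := by
  intro A E h
  refine ⟨𝟙_ C, A, (λ_ A).hom ≫ (ρ_ A).inv, h ≫ (ρ_ E).hom ≫ (λ_ E).inv, D.unit, ?_⟩
  unfold Th sH
  rw [bX_unit]
  monoidal

theorem inj_unit (D : Data C) (X : C) : Inj D X (𝟙_ C) := by
  intro A B E g u hgu
  obtain ⟨F, B', c, hF, hc, hu⟩ := D.wcok (g ≫ (ρ_ B).hom)
  obtain ⟨u', hu'⟩ := hu u (by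
    have : X ◁ (g ≫ (ρ_ B).hom) ≫ u = Th g u ≫ (ρ_ E).hom := by
      unfold Th
      monoidal
    rw [this, hgu, zero_comp])
  refine ⟨F, B', c, u', hF, hu', ?_⟩
  have : sG F g ≫ c ▷ (𝟙_ C) = (F ◁ (g ≫ (ρ_ B).hom) ≫ c) ≫ (ρ_ B').inv := by
    unfold sG
    monoidal
  rw [this, hc, zero_comp]

theorem PP_unit (D : Data C) (X : C) : PP D X (𝟙_ C) := ⟨surj_unit D X, inj_unit D X⟩

/-! #### Isomorphic targets -/

theorem PP_iso (D : Data C) {X W W' : C} (e : W ≅ W') (h : PP D X W) : PP D X W' := by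
  refine ⟨fun A E k => ?_, fun A B E g u hgu => ?_⟩
  · obtain ⟨F, B, g, u, hF, hgu⟩ := h.1 A E (k ≫ E ◁ e.inv)
    refine ⟨F, B, g ≫ B ◁ e.hom, u, hF, ?_⟩
    rw [Th_post, hgu, ← sH_post, Category.assoc, ← MonoidalCategory.whiskerLeft_comp,
      Iso.inv_hom_id, MonoidalCategory.whiskerLeft_id, Category.comp_id]
  · obtain ⟨F, B', c, u', hF, hu', hc⟩ := h.2 A B E (g ≫ B ◁ e.inv) u (by
      rw [Th_post, hgu, zero_comp])
    refine ⟨F, B', c, u', hF, hu', ?_⟩
    have : sG F g ≫ c ▷ W' = (sG F (g ≫ B ◁ e.inv) ≫ c ▷ W) ≫ B' ◁ e.hom := by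
      rw [sG_post, Category.assoc, Category.assoc, whisker_exchange_assoc,
        ← MonoidalCategory.whiskerLeft_comp, Iso.inv_hom_id, MonoidalCategory.whiskerLeft_id,
        Category.comp_id]
    rw [this, hc, zero_comp]

/-! #### Suspension of the target -/

theorem wl_neg (Z : C) {A B : C} (f : A ⟶ B) : Z ◁ (-f) = -(Z ◁ f) := by
  rw [eq_neg_iff_add_eq_zero, ← MonoidalPreadditive.whiskerLeft_add, neg_add_cancel,
    MonoidalPreadditive.whiskerLeft_zero]


/-- the transposition of two circles is `-1` -/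
theorem transpose (D : Data C) (Z : C) :
    (β_ D.R (Z ⊗ D.R)).hom ≫ (β_ Z D.R).hom ▷ D.R = - (α_ D.R Z D.R).inv := by
  rw [BraidedCategory.braiding_tensor_right_hom, D.neg]
  simp only [wl_neg, Preadditive.neg_comp, Preadditive.comp_neg,
    Category.assoc, MonoidalCategory.whiskerLeft_id, Category.id_comp, Iso.hom_inv_id_assoc]
  rw [← comp_whiskerRight, SymmetricCategory.symmetry, MonoidalCategory.id_whiskerRight,
    Category.comp_id]

/-- double crossing -/
theorem cross (X F R A : C) :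
    X ◁ ((α_ F R A).hom ≫ F ◁ (β_ R A).hom ≫ (α_ F A R).inv) ≫ (α_ X (F ⊗ A) R).inv ≫
      bX X F A ▷ R = bX X (F ⊗ R) A ≫ (α_ F R (X ⊗ A)).hom ≫ F ◁ (β_ R (X ⊗ A)).hom ≫
        (α_ F (X ⊗ A) R).inv := by
  unfold bX
  rw [BraidedCategory.braiding_tensor_right_hom, BraidedCategory.braiding_tensor_right_hom]
  have h : (β_ X R).hom ≫ (β_ R X).hom = 𝟙 _ := SymmetricCategory.symmetry X R
  have hex := whisker_exchange (β_ X F).hom (β_ R A).hom
  trans (X ◁ (α_ F R A).hom ≫ (α_ X F (R ⊗ A)).inv) ≫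
    ((β_ X F).hom ▷ (R ⊗ A) ≫ (F ⊗ X) ◁ (β_ R A).hom) ≫
      (α_ F X (A ⊗ R)).hom ≫ F ◁ (α_ X A R).inv ≫ (α_ F (X ⊗ A) R).inv
  · rw [← hex]
    monoidal
  trans (X ◁ (α_ F R A).hom ≫ (α_ X F (R ⊗ A)).inv ≫ (β_ X F).hom ▷ (R ⊗ A) ≫
    (α_ F X (R ⊗ A)).hom ≫ F ◁ (α_ X R A).inv) ≫
      F ◁ (((β_ X R).hom ≫ (β_ R X).hom) ▷ A) ≫
      (F ◁ ((α_ X R A).hom ≫ X ◁ (β_ R A).hom ≫ (α_ X A R).inv) ≫ (α_ F (X ⊗ A) R).inv)
  · rw [h]
    monoidal
  · monoidal

/-- the suspension isomorphism of the target -/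
def tau (E W R : C) : E ⊗ (W ⊗ R) ⟶ (R ⊗ E) ⊗ W :=
  (α_ E W R).inv ≫ (β_ (E ⊗ W) R).hom ≫ (α_ R E W).inv



/-- suspending with `R` and moving `R` back is `-1` -/
theorem susp_tau (D : Data C) (X F A E W : C) (h : X ⊗ A ⟶ E ⊗ (W ⊗ D.R)) :
    X ◁ ((α_ F D.R A).hom ≫ F ◁ (β_ D.R A).hom ≫ (α_ F A D.R).inv) ≫ (α_ X (F ⊗ A) D.R).inv ≫
      sH F (h ≫ tau E W D.R) ▷ D.R ≫ ((α_ F D.R E).inv ▷ W) ▷ D.R ≫
        (α_ ((F ⊗ D.R) ⊗ E) W D.R).hom = - sH (F ⊗ D.R) h := by
  have hT := transpose D (E ⊗ W)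
  generalize D.R = R at *
  have h1 : sH F (h ≫ tau E W R) ▷ R = bX X F A ▷ R ≫ (F ◁ (h ≫ tau E W R)) ▷ R ≫
      (α_ F (R ⊗ E) W).inv ▷ R := by
    unfold sH
    simp only [comp_whiskerRight]
  rw [h1]
  have h2 := cross X F R A
  have h3 : F ◁ (β_ R (X ⊗ A)).hom ≫ (α_ F (X ⊗ A) R).inv ≫ (F ◁ (h ≫ tau E W R)) ▷ R =
      F ◁ (R ◁ (h ≫ (α_ E W R).inv) ≫ (β_ R ((E ⊗ W) ⊗ R)).hom ≫ (β_ (E ⊗ W) R).hom ▷ R) ≫
        F ◁ ((α_ R E W).inv ▷ R) ≫ (α_ F ((R ⊗ E) ⊗ W) R).inv := by
    rw [BraidedCategory.braiding_naturality_right_assoc]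
    unfold tau
    monoidal
  rw [hT] at h3
  simp only [Category.assoc] at h2 h3 ⊢
  rw [reassoc_of% h2, reassoc_of% h3]
  unfold sH
  rw [Preadditive.comp_neg, wl_neg]
  simp only [Preadditive.comp_neg, Preadditive.neg_comp]
  congr 1
  monoidal

theorem surj_susp (D : Data C) {X W : C} (h : Surj D X W) : Surj D X (W ⊗ D.R) := by
  intro A E k
  obtain ⟨F, B, g, u, hF, hgu⟩ := h A (D.R ⊗ E) (k ≫ tau E W D.R)
  refine ⟨F ⊗ D.R, B, -(((α_ F D.R A).hom ≫ F ◁ (β_ D.R A).hom ≫ (α_ F A D.R).inv) ≫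
    g ▷ D.R ≫ (α_ B W D.R).hom), u ≫ (α_ F D.R E).inv, D.tensor hF D.sphR, ?_⟩
  have h1 := susp_tau D X F A E W k
  rw [← hgu] at h1
  rw [Th_neg_left, neg_eq_iff_eq_neg, ← h1]
  unfold Th
  monoidal

/-- pairing and `tau` -/
theorem Th_tau {X A B E W : C} (R : C) (g : A ⟶ B ⊗ (W ⊗ R)) (u : X ⊗ B ⟶ E) :
    Th (g ≫ tau B W R) (sU R u) = Th g u ≫ tau E W R := by
  have h1 : u ▷ (W ⊗ R) ≫ (α_ E W R).inv ≫ (β_ (E ⊗ W) R).hom =
      (α_ (X ⊗ B) W R).inv ≫ (β_ ((X ⊗ B) ⊗ W) R).hom ≫ R ◁ (u ▷ W) := by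
    rw [associator_inv_naturality_left_assoc, BraidedCategory.braiding_naturality_left]
  have h2 : (β_ ((X ⊗ B) ⊗ W) R).hom = (α_ X B W).hom ▷ R ≫ (β_ (X ⊗ (B ⊗ W)) R).hom ≫
      R ◁ (α_ X B W).inv := by
    rw [← BraidedCategory.braiding_naturality_left, ← comp_whiskerRight_assoc, Iso.hom_inv_id,
      MonoidalCategory.id_whiskerRight, Category.id_comp]
  unfold Th tau sU bX
  simp only [Category.assoc, MonoidalCategory.whiskerLeft_comp, comp_whiskerRight]
  rw [reassoc_of% h1, h2, BraidedCategory.braiding_tensor_left_hom X (B ⊗ W) R]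
  monoidal

theorem susp_tau' (D : Data C) (F A B W : C) (g : A ⟶ B ⊗ (W ⊗ D.R)) :
    ((α_ F D.R A).hom ≫ F ◁ (β_ D.R A).hom ≫ (α_ F A D.R).inv) ≫
      sG F (g ≫ tau B W D.R) ▷ D.R ≫ ((α_ F D.R B).inv ▷ W) ▷ D.R ≫
        (α_ ((F ⊗ D.R) ⊗ B) W D.R).hom = - sG (F ⊗ D.R) g := by
  have hT := transpose D (B ⊗ W)
  generalize D.R = R at *
  have h1 : sG F (g ≫ tau B W R) ▷ R = (F ◁ (g ≫ tau B W R)) ▷ R ≫
      (α_ F (R ⊗ B) W).inv ▷ R := by
    unfold sG
    simp only [comp_whiskerRight]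
  rw [h1]
  have h3 : F ◁ (β_ R A).hom ≫ (α_ F A R).inv ≫ (F ◁ (g ≫ tau B W R)) ▷ R =
      F ◁ (R ◁ (g ≫ (α_ B W R).inv) ≫ (β_ R ((B ⊗ W) ⊗ R)).hom ≫ (β_ (B ⊗ W) R).hom ▷ R) ≫
        F ◁ ((α_ R B W).inv ▷ R) ≫ (α_ F ((R ⊗ B) ⊗ W) R).inv := by
    rw [BraidedCategory.braiding_naturality_right_assoc]
    unfold tau
    monoidal
  rw [hT] at h3
  simp only [Category.assoc] at h3 ⊢
  rw [reassoc_of% h3]
  unfold sG
  rw [Preadditive.comp_neg, wl_neg]
  simp only [Preadditive.comp_neg, Preadditive.neg_comp]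
  congr 1
  monoidal

theorem inj_susp (D : Data C) {X W : C} (h : Inj D X W) : Inj D X (W ⊗ D.R) := by
  intro A B E g u hgu
  obtain ⟨F, B', c, u', hF, hu', hc⟩ := h A (D.R ⊗ B) (D.R ⊗ E) (g ≫ tau B W D.R) (sU D.R u) (by
    rw [Th_tau, hgu, zero_comp])
  refine ⟨F ⊗ D.R, B', (α_ F D.R B).hom ≫ c, u' ≫ (α_ F D.R E).inv, D.tensor hF D.sphR, ?_, ?_⟩
  · rw [← sU_sU, MonoidalCategory.whiskerLeft_comp, Category.assoc, reassoc_of% hu']
  · have h1 := susp_tau' D F A B W g
    rw [← neg_eq_zero, ← Preadditive.neg_comp, ← h1]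
    have h2 : (((α_ F D.R A).hom ≫ F ◁ (β_ D.R A).hom ≫ (α_ F A D.R).inv) ≫
        sG F (g ≫ tau B W D.R) ▷ D.R ≫ ((α_ F D.R B).inv ▷ W) ▷ D.R ≫
          (α_ ((F ⊗ D.R) ⊗ B) W D.R).hom) ≫ ((α_ F D.R B).hom ≫ c) ▷ (W ⊗ D.R) =
        ((α_ F D.R A).hom ≫ F ◁ (β_ D.R A).hom ≫ (α_ F A D.R).inv) ≫
          (sG F (g ≫ tau B W D.R) ≫ c ▷ W) ▷ D.R ≫ (α_ B' W D.R).hom := by
      monoidal
    rw [h2, hc, MonoidalPreadditive.zero_whiskerRight, zero_comp, comp_zero]

theorem PP_susp (D : Data C) {X W : C} (h : PP D X W) : PP D X (W ⊗ D.R) :=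
  ⟨surj_susp D h.1, inj_susp D h.2⟩

/-! #### Cones -/

/-- an exact triangle `P ⟶ Q ⟶ W ⟶ P ⊗ R` (only covariant exactness, tensored with `B`) -/
structure Tri (D : Data C) (P Q W : C) where
  f : P ⟶ Q
  i : Q ⟶ W
  p : W ⟶ P ⊗ D.R
  fi : f ≫ i = 0
  ip : i ≫ p = 0
  pf : p ≫ f ▷ D.R = 0
  ex1 : ∀ {A B : C} (h : A ⟶ B ⊗ Q), h ≫ B ◁ i = 0 → ∃ k : A ⟶ B ⊗ P, k ≫ B ◁ f = h
  ex2 : ∀ {A B : C} (h : A ⟶ B ⊗ W), h ≫ B ◁ p = 0 → ∃ k : A ⟶ B ⊗ Q, k ≫ B ◁ i = h
  ex3 : ∀ {A B : C} (h : A ⟶ B ⊗ (P ⊗ D.R)), h ≫ B ◁ (f ▷ D.R) = 0 →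
    ∃ k : A ⟶ B ⊗ W, k ≫ B ◁ p = h

theorem merge (F G : C) (h : X ⊗ A ⟶ E ⊗ W) (g : F ⊗ (G ⊗ A) ⟶ B ⊗ W)
    (u : X ⊗ B ⟶ F ⊗ (G ⊗ E)) (e : Th g u = sH F (sH G h)) :
    Th ((α_ F G A).hom ≫ g) (u ≫ (α_ F G E).inv) = sH (F ⊗ G) h := by
  rw [Th_pre, Th_right, e, sH_sH]

theorem merge_inj (F G : C) (g : A ⟶ B ⊗ W) (u : X ⊗ B ⟶ E) (c : F ⊗ (G ⊗ B) ⟶ B')
    (u' : X ⊗ B' ⟶ F ⊗ (G ⊗ E)) (e : X ◁ c ≫ u' = sU F (sU G u))
    (e' : sG F (sG G g) ≫ c ▷ W = 0) :
    X ◁ ((α_ F G B).hom ≫ c) ≫ (u' ≫ (α_ F G E).inv) = sU (F ⊗ G) u ∧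
      sG (F ⊗ G) g ≫ ((α_ F G B).hom ≫ c) ▷ W = 0 := by
  constructor
  · rw [← sU_sU, MonoidalCategory.whiskerLeft_comp, Category.assoc, reassoc_of% e]
  · have h2 : (α_ F G B).inv ▷ W ≫ (α_ F G B).hom ▷ W = 𝟙 _ := by
      rw [← comp_whiskerRight, Iso.inv_hom_id, MonoidalCategory.id_whiskerRight]
    rw [← sG_sG, comp_whiskerRight]
    simp only [Category.assoc]
    rw [reassoc_of% h2, e', comp_zero]

theorem surj_cone (D : Data C) {X P Q W : C} (T : Tri D P Q W) (hP : Surj D X (P ⊗ D.R))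
    (hQ' : Inj D X (Q ⊗ D.R)) (hQ : Surj D X Q) : Surj D X W := by
  intro A E h
  obtain ⟨F₁, B₁, g₁, u₁, hF₁, e₁⟩ := hP A E (h ≫ E ◁ T.p)
  have z₁ : Th (g₁ ≫ B₁ ◁ (T.f ▷ D.R)) u₁ = 0 := by
    rw [Th_post, e₁, ← sH_post, Category.assoc, ← MonoidalCategory.whiskerLeft_comp, T.pf,
      MonoidalPreadditive.whiskerLeft_zero, comp_zero, sH_zero]
  obtain ⟨F₂, B₂, c, u₂, hF₂, hu₂, hc⟩ := hQ' _ _ _ _ u₁ z₁
  obtain ⟨g₂, hg₂⟩ := T.ex3 (sG F₂ g₁ ≫ c ▷ (P ⊗ D.R)) (by
    rw [Category.assoc, ← whisker_exchange, ← Category.assoc, ← sG_post, hc])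
  have z₂ : (sH F₂ (sH F₁ h) - Th g₂ u₂) ≫ (F₂ ⊗ (F₁ ⊗ E)) ◁ T.p = 0 := by
    rw [Preadditive.sub_comp, ← sH_post, ← sH_post, ← Th_post, hg₂, Th_mid, hu₂, Th_susp, e₁,
      sub_self]
  obtain ⟨d, hd⟩ := T.ex2 _ z₂
  obtain ⟨F₃, B₃, g₃, u₃, hF₃, e₃⟩ := hQ _ _ d
  obtain ⟨S, i₁, i₂, p₁, p₂, h11, h22, h12, h21⟩ := D.sum (F₃ ⊗ B₂) B₃
  have e : Th (sG F₃ g₂ ≫ i₁ ▷ W + (g₃ ≫ B₃ ◁ T.i) ≫ i₂ ▷ W)
      (X ◁ p₁ ≫ sU F₃ u₂ + X ◁ p₂ ≫ u₃) = sH F₃ (sH F₂ (sH F₁ h)) := by
    have a1 : X ◁ i₁ ≫ (X ◁ p₁ ≫ sU F₃ u₂ + X ◁ p₂ ≫ u₃) = sU F₃ u₂ := by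
      rw [Preadditive.comp_add, ← MonoidalCategory.whiskerLeft_comp_assoc,
        ← MonoidalCategory.whiskerLeft_comp_assoc, h11, h12, MonoidalPreadditive.whiskerLeft_zero,
        zero_comp, add_zero, MonoidalCategory.whiskerLeft_id, Category.id_comp]
    have a2 : X ◁ i₂ ≫ (X ◁ p₁ ≫ sU F₃ u₂ + X ◁ p₂ ≫ u₃) = u₃ := by
      rw [Preadditive.comp_add, ← MonoidalCategory.whiskerLeft_comp_assoc,
        ← MonoidalCategory.whiskerLeft_comp_assoc, h21, h22, MonoidalPreadditive.whiskerLeft_zero,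
        zero_comp, zero_add, MonoidalCategory.whiskerLeft_id, Category.id_comp]
    rw [Th_add_left, Th_mid, Th_mid, a1, a2, Th_susp, Th_post, e₃, ← sH_post, hd, ← sH_add,
      add_sub_cancel]
  have e' := merge F₃ F₂ (sH F₁ h) _ _ e
  have e'' := merge (F₃ ⊗ F₂) F₁ h _ _ e'
  exact ⟨(F₃ ⊗ F₂) ⊗ F₁, S, _, _, D.tensor (D.tensor hF₃ hF₂) hF₁, e''⟩

theorem inj_cone (D : Data C) {X P Q W : C} (T : Tri D P Q W) (hP' : Inj D X (P ⊗ D.R))
    (hP : Surj D X P) (hQ : Inj D X Q) : Inj D X W := by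
  intro A B E g u hgu
  obtain ⟨F₁, B₁, c₁, u₁, hF₁, hu₁, hc₁⟩ := hP' A B E (g ≫ B ◁ T.p) u (by
    rw [Th_post, hgu, zero_comp])
  obtain ⟨gq, hgq⟩ := T.ex2 (sG F₁ g ≫ c₁ ▷ W) (by
    rw [Category.assoc, ← whisker_exchange, ← Category.assoc, ← sG_post, hc₁])
  obtain ⟨w, hw⟩ := T.ex1 (Th gq u₁) (by
    rw [← Th_post, hgq, Th_mid, hu₁, Th_susp, hgu, sH_zero])
  obtain ⟨F₂, B₂, g₂, u₂, hF₂, e₂⟩ := hP _ _ w
  obtain ⟨S, i₁, i₂, p₁, p₂, h11, h22, h12, h21⟩ := D.sum (F₂ ⊗ B₁) B₂
  have a1 : X ◁ i₁ ≫ (X ◁ p₁ ≫ sU F₂ u₁ + X ◁ p₂ ≫ u₂) = sU F₂ u₁ := by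
    rw [Preadditive.comp_add, ← MonoidalCategory.whiskerLeft_comp_assoc,
      ← MonoidalCategory.whiskerLeft_comp_assoc, h11, h12, MonoidalPreadditive.whiskerLeft_zero,
      zero_comp, add_zero, MonoidalCategory.whiskerLeft_id, Category.id_comp]
  have a2 : X ◁ i₂ ≫ (X ◁ p₁ ≫ sU F₂ u₁ + X ◁ p₂ ≫ u₂) = u₂ := by
    rw [Preadditive.comp_add, ← MonoidalCategory.whiskerLeft_comp_assoc,
      ← MonoidalCategory.whiskerLeft_comp_assoc, h21, h22, MonoidalPreadditive.whiskerLeft_zero,
      zero_comp, zero_add, MonoidalCategory.whiskerLeft_id, Category.id_comp]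
  obtain ⟨F₃, B₃, c₃, u₃, hF₃, hu₃, hc₃⟩ := hQ _ _ _
    (sG F₂ gq ≫ i₁ ▷ Q - (g₂ ≫ B₂ ◁ T.f) ≫ i₂ ▷ Q) (X ◁ p₁ ≫ sU F₂ u₁ + X ◁ p₂ ≫ u₂) (by
      rw [Th_sub_left, Th_mid, Th_mid, a1, a2, Th_susp, Th_post, e₂, ← sH_post, hw, sub_self])
  have e : X ◁ (F₃ ◁ (F₂ ◁ c₁ ≫ i₁) ≫ c₃) ≫ u₃ = sU F₃ (sU F₂ (sU F₁ u)) := by
    rw [MonoidalCategory.whiskerLeft_comp, Category.assoc, hu₃, ← sU_pre,
      MonoidalCategory.whiskerLeft_comp, Category.assoc, a1, ← sU_pre, hu₁]
  have e' : sG F₃ (sG F₂ (sG F₁ g)) ≫ (F₃ ◁ (F₂ ◁ c₁ ≫ i₁) ≫ c₃) ▷ W = 0 := by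
    rw [comp_whiskerRight, ← Category.assoc, ← sG_mid, comp_whiskerRight, ← Category.assoc,
      ← sG_mid, ← hgq, sG_post, Category.assoc, whisker_exchange]
    have b1 : sG F₂ gq ≫ i₁ ▷ Q ≫ S ◁ T.i =
        (sG F₂ gq ≫ i₁ ▷ Q - (g₂ ≫ B₂ ◁ T.f) ≫ i₂ ▷ Q) ≫ S ◁ T.i := by
      have b0 : B₂ ◁ T.f ≫ i₂ ▷ Q ≫ S ◁ T.i = 0 := by
        rw [← whisker_exchange, ← MonoidalCategory.whiskerLeft_comp_assoc, T.fi,
          MonoidalPreadditive.whiskerLeft_zero, zero_comp]
      simp only [Preadditive.sub_comp, Category.assoc, b0, comp_zero, sub_zero]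
    rw [b1, sG_post, Category.assoc, whisker_exchange, ← Category.assoc, hc₃, zero_comp]
  obtain ⟨e1, e1'⟩ := merge_inj F₃ F₂ (sG F₁ g) (sU F₁ u) _ _ e e'
  obtain ⟨e2, e2'⟩ := merge_inj (F₃ ⊗ F₂) F₁ g u _ _ e1 e1'
  exact ⟨(F₃ ⊗ F₂) ⊗ F₁, B₃, _, _, D.tensor (D.tensor hF₃ hF₂) hF₁, e2, e2'⟩

theorem PP_cone (D : Data C) {X P Q W : C} (T : Tri D P Q W) (hP : PP D X P) (hQ : PP D X Q) :
    PP D X W :=
  ⟨surj_cone D T (surj_susp D hP.1) (inj_susp D hQ.2) hQ.1,
    inj_cone D T (inj_susp D hP.2) hP.1 hQ.2⟩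

/-- the dual: one triangle identity -/
theorem exists_dual (D : Data C) {X M : C} (hM : PP D X M) (r : X ⟶ M) :
    ∃ (F B : C) (g : F ⟶ B ⊗ M) (u : X ⊗ B ⟶ F), D.Sph F ∧
      X ◁ g ≫ (α_ X B M).inv ≫ u ▷ M = (β_ X F).hom ≫ F ◁ r := by
  obtain ⟨F, B, g, u, hF, e⟩ := hM.1 (𝟙_ C) (𝟙_ C) ((ρ_ X).hom ≫ r ≫ (λ_ M).inv)
  refine ⟨F, B, (ρ_ F).inv ≫ g, u ≫ (ρ_ F).hom, hF, ?_⟩
  have h1 : X ◁ ((ρ_ F).inv ≫ g) ≫ (α_ X B M).inv ≫ (u ≫ (ρ_ F).hom) ▷ M =
      X ◁ (ρ_ F).inv ≫ Th g u ≫ (ρ_ F).hom ▷ M := by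
    unfold Th
    simp only [Category.assoc, MonoidalCategory.whiskerLeft_comp, comp_whiskerRight]
  rw [h1, e]
  unfold sH bX
  monoidal

end Add

end Crest.Agent.R090.Dual698
end

-- ▼ part R090/CatWcok_314
section

/-!
# Row 90, DUAL: weak cokernels in the category `LC` (owner helper314)

The field `wcok` of `Dual698.Data LC`, with `Sph F := ∃ k, Nonempty (F ≃ₜ (Fin k → ℝ))`, and the
fields `unit`, `tensor`, `sphR`.
-/

set_option autoImplicit false
set_option linter.unusedSectionVars false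

open Topology Filter Set CategoryTheory MonoidalCategory

noncomputable section

namespace Crest.Agent.R090.CatWcok314

open OnePoint Crest.Agent.R090.Sp962 Crest.Agent.R090.Grp528 Crest.Agent.R090.St528
  Crest.Agent.R090.Sm202 Crest.Agent.R090.StCat865 Crest.Agent.R090.Wcok314

/-- spheres: objects homeomorphic to `ℝ^k` -/
def Sph (F : LC) : Prop := ∃ k : ℕ, Nonempty (F ≃ₜ (Fin k → ℝ))

theorem sph_of_homeo {F G : LC} (e : F ≃ₜ G) (h : Sph G) : Sph F := by
  obtain ⟨k, ⟨f⟩⟩ := h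
  exact ⟨k, ⟨e.trans f⟩⟩


theorem sph_unit : Sph (𝟙_ LC) :=
  ⟨0, ⟨(Homeomorph.homeomorphOfUnique Unit (Fin 0 → ℝ) : Unit ≃ₜ (Fin 0 → ℝ))⟩⟩

theorem sph_tensor {F G : LC} (hF : Sph F) (hG : Sph G) : Sph (F ⊗ G) := by
  obtain ⟨k, ⟨f⟩⟩ := hF
  obtain ⟨l, ⟨g⟩⟩ := hG
  exact ⟨k + l, ⟨(f.prodCongr g).trans (Fin.appendHomeomorph k l)⟩⟩

theorem sph_real : Sph (LC.of ℝ) := ⟨1, ⟨(Homeomorph.funUnique (Fin 1) ℝ).symm⟩⟩

theorem sph_cpi (n : ℕ) : Sph (LC.of (Fin n → ℂ)) :=
  ⟨Module.finrank ℝ (Fin n → ℂ), ⟨(ContinuousLinearEquiv.ofFinrankEq (𝕜 := ℝ) (by simp) :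
    (Fin n → ℂ) ≃L[ℝ] (Fin (Module.finrank ℝ (Fin n → ℂ)) → ℝ)).toHomeomorph⟩⟩

theorem bX_eq (X F A : LC) : Dual698.bX X F A = sh (sig X F A) := by
  change ((sh (asC F X A)).comp ((sh (Homeomorph.prodComm X F)).smR A)).comp
    (sh (asC X F A).symm) = _
  rw [smR_sh, ← sh_trans, ← sh_trans]
  exact sh_ext fun _ => rfl

theorem sU_eq (F : LC) {X B E : LC} (u : X ⊗ B ⟶ E) :
    Dual698.sU F u = St.comp (St.smL F u) (sh (sig X F B)) := by
  unfold Dual698.sU
  rw [bX_eq]
  rfl

/-- weak cokernels -/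
theorem wcok {A B : LC} (g : A ⟶ B) : ∃ (F B' : LC) (c : F ⊗ B ⟶ B'), Sph F ∧ F ◁ g ≫ c = 0 ∧
    ∀ {X E : LC} (u : X ⊗ B ⟶ E), X ◁ g ≫ u = 0 →
      ∃ u' : X ⊗ B' ⟶ F ⊗ E, X ◁ c ≫ u' = Dual698.sU F u := by
  obtain ⟨n, g0, hg, h0, hu⟩ := Wcok314.wcok (A := A) (B := B) g
  refine ⟨LC.of (Fin n → ℂ), LC.of (MC g0), St.ofP (MC.i g0), sph_cpi n, h0, ?_⟩
  intro X E u h
  obtain ⟨u', hu'⟩ := hu (X := X) (E := E) u h
  exact ⟨u', hu'.trans (sU_eq (LC.of (Fin n → ℂ)) u).symm⟩

end Crest.Agent.R090.CatWcok314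
end
end

-- ▼ part R090/DualSB_698
section

/-!
# Row 90, DUAL: sphere-built spaces have duals (owner helper698)

`D0 : Dual698.Data LC`, `triMC`, `pp_of_SB : SB M → PP D0 X M`, and the dual translated to
`St528.St`.
-/

set_option autoImplicit false
set_option linter.unusedSectionVars false

open Topology Filter Set CategoryTheory MonoidalCategory

noncomputable section

namespace Crest.Agent.R090.DualSB698

open OnePoint Crest.Agent.R090.Sp962 Crest.Agent.R090.Grp528 Crest.Agent.R090.St528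
  Crest.Agent.R090.Sm202 Crest.Agent.R090.StCat865 Crest.Agent.R090.FM554

/-- the data for the stable category -/
def D0 : Dual698.Data LC where
  Sph := CatWcok314.Sph
  unit := CatWcok314.sph_unit
  tensor := CatWcok314.sph_tensor
  R := LC.of Io
  sphR := CatWcok314.sph_of_homeo (F := LC.of Io) (G := LC.of ℝ) ioHomeo.symm
    CatWcok314.sph_real
  neg := neg_io
  sum := StCat865.sum
  wcok := CatWcok314.wcok

section tri

variable {U V : Type} [TopologicalSpace U] [T2Space U] [LocallyCompactSpace U]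
variable [TopologicalSpace V] [T2Space V] [LocallyCompactSpace V]

/-- the triangle of a mapping cone -/
def triMC (f : PMap U V) : Dual698.Tri D0 (LC.of U) (LC.of V) (LC.of (MC f)) where
  f := St.ofP f
  i := St.ofP (MC.i f)
  p := St.ofP (MC.p f)
  fi := ofP_i_comp f
  ip := ofP_p_comp_i f
  pf := by
    change ((St.ofP f).smR Io).comp (St.ofP (MC.p f)) = 0
    rw [smR_ofP, ofP_smash_comp_p]
  ex1 {A B} h hh := by
    change St A (B × V) at h
    change ((St.ofP (MC.i f)).smL B).comp h = 0 at hh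
    rw [smL_ofP] at hh
    obtain ⟨k, hk⟩ := CovSt128.cov1L f h hh
    refine ⟨k, ?_⟩
    change ((St.ofP f).smL B).comp k = h
    rw [smL_ofP, hk]
  ex2 {A B} h hh := by
    change St A (B × MC f) at h
    change ((St.ofP (MC.p f)).smL B).comp h = 0 at hh
    rw [smL_ofP] at hh
    obtain ⟨k, hk⟩ := CovSt128.cov2L f h hh
    refine ⟨k, ?_⟩
    change ((St.ofP (MC.i f)).smL B).comp k = h
    rw [smL_ofP, hk]
  ex3 {A B} h hh := by
    change St A (B × (U × Io)) at h
    change (((St.ofP f).smR Io).smL B).comp h = 0 at hh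
    rw [smR_ofP, smL_ofP] at hh
    obtain ⟨k, hk⟩ := CovSt128.cov3L f h hh
    refine ⟨k, ?_⟩
    change ((St.ofP (MC.p f)).smL B).comp k = h
    rw [smL_ofP, hk]

/-- homotopy equivalent spaces are isomorphic objects -/
theorem iso_of_heqv (e : HEqv U V) : Nonempty (LC.of U ≅ LC.of V) := by
  obtain ⟨f, g, h1, h2⟩ := e
  refine ⟨⟨St.ofP f, St.ofP g, ?_, ?_⟩⟩
  · change (St.ofP g).comp (St.ofP f) = St.id U
    rw [← St.ofP_comp, St.ofP_congr h1, St.ofP_id]
  · change (St.ofP f).comp (St.ofP g) = St.id V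
    rw [← St.ofP_comp, St.ofP_congr h2, St.ofP_id]

end tri

theorem pp_sphere (X : LC) (n : ℕ) : Dual698.PP D0 X (LC.of (Fin n → ℝ)) := by
  induction n with
  | zero =>
    refine Dual698.PP_iso D0 (W := 𝟙_ LC) ?_ (Dual698.PP_unit D0 X)
    exact isoSh (X := ⟨Unit⟩) (Y := LC.of (Fin 0 → ℝ))
      (Homeomorph.homeomorphOfUnique Unit (Fin 0 → ℝ))
  | succ n ih =>
    refine Dual698.PP_iso D0 (W := LC.of (Fin n → ℝ) ⊗ D0.R) ?_ (Dual698.PP_susp D0 ih)
    refine isoSh (X := ⟨(Fin n → ℝ) × Io⟩) (Y := LC.of (Fin (n + 1) → ℝ)) ?_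
    exact ((Homeomorph.refl (Fin n → ℝ)).prodCongr
      (ioHomeo.symm.trans (Homeomorph.funUnique (Fin 1) ℝ).symm)).trans (Fin.appendHomeomorph n 1)

/-- **sphere-built spaces satisfy the induction statement** -/
theorem pp_of_SB (X : LC) {M : Type} [TopologicalSpace M] [T2Space M] [LocallyCompactSpace M]
    (h : SB M) : Dual698.PP D0 X (LC.of M) := by
  refine SB.induction (P := fun M _ _ _ => Dual698.PP D0 X (LC.of M)) ?_ ?_ ?_ h
  · exact fun n => pp_sphere X n
  · intro U V _ _ _ _ _ _ f hU hV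
    exact Dual698.PP_cone D0 (triMC f) hU hV
  · intro U V _ _ _ _ _ _ e hU
    obtain ⟨e⟩ := iso_of_heqv e
    exact Dual698.PP_iso D0 e hU

/-- **the dual of a sphere-built space**, with target an arbitrary sphere `ℝ^k` -/
theorem exists_dual {X M : Type} [TopologicalSpace X] [T2Space X] [LocallyCompactSpace X]
    [TopologicalSpace M] [T2Space M] [LocallyCompactSpace M] (hM : SB M) (r : St X M) :
    ∃ (k : ℕ) (B : Type) (_ : TopologicalSpace B) (_ : T2Space B) (_ : LocallyCompactSpace B)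
      (g : St (Fin k → ℝ) (B × M)) (u : St (X × B) (Fin k → ℝ)),
      (u.smR M).comp ((sh (Homeomorph.prodAssoc X B M).symm).comp (g.smL X)) =
        (r.smL (Fin k → ℝ)).comp (sh (Homeomorph.prodComm X (Fin k → ℝ))) := by
  obtain ⟨F, B, g, u, ⟨k, ⟨e⟩⟩, h⟩ := Dual698.exists_dual D0 (pp_of_SB (LC.of X) hM) r
  let E : F ≅ LC.of (Fin k → ℝ) := isoSh (Y := LC.of (Fin k → ℝ)) e
  have h' : LC.of X ◁ (E.inv ≫ g) ≫ (α_ (LC.of X) B (LC.of M)).inv ≫ (u ≫ E.hom) ▷ LC.of M =
      (β_ (LC.of X) (LC.of (Fin k → ℝ))).hom ≫ LC.of (Fin k → ℝ) ◁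
        (r : LC.of X ⟶ LC.of M) := by
    simp only [MonoidalCategory.whiskerLeft_comp, MonoidalCategory.comp_whiskerRight,
      Category.assoc]
    rw [reassoc_of% h, BraidedCategory.braiding_naturality_right_assoc, whisker_exchange,
      ← comp_whiskerRight_assoc, Iso.inv_hom_id, MonoidalCategory.id_whiskerRight,
      Category.id_comp]
  refine ⟨k, B, B.top, B.t2, B.lc, E.inv ≫ g, u ≫ E.hom, ?_⟩
  have has : sh (Homeomorph.prodAssoc X B M).symm = sh (asC X B M).symm := sh_ext fun _ => rfl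
  rw [has, ← St.comp_assoc]
  exact h'

/-- the case `X = M`, `r = 1` -/
theorem exists_dual_id {M : Type} [TopologicalSpace M] [T2Space M] [LocallyCompactSpace M]
    (hM : SB M) :
    ∃ (k : ℕ) (B : Type) (_ : TopologicalSpace B) (_ : T2Space B) (_ : LocallyCompactSpace B)
      (g : St (Fin k → ℝ) (B × M)) (u : St (M × B) (Fin k → ℝ)),
      (u.smR M).comp ((sh (Homeomorph.prodAssoc M B M).symm).comp (g.smL M)) =
        sh (Homeomorph.prodComm M (Fin k → ℝ)) := by
  obtain ⟨k, B, h1, h2, h3, g, u, h⟩ := exists_dual hM (St.id M)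
  refine ⟨k, B, h1, h2, h3, g, u, ?_⟩
  rw [h, smL_id, St.id_comp]

end Crest.Agent.R090.DualSB698
end
end

-- ▼ part R090/HopfA_297
section

/-!
# Row 90, HOPF part A (owner helper297): translations, scalings and collapses of `OnePoint E`

`E` is a finite dimensional real normed space.
-/

set_option autoImplicit false
set_option linter.unusedSectionVars false
set_option linter.style.haveILetI false

open Topology Filter Set Metric

namespace Crest.Agent.R090.Hopf297

open OnePoint Sp962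
open scoped unitInterval

section general

variable {X : Type*} [TopologicalSpace X]
variable {E : Type*} [NormedAddCommGroup E] [NormedSpace ℝ E] [FiniteDimensional ℝ E]

theorem properE (E : Type*) [NormedAddCommGroup E] [NormedSpace ℝ E] [FiniteDimensional ℝ E] :
    ProperSpace E := FiniteDimensional.proper ℝ E

/-- tending to the point at infinity of `OnePoint E` -/
theorem tendsto_inf_iff {α : Type*} {l : Filter α} {F : α → OnePoint E} :
    Tendsto F l (𝓝 ∞) ↔ ∀ R : ℝ, ∀ᶠ z in l, ∀ v : E, F z = (v : OnePoint E) → R < ‖v‖ := by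
  haveI := properE E
  rw [OnePoint.hasBasis_nhds_infty.tendsto_right_iff]
  constructor
  · intro h R
    filter_upwards [h (closedBall (0 : E) R) ⟨isClosed_closedBall, isCompact_closedBall 0 R⟩]
      with z hz v hv
    rcases hz with ⟨w, hw, hw'⟩ | hz
    · rw [hv, coe_eq_coe] at hw'
      subst hw'
      rw [mem_compl_iff, mem_closedBall_zero_iff, not_le] at hw
      exact hw
    · rw [mem_singleton_iff, hv] at hz
      exact absurd hz (coe_ne_infty _)
  · rintro h K ⟨_, hK⟩
    obtain ⟨R, hR⟩ := hK.isBounded.subset_closedBall (0 : E)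
    filter_upwards [h R] with z hz
    cases hv : F z with
    | infty => right; rfl
    | coe v =>
      left
      refine ⟨v, ?_, rfl⟩
      intro hvK
      have := hR hvK
      rw [mem_closedBall_zero_iff] at this
      exact absurd (hz v hv) (not_lt.2 this)

/-- translation by `v`, jointly -/
def sh (y : OnePoint E) (v : E) : OnePoint E := y.elim ∞ fun z => ((z + v : E) : OnePoint E)

@[simp] theorem sh_inf (v : E) : sh (∞ : OnePoint E) v = ∞ := rfl
@[simp] theorem sh_coe (z v : E) : sh (z : OnePoint E) v = ((z + v : E) : OnePoint E) := rfl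

theorem sh_eq_coe {y : OnePoint E} {v w : E} (h : sh y v = (w : OnePoint E)) :
    y = ((w - v : E) : OnePoint E) := by
  induction y using OnePoint.rec with
  | infty => exact absurd h (infty_ne_coe _)
  | coe z =>
    rw [sh_coe, coe_eq_coe] at h
    rw [← h, add_sub_cancel_right]

theorem continuous_sh : Continuous (fun p : OnePoint E × E => sh p.1 p.2) := by
  haveI := properE E
  rw [continuous_iff_continuousAt]
  rintro ⟨y, v⟩
  induction y using OnePoint.rec with
  | infty =>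
    rw [ContinuousAt]
    change Tendsto _ _ (𝓝 ∞)
    rw [tendsto_inf_iff]
    intro R
    have h1 : ∀ᶠ y : OnePoint E in 𝓝 ∞, ∀ z : E, y = (z : OnePoint E) → R + (‖v‖ + 1) < ‖z‖ :=
      (tendsto_inf_iff.1 tendsto_id) _
    have h2 : ∀ᶠ w : E in 𝓝 v, ‖w‖ < ‖v‖ + 1 :=
      (continuous_norm.tendsto v).eventually (gt_mem_nhds (by linarith))
    filter_upwards [h1.prod_inl_nhds v, h2.prod_inr_nhds (∞ : OnePoint E)] with p hp1 hp2 w hw
    have := hp1 _ (sh_eq_coe hw)
    have h3 : ‖w - p.2‖ ≤ ‖w‖ + ‖p.2‖ := norm_sub_le _ _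
    linarith
  | coe z =>
    have he : IsOpenEmbedding (Prod.map ((↑) : E → OnePoint E) (id : E → E)) :=
      isOpenEmbedding_coe.prodMap IsOpenEmbedding.id
    have : ContinuousAt ((fun p : OnePoint E × E => sh p.1 p.2) ∘
        (Prod.map ((↑) : E → OnePoint E) (id : E → E))) (z, v) := by
      have e : ((fun p : OnePoint E × E => sh p.1 p.2) ∘
        (Prod.map ((↑) : E → OnePoint E) (id : E → E))) =
          fun p : E × E => ((p.1 + p.2 : E) : OnePoint E) := rfl
      rw [e]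
      exact (continuous_coe.comp (continuous_fst.add continuous_snd)).continuousAt
    exact he.continuousAt_iff.1 this

/-- extension by zero of a continuous function with compact support -/
theorem continuous_ext {Y : Type*} [TopologicalSpace Y] [T2Space Y] {F : Type*}
    [NormedAddCommGroup F] {w : OnePoint Y → F}
    (h : Continuous fun y : Y => w y) (h0 : w ∞ = 0)
    (K : Set Y) (hK : IsCompact K) (hw : ∀ y : Y, y ∉ K → w y = 0) : Continuous w := by
  rw [OnePoint.continuous_iff]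
  refine ⟨?_, h⟩
  rw [h0]
  refine tendsto_const_nhds.congr' ?_
  have : Kᶜ ∈ coclosedCompact Y := hasBasis_coclosedCompact.mem_of_mem ⟨hK.isClosed, hK⟩
  filter_upwards [this] with y hy
  exact (hw y hy).symm

/-! ## the collapse `y ↦ y / (1 - s|y|/δ)` -/

/-- `y ↦ (δ / (δ - s ‖y‖)) • y` where `s ‖y‖ < δ`, and `∞` elsewhere -/
noncomputable def kap (δ s : ℝ) (y : OnePoint E) : OnePoint E :=
  open Classical in
  y.elim ∞ fun z => if s * ‖z‖ < δ then (((δ / (δ - s * ‖z‖)) • z : E) : OnePoint E) else ∞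

@[simp] theorem kap_inf (δ s : ℝ) : kap δ s (∞ : OnePoint E) = ∞ := rfl

theorem kap_coe_lt {δ s : ℝ} {z : E} (h : s * ‖z‖ < δ) :
    kap δ s (z : OnePoint E) = (((δ / (δ - s * ‖z‖)) • z : E) : OnePoint E) := if_pos h

theorem kap_coe_ge {δ s : ℝ} {z : E} (h : δ ≤ s * ‖z‖) : kap δ s (z : OnePoint E) = ∞ :=
  if_neg (not_lt.2 h)

theorem kap_eq_coe {δ s : ℝ} {y : OnePoint E} {v : E} (h : kap δ s y = (v : OnePoint E)) :
    ∃ z : E, y = (z : OnePoint E) ∧ s * ‖z‖ < δ ∧ v = (δ / (δ - s * ‖z‖)) • z := by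
  induction y using OnePoint.rec with
  | infty => exact absurd h (infty_ne_coe _)
  | coe z =>
    by_cases hz : s * ‖z‖ < δ
    · rw [kap_coe_lt hz, coe_eq_coe] at h
      exact ⟨z, rfl, hz, h.symm⟩
    · rw [kap_coe_ge (not_lt.1 hz)] at h
      exact absurd h (infty_ne_coe _)

theorem kap_zero_s {δ : ℝ} (hδ : 0 < δ) (y : OnePoint E) : kap δ 0 y = y := by
  induction y using OnePoint.rec with
  | infty => rfl
  | coe z =>
    rw [kap_coe_lt (by simpa using hδ)]
    simp [hδ.ne']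

theorem continuous_kap {δ : ℝ} (hδ : 0 < δ) :
    Continuous (fun p : I × OnePoint E => kap δ (p.1 : ℝ) p.2) := by
  haveI := properE E
  rw [continuous_iff_continuousAt]
  rintro ⟨s, y⟩
  induction y using OnePoint.rec with
  | infty =>
    rw [ContinuousAt]
    change Tendsto _ _ (𝓝 ∞)
    rw [tendsto_inf_iff]
    intro R
    have h1 : ∀ᶠ y : OnePoint E in 𝓝 ∞, ∀ z : E, y = (z : OnePoint E) → R < ‖z‖ :=
      (tendsto_inf_iff.1 tendsto_id) _
    filter_upwards [h1.prod_inr_nhds s] with p hp v hv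
    obtain ⟨z, hz, hlt, rfl⟩ := kap_eq_coe hv
    have h2 := hp z hz
    have h3 : 0 < δ - p.1 * ‖z‖ := by linarith
    have h4 : (1 : ℝ) ≤ δ / (δ - p.1 * ‖z‖) := by
      rw [le_div_iff₀ h3]
      have : 0 ≤ (p.1 : ℝ) * ‖z‖ := mul_nonneg p.1.2.1 (norm_nonneg _)
      linarith
    rw [norm_smul, Real.norm_of_nonneg (by linarith)]
    nlinarith [norm_nonneg z]
  | coe z0 =>
    by_cases h0 : (s : ℝ) * ‖z0‖ < δ
    · have he : IsOpenEmbedding (Prod.map (id : I → I) ((↑) : E → OnePoint E)) :=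
        IsOpenEmbedding.id.prodMap isOpenEmbedding_coe
      have : ContinuousAt ((fun p : I × OnePoint E => kap δ (p.1 : ℝ) p.2) ∘
          (Prod.map (id : I → I) ((↑) : E → OnePoint E))) (s, z0) := by
        have hc : ContinuousAt (fun p : I × E =>
            (((δ / (δ - (p.1 : ℝ) * ‖p.2‖)) • p.2 : E) : OnePoint E)) (s, z0) := by
          refine continuous_coe.continuousAt.comp ?_
          refine ContinuousAt.smul (ContinuousAt.div continuousAt_const (by fun_prop) ?_)
            (by fun_prop)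
          simp only
          linarith
        refine hc.congr ?_
        have hopen : ∀ᶠ p : I × E in 𝓝 (s, z0), (p.1 : ℝ) * ‖p.2‖ < δ := by
          have : Continuous fun p : I × E => (p.1 : ℝ) * ‖p.2‖ := by fun_prop
          exact (this.tendsto (s, z0)).eventually (gt_mem_nhds h0)
        filter_upwards [hopen] with p hp
        exact (kap_coe_lt hp).symm
      exact he.continuousAt_iff.1 this
    · have hval : kap δ (s : ℝ) (z0 : OnePoint E) = ∞ := kap_coe_ge (not_lt.1 h0)
      rw [ContinuousAt]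
      change Tendsto _ _ (𝓝 (kap δ (s : ℝ) (z0 : OnePoint E)))
      rw [hval, tendsto_inf_iff]
      intro R
      have hz0 : 0 < ‖z0‖ := by
        rcases (norm_nonneg z0).lt_or_eq with h | h
        · exact h
        · rw [← h, mul_zero] at h0
          exact absurd hδ h0
      have he : IsOpenEmbedding (Prod.map (id : I → I) ((↑) : E → OnePoint E)) :=
        IsOpenEmbedding.id.prodMap isOpenEmbedding_coe
      have hmap : 𝓝 (s, (z0 : OnePoint E)) =
          Filter.map (Prod.map (id : I → I) ((↑) : E → OnePoint E)) (𝓝 (s, z0)) :=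
        (he.map_nhds_eq (s, z0)).symm
      rw [hmap, eventually_map]
      set a : ℝ := ‖z0‖ / 2 with ha
      have ha0 : 0 < a := by positivity
      have e1 : ∀ᶠ p : I × E in 𝓝 (s, z0), a < ‖p.2‖ := by
        have : Continuous fun p : I × E => ‖p.2‖ := by fun_prop
        exact (this.tendsto (s, z0)).eventually (lt_mem_nhds (by simp only; linarith))
      have hR : 0 < |R| + 1 := by positivity
      have e2 : ∀ᶠ p : I × E in 𝓝 (s, z0), δ - δ * a / (|R| + 1) < (p.1 : ℝ) * ‖p.2‖ := by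
        have : Continuous fun p : I × E => (p.1 : ℝ) * ‖p.2‖ := by fun_prop
        refine (this.tendsto (s, z0)).eventually (lt_mem_nhds ?_)
        have : 0 < δ * a / (|R| + 1) := by positivity
        simp only
        linarith [not_lt.1 h0]
      filter_upwards [e1, e2] with p hp1 hp2 v hv
      change kap δ (p.1 : ℝ) (p.2 : OnePoint E) = v at hv
      obtain ⟨z, hz, hlt, rfl⟩ := kap_eq_coe hv
      have hz' : p.2 = z := coe_injective hz
      rw [← hz'] at hlt ⊢
      have h3 : 0 < δ - p.1 * ‖p.2‖ := sub_pos.2 hlt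
      rw [norm_smul, Real.norm_of_nonneg (by positivity)]
      have h5 : R < |R| + 1 := by linarith [le_abs_self R]
      refine h5.trans ?_
      rw [div_mul_eq_mul_div, lt_div_iff₀ h3]
      have h6 : (|R| + 1) * (δ - p.1 * ‖p.2‖) < δ * a := by
        have : δ - p.1 * ‖p.2‖ < δ * a / (|R| + 1) := by
          linarith
        rwa [lt_div_iff₀ hR, mul_comm] at this
      exact h6.trans (mul_lt_mul_of_pos_left hp1 hδ)

/-- the collapse onto the open ball of radius `δ` -/
noncomputable def kapP (E : Type*) [NormedAddCommGroup E] [NormedSpace ℝ E] [FiniteDimensional ℝ E]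
    {δ : ℝ} (hδ : 0 < δ) : PMap E E where
  toFun := kap δ 1
  cont := by
    have := (continuous_kap (E := E) hδ).comp (Continuous.prodMk_right (1 : I))
    simpa [Function.comp_def] using this
  map_inf := rfl

theorem kapP_apply {δ : ℝ} (hδ : 0 < δ) (y : OnePoint E) : kapP E hδ y = kap δ 1 y := rfl

theorem kapP_homotopic {δ : ℝ} (hδ : 0 < δ) : (PMap.id E).Homotopic (kapP E hδ) := by
  refine PMap.Homotopic.of (fun p => kap δ (p.1 : ℝ) p.2) (continuous_kap hδ) ?_ ?_ ?_
  · intro x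
    simp [kap_zero_s hδ]
  · intro x
    simp [kapP_apply]
  · intro t
    rfl

theorem kapP_eq_coe {δ : ℝ} (hδ : 0 < δ) {y : OnePoint E} {v : E}
    (h : kapP E hδ y = (v : OnePoint E)) : ∃ z : E, y = (z : OnePoint E) ∧ ‖z‖ < δ := by
  obtain ⟨z, hz, hlt, _⟩ := kap_eq_coe (E := E) (s := 1) h
  exact ⟨z, hz, by simpa using hlt⟩

theorem kapP_eq_zero {δ : ℝ} (hδ : 0 < δ) {y : OnePoint E} :
    kapP E hδ y = ((0 : E) : OnePoint E) ↔ y = ((0 : E) : OnePoint E) := by
  constructor
  · intro h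
    obtain ⟨z, hz, hlt, hv⟩ := kap_eq_coe (E := E) (s := 1) h
    have : z = 0 := by
      rcases smul_eq_zero.1 hv.symm with h' | h'
      · exact absurd h' (div_pos hδ (by linarith)).ne'
      · exact h'
    rw [hz, this]
  · rintro rfl
    rw [kapP_apply, kap_coe_lt (by simpa using hδ)]
    simp

/-- derivative of the collapse at the origin -/
theorem hasFDerivAt_kap {δ : ℝ} (hδ : 0 < δ) :
    HasFDerivAt (fun z : E => (δ / (δ - 1 * ‖z‖)) • z) (ContinuousLinearMap.id ℝ E) 0 := by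
  rw [hasFDerivAt_iff_isLittleO_nhds_zero]
  have : (fun h : E => (δ / (δ - 1 * ‖0 + h‖)) • (0 + h) - (δ / (δ - 1 * ‖(0 : E)‖)) • (0 : E) -
      (ContinuousLinearMap.id ℝ E) h) = fun h : E => (δ / (δ - ‖h‖) - 1) • h := by
    funext h
    simp [sub_smul]
  rw [this]
  have h1 : Tendsto (fun h : E => δ / (δ - ‖h‖) - 1) (𝓝 0) (𝓝 0) := by
    have hc : ContinuousAt (fun h : E => δ / (δ - ‖h‖) - 1) 0 := by
      refine ContinuousAt.sub (ContinuousAt.div continuousAt_const (by fun_prop) ?_)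
        continuousAt_const
      simpa using hδ.ne'
    have := hc.tendsto
    simpa [hδ.ne'] using this
  have h2 : (fun h : E => δ / (δ - ‖h‖) - 1) =o[𝓝 0] (fun _ : E => (1 : ℝ)) :=
    (Asymptotics.isLittleO_one_iff ℝ).2 h1
  have h3 := h2.smul_isBigO (Asymptotics.isBigO_refl (fun h : E => h) (𝓝 0))
  simpa using h3

end general

end Crest.Agent.R090.Hopf297
end

-- ▼ part R090/HopfB_297
section

/-!
# Row 90, HOPF part B (owner helper297): every pointed self map of a sphere is homotopic to one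
with finitely many regular zeros
-/

set_option autoImplicit false
set_option linter.unusedSectionVars false
set_option linter.style.haveILetI false

open Topology Filter Set Metric

namespace Crest.Agent.R090.Hopf297

open OnePoint Sp962
open scoped unitInterval Manifold ContDiff

variable {E : Type*} [NormedAddCommGroup E] [NormedSpace ℝ E] [FiniteDimensional ℝ E]

theorem exists_approx (F : E → E) (hF : Continuous F) {ε : ℝ} (hε : 0 < ε) :
    ∃ p : E → E, ContDiff ℝ 1 p ∧ ∀ x, ‖p x - F x‖ < ε := by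
  haveI := properE E
  obtain ⟨g, hg⟩ := exists_contMDiffMap_forall_mem_convex_of_local_const (n := 1) (𝓘(ℝ, E))
    (M := E) (F := E) (t := fun x => ball (F x) ε) (fun x => convex_ball _ _) (fun x => by
      refine ⟨F x, ?_⟩
      have : ∀ᶠ y in 𝓝 x, dist (F y) (F x) < ε := hF.continuousAt.eventually (ball_mem_nhds _ hε)
      filter_upwards [this] with y hy
      rw [mem_ball, dist_comm]
      exact hy)
  refine ⟨g, g.contMDiff.contDiff, fun x => ?_⟩
  have := hg x
  rwa [mem_ball, dist_eq_norm] at this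

theorem exists_regular {p : E → E} (hp : ContDiff ℝ 1 p) {ε : ℝ} (hε : 0 < ε) :
    ∃ c : E, ‖c‖ < ε ∧ ∀ x, p x = c →
      ∃ A : E ≃L[ℝ] E, HasStrictFDerivAt p (A : E →L[ℝ] E) x := by
  haveI := properE E
  borelize E
  set μ : MeasureTheory.Measure E := MeasureTheory.Measure.addHaar with hμ
  set S : Set E := {x | (fderiv ℝ p x).det = 0} with hS
  have h0 : μ (p '' S) = 0 := by
    refine MeasureTheory.addHaar_image_eq_zero_of_det_fderivWithin_eq_zero μ
      (f' := fun x => fderiv ℝ p x) (fun x _ => ?_) (fun x hx => hx)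
    exact ((hp.differentiable one_ne_zero x).hasFDerivAt).hasFDerivWithinAt
  have h1 : 0 < μ (ball (0 : E) ε) := measure_ball_pos μ 0 hε
  obtain ⟨c, hc, hc'⟩ : ∃ c ∈ ball (0 : E) ε, c ∉ p '' S := by
    by_contra hcon
    push Not at hcon
    have : μ (ball (0 : E) ε) ≤ μ (p '' S) := MeasureTheory.measure_mono hcon
    rw [h0] at this
    exact absurd h1 (not_lt.2 this)
  refine ⟨c, by simpa using hc, fun x hx => ?_⟩
  have hdet : (fderiv ℝ p x).det ≠ 0 := fun h => hc' ⟨x, h, hx⟩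
  refine ⟨(fderiv ℝ p x).toContinuousLinearEquivOfDetNeZero hdet, ?_⟩
  have := hp.contDiffAt.hasStrictFDerivAt (x := x) one_ne_zero
  simpa using this

/-- a pointed self map with finitely many zeros, all regular -/
structure RegZ (g : PMap E E) : Prop where
  fin : {x : E | g x = ((0 : E) : OnePoint E)}.Finite
  reg : ∀ x : E, g x = ((0 : E) : OnePoint E) → ∃ (p : E → E) (A : E ≃L[ℝ] E),
    HasFDerivAt p (A : E →L[ℝ] E) x ∧ ∀ᶠ y : E in 𝓝 x, g y = (p y : OnePoint E)

/-- preimages of closed balls are compact in `E` -/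
theorem isCompact_pre (f : PMap E E) (R : ℝ) :
    IsCompact {x : E | ∃ v : E, f x = (v : OnePoint E) ∧ ‖v‖ ≤ R} := by
  haveI := properE E
  have h1 : IsClosed ((↑) '' (closedBall (0 : E) R) : Set (OnePoint E)) :=
    isClosed_image_coe.2 ⟨isClosed_closedBall, isCompact_closedBall 0 R⟩
  have h2 : IsCompact (f ⁻¹' ((↑) '' (closedBall (0 : E) R) : Set (OnePoint E))) :=
    (h1.preimage f.cont).isCompact
  have h3 : (f ⁻¹' ((↑) '' (closedBall (0 : E) R) : Set (OnePoint E))) =
      ((↑) : E → OnePoint E) '' {x : E | ∃ v : E, f x = (v : OnePoint E) ∧ ‖v‖ ≤ R} := by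
    ext y
    induction y using OnePoint.rec with
    | infty =>
      constructor
      · rintro ⟨v, _, hv⟩
        rw [f.map_inf] at hv
        exact absurd hv (coe_ne_infty _)
      · rintro ⟨x, _, hx⟩
        exact absurd hx (coe_ne_infty _)
    | coe y =>
      constructor
      · rintro ⟨v, hv, hv'⟩
        exact ⟨y, ⟨v, hv'.symm, by simpa using hv⟩, rfl⟩
      · rintro ⟨x, ⟨v, hv, hvR⟩, hx⟩
        rw [coe_eq_coe] at hx
        subst hx
        exact ⟨v, by simpa using hvR, hv.symm⟩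
  rw [h3] at h2
  exact isOpenEmbedding_coe.isEmbedding.isCompact_iff.2 h2

/-- radial cut off function on `OnePoint E` -/
noncomputable def cut (R : ℝ) (y : OnePoint E) : ℝ := y.elim 0 fun z => max 0 (min 1 (R - ‖z‖))

@[simp] theorem cut_inf (R : ℝ) : cut R (∞ : OnePoint E) = 0 := rfl
@[simp] theorem cut_coe (R : ℝ) (z : E) : cut R (z : OnePoint E) = max 0 (min 1 (R - ‖z‖)) := rfl

theorem cut_nonneg (R : ℝ) (y : OnePoint E) : 0 ≤ cut R y := by
  induction y using OnePoint.rec with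
  | infty => simp
  | coe z => simp

theorem cut_le_one (R : ℝ) (y : OnePoint E) : cut R y ≤ 1 := by
  induction y using OnePoint.rec with
  | infty => simp
  | coe z => simp

theorem cut_eq_one {R : ℝ} {z : E} (h : ‖z‖ ≤ R - 1) : cut R (z : OnePoint E) = 1 := by
  rw [cut_coe, min_eq_left (by linarith)]
  simp

theorem cut_eq_zero {R : ℝ} {z : E} (h : R ≤ ‖z‖) : cut R (z : OnePoint E) = 0 := by
  rw [cut_coe]
  refine max_eq_left ?_
  exact (min_le_right _ _).trans (by linarith)

theorem continuous_cut (R : ℝ) : Continuous (cut R : OnePoint E → ℝ) := by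
  haveI := properE E
  refine continuous_ext (K := closedBall (0 : E) R) ?_ rfl (isCompact_closedBall 0 R) ?_
  · change Continuous fun z : E => max 0 (min 1 (R - ‖z‖))
    fun_prop
  · intro z hz
    rw [mem_closedBall_zero_iff, not_le] at hz
    exact cut_eq_zero hz.le

/-- radially cut off identity -/
noncomputable def cutId (R : ℝ) (y : OnePoint E) : E := y.elim 0 fun z => cut R (z : OnePoint E) • z

theorem cutId_coe (R : ℝ) (z : E) : cutId R (z : OnePoint E) = cut R (z : OnePoint E) • z := rfl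

theorem cutId_of_le {R : ℝ} {z : E} (h : ‖z‖ ≤ R - 1) : cutId R (z : OnePoint E) = z := by
  rw [cutId_coe, cut_eq_one h, one_smul]

theorem continuous_cutId (R : ℝ) : Continuous (cutId R : OnePoint E → E) := by
  haveI := properE E
  refine continuous_ext (K := closedBall (0 : E) R) ?_ rfl (isCompact_closedBall 0 R) ?_
  · change Continuous fun z : E => cut R (z : OnePoint E) • z
    exact ((continuous_cut R).comp continuous_coe).smul continuous_id
  · intro z hz
    rw [mem_closedBall_zero_iff, not_le] at hz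
    rw [cutId_coe, cut_eq_zero hz.le, zero_smul]

theorem exists_regZ (f : PMap E E) : ∃ g : PMap E E, f.Homotopic g ∧ RegZ g := by
  haveI := properE E
  have hFc : Continuous fun x : E => cutId 4 (f x) :=
    (continuous_cutId 4).comp (f.cont.comp continuous_coe)
  obtain ⟨p, hp, hpF⟩ := exists_approx _ hFc (ε := 1 / 4) (by norm_num)
  obtain ⟨c, hc, hreg⟩ := exists_regular hp (ε := 1 / 4) (by norm_num)
  -- the displacement
  set w : OnePoint E → E := fun y =>
    y.elim 0 fun x => cut 3 (f x) • (p x - c - cutId 4 (f x)) with hw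
  have hwcoe : ∀ x : E, w x = cut 3 (f x) • (p x - c - cutId 4 (f x)) := fun x => rfl
  have hwc : Continuous w := by
    refine continuous_ext ?_ rfl _ (isCompact_pre f 3) ?_
    · change Continuous fun x : E => cut 3 (f x) • (p x - c - cutId 4 (f x))
      exact ((continuous_cut 3).comp (f.cont.comp continuous_coe)).smul
        ((hp.continuous.sub continuous_const).sub hFc)
    · intro x hx
      rw [hwcoe]
      have : cut 3 (f x) = 0 := by
        cases hv : f x with
        | infty => rfl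
        | coe v =>
          refine cut_eq_zero ?_
          by_contra hlt
          exact hx ⟨v, hv, (not_le.1 hlt).le⟩
      rw [this, zero_smul]
  have hwn : ∀ x : E, ‖w x‖ < 1 := by
    intro x
    rw [hwcoe, norm_smul, Real.norm_of_nonneg (cut_nonneg _ _)]
    have h1 : ‖p x - c - cutId 4 (f x)‖ ≤ ‖p x - cutId 4 (f x)‖ + ‖c‖ := by
      have : p x - c - cutId 4 (f x) = (p x - cutId 4 (f x)) - c := by abel
      rw [this]
      exact norm_sub_le _ _
    have h2 := hpF x
    have h3 := cut_le_one 3 (f x)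
    have h4 := cut_nonneg 3 (f x)
    have h5 := norm_nonneg (p x - c - cutId 4 (f x))
    calc cut 3 (f x) * ‖p x - c - cutId 4 (f x)‖ ≤ 1 * ‖p x - c - cutId 4 (f x)‖ :=
          mul_le_mul_of_nonneg_right h3 h5
      _ < 1 := by linarith
  let g : PMap E E :=
    { toFun := fun y => sh (f y) (w y)
      cont := continuous_sh.comp (f.cont.prodMk hwc)
      map_inf := by simp }
  have hg : ∀ y, g y = sh (f y) (w y) := fun y => rfl
  -- where `|f| < 1`, we have `g = p - c`
  have hgp : ∀ (x v : E), f x = (v : OnePoint E) → ‖v‖ ≤ 2 → g x = ((p x - c : E) : OnePoint E) := by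
    intro x v hv hvn
    rw [hg, hv, sh_coe, hwcoe, hv, cut_eq_one (by linarith), one_smul, cutId_of_le (by linarith)]
    congr 1
    abel
  have hzero : ∀ x : E, g x = ((0 : E) : OnePoint E) → ∃ v : E, f x = (v : OnePoint E) ∧ ‖v‖ < 1 := by
    intro x hx
    rw [hg] at hx
    have := sh_eq_coe hx
    refine ⟨_, this, ?_⟩
    rw [zero_sub, norm_neg]
    exact hwn x
  have hnear : ∀ (x v : E), f x = (v : OnePoint E) → ‖v‖ < 1 →
      ∀ᶠ y : E in 𝓝 x, g y = ((p y - c : E) : OnePoint E) := by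
    intro x v hv hvn
    have h1 : IsOpen ((↑) '' (ball (0 : E) 1) : Set (OnePoint E)) := isOpen_image_coe.2 isOpen_ball
    have h2 : ∀ᶠ y : E in 𝓝 x, f y ∈ ((↑) '' (ball (0 : E) 1) : Set (OnePoint E)) := by
      refine (f.cont.comp continuous_coe).continuousAt.eventually (h1.mem_nhds ?_)
      exact ⟨v, by simpa using hvn, hv.symm⟩
    filter_upwards [h2] with y hy
    obtain ⟨u, hu, hu'⟩ := hy
    refine hgp y u hu'.symm ?_
    have : ‖u‖ < 1 := by simpa using hu
    linarith
  refine ⟨g, ?_, ?_, ?_⟩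
  · refine PMap.Homotopic.of (fun q => sh (f q.2) ((q.1 : ℝ) • w q.2)) ?_ ?_ ?_ ?_
    · exact continuous_sh.comp ((f.cont.comp continuous_snd).prodMk
        ((continuous_subtype_val.comp continuous_fst).smul (hwc.comp continuous_snd)))
    · intro x
      simp only [Set.Icc.coe_zero, zero_smul]
      cases hv : f x with
      | infty => rfl
      | coe v => rw [sh_coe, add_zero]
    · intro x
      simp only [Set.Icc.coe_one, one_smul]
      rfl
    · intro t
      simp
  · -- finiteness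
    have hcomp : IsCompact {x : E | ∃ v : E, f x = (v : OnePoint E) ∧ ‖v‖ ≤ 1} := isCompact_pre f 1
    by_contra hinf
    obtain ⟨x, _, hx⟩ := Set.Infinite.exists_accPt_of_subset_isCompact hinf hcomp
      (fun x hx => by
        obtain ⟨v, hv, hvn⟩ := hzero x hx
        exact ⟨v, hv, hvn.le⟩)
    have hclosed : IsClosed {x : E | g x = ((0 : E) : OnePoint E)} :=
      isClosed_eq (g.cont.comp continuous_coe) continuous_const
    have hxZ : g x = ((0 : E) : OnePoint E) := by
      have : x ∈ closure {x : E | g x = ((0 : E) : OnePoint E)} := by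
        rw [mem_closure_iff_clusterPt]
        exact hx.clusterPt
      rwa [hclosed.closure_eq] at this
    obtain ⟨v, hv, hvn⟩ := hzero x hxZ
    have hpx : p x = c := by
      have := hgp x v hv (by linarith)
      rw [hxZ, coe_eq_coe] at this
      exact (sub_eq_zero.1 this.symm)
    obtain ⟨A, hA⟩ := hreg x hpx
    have hinj : ∀ᶠ y in 𝓝[≠] x, p y ≠ p x := by
      exact hA.hasFDerivAt.eventually_ne ⟨_, A.antilipschitz⟩
    have hfreq := accPt_iff_frequently.1 hx
    have hn := hnear x v hv hvn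
    refine hfreq ?_
    rw [eventually_nhdsWithin_iff] at hinj
    filter_upwards [hinj, hn] with y hy1 hy2 ⟨hne, hyZ⟩
    refine hy1 hne ?_
    replace hyZ : g y = ((0 : E) : OnePoint E) := hyZ
    rw [hy2, coe_eq_coe] at hyZ
    rw [sub_eq_zero.1 hyZ, hpx]
  · intro x hx
    obtain ⟨v, hv, hvn⟩ := hzero x hx
    have hpx : p x = c := by
      have := hgp x v hv (by linarith)
      rw [hx, coe_eq_coe] at this
      exact (sub_eq_zero.1 this.symm)
    obtain ⟨A, hA⟩ := hreg x hpx
    exact ⟨fun y => p y - c, A, hA.hasFDerivAt.sub_const c, hnear x v hv hvn⟩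

end Crest.Agent.R090.Hopf297
end

-- ▼ part R090/HopfC_297
section

/-!
# Row 90, HOPF part C (owner helper297): a pointed self map of `OnePoint E` with exactly one zero,
which is regular, is homotopic to a linear isomorphism
-/

set_option autoImplicit false
set_option linter.unusedSectionVars false
set_option linter.style.haveILetI false

open Topology Filter Set Metric

namespace Crest.Agent.R090.Hopf297

open OnePoint Sp962
open scoped unitInterval

variable {E : Type*} [NormedAddCommGroup E] [NormedSpace ℝ E] [FiniteDimensional ℝ E]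

/-- scalar multiplication on `OnePoint E` (used for `c ≠ 0`) -/
def scal (c : ℝ) (y : OnePoint E) : OnePoint E := y.elim ∞ fun z => ((c • z : E) : OnePoint E)

@[simp] theorem scal_inf (c : ℝ) : scal c (∞ : OnePoint E) = ∞ := rfl
@[simp] theorem scal_coe (c : ℝ) (z : E) : scal c (z : OnePoint E) = ((c • z : E) : OnePoint E) :=
  rfl

@[simp] theorem scal_one (y : OnePoint E) : scal 1 y = y := by
  induction y using OnePoint.rec with
  | infty => rfl
  | coe z => simp

theorem scal_eq_coe {c : ℝ} {y : OnePoint E} {v : E} (h : scal c y = (v : OnePoint E)) :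
    ∃ z : E, y = (z : OnePoint E) ∧ v = c • z := by
  induction y using OnePoint.rec with
  | infty => exact absurd h (infty_ne_coe _)
  | coe z => exact ⟨z, rfl, (coe_injective h).symm⟩

theorem continuousAt_scal {c : ℝ} (hc : 0 < c) (y : OnePoint E) :
    ContinuousAt (fun p : ℝ × OnePoint E => scal p.1 p.2) (c, y) := by
  induction y using OnePoint.rec with
  | infty =>
    rw [ContinuousAt]
    change Tendsto _ _ (𝓝 ∞)
    rw [tendsto_inf_iff]
    intro R
    have h1 : ∀ᶠ y : OnePoint E in 𝓝 ∞, ∀ z : E, y = (z : OnePoint E) → |R| * (2 / c) < ‖z‖ :=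
      (tendsto_inf_iff.1 tendsto_id) _
    have h2 : ∀ᶠ d : ℝ in 𝓝 c, c / 2 < d := lt_mem_nhds (by linarith)
    filter_upwards [h1.prod_inr_nhds c, h2.prod_inl_nhds (∞ : OnePoint E)] with p hp1 hp2 v hv
    obtain ⟨z, hz, rfl⟩ := scal_eq_coe hv
    have h3 := hp1 z hz
    rw [norm_smul, Real.norm_of_nonneg (by linarith)]
    have h4 : |R| < (c / 2) * ‖z‖ := by
      have : |R| * (2 / c) * (c / 2) < ‖z‖ * (c / 2) := mul_lt_mul_of_pos_right h3 (by linarith)
      have e : |R| * (2 / c) * (c / 2) = |R| := by field_simp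
      rw [e] at this
      linarith
    have h5 : (c / 2) * ‖z‖ ≤ p.1 * ‖z‖ := mul_le_mul_of_nonneg_right hp2.le (norm_nonneg _)
    linarith [le_abs_self R]
  | coe z =>
    have he : IsOpenEmbedding (Prod.map (id : ℝ → ℝ) ((↑) : E → OnePoint E)) :=
      IsOpenEmbedding.id.prodMap isOpenEmbedding_coe
    have : ContinuousAt ((fun p : ℝ × OnePoint E => scal p.1 p.2) ∘
        (Prod.map (id : ℝ → ℝ) ((↑) : E → OnePoint E))) (c, z) := by
      have e : ((fun p : ℝ × OnePoint E => scal p.1 p.2) ∘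
        (Prod.map (id : ℝ → ℝ) ((↑) : E → OnePoint E))) =
          fun p : ℝ × E => ((p.1 • p.2 : E) : OnePoint E) := rfl
      rw [e]
      exact (continuous_coe.comp (continuous_fst.smul continuous_snd)).continuousAt
    exact he.continuousAt_iff.1 this

/-- a positive lower bound for `‖f‖` on a compact set without zeros -/
theorem exists_lower (f : PMap E E) (K : Set (OnePoint E)) (hK : IsCompact K)
    (h0 : ∀ y ∈ K, f y ≠ ((0 : E) : OnePoint E)) :
    ∃ δ : ℝ, 0 < δ ∧ ∀ y ∈ K, ∀ v : E, f y = (v : OnePoint E) → δ ≤ ‖v‖ := by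
  haveI := properE E
  have h1 : IsCompact (f '' K) := hK.image f.cont
  have h2 : ((0 : E) : OnePoint E) ∉ f '' K := by
    rintro ⟨y, hy, hy'⟩
    exact h0 y hy hy'
  have h3 : ∀ᶠ v : E in 𝓝 0, (v : OnePoint E) ∈ (f '' K)ᶜ :=
    (continuous_coe.tendsto (0 : E)).eventually (h1.isClosed.isOpen_compl.mem_nhds h2)
  obtain ⟨δ, hδ, hδ'⟩ := Metric.eventually_nhds_iff.1 h3
  refine ⟨δ, hδ, fun y hy v hv => ?_⟩
  by_contra hlt
  exact hδ' (by simpa using not_le.1 hlt) ⟨y, hy, hv⟩

/-- one regular zero at the origin -/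
theorem deg_lin0 (f : PMap E E) (q : E → E) (A : E ≃L[ℝ] E) (hq : HasFDerivAt q (A : E →L[ℝ] E) 0)
    (hfq : ∀ᶠ y : E in 𝓝 0, f y = (q y : OnePoint E))
    (hu : ∀ x : E, f x = ((0 : E) : OnePoint E) ↔ x = 0) :
    f.Homotopic (PMap.ofHomeo A.toHomeomorph) := by
  haveI := properE E
  have hq0 : q 0 = 0 := by
    have h1 := hfq.self_of_nhds
    rw [(hu 0).2 rfl, coe_eq_coe] at h1
    exact h1.symm
  have hlit : (fun h : E => q h - A h) =o[𝓝 0] fun h : E => h := by
    have := hasFDerivAt_iff_isLittleO_nhds_zero.1 hq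
    simpa [hq0] using this
  -- lower bound
  obtain ⟨a, ha, ρ, hρ, hlow⟩ : ∃ a : ℝ, 0 < a ∧ ∃ ρ : ℝ, 0 < ρ ∧ ∀ z : E, ‖z‖ < ρ →
      f z = (q z : OnePoint E) ∧ a * ‖z‖ ≤ ‖q z‖ := by
    obtain ⟨C, hC⟩ : ∃ C : ℝ, 0 < C ∧ ∀ z, ‖z‖ ≤ C * ‖A z‖ := by
      refine ⟨‖(A.symm : E →L[ℝ] E)‖ + 1, by positivity, fun z => ?_⟩
      have h1 : ‖(A.symm : E →L[ℝ] E) (A z)‖ ≤ _ := (A.symm : E →L[ℝ] E).le_opNorm (A z)
      have h2 : (A.symm : E →L[ℝ] E) (A z) = z := A.symm_apply_apply z
      rw [h2] at h1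
      nlinarith [norm_nonneg (A z)]
    have h1 := hlit.def (show 0 < 1 / (2 * C) by have := hC.1; positivity)
    obtain ⟨ρ, hρ, hρ'⟩ := Metric.eventually_nhds_iff.1 (h1.and hfq)
    refine ⟨1 / (2 * C), by have := hC.1; positivity, ρ, hρ, fun z hz => ?_⟩
    obtain ⟨h2, h3⟩ := hρ' (show dist z 0 < ρ by simpa using hz)
    refine ⟨h3, ?_⟩
    have h4 := hC.2 z
    have h5 : ‖A z‖ ≤ ‖q z‖ + ‖q z - A z‖ := by
      have : A z = q z - (q z - A z) := by abel
      calc ‖A z‖ = ‖q z - (q z - A z)‖ := by rw [← this]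
        _ ≤ _ := norm_sub_le _ _
    have h6 : ‖z‖ / C ≤ ‖A z‖ := by
      rw [div_le_iff₀ hC.1, mul_comm]
      exact h4
    have h7 : 1 / (2 * C) * ‖z‖ + 1 / (2 * C) * ‖z‖ = ‖z‖ / C := by
      have := hC.1.ne'
      field_simp
      ring
    linarith
  obtain ⟨δ, hδ, hδ'⟩ := exists_lower f ((↑) '' ball (0 : E) ρ)ᶜ
    (isOpen_image_coe.2 isOpen_ball).isClosed_compl.isCompact (by
      intro y hy h0
      cases y with
      | infty =>
        rw [f.map_inf] at h0
        exact infty_ne_coe _ h0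
      | coe x =>
        have := (hu x).1 h0
        subst this
        exact hy ⟨0, by simpa using hρ, rfl⟩)
  -- `‖f z‖ ≥ c * min (‖z‖) 1`
  obtain ⟨c, hc, hcb⟩ : ∃ c : ℝ, 0 < c ∧ ∀ z v : E, f z = (v : OnePoint E) →
      c * min ‖z‖ 1 ≤ ‖v‖ := by
    refine ⟨min a δ, lt_min ha hδ, fun z v hv => ?_⟩
    by_cases hz : ‖z‖ < ρ
    · obtain ⟨h1, h2⟩ := hlow z hz
      rw [hv, coe_eq_coe] at h1
      subst h1
      refine le_trans ?_ h2
      exact mul_le_mul (min_le_left _ _) (min_le_left _ _) (by positivity) ha.le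
    · have h1 : (z : OnePoint E) ∈ ((↑) '' ball (0 : E) ρ : Set (OnePoint E))ᶜ := by
        rintro ⟨w, hw, hw'⟩
        rw [coe_eq_coe] at hw'
        subst hw'
        exact hz (by simpa using hw)
      have h2 := hδ' _ h1 v hv
      refine le_trans ?_ h2
      calc min a δ * min ‖z‖ 1 ≤ δ * 1 :=
            mul_le_mul (min_le_right _ _) (min_le_right _ _) (by positivity) hδ.le
        _ = δ := mul_one _
  -- the homotopy (parameter `0` : linear map, parameter `1` : `f`)
  set Ah : OnePoint E → OnePoint E := (PMap.ofHomeo A.toHomeomorph).toFun with hAh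
  have hAhcoe : ∀ z : E, Ah z = ((A z : E) : OnePoint E) := fun z => rfl
  classical
  set G : I × OnePoint E → OnePoint E := fun p =>
    if (p.1 : ℝ) = 0 then Ah p.2 else scal (p.1 : ℝ)⁻¹ (f (scal (p.1 : ℝ) p.2)) with hG
  have hGc : Continuous G := by
    rw [continuous_iff_continuousAt]
    rintro ⟨s, y⟩
    rcases s.2.1.eq_or_lt with hs | hs
    · -- `s = 0`
      have hGval : G (s, y) = Ah y := by
        simp only [hG]
        rw [if_pos hs.symm]
      rw [ContinuousAt, hGval]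
      cases y with
      | infty =>
        change Tendsto _ _ (𝓝 ∞)
        rw [tendsto_inf_iff]
        intro R
        -- large radius for the linear map
        have hAinf : ∀ᶠ y : OnePoint E in 𝓝 ∞, ∀ v : E, Ah y = (v : OnePoint E) → R < ‖v‖ := by
          have : Tendsto Ah (𝓝 ∞) (𝓝 ∞) := by
            have h := (PMap.ofHomeo A.toHomeomorph).cont.tendsto (∞ : OnePoint E)
            rwa [(PMap.ofHomeo A.toHomeomorph).map_inf] at h
          exact (tendsto_inf_iff.1 this) R
        set M : ℝ := (|R| + 1) / c with hM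
        have hM0 : 0 < M := by positivity
        have h1 : ∀ᶠ y : OnePoint E in 𝓝 ∞, ∀ z : E, y = (z : OnePoint E) → M < ‖z‖ :=
          (tendsto_inf_iff.1 tendsto_id) _
        have h2 : ∀ᶠ t : I in 𝓝 s, (t : ℝ) < 1 / M := by
          refine (continuous_subtype_val.tendsto s).eventually (gt_mem_nhds ?_)
          rw [← hs]
          positivity
        filter_upwards [h1.prod_inr_nhds s, h2.prod_inl_nhds (∞ : OnePoint E),
          hAinf.prod_inr_nhds s] with p hp1 hp2 hp3 v hv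
        simp only [hG] at hv
        split_ifs at hv with ht
        · exact hp3 v hv
        · have htpos : 0 < (p.1 : ℝ) := lt_of_le_of_ne p.1.2.1 (Ne.symm ht)
          obtain ⟨u, hu1, rfl⟩ := scal_eq_coe hv
          cases hy : p.2 with
          | infty =>
            rw [hy, scal_inf, f.map_inf] at hu1
            exact absurd hu1 (infty_ne_coe _)
          | coe z =>
            rw [hy, scal_coe] at hu1
            have h3 := hcb _ _ hu1
            have h4 := hp1 z hy
            rw [norm_smul, Real.norm_of_nonneg (by positivity)] at h3 ⊢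
            have h5 : M * (p.1 : ℝ) < 1 := by
              rw [lt_div_iff₀ hM0, mul_comm] at hp2
              exact hp2
            have h6 : M * (p.1 : ℝ) ≤ min ((p.1 : ℝ) * ‖z‖) 1 := by
              refine le_min ?_ h5.le
              rw [mul_comm]
              exact mul_le_mul_of_nonneg_left h4.le htpos.le
            have h7 : c * (M * (p.1 : ℝ)) ≤ ‖u‖ := le_trans (mul_le_mul_of_nonneg_left h6 hc.le) h3
            have h8 : c * M = |R| + 1 := by
              rw [hM]
              field_simp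
            have h9 : (|R| + 1) * (p.1 : ℝ) ≤ ‖u‖ := by
              calc (|R| + 1) * (p.1 : ℝ) = c * (M * (p.1 : ℝ)) := by rw [← h8]; ring
                _ ≤ _ := h7
            rw [inv_mul_eq_div, lt_div_iff₀ htpos]
            have : R < |R| + 1 := by linarith [le_abs_self R]
            calc R * (p.1 : ℝ) < (|R| + 1) * (p.1 : ℝ) := mul_lt_mul_of_pos_right this htpos
              _ ≤ ‖u‖ := h9
      | coe z0 =>
        rw [hAhcoe]
        have he : IsOpenEmbedding (Prod.map (id : I → I) ((↑) : E → OnePoint E)) :=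
          IsOpenEmbedding.id.prodMap isOpenEmbedding_coe
        have hmap : 𝓝 (s, (z0 : OnePoint E)) =
            Filter.map (Prod.map (id : I → I) ((↑) : E → OnePoint E)) (𝓝 (s, z0)) :=
          (he.map_nhds_eq (s, z0)).symm
        rw [hmap, tendsto_map'_iff]
        -- the `E`-valued expression
        set g : I × E → E := fun p => if (p.1 : ℝ) = 0 then A p.2 else
          (p.1 : ℝ)⁻¹ • q ((p.1 : ℝ) • p.2) with hg
        have hgt : Tendsto g (𝓝 (s, z0)) (𝓝 (A z0)) := by
          have hA : Tendsto (fun p : I × E => A p.2) (𝓝 (s, z0)) (𝓝 (A z0)) :=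
            (A.continuous.comp continuous_snd).tendsto (s, z0)
          have hdiff : Tendsto (fun p : I × E => g p - A p.2) (𝓝 (s, z0)) (𝓝 0) := by
            rw [tendsto_zero_iff_norm_tendsto_zero, Metric.tendsto_nhds]
            intro ε hε
            have hB : 0 < ‖z0‖ + 1 := by positivity
            have h1 := hlit.def (show 0 < ε / (‖z0‖ + 1) by positivity)
            have h2 : Tendsto (fun p : I × E => (p.1 : ℝ) • p.2) (𝓝 (s, z0)) (𝓝 (0 : E)) := by
              have : Continuous fun p : I × E => (p.1 : ℝ) • p.2 := by fun_prop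
              have h := this.tendsto (s, z0)
              simp only at h
              rw [← hs, zero_smul] at h
              exact h
            have h3 : ∀ᶠ p : I × E in 𝓝 (s, z0), ‖p.2‖ < ‖z0‖ + 1 := by
              have : Continuous fun p : I × E => ‖p.2‖ := by fun_prop
              exact (this.tendsto (s, z0)).eventually (gt_mem_nhds (by simp only; linarith))
            filter_upwards [h2.eventually h1, h3] with p hp hp3
            rw [dist_zero_right, norm_norm]
            simp only [hg]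
            split_ifs with ht
            · simpa using hε
            · have htpos : 0 < (p.1 : ℝ) := lt_of_le_of_ne p.1.2.1 (Ne.symm ht)
              have e : (p.1 : ℝ)⁻¹ • q ((p.1 : ℝ) • p.2) - A p.2 =
                  (p.1 : ℝ)⁻¹ • (q ((p.1 : ℝ) • p.2) - A ((p.1 : ℝ) • p.2)) := by
                rw [smul_sub, _root_.map_smul, smul_smul, inv_mul_cancel₀ ht, one_smul]
              rw [e, norm_smul, norm_inv, Real.norm_of_nonneg htpos.le]
              rw [norm_smul, Real.norm_of_nonneg htpos.le] at hp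
              rw [inv_mul_lt_iff₀ htpos]
              refine lt_of_le_of_lt hp ?_
              have h5 : ε / (‖z0‖ + 1) * ((p.1 : ℝ) * ‖p.2‖) =
                  (p.1 : ℝ) * (ε / (‖z0‖ + 1) * ‖p.2‖) := by ring
              rw [h5]
              refine mul_lt_mul_of_pos_left ?_ htpos
              rw [div_mul_eq_mul_div, div_lt_iff₀ hB]
              exact mul_lt_mul_of_pos_left hp3 hε
          have := hdiff.add hA
          simpa using this
        have hev : ∀ᶠ p : I × E in 𝓝 (s, z0), ((g p : E) : OnePoint E) =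
            (G ∘ Prod.map (id : I → I) ((↑) : E → OnePoint E)) p := by
          have h2 : Tendsto (fun p : I × E => (p.1 : ℝ) • p.2) (𝓝 (s, z0)) (𝓝 (0 : E)) := by
            have : Continuous fun p : I × E => (p.1 : ℝ) • p.2 := by fun_prop
            have h := this.tendsto (s, z0)
            simp only at h
            rw [← hs, zero_smul] at h
            exact h
          filter_upwards [h2.eventually hfq] with p hp
          simp only [hG, hg, Function.comp_apply, Prod.map_fst, Prod.map_snd, id]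
          split_ifs with ht
          · rfl
          · rw [scal_coe, hp, scal_coe]
        exact ((continuous_coe.tendsto _).comp hgt).congr' hev
    · -- `s > 0`
      have hev : ∀ᶠ p : I × OnePoint E in 𝓝 (s, y),
          scal (p.1 : ℝ)⁻¹ (f (scal (p.1 : ℝ) p.2)) = G p := by
        have : ∀ᶠ t : I in 𝓝 s, 0 < (t : ℝ) :=
          (continuous_subtype_val.tendsto s).eventually (lt_mem_nhds hs)
        filter_upwards [this.prod_inl_nhds y] with p hp
        simp only [hG]
        rw [if_neg hp.ne']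
      refine ContinuousAt.congr ?_ hev
      have h1 : ContinuousAt (fun p : I × OnePoint E => scal (p.1 : ℝ) p.2) (s, y) := by
        have h := continuousAt_scal hs y
        exact ContinuousAt.comp (f := fun p : I × OnePoint E => ((p.1 : ℝ), p.2))
          (x := (s, y)) h (by fun_prop)
      have h2 : ContinuousAt (fun p : I × OnePoint E => f (scal (p.1 : ℝ) p.2)) (s, y) :=
        f.cont.continuousAt.comp h1
      have h3 := continuousAt_scal (inv_pos.2 hs) (f (scal (s : ℝ) y))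
      have h4 : ContinuousAt (fun p : I × OnePoint E =>
          ((p.1 : ℝ)⁻¹, f (scal (p.1 : ℝ) p.2))) (s, y) := by
        refine ContinuousAt.prodMk (ContinuousAt.inv₀ (by fun_prop) hs.ne') h2
      exact ContinuousAt.comp (f := fun p : I × OnePoint E =>
          ((p.1 : ℝ)⁻¹, f (scal (p.1 : ℝ) p.2))) (x := (s, y)) h3 h4
  symm
  refine PMap.Homotopic.of G hGc ?_ ?_ ?_
  · intro x
    simp only [hG]
    rw [if_pos (by simp)]
  · intro x
    simp only [hG]
    rw [if_neg (by simp)]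
    simp
  · intro t
    simp only [hG]
    split_ifs
    · rfl
    · simp

/-- one regular zero -/
theorem deg_lin (f : PMap E E) (x0 : E) (p : E → E) (A : E ≃L[ℝ] E)
    (hp : HasFDerivAt p (A : E →L[ℝ] E) x0)
    (hfp : ∀ᶠ y : E in 𝓝 x0, f y = (p y : OnePoint E))
    (hu : ∀ x : E, f x = ((0 : E) : OnePoint E) ↔ x = x0) :
    f.Homotopic (PMap.ofHomeo A.toHomeomorph) := by
  let T : PMap E E :=
    { toFun := fun y => sh y x0
      cont := continuous_sh.comp (Continuous.prodMk_left x0)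
      map_inf := rfl }
  have hT : (PMap.id E).Homotopic T := by
    refine PMap.Homotopic.of (fun q => sh q.2 ((q.1 : ℝ) • x0)) ?_ ?_ ?_ ?_
    · exact continuous_sh.comp (continuous_snd.prodMk
        ((continuous_subtype_val.comp continuous_fst).smul continuous_const))
    · intro x; simp
    · intro x
      change sh (x : OnePoint E) _ = sh (x : OnePoint E) x0
      simp
    · intro t; rfl
  have h1 : f.Homotopic (f.comp T) := PMap.Homotopic.comp_left f hT
  refine h1.trans ?_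
  have hcoe : ∀ y : E, (f.comp T) y = f ((y + x0 : E) : OnePoint E) := fun y => rfl
  refine deg_lin0 (f.comp T) (fun y => p (y + x0)) A ?_ ?_ ?_
  · have h2 : HasFDerivAt (fun y : E => y + x0) (ContinuousLinearMap.id ℝ E) 0 :=
      (hasFDerivAt_id (𝕜 := ℝ) (0 : E)).add_const x0
    have h3 : HasFDerivAt p (A : E →L[ℝ] E) ((fun y : E => y + x0) 0) := by simpa using hp
    have := h3.comp (0 : E) h2
    simpa [Function.comp_def] using this
  · have h2 : Tendsto (fun y : E => y + x0) (𝓝 0) (𝓝 x0) := by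
      have : Continuous fun y : E => y + x0 := by fun_prop
      simpa using this.tendsto 0
    filter_upwards [h2.eventually hfp] with y hy
    rw [hcoe, hy]
  · intro x
    rw [hcoe, hu]
    constructor
    · intro h
      exact left_eq_add.1 (by rw [add_comm]; exact h.symm)
    · rintro rfl
      simp

end Crest.Agent.R090.Hopf297
end

-- ▼ part R090/HopfD_297
section

/-!
# Row 90, HOPF part D (owner helper297): disjoint unions of pointed maps, restriction, and the
induction principle for self maps of `OnePoint E`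
-/

set_option autoImplicit false
set_option linter.unusedSectionVars false
set_option linter.style.haveILetI false

open Topology Filter Set Metric

namespace Crest.Agent.R090.Hopf297

open OnePoint Sp962
open scoped unitInterval

section general

variable {U V : Type*} [TopologicalSpace U] [TopologicalSpace V]

/-- `f` is the union of the maps `f1`, `f2` with disjoint supports -/
def IsUnion (f f1 f2 : PMap U V) : Prop :=
  ∀ x : U, (f1 x = ∞ ∧ f x = f2 x) ∨ (f2 x = ∞ ∧ f x = f1 x)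

theorem frontier_coe {S : Set U} {y : OnePoint U}
    (hy : y ∈ frontier ((↑) '' S : Set (OnePoint U))) : y = ∞ ∨ ∃ x ∈ frontier S, y = (x : OnePoint U) := by
  cases y with
  | infty => left; rfl
  | coe x =>
    right
    refine ⟨x, ?_, rfl⟩
    have h1 : ((↑) : U → OnePoint U) ⁻¹' frontier ((↑) '' S : Set (OnePoint U)) =
        frontier (((↑) : U → OnePoint U) ⁻¹' ((↑) '' S : Set (OnePoint U))) :=
      isOpenEmbedding_coe.isOpenMap.preimage_frontier_eq_frontier_preimage continuous_coe _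
    rw [preimage_image_eq _ coe_injective] at h1
    rw [← h1]
    exact hy

open Classical in
/-- the map `h` on `S`, and `∞` elsewhere -/
noncomputable def res (h : PMap U V) (S : Set U) (hS : ∀ x ∈ frontier S, h (x : OnePoint U) = ∞) :
    PMap U V where
  toFun := ((↑) '' S : Set (OnePoint U)).piecewise h (fun _ => ∞)
  cont := by
    refine Continuous.piecewise ?_ h.cont continuous_const
    intro y hy
    rcases frontier_coe hy with rfl | ⟨x, hx, rfl⟩
    · exact h.map_inf
    · exact hS x hx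
  map_inf := by
    rw [piecewise_eq_of_notMem]
    rintro ⟨x, _, hx⟩
    exact coe_ne_infty _ hx

theorem res_of_mem (h : PMap U V) (S : Set U) (hS) {x : U} (hx : x ∈ S) :
    res h S hS x = h x := by
  classical
  have hx' : (x : OnePoint U) ∈ ((↑) '' S : Set (OnePoint U)) := ⟨x, hx, rfl⟩
  exact piecewise_eq_of_mem ((↑) '' S : Set (OnePoint U)) h (fun _ => ∞) hx'

theorem res_of_notMem (h : PMap U V) (S : Set U) (hS) {x : U} (hx : x ∉ S) :
    res h S hS x = ∞ := by
  classical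
  have hx' : (x : OnePoint U) ∉ ((↑) '' S : Set (OnePoint U)) := by
    rintro ⟨z, hz, hzx⟩
    rw [coe_eq_coe] at hzx
    subst hzx
    exact hx hz
  exact piecewise_eq_of_notMem ((↑) '' S : Set (OnePoint U)) h (fun _ => ∞) hx'

theorem isUnion_res (h : PMap U V) (S : Set U) (hS : ∀ x ∈ frontier S, h (x : OnePoint U) = ∞)
    (hS' : ∀ x ∈ frontier Sᶜ, h (x : OnePoint U) = ∞) :
    IsUnion h (res h S hS) (res h Sᶜ hS') := by
  intro x
  by_cases hx : x ∈ S
  · right
    exact ⟨res_of_notMem _ _ _ (by simpa using hx), (res_of_mem _ _ _ hx).symm⟩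
  · left
    exact ⟨res_of_notMem _ _ _ hx, (res_of_mem _ _ _ (by simpa using hx)).symm⟩

end general

variable {E : Type*} [NormedAddCommGroup E] [NormedSpace ℝ E] [FiniteDimensional ℝ E]

/-- composing with the collapse keeps regular zeros -/
theorem reg_kap {g : PMap E E} {δ : ℝ} (hδ : 0 < δ) {x : E} {p : E → E} {A : E ≃L[ℝ] E}
    (h0 : g x = ((0 : E) : OnePoint E))
    (hp : HasFDerivAt p (A : E →L[ℝ] E) x) (hgp : ∀ᶠ y : E in 𝓝 x, g y = (p y : OnePoint E)) :
    ∃ p' : E → E, HasFDerivAt p' (A : E →L[ℝ] E) x ∧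
      ∀ᶠ y : E in 𝓝 x, (kapP E hδ).comp g y = (p' y : OnePoint E) := by
  have hpx : p x = 0 := by
    have h1 := hgp.self_of_nhds
    rw [h0, coe_eq_coe] at h1
    exact h1.symm
  refine ⟨fun y => (δ / (δ - 1 * ‖p y‖)) • p y, ?_, ?_⟩
  · have h1 := hasFDerivAt_kap (E := E) hδ
    rw [← hpx] at h1
    have := h1.comp x hp
    simpa [Function.comp_def] using this
  · have h1 : ∀ᶠ y : E in 𝓝 x, ‖p y‖ < δ := by
      have h2 : Tendsto (fun y => ‖p y‖) (𝓝 x) (𝓝 0) := by
        have := hp.continuousAt.norm.tendsto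
        rwa [hpx, norm_zero] at this
      exact h2.eventually (gt_mem_nhds hδ)
    filter_upwards [h1, hgp] with y hy1 hy2
    change kap δ 1 (g y) = _
    rw [hy2, kap_coe_lt (by simpa using hy1)]

/-- **Induction principle for self maps of spheres**: every pointed map `E⁺ → E⁺` is obtained from
the constant map and linear isomorphisms by homotopies and unions of maps with disjoint supports. -/
theorem hopf_ind (P : PMap E E → Prop) (hz : P (PMap.zero E E))
    (hlin : ∀ A : E ≃L[ℝ] E, P (PMap.ofHomeo A.toHomeomorph))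
    (hhom : ∀ f g : PMap E E, f.Homotopic g → P g → P f)
    (hun : ∀ f f1 f2 : PMap E E, IsUnion f f1 f2 → P f1 → P f2 → P f) (f : PMap E E) : P f := by
  haveI := properE E
  suffices H : ∀ (n : ℕ) (g : PMap E E), RegZ g →
      {x : E | g x = ((0 : E) : OnePoint E)}.ncard = n → P g by
    obtain ⟨g, hfg, hg⟩ := exists_regZ f
    exact hhom f g hfg (H _ g hg rfl)
  intro n
  induction n with
  | zero =>
    intro g hg hn
    rw [Set.ncard_eq_zero hg.fin] at hn
    obtain ⟨δ, hδ, hδ'⟩ := exists_lower g univ isCompact_univ (by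
      intro y _ h0
      cases y with
      | infty =>
        rw [g.map_inf] at h0
        exact infty_ne_coe _ h0
      | coe x =>
        have : x ∈ {x : E | g x = ((0 : E) : OnePoint E)} := h0
        rw [hn] at this
        exact this)
    have h1 : g.Homotopic ((kapP E hδ).comp g) := PMap.Homotopic.comp_right (kapP_homotopic hδ) g
    have h2 : (kapP E hδ).comp g = PMap.zero E E := by
      refine PMap.ext fun x => ?_
      rw [PMap.comp_apply, PMap.zero_apply]
      by_contra hne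
      obtain ⟨v, hv⟩ := OnePoint.ne_infty_iff_exists.1 hne
      obtain ⟨z, hz, hzδ⟩ := kapP_eq_coe hδ hv.symm
      exact absurd hzδ (not_lt.2 (hδ' _ (mem_univ _) z hz))
    rw [h2] at h1
    exact hhom _ _ h1 hz
  | succ n ih =>
    intro g hg hn
    obtain ⟨x1, hx1⟩ : {x : E | g x = ((0 : E) : OnePoint E)}.Nonempty := by
      rw [← Set.ncard_pos hg.fin, hn]
      exact Nat.succ_pos n
    replace hx1 : g x1 = ((0 : E) : OnePoint E) := hx1
    set Z : Set E := {x : E | g x = ((0 : E) : OnePoint E)} with hZ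
    -- a small ball around `x1`
    obtain ⟨r, hr, hrZ⟩ : ∃ r : ℝ, 0 < r ∧ ∀ x ∈ closedBall x1 r, x ∈ Z → x = x1 := by
      have h1 : IsClosed (Z \ {x1}) := (hg.fin.subset sdiff_subset).isClosed
      have h2 : ∀ᶠ x in 𝓝 x1, x ∈ (Z \ {x1})ᶜ := h1.isOpen_compl.mem_nhds (by simp)
      obtain ⟨r, hr, hr'⟩ := Metric.eventually_nhds_iff.1 h2
      refine ⟨r / 2, by linarith, fun x hx hxZ => ?_⟩
      have hx' : dist x x1 < r := lt_of_le_of_lt (mem_closedBall.1 hx) (by linarith)
      by_contra hne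
      exact hr' hx' ⟨hxZ, hne⟩
    obtain ⟨δ, hδ, hδ'⟩ := exists_lower g ((↑) '' sphere x1 r)
      ((isCompact_sphere x1 r).image continuous_coe) (by
        rintro _ ⟨x, hx, rfl⟩ h0
        have h1 := hrZ x (sphere_subset_closedBall hx) h0
        subst h1
        rw [mem_sphere, dist_self] at hx
        exact hr.ne hx)
    set h : PMap E E := (kapP E hδ).comp g with hh
    have hgh : g.Homotopic h := PMap.Homotopic.comp_right (kapP_homotopic hδ) g
    have hh0 : ∀ x : E, h x = ((0 : E) : OnePoint E) ↔ g x = ((0 : E) : OnePoint E) :=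
      fun x => kapP_eq_zero hδ
    have hsph : ∀ x ∈ sphere x1 r, h (x : OnePoint E) = ∞ := by
      intro x hx
      by_contra hne
      obtain ⟨v, hv⟩ := OnePoint.ne_infty_iff_exists.1 hne
      obtain ⟨z, hz, hzδ⟩ := kapP_eq_coe hδ hv.symm
      exact absurd hzδ (not_lt.2 (hδ' _ ⟨x, hx, rfl⟩ z hz))
    have hS : ∀ x ∈ frontier (ball x1 r), h (x : OnePoint E) = ∞ := fun x hx =>
      hsph x (frontier_ball_subset_sphere hx)
    have hS' : ∀ x ∈ frontier (ball x1 r)ᶜ, h (x : OnePoint E) = ∞ := by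
      intro x hx
      rw [frontier_compl] at hx
      exact hS x hx
    have hU := isUnion_res h (ball x1 r) hS hS'
    refine hhom _ _ hgh (hun _ _ _ hU ?_ ?_)
    · -- one zero
      obtain ⟨p, A, hp, hgp⟩ := hg.reg x1 hx1
      obtain ⟨p', hp', hhp'⟩ := reg_kap hδ hx1 hp hgp
      refine hhom _ _ (deg_lin _ x1 p' A hp' ?_ ?_) (hlin A)
      · filter_upwards [hhp', isOpen_ball.mem_nhds (mem_ball_self hr)] with y hy1 hy2
        rw [res_of_mem _ _ _ hy2]
        exact hy1
      · intro x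
        constructor
        · intro hx
          by_cases hxb : x ∈ ball x1 r
          · rw [res_of_mem _ _ _ hxb, hh0] at hx
            exact hrZ x (ball_subset_closedBall hxb) hx
          · rw [res_of_notMem _ _ _ hxb] at hx
            exact absurd hx (infty_ne_coe _)
        · rintro rfl
          rw [res_of_mem _ _ _ (mem_ball_self hr), hh0]
          exact hx1
    · -- the other zeros
      have hset : {x : E | res h (ball x1 r)ᶜ hS' x = ((0 : E) : OnePoint E)} = Z \ {x1} := by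
        ext x
        constructor
        · intro hx
          replace hx : res h (ball x1 r)ᶜ hS' x = ((0 : E) : OnePoint E) := hx
          by_cases hxb : x ∈ (ball x1 r)ᶜ
          · rw [res_of_mem _ _ _ hxb, hh0] at hx
            refine ⟨hx, ?_⟩
            rintro rfl
            exact hxb (mem_ball_self hr)
          · rw [res_of_notMem _ _ _ hxb] at hx
            exact absurd hx (infty_ne_coe _)
        · rintro ⟨hx, hne⟩
          have hxb : x ∈ (ball x1 r)ᶜ := fun hxb =>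
            hne (hrZ x (ball_subset_closedBall hxb) hx)
          change res h (ball x1 r)ᶜ hS' x = ((0 : E) : OnePoint E)
          rw [res_of_mem _ _ _ hxb, hh0]
          exact hx
      refine ih _ ⟨?_, ?_⟩ ?_
      · rw [hset]
        exact hg.fin.subset sdiff_subset
      · intro x hx
        have hx' : x ∈ Z \ {x1} := by
          rw [← hset]
          exact hx
        obtain ⟨p, A, hp, hgp⟩ := hg.reg x hx'.1
        obtain ⟨p', hp', hhp'⟩ := reg_kap hδ hx'.1 hp hgp
        refine ⟨p', A, hp', ?_⟩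
        have hxc : x ∈ (closedBall x1 r)ᶜ := fun hxc => hx'.2 (hrZ x hxc hx'.1)
        filter_upwards [hhp', isClosed_closedBall.isOpen_compl.mem_nhds hxc] with y hy1 hy2
        have hyb : y ∈ (ball x1 r)ᶜ := fun hy => hy2 (ball_subset_closedBall hy)
        rw [res_of_mem _ _ _ hyb]
        exact hy1
      · have hx1' : x1 ∈ Z := hx1
        rw [hset, Set.ncard_sdiff_singleton_of_mem hx1', hn]
        rfl

end Crest.Agent.R090.Hopf297
end

-- ▼ part R090/HopfE_297
section

/-!
# Row 90, HOPF part E (owner helper297): additivity for maps with disjoint supports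

`union_susp` : if `f` is the union of `f1`, `f2` with disjoint supports, then
`f ∧ 1 ~ padd (f1 ∧ 1) (f2 ∧ 1)`; `mk_union` : the stable class of `f` is the sum.
-/

set_option autoImplicit false
set_option linter.unusedSectionVars false

open Topology Filter Set

namespace Crest.Agent.R090.Hopf297

open OnePoint Sp962 Grp528 St528
open scoped unitInterval

universe u v w x

/-- union of two maps to `OnePoint V` with disjoint supports -/
noncomputable def un {X V : Type*} (F1 F2 : X → OnePoint V) (x : X) : OnePoint V :=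
  open Classical in if F1 x = ∞ then F2 x else F1 x

theorem un_of_eq {X V : Type*} {F1 F2 : X → OnePoint V} {x : X} (h : F1 x = ∞) :
    un F1 F2 x = F2 x := if_pos h

theorem un_of_ne {X V : Type*} {F1 F2 : X → OnePoint V} {x : X} (h : F1 x ≠ ∞) :
    un F1 F2 x = F1 x := if_neg h

theorem un_of_eq' {X V : Type*} {F1 F2 : X → OnePoint V} {x : X} (h : F2 x = ∞) :
    un F1 F2 x = F1 x := by
  by_cases h1 : F1 x = ∞
  · rw [un_of_eq h1, h, h1]
  · exact un_of_ne h1

theorem continuous_un {X V : Type*} [TopologicalSpace X] [TopologicalSpace V]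
    {F1 F2 : X → OnePoint V} (h1 : Continuous F1) (h2 : Continuous F2)
    (hd : ∀ x, F1 x = ∞ ∨ F2 x = ∞) : Continuous (un F1 F2) := by
  have hopen : IsOpen ({∞}ᶜ : Set (OnePoint V)) := by
    rw [OnePoint.compl_infty]
    exact isOpen_range_coe
  rw [continuous_iff_continuousAt]
  intro x
  by_cases hx1 : F1 x = ∞
  · by_cases hx2 : F2 x = ∞
    · rw [ContinuousAt, un_of_eq hx1, hx2]
      intro s hs
      have e1 : ∀ᶠ y in 𝓝 x, F1 y ∈ s := h1.continuousAt.eventually (by rw [hx1]; exact hs)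
      have e2 : ∀ᶠ y in 𝓝 x, F2 y ∈ s := h2.continuousAt.eventually (by rw [hx2]; exact hs)
      rw [mem_map]
      filter_upwards [e1, e2] with y hy1 hy2
      rw [mem_preimage, un]
      split_ifs
      · exact hy2
      · exact hy1
    · have e2 : ∀ᶠ y in 𝓝 x, F2 y ∈ ({∞}ᶜ : Set (OnePoint V)) :=
        h2.continuousAt.eventually (hopen.mem_nhds hx2)
      refine h2.continuousAt.congr ?_
      filter_upwards [e2] with y hy
      exact (un_of_eq ((hd y).resolve_right hy)).symm
  · have e1 : ∀ᶠ y in 𝓝 x, F1 y ∈ ({∞}ᶜ : Set (OnePoint V)) :=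
      h1.continuousAt.eventually (hopen.mem_nhds hx1)
    refine h1.continuousAt.congr ?_
    filter_upwards [e1] with y hy
    exact (un_of_ne hy).symm

section unstable

variable {U : Type u} {V : Type v} [TopologicalSpace U] [TopologicalSpace V]
variable [T2Space U] [LocallyCompactSpace U] [T2Space V] [LocallyCompactSpace V]

theorem IsUnion.disj {f f1 f2 : PMap U V} (h : IsUnion f f1 f2) (x : OnePoint U) :
    f1 x = ∞ ∨ f2 x = ∞ := by
  induction x using OnePoint.rec with
  | infty => left; exact f1.map_inf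
  | coe x =>
    rcases h x with h | h
    · exact Or.inl h.1
    · exact Or.inr h.1




theorem IsUnion.smash {f f1 f2 : PMap U V} (h : IsUnion f f1 f2) {U' : Type*} {V' : Type*}
    [TopologicalSpace U'] [TopologicalSpace V'] [T2Space U'] [LocallyCompactSpace U']
    [T2Space V'] [LocallyCompactSpace V'] (k : PMap U' V') :
    IsUnion (f.smash k) (f1.smash k) (f2.smash k) := by
  rintro ⟨x, y⟩
  rcases h x with h | h
  · left
    simp [h.1, h.2]
  · right
    simp [h.1, h.2]

/-- **additivity after one suspension** -/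
theorem union_susp {f f1 f2 : PMap U V} (h : IsUnion f f1 f2) :
    (f.smash (PMap.id Io)).Homotopic
      (padd (f1.smash (PMap.id Io)) (f2.smash (PMap.id Io))) := by
  -- the two halves of the homotopy
  set A : I × (I × OnePoint U) → OnePoint (V × Io) := fun p =>
    sm (f1 p.2.2) (qI ((1 + (p.1 : ℝ)) * (p.2.1 : ℝ))) with hA
  set B : I × (I × OnePoint U) → OnePoint (V × Io) := fun p =>
    sm (f2 p.2.2) (qI ((1 + (p.1 : ℝ)) * (p.2.1 : ℝ) - (p.1 : ℝ))) with hB
  have hAc : Continuous A := (f1.cont.comp (by fun_prop)).sm962 (continuous_qI.comp (by fun_prop))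
  have hBc : Continuous B := (f2.cont.comp (by fun_prop)).sm962 (continuous_qI.comp (by fun_prop))
  have hd : ∀ p, A p = ∞ ∨ B p = ∞ := by
    intro p
    rcases h.disj p.2.2 with h' | h'
    · left; simp [hA, h']
    · right; simp [hB, h']
  have hUc := continuous_un hAc hBc hd
  have hinf : ∀ {p}, A p = ∞ → B p = ∞ → un A B p = ∞ := by
    intro p h1 h2
    rw [un_of_eq h1, h2]
  set H : I × OnePoint (U × Io) → OnePoint (V × Io) := fun p =>
    unc (fun t u => un A B (p.1, (t, u))) p.2 with hH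
  have hHs : ∀ (s t : I) (u : OnePoint U), H (s, sm u (qI (t : ℝ))) = un A B (s, (t, u)) := by
    intro s t u
    have hs0 := s.2.1
    have hs1 := s.2.2
    refine unc_sm _ ?_ ?_ ?_ t u
    · intro u
      refine hinf (by simp [hA]) ?_
      simp only [hB, Set.Icc.coe_zero, mul_zero, zero_sub]
      rw [qI_of_le (by linarith), sm_inf_right]
    · intro u
      refine hinf ?_ (by simp [hB])
      simp only [hA, Set.Icc.coe_one, mul_one]
      rw [qI_of_ge (by linarith), sm_inf_right]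
    · intro t
      exact hinf (by simp [hA, f1.map_inf]) (by simp [hB, f2.map_inf])
  have hHc : Continuous H := by
    refine continuous_of_smI' ?_
    have : (fun p : I × (I × OnePoint U) => H (p.1, sm p.2.2 (qI (p.2.1 : ℝ)))) = un A B := by
      funext p
      exact hHs p.1 p.2.1 p.2.2
    rw [this]
    exact hUc
  refine PMap.Homotopic.of H hHc ?_ ?_ ?_
  · rintro ⟨u, t⟩
    have h1 := hHs 0 ⟨t.1, t.2.1.le, t.2.2.le⟩ (u : OnePoint U)
    rw [show sm (u : OnePoint U) (qI ((⟨t.1, t.2.1.le, t.2.2.le⟩ : I) : ℝ)) =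
      (((u, t) : U × Io) : OnePoint (U × Io)) by rw [qI_coe]; rfl] at h1
    rw [h1]
    change un A B _ = sm (f u) (t : OnePoint Io)
    rcases h u with h' | h'
    · rw [un_of_eq (by simp [hA, h'.1]), h'.2]
      simp [hB]
    · rw [un_of_eq' (by simp [hB, h'.1]), h'.2]
      simp [hA]
  · rintro ⟨u, t⟩
    have h1 := hHs 1 ⟨t.1, t.2.1.le, t.2.2.le⟩ (u : OnePoint U)
    rw [show sm (u : OnePoint U) (qI ((⟨t.1, t.2.1.le, t.2.2.le⟩ : I) : ℝ)) =
      (((u, t) : U × Io) : OnePoint (U × Io)) by rw [qI_coe]; rfl] at h1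
    rw [h1]
    have h2 : (((u, t) : U × Io) : OnePoint (U × Io)) = sm (u : OnePoint U) (qI (t : ℝ)) := by
      rw [qI_coe]; rfl
    rw [h2, padd_sm]
    have ht0 := t.2.1
    have ht1 := t.2.2
    rcases h u with h' | h'
    · rw [un_of_eq (by simp [hA, h'.1])]
      split_ifs with ht
      · simp only [hB, Set.Icc.coe_one, PMap.smash_sm, h'.1, sm_inf_left]
        rw [qI_of_le (by linarith), sm_inf_right]
      · simp only [hB, Set.Icc.coe_one, PMap.smash_sm, PMap.id_apply]
        rw [show ((1 : ℝ) + 1) * (t : ℝ) - 1 = 2 * (t : ℝ) - 1 by ring]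
    · rw [un_of_eq' (by simp [hB, h'.1])]
      split_ifs with ht
      · simp only [hA, Set.Icc.coe_one, PMap.smash_sm, PMap.id_apply]
        rw [show ((1 : ℝ) + 1) * (t : ℝ) = 2 * (t : ℝ) by ring]
      · simp only [hA, Set.Icc.coe_one, PMap.smash_sm, h'.1, sm_inf_left]
        rw [qI_of_ge (by linarith), sm_inf_right]
  · intro s
    rfl

end unstable

section stable

variable {X : Type u} {Y : Type v} [TopologicalSpace X] [TopologicalSpace Y]
variable [T2Space X] [LocallyCompactSpace X] [T2Space Y] [LocallyCompactSpace Y]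

/-- **additivity of stable classes for disjoint supports** -/
theorem mk_union {n : ℕ} {f f1 f2 : PMap (S X n) (S Y n)} (h : IsUnion f f1 f2) :
    St.mk n f = St.mk n f1 + St.mk n f2 := by
  have key : st (HC.mk f) = sadd (st (HC.mk f1)) (st (HC.mk f2)) := by
    rw [st_eq_lev, st_eq_lev, st_eq_lev, sadd, gadd]
    simp only [HC.comp_assoc, hh_comp_symm, comp_h1]
    rw [← comp_hadd, HC.comp_assoc]
    congr 2
    have h2 := union_susp (h.smash (PMap.id Io))
    exact HC.sound h2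
  calc St.mk n f = St.of (n + 1) (st (HC.mk f)) := (St.of_st _).symm
    _ = St.of (n + 1) (st (HC.mk f1)) + St.of (n + 1) (st (HC.mk f2)) := by
        rw [key, St.of_add_of]
    _ = _ := by rw [St.of_st, St.of_st]; rfl

end stable

end Crest.Agent.R090.Hopf297
end

-- ▼ part R090/HopfF_297
section

/-!
# Row 90, HOPF part F (owner helper297): real linear isomorphisms are stably `± 1`
-/

set_option autoImplicit false
set_option linter.unusedSectionVars false

open Topology Filter Set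

namespace Crest.Agent.R090.Hopf297

open OnePoint Sp962 Grp528 St528
open scoped unitInterval

universe u v w x

theorem coe_iso (x : ℝ) : ((orderIsoIooNegOneOne ℝ x : Ioo (-1 : ℝ) 1) : ℝ) = x / (1 + |x|) := by
  unfold orderIsoIooNegOneOne
  rfl

theorem coe_ioHomeo (x : ℝ) : ((ioHomeo x : Io) : ℝ) = (x / (1 + |x|) + 1) / 2 := by
  have h := coe_iso x
  change (((orderIsoIooNegOneOne ℝ x : Ioo (-1 : ℝ) 1) : ℝ) + 1) / 2 = _
  rw [h]

theorem coe_ioHomeo_neg (x : ℝ) : ((ioHomeo (-x) : Io) : ℝ) = 1 - (ioHomeo x : ℝ) := by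
  rw [coe_ioHomeo, coe_ioHomeo, abs_neg]
  ring

section refl

variable (X : Type u) [TopologicalSpace X] [T2Space X] [LocallyCompactSpace X]

/-- conjugation of the last coordinate -/
noncomputable def cj (m : ℕ) : S X (m + 1) ≃ₜ S X (m + 1) where
  toFun p := (p.1, Function.update p.2 (Fin.last m) (star (p.2 (Fin.last m))))
  invFun p := (p.1, Function.update p.2 (Fin.last m) (star (p.2 (Fin.last m))))
  left_inv p := by simp
  right_inv p := by simp
  continuous_toFun := by
    refine continuous_fst.prodMk ?_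
    exact Continuous.update continuous_snd _ (by fun_prop)
  continuous_invFun := by
    refine continuous_fst.prodMk ?_
    exact Continuous.update continuous_snd _ (by fun_prop)

theorem cj_neg (m : ℕ) : St.mk (m + 1) (PMap.ofHomeo (cj X m)) = -St.id X := by
  rw [← St.of_h1 (m + 1), St.neg_of]
  refine congrArg (St.of (m + 1)) ?_
  rw [sneg, gneg, h1_comp]
  refine congrArg HC.mk (PMap.ext fun p => ?_)
  rw [PMap.comp_apply, PMap.ofHomeo_coe, PMap.ofHomeo_coe]
  have e1 : ((lev X m p : (S X m × Io) × Io) : OnePoint ((S X m × Io) × Io)) =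
      sm (((lev X m p).1 : S X m × Io) : OnePoint (S X m × Io)) (qI ((lev X m p).2 : ℝ)) := by
    rw [qI_coe]; rfl
  rw [e1, pneg_sm]
  have e2 : (lev X m p).2 = ioHomeo (p.2 (Fin.last m)).im := rfl
  have e3 : (1 : ℝ) - ((lev X m p).2 : ℝ) = ((ioHomeo (-(p.2 (Fin.last m)).im) : Io) : ℝ) := by
    rw [coe_ioHomeo_neg, e2]
  rw [e3, qI_coe, sm_coe, PMap.ofHomeo_coe, coe_eq_coe, Homeomorph.eq_symm_apply]
  obtain ⟨x, v⟩ := p
  refine Prod.ext (Prod.ext (Prod.ext rfl ?_) ?_) ?_
  · funext i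
    change Function.update v (Fin.last m) (star (v (Fin.last m))) i.castSucc = v i.castSucc
    rw [Function.update_of_ne (Fin.castSucc_lt_last i).ne]
  · change ioHomeo (Function.update v (Fin.last m) (star (v (Fin.last m))) (Fin.last m)).re =
      ioHomeo (v (Fin.last m)).re
    simp
  · change ioHomeo (Function.update v (Fin.last m) (star (v (Fin.last m))) (Fin.last m)).im =
      ioHomeo (-(v (Fin.last m)).im)
    simp

end refl

end Crest.Agent.R090.Hopf297
end

-- ▼ part R090/HopfG_297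

/-!
# Row 90, HOPF part G (owner helper297): real linear isomorphisms are stably `± 1`, and every
stable self map of a sphere is an integer multiple of the identity
-/

set_option autoImplicit false
set_option linter.unusedSectionVars false

open Topology Filter Set

namespace Crest.Agent.R090.Hopf297

open OnePoint Sp962 Grp528 St528
open scoped unitInterval

universe u v w x

section lin

variable {E : Type u} [NormedAddCommGroup E] [NormedSpace ℝ E] [FiniteDimensional ℝ E]

/-- index set of coordinates of `E × ℂ^(m+1)` -/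
abbrev idx (E : Type u) [NormedAddCommGroup E] [NormedSpace ℝ E] (m : ℕ) : Type :=
  Fin (Module.finrank ℝ E) ⊕ (Σ _ : Fin (m + 1), Fin 2)

/-- real basis of `E × ℂ^(m+1)` -/
noncomputable def bs (E : Type u) [NormedAddCommGroup E] [NormedSpace ℝ E] [FiniteDimensional ℝ E]
    (m : ℕ) : Module.Basis (idx E m) ℝ (S E (m + 1)) :=
  (Module.finBasis ℝ E).prod (Pi.basis fun _ => Complex.basisOneI)

/-- real coordinates of `E × ℂ^(m+1)` -/
noncomputable def phi (E : Type u) [NormedAddCommGroup E] [NormedSpace ℝ E] [FiniteDimensional ℝ E]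
    (m : ℕ) : S E (m + 1) ≃L[ℝ] (idx E m → ℝ) := (bs E m).equivFunL

/-- stable class of a linear isomorphism in coordinates -/
noncomputable def C (E : Type u) [NormedAddCommGroup E] [NormedSpace ℝ E] [FiniteDimensional ℝ E]
    (m : ℕ) (B : (idx E m → ℝ) ≃L[ℝ] (idx E m → ℝ)) : St E E :=
  St.mk (m + 1) (PMap.ofHomeo (((phi E m).trans B).trans (phi E m).symm).toHomeomorph)

theorem mk_comp_mk {X Y Z : Type*} [TopologicalSpace X] [TopologicalSpace Y] [TopologicalSpace Z]
    [T2Space X] [LocallyCompactSpace X] [T2Space Y] [LocallyCompactSpace Y]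
    [T2Space Z] [LocallyCompactSpace Z] {n : ℕ} (g : PMap (S Y n) (S Z n))
    (f : PMap (S X n) (S Y n)) : (St.mk n g).comp (St.mk n f) = St.mk n (g.comp f) :=
  St.of_comp_of _ _

theorem mk_id {X : Type*} [TopologicalSpace X] [T2Space X] [LocallyCompactSpace X] (n : ℕ) :
    St.mk n (PMap.id (S X n)) = St.id X := St.of_h1 n

theorem mk_congr {X Y : Type*} [TopologicalSpace X] [TopologicalSpace Y]
    [T2Space X] [LocallyCompactSpace X] [T2Space Y] [LocallyCompactSpace Y] {n : ℕ}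
    {f g : PMap (S X n) (S Y n)} (h : f.Homotopic g) : St.mk n f = St.mk n g :=
  congrArg (St.of n) (HC.sound h)

variable {m : ℕ}

theorem C_trans (B B' : (idx E m → ℝ) ≃L[ℝ] (idx E m → ℝ)) :
    C E m (B.trans B') = (C E m B').comp (C E m B) := by
  rw [C, C, C, mk_comp_mk, PMap.ofHomeo_comp]
  congr 2
  ext x : 1
  simp

theorem C_refl : C E m (ContinuousLinearEquiv.refl ℝ _) = St.id E := by
  rw [C, ← mk_id (m + 1)]
  refine congrArg (St.mk (m + 1)) (PMap.ext fun x => ?_)
  simp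

theorem C_ext {B B' : (idx E m → ℝ) ≃L[ℝ] (idx E m → ℝ)} (h : ∀ v, B v = B' v) :
    C E m B = C E m B' := by
  have : B = B' := ContinuousLinearEquiv.ext (funext h)
  rw [this]

/-- linear homotopy invariance -/
theorem C_family {B B' : (idx E m → ℝ) ≃L[ℝ] (idx E m → ℝ)}
    (L : I → (idx E m → ℝ) →ₗ[ℝ] (idx E m → ℝ))
    (hL : Continuous fun p : I × (idx E m → ℝ) => L p.1 p.2)
    (hi : ∀ t, Function.Injective (L t)) (h0 : ∀ v, B v = L 0 v) (h1 : ∀ v, B' v = L 1 v) :
    C E m B = C E m B' := by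
  refine mk_congr (Lin202.homotopic_of_linear_family
    (fun t => ((phi E m).symm.toLinearEquiv.toLinearMap.comp
      ((L t).comp (phi E m).toLinearEquiv.toLinearMap))) ?_ ?_ ?_ ?_)
  · change Continuous fun p : I × S E (m + 1) => (phi E m).symm (L p.1 (phi E m p.2))
    have h := hL.comp (continuous_fst.prodMk ((phi E m).continuous.comp continuous_snd) :
      Continuous fun p : I × S E (m + 1) => (p.1, phi E m p.2))
    exact (phi E m).symm.continuous.comp h
  · intro t
    exact (phi E m).symm.injective.comp ((hi t).comp (phi E m).injective)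
  · intro x
    change (((phi E m).symm (B (phi E m x)) : S E (m + 1)) : OnePoint (S E (m + 1))) = _
    rw [h0]
    rfl
  · intro x
    change (((phi E m).symm (B' (phi E m x)) : S E (m + 1)) : OnePoint (S E (m + 1))) = _
    rw [h1]
    rfl

/-- diagonal maps -/
noncomputable def dg {ι : Type} [Fintype ι] (s : ι → ℝ) (hs : ∀ i, s i ≠ 0) :
    (ι → ℝ) ≃L[ℝ] (ι → ℝ) :=
  LinearEquiv.toContinuousLinearEquiv
    { toFun := fun v i => s i * v i
      map_add' := fun v w => by funext i; simp [mul_add]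
      map_smul' := fun c v => by funext i; simp [mul_left_comm]
      invFun := fun v i => (s i)⁻¹ * v i
      left_inv := fun v => by funext i; simp [hs i]
      right_inv := fun v => by funext i; simp [hs i] }

@[simp] theorem dg_apply {ι : Type} [Fintype ι] (s : ι → ℝ) (hs : ∀ i, s i ≠ 0) (v : ι → ℝ) (i : ι) :
    dg s hs v i = s i * v i := rfl

/-- sign vector -/
noncomputable def rr {ι : Type} (s : Finset ι) (i : ι) : ℝ := open Classical in
  if i ∈ s then -1 else 1

theorem rr_ne {ι : Type} (s : Finset ι) (i : ι) : rr s i ≠ 0 := by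
  rw [rr]; split_ifs <;> norm_num

/-- the distinguished coordinate -/
abbrev j0 (E : Type u) [NormedAddCommGroup E] [NormedSpace ℝ E] (m : ℕ) : idx E m :=
  Sum.inr ⟨Fin.last m, 1⟩

theorem phi_inl (x : S E (m + 1)) (i : Fin (Module.finrank ℝ E)) :
    phi E m x (Sum.inl i) = (Module.finBasis ℝ E).repr x.1 i := by
  simp [phi, bs]

theorem phi_inr (x : S E (m + 1)) (k : Fin (m + 1)) (l : Fin 2) :
    phi E m x (Sum.inr ⟨k, l⟩) = ![(x.2 k).re, (x.2 k).im] l := by
  simp [phi, bs, Pi.basis_repr]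

theorem C_j0 : C E m (dg (rr {j0 E m}) (rr_ne _)) = -St.id E := by
  rw [← cj_neg E m, C]
  refine congrArg (St.mk (m + 1)) (PMap.ext fun x => ?_)
  change (((phi E m).symm (dg (rr {j0 E m}) (rr_ne _) (phi E m x)) : S E (m + 1)) :
    OnePoint (S E (m + 1))) = ((cj E m x : S E (m + 1)) : OnePoint (S E (m + 1)))
  rw [coe_eq_coe, ContinuousLinearEquiv.symm_apply_eq]
  funext i
  rw [dg_apply]
  rcases i with i | ⟨k, l⟩
  · rw [phi_inl, phi_inl, rr, if_neg (by simp), one_mul]
    rfl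
  · rw [phi_inr, phi_inr]
    change _ = ![(Function.update x.2 (Fin.last m) (star (x.2 (Fin.last m))) k).re,
      (Function.update x.2 (Fin.last m) (star (x.2 (Fin.last m))) k).im] l
    by_cases hk : k = Fin.last m
    · subst hk
      fin_cases l
      · simp [rr]
      · simp [rr]
    · rw [rr, if_neg (by simp [hk]), one_mul, Function.update_of_ne hk]

theorem comp_neg_one (a : St E E) : a.comp (-St.id E) = -a := by
  have h := St.comp_add a (St.id E) (-St.id E)
  rw [add_neg_cancel, St.comp_id] at h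
  have h0 : a.comp (0 : St E E) = 0 := by
    have := St.comp_add a (0 : St E E) (0 : St E E)
    rw [add_zero] at this
    exact left_eq_add.1 this
  rw [h0] at h
  exact (neg_eq_of_add_eq_zero_right h.symm).symm

theorem neg_one_comp (a : St E E) : (-St.id E).comp a = -a := by
  have h := St.add_comp (St.id E) (-St.id E) a
  rw [add_neg_cancel, St.id_comp] at h
  have h0 : (0 : St E E).comp a = 0 := by
    have := St.add_comp (0 : St E E) 0 a
    rw [add_zero] at this
    exact left_eq_add.1 this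
  rw [h0] at h
  exact (neg_eq_of_add_eq_zero_right h.symm).symm

theorem C_single (i : idx E m) : C E m (dg (rr {i}) (rr_ne _)) = -St.id E := by
  classical
  set τ : (idx E m → ℝ) ≃L[ℝ] (idx E m → ℝ) :=
    (LinearEquiv.funCongrLeft ℝ ℝ (Equiv.swap i (j0 E m))).toContinuousLinearEquiv with hτ
  have hτv : ∀ v k, τ v k = v (Equiv.swap i (j0 E m) k) := fun v k => rfl
  have e : C E m (dg (rr {i}) (rr_ne _)) =
      C E m ((τ.trans (dg (rr {j0 E m}) (rr_ne _))).trans τ) := by
    refine C_ext fun v => ?_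
    funext k
    rw [dg_apply]
    change _ = τ (dg (rr {j0 E m}) (rr_ne _) (τ v)) k
    rw [hτv, dg_apply, hτv, Equiv.swap_apply_self]
    congr 1
    simp only [rr, Finset.mem_singleton]
    by_cases hk : k = i
    · subst hk
      simp
    · rw [if_neg hk, if_neg]
      intro h
      apply hk
      rw [Equiv.swap_apply_eq_iff] at h
      rw [h, Equiv.swap_apply_right]
  have hτ2 : (C E m τ).comp (C E m τ) = St.id E := by
    rw [← C_trans, ← C_refl (E := E) (m := m)]
    refine C_ext fun v => ?_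
    funext k
    change τ (τ v) k = v k
    rw [hτv, hτv, Equiv.swap_apply_self]
  rw [e, C_trans, C_trans, C_j0, neg_one_comp, ← comp_neg_one, ← St.comp_assoc, hτ2, St.id_comp]

theorem C_sign (s : Finset (idx E m)) :
    C E m (dg (rr s) (rr_ne _)) = St.id E ∨ C E m (dg (rr s) (rr_ne _)) = -St.id E := by
  classical
  induction s using Finset.induction_on with
  | empty =>
    left
    rw [← C_refl (E := E) (m := m)]
    refine C_ext fun v => ?_
    funext k
    simp [rr]
  | insert i s hi ih =>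
    have e : C E m (dg (rr (insert i s)) (rr_ne _)) =
        C E m ((dg (rr s) (rr_ne _)).trans (dg (rr {i}) (rr_ne _))) := by
      refine C_ext fun v => ?_
      funext k
      rw [dg_apply]
      change _ = dg (rr {i}) (rr_ne _) (dg (rr s) (rr_ne _) v) k
      rw [dg_apply, dg_apply, ← mul_assoc]
      congr 1
      simp only [rr, Finset.mem_singleton, Finset.mem_insert]
      by_cases hk : k = i
      · subst hk
        simp [hi]
      · simp [hk]
    rw [e, C_trans, C_single]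
    rcases ih with h | h
    · right
      rw [h, St.comp_id]
    · left
      rw [h, comp_neg_one, neg_neg]

theorem C_diag (D : idx E m → ℝ) (hD : ∀ i, D i ≠ 0) :
    C E m (dg D hD) = St.id E ∨ C E m (dg D hD) = -St.id E := by
  classical
  set s : Finset (idx E m) := Finset.univ.filter fun i => D i < 0 with hs
  have h : C E m (dg D hD) = C E m (dg (rr s) (rr_ne _)) := by
    set F : I → idx E m → ℝ := fun t i => (1 - (t : ℝ)) * D i + (t : ℝ) * rr s i with hF
    have hFne : ∀ t i, F t i ≠ 0 := by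
      intro t i
      have h0 := t.2.1
      have h1 := t.2.2
      by_cases hi : D i < 0
      · have hr : rr s i = -1 := if_pos (by simp [hs, hi])
        simp only [hF, hr]
        have : (1 - (t : ℝ)) * D i + (t : ℝ) * -1 < 0 := by
          rcases h0.eq_or_lt with h | h
          · rw [← h]; simpa using hi
          · nlinarith
        exact this.ne
      · have hi' : 0 < D i := lt_of_le_of_ne (not_lt.1 hi) (hD i).symm
        have hr : rr s i = 1 := if_neg (by simp [hs, hi])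
        simp only [hF, hr]
        have : 0 < (1 - (t : ℝ)) * D i + (t : ℝ) * 1 := by
          rcases h0.eq_or_lt with h | h
          · rw [← h]; simpa using hi'
          · nlinarith
        exact this.ne'
    refine C_family (fun t => ((dg (F t) (hFne t)).toLinearEquiv.toLinearMap)) ?_ ?_ ?_ ?_
    · change Continuous fun p : I × (idx E m → ℝ) => fun i => F p.1 i * p.2 i
      simp only [hF]
      fun_prop
    · intro t
      exact (dg (F t) (hFne t)).injective
    · intro v
      funext i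
      change D i * v i = F 0 i * v i
      simp [hF]
    · intro v
      funext i
      change rr s i * v i = F 1 i * v i
      simp [hF]
  rw [h]
  exact C_sign s

theorem C_matrix (M : Matrix (idx E m) (idx E m) ℝ) (hM : M.det ≠ 0)
    (B : (idx E m → ℝ) ≃L[ℝ] (idx E m → ℝ)) (hB : ∀ v, B v = M.mulVec v) :
    C E m B = St.id E ∨ C E m B = -St.id E := by
  classical
  revert B
  refine Matrix.diagonal_transvection_induction_of_det_ne_zero
    (fun M => ∀ B : (idx E m → ℝ) ≃L[ℝ] (idx E m → ℝ), (∀ v, B v = M.mulVec v) →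
      C E m B = St.id E ∨ C E m B = -St.id E) M hM ?_ ?_ ?_
  · intro D hD B hB
    have hD' : ∀ i, D i ≠ 0 := by
      rw [Matrix.det_diagonal, Finset.prod_ne_zero_iff] at hD
      exact fun i => hD i (Finset.mem_univ i)
    have : C E m B = C E m (dg D hD') := by
      refine C_ext fun v => ?_
      funext i
      rw [hB, dg_apply, Matrix.mulVec_diagonal]
    rw [this]
    exact C_diag D hD'
  · rintro ⟨i, j, hij, c⟩ B hB
    left
    rw [← C_refl (E := E) (m := m)]
    symm
    refine C_family (fun t => LinearMap.id + ((t : ℝ) * c) •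
      (LinearMap.smulRight (LinearMap.proj j : (idx E m → ℝ) →ₗ[ℝ] ℝ)
        (Pi.single i (1 : ℝ) : idx E m → ℝ))) ?_ ?_ ?_ ?_
    · change Continuous fun p : I × (idx E m → ℝ) =>
        p.2 + ((p.1 : ℝ) * c) • (p.2 j • (Pi.single i (1 : ℝ) : idx E m → ℝ))
      fun_prop
    · intro t
      rw [injective_iff_map_eq_zero]
      intro v hv
      replace hv : v + ((t : ℝ) * c) • (v j • (Pi.single i (1 : ℝ) : idx E m → ℝ)) = 0 := hv
      have hj : v j = 0 := by
        have := congrFun hv j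
        simpa [hij.symm] using this
      simpa [hj] using hv
    · intro v
      simp
    · intro v
      rw [hB]
      simp only [Matrix.TransvectionStruct.toMatrix, Matrix.transvection]
      rw [Matrix.add_mulVec, Matrix.one_mulVec]
      funext k
      simp [Matrix.single_mulVec, Function.update_apply, Pi.single_apply]
  · intro M N hM hN ihM ihN B hB
    have hMu : IsUnit M.det := isUnit_iff_ne_zero.2 hM
    have hNu : IsUnit N.det := isUnit_iff_ne_zero.2 hN
    have mk : ∀ A : Matrix (idx E m) (idx E m) ℝ, IsUnit A.det →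
        ∃ B : (idx E m → ℝ) ≃L[ℝ] (idx E m → ℝ), ∀ v, B v = A.mulVec v := by
      intro A hA
      refine ⟨(LinearEquiv.ofBijective A.mulVecLin ?_).toContinuousLinearEquiv, fun v => rfl⟩
      constructor
      · exact Matrix.mulVec_injective_iff_isUnit.2 ((Matrix.isUnit_iff_isUnit_det A).2 hA)
      · exact Matrix.mulVec_surjective_iff_isUnit.2 ((Matrix.isUnit_iff_isUnit_det A).2 hA)
    obtain ⟨BM, hBM⟩ := mk M hMu
    obtain ⟨BN, hBN⟩ := mk N hNu
    have e : C E m B = C E m (BN.trans BM) := by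
      refine C_ext fun v => ?_
      rw [hB, ContinuousLinearEquiv.trans_apply, hBM, hBN, Matrix.mulVec_mulVec]
    rw [e, C_trans]
    rcases ihM BM hBM with h | h <;> rcases ihN BN hBN with h' | h' <;> rw [h, h']
    · left; simp
    · right; simp
    · right; simp
    · left; rw [comp_neg_one, neg_neg]

/-- **real linear isomorphisms of the levels are stably `± 1`** -/
theorem mk_linear (A : S E (m + 1) ≃L[ℝ] S E (m + 1)) :
    St.mk (m + 1) (PMap.ofHomeo A.toHomeomorph) = St.id E ∨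
      St.mk (m + 1) (PMap.ofHomeo A.toHomeomorph) = -St.id E := by
  classical
  set B : (idx E m → ℝ) ≃L[ℝ] (idx E m → ℝ) := ((phi E m).symm.trans A).trans (phi E m) with hB
  have h : St.mk (m + 1) (PMap.ofHomeo A.toHomeomorph) = C E m B := by
    rw [C]
    refine congrArg (St.mk (m + 1)) (PMap.ext fun x => ?_)
    change ((A x : S E (m + 1)) : OnePoint (S E (m + 1))) =
      (((phi E m).symm (phi E m (A ((phi E m).symm (phi E m x)))) : S E (m + 1)) :
        OnePoint (S E (m + 1)))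
    simp
  rw [h]
  refine C_matrix (LinearMap.toMatrix' B.toLinearEquiv.toLinearMap) ?_ B ?_
  · have h1 : LinearMap.det B.toLinearEquiv.toLinearMap ≠ 0 :=
      (LinearEquiv.isUnit_det' B.toLinearEquiv).ne_zero
    rwa [← LinearMap.det_toMatrix'] at h1
  · intro v
    rw [← Matrix.toLin'_apply, Matrix.toLin'_toMatrix']
    rfl

/-- **HOPF**: every stable self map of a sphere is an integer multiple of the identity. -/
theorem hopf (x : St E E) : ∃ k : ℤ, x = k • St.id E := by
  obtain ⟨n, hn, a, rfl⟩ := x.exists_of_ge 1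
  obtain ⟨m, rfl⟩ := Nat.exists_eq_add_of_le' hn
  obtain ⟨f, rfl⟩ := HC.mk_surj a
  change ∃ k : ℤ, St.mk (m + 1) f = k • St.id E
  refine hopf_ind (E := S E (m + 1)) (fun f => ∃ k : ℤ, St.mk (m + 1) f = k • St.id E)
    ?_ ?_ ?_ ?_ f
  · exact ⟨0, by rw [zero_smul]; exact St.of_zero (m + 1)⟩
  · intro A
    rcases mk_linear A with h | h
    · exact ⟨1, by rw [one_smul]; exact h⟩
    · exact ⟨-1, by rw [neg_one_smul]; exact h⟩
  · rintro f g hfg ⟨k, hk⟩
    exact ⟨k, by rw [mk_congr hfg, hk]⟩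
  · rintro f f1 f2 hU ⟨k1, h1⟩ ⟨k2, h2⟩
    exact ⟨k1 + k2, by rw [mk_union hU, h1, h2, add_smul]⟩

end lin

section general

variable {X : Type u} [TopologicalSpace X] [T2Space X] [LocallyCompactSpace X]
variable {E : Type v} [NormedAddCommGroup E] [NormedSpace ℝ E] [FiniteDimensional ℝ E]



end general

end Crest.Agent.R090.Hopf297
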