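import Crest.Agent.R090.Ho_962
import Crest.Agent.R090.AS2_58

-- ▼ part R090/AS1_412
section

/-!
# Row 90, T1g: Alexander-Spanier cohomology with compact supports (owner helper412)

* `SQ d M Z` : subquotient homology `{x ∈ M | d x ∈ Z} / (d M + Z)`, exact triangle of `Z ≤ L ≤ M`;
* `Tp X` tuples, `Co k X` cochains, `dl` differential, `Spp k X A` cochains with support off `A`;
* `AS k X A` : cohomology of `X` relative to `A` (cochains supported off `A`);
* `RH k U := AS k (OnePoint U) {∞}`, contravariant functor on pointed maps.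
-/

set_option autoImplicit false

noncomputable section

open Topology Filter Set

namespace Crest.Agent.R090.AS412

open OnePoint Crest.Agent.R090.Sp962 Finsupp

universe u v w x y

/-! ## subquotient homology -/

section SQ

variable {k : Type u} {E : Type v} {E' : Type w} {E'' : Type x} [CommRing k] [AddCommGroup E]
  [Module k E] [AddCommGroup E'] [Module k E'] [AddCommGroup E''] [Module k E'']

/-- relative cocycles -/
def cyc (d : E →ₗ[k] E) (M Z : Submodule k E) : Submodule k E := M ⊓ Z.comap d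

/-- relative coboundaries, inside `cyc` -/
def bds (d : E →ₗ[k] E) (M Z : Submodule k E) : Submodule k (cyc d M Z) :=
  (M.map d ⊔ Z).comap (cyc d M Z).subtype

/-- subquotient homology -/
abbrev SQ (d : E →ₗ[k] E) (M Z : Submodule k E) : Type v := (cyc d M Z) ⧸ (bds d M Z)

namespace SQ

variable {d : E →ₗ[k] E} {M Z : Submodule k E} {d' : E' →ₗ[k] E'} {M' Z' : Submodule k E'}
  {d'' : E'' →ₗ[k] E''} {M'' Z'' : Submodule k E''}

/-- the class of a relative cocycle -/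
def mk (x : E) (hM : x ∈ M) (hd : d x ∈ Z) : SQ d M Z := Submodule.Quotient.mk ⟨x, hM, hd⟩

theorem mk_surj (a : SQ d M Z) : ∃ (x : E) (hM : x ∈ M) (hd : d x ∈ Z), a = mk x hM hd := by
  obtain ⟨⟨x, hM, hd⟩, rfl⟩ := Submodule.Quotient.mk_surjective _ a
  exact ⟨x, hM, hd, rfl⟩

theorem mk_eq_zero {x : E} {hM : x ∈ M} {hd : d x ∈ Z} :
    (mk x hM hd : SQ d M Z) = 0 ↔ ∃ y ∈ M, x - d y ∈ Z := by
  unfold mk
  rw [Submodule.Quotient.mk_eq_zero]
  simp only [bds, Submodule.mem_comap, Submodule.subtype_apply, Submodule.mem_sup,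
    Submodule.mem_map]
  constructor
  · rintro ⟨_, ⟨y, hy, rfl⟩, z, hz, h⟩
    exact ⟨y, hy, by rw [← h]; simpa using hz⟩
  · rintro ⟨y, hy, h⟩
    exact ⟨_, ⟨y, hy, rfl⟩, _, h, by abel⟩

theorem mk_add {x y : E} {hx : x ∈ M} {hy : y ∈ M} {hdx : d x ∈ Z} {hdy : d y ∈ Z} :
    (mk x hx hdx : SQ d M Z) + mk y hy hdy =
      mk (x + y) (add_mem hx hy) (by rw [map_add]; exact add_mem hdx hdy) := rfl

theorem mk_sub {x y : E} {hx : x ∈ M} {hy : y ∈ M} {hdx : d x ∈ Z} {hdy : d y ∈ Z} :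
    (mk x hx hdx : SQ d M Z) - mk y hy hdy =
      mk (x - y) (sub_mem hx hy) (by rw [map_sub]; exact sub_mem hdx hdy) := rfl

theorem mk_smul {x : E} {hx : x ∈ M} {hdx : d x ∈ Z} (r : k) :
    r • (mk x hx hdx : SQ d M Z) =
      mk (r • x) (M.smul_mem r hx) (by rw [_root_.map_smul]; exact Z.smul_mem r hdx) := rfl

theorem mk_eq_mk {x y : E} {hx : x ∈ M} {hy : y ∈ M} {hdx : d x ∈ Z} {hdy : d y ∈ Z} :
    (mk x hx hdx : SQ d M Z) = mk y hy hdy ↔ ∃ w ∈ M, x - y - d w ∈ Z := by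
  rw [← sub_eq_zero, mk_sub, mk_eq_zero]

theorem mk_congr {x y : E} {hx : x ∈ M} {hy : y ∈ M} {hdx : d x ∈ Z} {hdy : d y ∈ Z}
    (h : x - y ∈ Z) : (mk x hx hdx : SQ d M Z) = mk y hy hdy :=
  mk_eq_mk.2 ⟨0, zero_mem _, by simpa using h⟩

/-- conditions for a linear map to induce a map of subquotient homologies -/
structure Ok (d : E →ₗ[k] E) (M Z : Submodule k E) (d' : E' →ₗ[k] E') (M' Z' : Submodule k E')
    (f : E →ₗ[k] E') : Prop where
  hM : ∀ x ∈ M, f x ∈ M'
  hZ : ∀ x ∈ Z, f x ∈ Z'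
  hd : ∀ x ∈ M, f (d x) - d' (f x) ∈ Z'

/-- induced map -/
def map (f : E →ₗ[k] E') (h : Ok d M Z d' M' Z' f) : SQ d M Z →ₗ[k] SQ d' M' Z' :=
  Submodule.mapQ _ _
    (f.restrict (p := cyc d M Z) (q := cyc d' M' Z') (fun x hx => by
      refine ⟨h.hM _ hx.1, ?_⟩
      have h1 := h.hZ _ hx.2
      have h2 := h.hd _ hx.1
      have := sub_mem h1 h2
      simpa using this))
    (by
      rintro ⟨x, hx⟩ hx'
      simp only [bds, Submodule.mem_comap, Submodule.subtype_apply, Submodule.mem_sup,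
        Submodule.mem_map] at hx' ⊢
      obtain ⟨_, ⟨y, hy, rfl⟩, z, hz, hxy⟩ := hx'
      refine ⟨_, ⟨f y, h.hM _ hy, rfl⟩, _, add_mem (h.hd _ hy) (h.hZ _ hz), ?_⟩
      change _ = f x
      rw [← hxy, map_add]
      abel)

theorem map_mk (f : E →ₗ[k] E') (h : Ok d M Z d' M' Z' f) (x : E) (hM : x ∈ M) (hd : d x ∈ Z) :
    ∃ hM' hd', map f h (mk x hM hd) = mk (f x) hM' hd' := by
  refine ⟨h.hM _ hM, ?_, rfl⟩
  have := sub_mem (h.hZ _ hd) (h.hd _ hM)
  simpa using this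


theorem Ok.id {M₁ Z₁ : Submodule k E} (hM : M ≤ M₁) (hZ : Z ≤ Z₁) :
    Ok d M Z d M₁ Z₁ LinearMap.id :=
  ⟨hM, hZ, fun x _ => by simp⟩

theorem Ok.comp {f : E →ₗ[k] E'} {g : E' →ₗ[k] E''} (hg : Ok d' M' Z' d'' M'' Z'' g)
    (hf : Ok d M Z d' M' Z' f) : Ok d M Z d'' M'' Z'' (g ∘ₗ f) where
  hM x hx := hg.hM _ (hf.hM _ hx)
  hZ x hx := hg.hZ _ (hf.hZ _ hx)
  hd x hx := by
    have h1 := hg.hZ _ (hf.hd _ hx)
    have h2 := hg.hd _ (hf.hM _ hx)
    rw [map_sub] at h1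
    have := add_mem h1 h2
    simpa using this




/-! ### exact triangle of `Z ≤ L ≤ M` -/

section triangle

variable {L : Submodule k E} (hdd : ∀ x, d (d x) = 0) (hZL : Z ≤ L) (hLM : L ≤ M)
  (hdL : ∀ x ∈ L, d x ∈ L)

/-- `H(L/Z) → H(M/Z)` -/
def incl (d : E →ₗ[k] E) (Z : Submodule k E) {L M : Submodule k E} (hLM : L ≤ M) :
    SQ d L Z →ₗ[k] SQ d M Z :=
  map LinearMap.id ⟨hLM, fun _ h => h, fun x _ => by simp⟩

/-- `H(M/Z) → H(M/L)` -/
def proj (d : E →ₗ[k] E) (M : Submodule k E) {Z L : Submodule k E} (hZL : Z ≤ L) :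
    SQ d M Z →ₗ[k] SQ d M L :=
  map LinearMap.id ⟨fun _ h => h, hZL, fun x _ => by simp⟩

/-- connecting map `H(M/L) → H(L/Z)`, induced by `d` -/
def conn (d : E →ₗ[k] E) (M L Z : Submodule k E) (hdd : ∀ x, d (d x) = 0)
    (_hdL : ∀ x ∈ L, d x ∈ L) : SQ d M L →ₗ[k] SQ d L Z :=
  Submodule.liftQ _
    { toFun := fun x => (mk (d x.1) x.2.2 (by rw [hdd]; exact zero_mem _) : SQ d L Z)
      map_add' := fun x y => by
        rw [mk_add]
        exact mk_congr (by simp)
      map_smul' := fun r x => by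
        rw [RingHom.id_apply, mk_smul]
        exact mk_congr (by simp) }
    (by
      rintro ⟨x, hx⟩ hx'
      simp only [bds, Submodule.mem_comap, Submodule.subtype_apply, Submodule.mem_sup,
        Submodule.mem_map] at hx'
      obtain ⟨_, ⟨y, hy, rfl⟩, z, hz, hxy⟩ := hx'
      rw [LinearMap.mem_ker]
      change (mk (d x) hx.2 (by rw [hdd]; exact zero_mem _) : SQ d L Z) = 0
      rw [mk_eq_zero]
      refine ⟨z, hz, ?_⟩
      rw [← hxy, map_add, hdd]
      simp)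

theorem conn_mk (hdd : ∀ x, d (d x) = 0) (hdL : ∀ x ∈ L, d x ∈ L) (x : E) (hM : x ∈ M)
    (hd : d x ∈ L) :
    conn d M L Z hdd hdL (mk x hM hd) = mk (d x) hd (by rw [hdd]; exact zero_mem _) := rfl

include hdd in
theorem exact_incl_proj : Function.Exact (incl d Z hLM) (proj d M hZL) := by
  intro a
  obtain ⟨x, hM, hd, rfl⟩ := mk_surj a
  constructor
  · intro h
    change (mk x hM (hZL hd) : SQ d M L) = 0 at h
    rw [mk_eq_zero] at h
    obtain ⟨y, hy, h⟩ := h
    have h' : d (x - d y) ∈ Z := by rw [map_sub, hdd, sub_zero]; exact hd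
    refine ⟨mk (x - d y) h h', ?_⟩
    change (mk (x - d y) (hLM h) h' : SQ d M Z) = _
    rw [mk_eq_mk]
    refine ⟨-y, neg_mem hy, ?_⟩
    simp
  · rintro ⟨b, hb⟩
    obtain ⟨z, hL, hd', rfl⟩ := mk_surj b
    rw [← hb]
    change (mk z (hLM hL) (hZL hd') : SQ d M L) = 0
    rw [mk_eq_zero]
    exact ⟨0, zero_mem _, by simpa using hL⟩

include hZL hLM in
theorem exact_proj_conn : Function.Exact (proj d M hZL) (conn d M L Z hdd hdL) := by
  intro a
  obtain ⟨x, hM, hd, rfl⟩ := mk_surj a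
  constructor
  · intro h
    rw [conn_mk, mk_eq_zero] at h
    obtain ⟨y, hy, h⟩ := h
    have h1 : x - y ∈ M := sub_mem hM (hLM hy)
    have h2 : d (x - y) ∈ Z := by rw [map_sub]; exact h
    refine ⟨mk (x - y) h1 h2, ?_⟩
    change (mk (x - y) h1 (hZL h2) : SQ d M L) = _
    exact mk_congr (by simpa using hy)
  · rintro ⟨b, hb⟩
    obtain ⟨z, hL, hd', rfl⟩ := mk_surj b
    rw [← hb]
    change conn d M L Z hdd hdL (mk z hL (hZL hd')) = 0
    rw [conn_mk, mk_eq_zero]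
    exact ⟨0, zero_mem _, by simpa using hd'⟩

include hZL hLM in
theorem exact_conn_incl : Function.Exact (conn d M L Z hdd hdL) (incl d Z hLM) := by
  intro a
  obtain ⟨x, hL, hd, rfl⟩ := mk_surj a
  constructor
  · intro h
    change (mk x (hLM hL) hd : SQ d M Z) = 0 at h
    rw [mk_eq_zero] at h
    obtain ⟨y, hy, h⟩ := h
    have h1 : d y ∈ L := by
      have := sub_mem hL (hZL h)
      simpa using this
    refine ⟨mk y hy h1, ?_⟩
    rw [conn_mk]
    refine mk_congr ?_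
    have := neg_mem h
    simpa using this
  · rintro ⟨b, hb⟩
    obtain ⟨z, hM, hd', rfl⟩ := mk_surj b
    rw [← hb]
    rw [conn_mk]
    change (mk (d z) (hLM hd') (by rw [hdd]; exact zero_mem _) : SQ d M Z) = 0
    rw [mk_eq_zero]
    exact ⟨z, hM, by simp⟩

end triangle

end SQ

end SQ

/-! ## tuples, chains, cochains -/

/-- tuples of points -/
abbrev Tp (X : Type u) : Type u := Σ n : ℕ, (Fin (n + 1) → X)

/-- chains on tuples -/
abbrev Ch (k : Type v) [CommRing k] (X : Type u) : Type (max u v) := Tp X →₀ k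

/-- cochains: arbitrary functions on tuples (all degrees together) -/
abbrev Co (k : Type v) (X : Type u) : Type (max u v) := Tp X → k

section chains

variable (k : Type v) [CommRing k] {X : Type u} {Y : Type w}

/-- boundary of a tuple -/
noncomputable def bdT : Tp X → Ch k X
  | ⟨0, _⟩ => 0
  | ⟨n + 1, x⟩ => ∑ i : Fin (n + 2), single ⟨n, x ∘ i.succAbove⟩ ((-1 : k) ^ (i : ℕ))

/-- boundary -/
noncomputable def bd : Ch k X →ₗ[k] Ch k X := Finsupp.linearCombination k (bdT k)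

/-- augmentation of a tuple -/
def augT : Tp X → k
  | ⟨0, _⟩ => 1
  | ⟨_ + 1, _⟩ => 0

/-- augmentation -/
noncomputable def aug : Ch k X →ₗ[k] k := Finsupp.linearCombination k (augT k)

/-- cone on a tuple -/
noncomputable def coneT (a : X) (t : Tp X) : Ch k X :=
  single ⟨t.1 + 1, Fin.cons a t.2⟩ 1

/-- cone -/
noncomputable def cone (a : X) : Ch k X →ₗ[k] Ch k X := Finsupp.linearCombination k (coneT k a)

variable {k}

@[simp] theorem bd_single (t : Tp X) (r : k) : bd k (single t r) = r • bdT k t := by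
  simp [bd]

@[simp] theorem aug_single (t : Tp X) (r : k) : aug k (single t r) = r * augT k t := by
  simp [aug]

@[simp] theorem cone_single (a : X) (t : Tp X) (r : k) :
    cone k a (single t r) = single ⟨t.1 + 1, Fin.cons a t.2⟩ r := by
  simp [cone, coneT]







/-- evaluation of a cochain on chains -/
noncomputable def ev (φ : Co k X) : Ch k X →ₗ[k] k := Finsupp.linearCombination k φ

@[simp] theorem ev_single (φ : Co k X) (t : Tp X) (r : k) : ev φ (single t r) = r * φ t := by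
  simp [ev]

/-- operator on cochains given by a chain valued function on tuples -/
noncomputable def op (T : Tp X → Ch k Y) : Co k Y →ₗ[k] Co k X where
  toFun φ t := ev φ (T t)
  map_add' φ ψ := by
    funext t
    simp [ev, Finsupp.linearCombination_apply, mul_add, Finsupp.sum_add]
  map_smul' r φ := by
    funext t
    simp [ev, Finsupp.linearCombination_apply, Finsupp.mul_sum, mul_left_comm]

theorem op_apply (T : Tp X → Ch k Y) (φ : Co k Y) (t : Tp X) : op T φ t = ev φ (T t) := rfl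


variable (k X) in
/-- the differential of cochains -/
noncomputable def dl : Co k X →ₗ[k] Co k X := op (bdT k)

theorem dl_zero (φ : Co k X) (x : Fin 1 → X) : dl k X φ ⟨0, x⟩ = 0 := by
  simp [dl, op_apply, bdT]

theorem dl_succ (φ : Co k X) (n : ℕ) (x : Fin (n + 2) → X) :
    dl k X φ ⟨n + 1, x⟩ = ∑ i : Fin (n + 2), (-1) ^ (i : ℕ) * φ ⟨n, x ∘ i.succAbove⟩ := by
  simp [dl, op_apply, bdT]


/-- pull back of cochains along an arbitrary function -/
def pull (f : X → Y) : Co k Y →ₗ[k] Co k X where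
  toFun φ t := φ ⟨t.1, f ∘ t.2⟩
  map_add' _ _ := rfl
  map_smul' _ _ := rfl

@[simp] theorem pull_apply (f : X → Y) (φ : Co k Y) (t : Tp X) :
    pull f φ t = φ ⟨t.1, f ∘ t.2⟩ := rfl

theorem dl_pull (f : X → Y) (φ : Co k Y) : dl k X (pull f φ) = pull f (dl k Y φ) := by
  funext ⟨n, x⟩
  rcases n with _ | n
  · rw [pull_apply, dl_zero, dl_zero]
  · rw [pull_apply, dl_succ, dl_succ]
    rfl

end chains

/-! ## small tuples and supports -/

section supports

variable {k : Type v} [CommRing k] {X : Type u} {Y : Type w} [TopologicalSpace X]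
  [TopologicalSpace Y]

/-- `W`-small tuples -/
def Near (W : Set (X × X)) (t : Tp X) : Prop := ∀ i j, (t.2 i, t.2 j) ∈ W

variable (k X) in
/-- cochains with support off `A`: zero on small tuples close to `A` -/
def Spp (A : Set X) : Submodule k (Co k X) where
  carrier := {φ | ∃ W ∈ 𝓝ˢ (diagonal X), ∃ N ∈ 𝓝ˢ A, ∀ t : Tp X, Near W t →
    (∀ i, t.2 i ∈ N) → φ t = 0}
  zero_mem' := ⟨univ, univ_mem, univ, univ_mem, fun _ _ _ => rfl⟩
  add_mem' := by
    rintro φ ψ ⟨W, hW, N, hN, h⟩ ⟨W', hW', N', hN', h'⟩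
    refine ⟨W ∩ W', inter_mem hW hW', N ∩ N', inter_mem hN hN', fun t ht htN => ?_⟩
    rw [Pi.add_apply, h t (fun i j => (ht i j).1) (fun i => (htN i).1),
      h' t (fun i j => (ht i j).2) (fun i => (htN i).2), add_zero]
  smul_mem' := by
    rintro r φ ⟨W, hW, N, hN, h⟩
    exact ⟨W, hW, N, hN, fun t ht htN => by rw [Pi.smul_apply, h t ht htN, smul_zero]⟩

variable (k X) in
/-- locally zero cochains -/
abbrev Zc : Submodule k (Co k X) := Spp k X univ

theorem mem_Spp {A : Set X} {φ : Co k X} : φ ∈ Spp k X A ↔ ∃ W ∈ 𝓝ˢ (diagonal X), ∃ N ∈ 𝓝ˢ A,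
    ∀ t : Tp X, Near W t → (∀ i, t.2 i ∈ N) → φ t = 0 := Iff.rfl

theorem mem_Zc {φ : Co k X} : φ ∈ Zc k X ↔ ∃ W ∈ 𝓝ˢ (diagonal X),
    ∀ t : Tp X, Near W t → φ t = 0 := by
  rw [mem_Spp]
  constructor
  · rintro ⟨W, hW, N, hN, h⟩
    refine ⟨W, hW, fun t ht => h t ht fun i => ?_⟩
    exact subset_of_mem_nhdsSet hN (mem_univ _)
  · rintro ⟨W, hW, h⟩
    exact ⟨W, hW, univ, univ_mem, fun t ht _ => h t ht⟩

theorem diag_nhds {W : Set (X × X)} (hW : W ∈ 𝓝ˢ (diagonal X)) (x : X) :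
    ∃ N ∈ 𝓝 x, ∀ a ∈ N, ∀ b ∈ N, (a, b) ∈ W := by
  have h : W ∈ 𝓝 (x, x) := mem_nhdsSet_iff_forall.1 hW (x, x) rfl
  rw [nhds_prod_eq] at h
  obtain ⟨N, hN, N', hN', h⟩ := Filter.mem_prod_iff.1 h
  exact ⟨N ∩ N', inter_mem hN hN', fun a ha b hb => h ⟨ha.1, hb.2⟩⟩

/-- support off one point -/
theorem mem_Spp_singleton {a : X} {φ : Co k X} : φ ∈ Spp k X {a} ↔ ∃ N ∈ 𝓝 a,
    ∀ t : Tp X, (∀ i, t.2 i ∈ N) → φ t = 0 := by
  rw [mem_Spp]
  constructor
  · rintro ⟨W, hW, N, hN, h⟩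
    obtain ⟨N', hN', h'⟩ := diag_nhds hW a
    rw [nhdsSet_singleton] at hN
    exact ⟨N ∩ N', inter_mem hN hN', fun t ht =>
      h t (fun i j => h' _ (ht i).2 _ (ht j).2) fun i => (ht i).1⟩
  · rintro ⟨N, hN, h⟩
    exact ⟨univ, univ_mem, N, by rwa [nhdsSet_singleton], fun t _ ht => h t ht⟩




theorem pull_mem_Spp {f : X → Y} (hf : Continuous f) {A : Set X} {B : Set Y} (hAB : MapsTo f A B)
    {φ : Co k Y} (h : φ ∈ Spp k Y B) : pull f φ ∈ Spp k X A := by
  obtain ⟨W, hW, N, hN, h⟩ := h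
  have h1 : Tendsto (Prod.map f f) (𝓝ˢ (diagonal X)) (𝓝ˢ (diagonal Y)) := by
    refine (hf.prodMap hf).tendsto_nhdsSet ?_
    rintro ⟨a, b⟩ hab
    simp only [mem_diagonal_iff] at hab ⊢
    simp [hab]
  have h2 : Tendsto f (𝓝ˢ A) (𝓝ˢ B) := hf.tendsto_nhdsSet hAB
  exact ⟨_, h1 hW, _, h2 hN, fun t ht htN => h _ (fun i j => ht i j) fun i => htN i⟩

variable (k X) in
/-- Alexander-Spanier cohomology of `X` with supports off `A`
(for `X` compact Hausdorff: cohomology of `X ∖ A` with compact supports) -/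
abbrev AS (A : Set X) : Type (max u v) := SQ (dl k X) (Spp k X A) (Zc k X)

/-- the map induced by a continuous map of pairs -/
theorem ok_pull {f : X → Y} (hf : Continuous f) {A : Set X} {B : Set Y} (hAB : MapsTo f A B) :
    SQ.Ok (dl k Y) (Spp k Y B) (Zc k Y) (dl k X) (Spp k X A) (Zc k X) (pull f) where
  hM _ h := pull_mem_Spp hf hAB h
  hZ _ h := pull_mem_Spp hf (mapsTo_univ _ _) h
  hd φ _ := by rw [dl_pull, sub_self]; exact zero_mem _

variable (k) in
/-- functoriality -/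
def ASmap {f : X → Y} (hf : Continuous f) {A : Set X} {B : Set Y} (hAB : MapsTo f A B) :
    AS k Y B →ₗ[k] AS k X A := SQ.map (pull f) (ok_pull hf hAB)

theorem ASmap_mk {f : X → Y} (hf : Continuous f) {A : Set X} {B : Set Y} (hAB : MapsTo f A B)
    (φ : Co k Y) (h1 : φ ∈ Spp k Y B) (h2 : dl k Y φ ∈ Zc k Y) :
    ASmap k hf hAB (SQ.mk φ h1 h2) = SQ.mk (pull f φ) (pull_mem_Spp hf hAB h1)
      (by rw [dl_pull]; exact pull_mem_Spp hf (mapsTo_univ _ _) h2) := rfl

/-! ### local characterisation -/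

theorem exists_lebesgue [CompactSpace X] [T2Space X] {A : Set X} (hA : IsClosed A)
    (N : X → Set X) (hN : ∀ a ∈ A, N a ∈ 𝓝 a) :
    ∃ W ∈ 𝓝ˢ (diagonal X), ∃ M ∈ 𝓝ˢ A, ∀ x ∈ M, ∃ a ∈ A, ∀ y, (x, y) ∈ W → y ∈ N a := by
  let _ := uniformSpaceOfCompactR1 (γ := X)
  have hU : uniformity X = 𝓝ˢ (diagonal X) := nhdsSet_diagonal_eq_uniformity.symm
  obtain ⟨V, hV, h⟩ := lebesgue_number_lemma_nhds' (K := A) hA.isCompact
    (U := fun x _ => N x) (fun x hx => hN x hx)
  obtain ⟨V', hV', hs, hc⟩ := comp_symm_mem_uniformity_sets hV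
  refine ⟨V', hU ▸ hV', ⋃ a ∈ A, UniformSpace.ball a V', ?_, ?_⟩
  · rw [mem_nhdsSet_iff_forall]
    intro a ha
    exact mem_of_superset (UniformSpace.ball_mem_nhds a hV')
      (subset_biUnion_of_mem (u := fun a => UniformSpace.ball a V') ha)
  · intro x hx
    simp only [mem_iUnion, exists_prop] at hx
    obtain ⟨a, ha, hx⟩ := hx
    obtain ⟨⟨b, hb⟩, hab⟩ := h a ha
    refine ⟨b, hb, fun y hy => hab ?_⟩
    exact hc (SetRel.prodMk_mem_comp hx hy)



end supports

/-! ## the functor `RH` -/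

section RH

variable (k : Type v) [CommRing k] (U : Type u) [TopologicalSpace U]

/-- cohomology with compact supports of `U` = reduced cohomology of `OnePoint U`, all degrees
together -/
abbrev RH : Type (max u v) := AS k (OnePoint U) {(∞ : OnePoint U)}

variable {U} {V : Type w} [TopologicalSpace V] {W : Type x} [TopologicalSpace W]

/-- functoriality on pointed maps -/
def RH.map (f : PMap U V) : RH k V →ₗ[k] RH k U :=
  ASmap k f.cont (by rw [mapsTo_singleton]; exact f.map_inf)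

theorem RH.map_id (a : RH k U) : RH.map k (PMap.id U) a = a := by
  obtain ⟨φ, h1, h2, rfl⟩ := SQ.mk_surj a
  rfl


theorem RH.map_zero (a : RH k V) : RH.map k (PMap.zero U V) a = 0 := by
  obtain ⟨φ, h1, h2, rfl⟩ := SQ.mk_surj a
  rw [RH.map, ASmap_mk, SQ.mk_eq_zero]
  refine ⟨0, zero_mem _, ?_⟩
  rw [_root_.map_zero, sub_zero]
  obtain ⟨N, hN, h⟩ := mem_Spp_singleton.1 h1
  exact mem_Zc.2 ⟨univ, univ_mem, fun t _ => h _ fun i => mem_of_mem_nhds hN⟩

end RH

/-! ## acyclic carriers -/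

section carrier

variable {k : Type v} [CommRing k] {X : Type u} {Y : Type w}


















end carrier

end Crest.Agent.R090.AS412

end
private theorem rz_8ac2c81f3f : type_of% @_root_.Crest.Agent.R090.AS412.augT.eq_1 := @_root_.Crest.Agent.R090.AS412.augT.eq_1 -- L297
private theorem rz_1791000c5d : type_of% @_root_.Crest.Agent.R090.AS412.bdT.eq_1 := @_root_.Crest.Agent.R090.AS412.bdT.eq_1 -- L289
end

-- ▼ part R090/LesA_412

/-!
# Row 90, HOM: the exact triangle of a closed pair on list cochains, part 1 (owner helper412)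

Cochains are `List X → F` (58's complex).  `Spp F A` : cochains vanishing on small lists close to
`A`.  For `X` compact Hausdorff and `A` closed:

* `mem_Spp_loc` local characterisation;
* `Lr i x₀` : cochains in `Spp {x₀}` whose restriction along `i` is locally zero;
* `taut` : `H(Spp A / Z) → H(Lr / Z)` bijective (discontinuous nearest point retraction);
* `res_bij` : restriction `H(Spp {x₀} / Lr) → H(Spp {k₀} / Z)` bijective (extension by zero);
* `col_bij` : `pull q : H(Spp {q₀} / Z) → H(Spp A / Z)` bijective for the collapse `q`.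
-/

set_option autoImplicit false
set_option linter.unusedSectionVars false

open Topology Filter Set

namespace Crest.Agent.R090.Les412

open Crest.Agent.R090.AS58

/-! ## bijections of subquotient homology -/

section bij

variable {k : Type*} {E E' : Type*} [CommRing k] [AddCommGroup E] [Module k E] [AddCommGroup E']
  [Module k E'] {d : E →ₗ[k] E} {M Z : Submodule k E} {d' : E' →ₗ[k] E'} {M' Z' : Submodule k E'}

/-- isomorphism of quotient complexes -/
theorem sq_bij (f : E →ₗ[k] E') (h : AS412.SQ.Ok d M Z d' M' Z' f)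
    (hdM : ∀ x ∈ M, d x ∈ M) (hdZ : ∀ x ∈ Z', d' x ∈ Z')
    (hi : ∀ x ∈ M, f x ∈ Z' → x ∈ Z) (hs : ∀ y ∈ M', ∃ x ∈ M, y - f x ∈ Z') :
    Function.Bijective (AS412.SQ.map f h) := by
  constructor
  · rw [injective_iff_map_eq_zero]
    intro a ha
    obtain ⟨x, hM, hd, rfl⟩ := AS412.SQ.mk_surj a
    obtain ⟨h1, h2, e1⟩ := AS412.SQ.map_mk f h x hM hd
    rw [e1, AS412.SQ.mk_eq_zero] at ha
    obtain ⟨y, hy, hxy⟩ := ha
    obtain ⟨w, hw, hyw⟩ := hs y hy
    rw [AS412.SQ.mk_eq_zero]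
    refine ⟨w, hw, hi _ (sub_mem hM (hdM _ hw)) ?_⟩
    have h3 := hdZ _ hyw
    have h4 := h.hd _ hw
    have e : f (x - d w) = (f x - d' y) + (d' (y - f w)) - (f (d w) - d' (f w)) := by
      simp only [map_sub]; abel
    rw [e]
    exact sub_mem (add_mem hxy h3) h4
  · intro b
    obtain ⟨y, hM, hd, rfl⟩ := AS412.SQ.mk_surj b
    obtain ⟨x, hx, hxy⟩ := hs y hM
    have h1 : f (d x) ∈ Z' := by
      have h3 := hdZ _ hxy
      have h4 := h.hd _ hx
      have e : f (d x) = (f (d x) - d' (f x)) + (d' y - d' (y - f x)) := by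
        simp only [map_sub]; abel
      rw [e]
      exact add_mem h4 (sub_mem hd h3)
    refine ⟨AS412.SQ.mk x hx (hi _ (hdM _ hx) h1), ?_⟩
    obtain ⟨h5, h6, e1⟩ := AS412.SQ.map_mk f h x hx (hi _ (hdM _ hx) h1)
    rw [e1]
    refine AS412.SQ.mk_congr ?_
    have := neg_mem hxy
    simpa using this

/-- inclusion of subcomplexes with acyclic quotient -/
theorem sq_incl_bij {L : Submodule k E} (hLM : L ≤ M) (hZL : Z ≤ L) (hdd : ∀ x, d (d x) = 0)
    (H : ∀ x ∈ M, d x ∈ L → ∃ y ∈ M, x - d y ∈ L) :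
    Function.Bijective (AS412.SQ.incl d Z hLM) := by
  constructor
  · rw [injective_iff_map_eq_zero]
    intro a ha
    obtain ⟨x, hL, hd, rfl⟩ := AS412.SQ.mk_surj a
    change (AS412.SQ.mk x (hLM hL) hd : AS412.SQ d M Z) = 0 at ha
    rw [AS412.SQ.mk_eq_zero] at ha
    obtain ⟨y, hy, hxy⟩ := ha
    have h1 : d y ∈ L := by
      have := sub_mem hL (hZL hxy)
      simpa using this
    obtain ⟨w, hw, hyw⟩ := H y hy h1
    rw [AS412.SQ.mk_eq_zero]
    refine ⟨y - d w, hyw, ?_⟩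
    rw [map_sub, hdd, sub_zero]
    exact hxy
  · intro b
    obtain ⟨x, hM, hd, rfl⟩ := AS412.SQ.mk_surj b
    obtain ⟨y, hy, hxy⟩ := H x hM (hZL hd)
    have h1 : d (x - d y) ∈ Z := by rw [map_sub, hdd, sub_zero]; exact hd
    refine ⟨AS412.SQ.mk (x - d y) hxy h1, ?_⟩
    change (AS412.SQ.mk (x - d y) (hLM hxy) h1 : AS412.SQ d M Z) = _
    rw [AS412.SQ.mk_eq_mk]
    exact ⟨-y, neg_mem hy, by simp⟩

end bij

/-! ## local characterisation of supports -/

section supports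

variable {F : Type} [CommRing F] {X : Type} [TopologicalSpace X]

theorem LZ_eq_Sp : LZ F X = Sp F (univ : Set X) := by
  ext φ
  rw [mem_LZ, mem_Sp]
  constructor
  · rintro ⟨W, hW, h⟩
    exact ⟨univ, univ_mem, W, hW, fun l _ hl => h l hl⟩
  · rintro ⟨N, hN, W, hW, h⟩
    refine ⟨W, hW, fun l hl => h l (fun x _ => ?_) hl⟩
    exact subset_of_mem_nhdsSet hN (mem_univ _)

theorem diag_nhds {W : Set (X × X)} (hW : W ∈ 𝓝ˢ (diagonal X)) (x : X) :
    ∃ N ∈ 𝓝 x, ∀ a ∈ N, ∀ b ∈ N, (a, b) ∈ W := by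
  have h : W ∈ 𝓝 (x, x) := mem_nhdsSet_iff_forall.1 hW (x, x) rfl
  rw [nhds_prod_eq] at h
  obtain ⟨N, hN, N', hN', h⟩ := Filter.mem_prod_iff.1 h
  exact ⟨N ∩ N', inter_mem hN hN', fun a ha b hb => h ⟨ha.1, hb.2⟩⟩

theorem exists_lebesgue [CompactSpace X] [T2Space X] {A : Set X} (hA : IsClosed A)
    (N : X → Set X) (hN : ∀ a ∈ A, N a ∈ 𝓝 a) :
    ∃ W ∈ 𝓝ˢ (diagonal X), ∃ M ∈ 𝓝ˢ A, ∀ x ∈ M, ∃ a ∈ A, ∀ y, (x, y) ∈ W → y ∈ N a :=
  AS412.exists_lebesgue hA N hN

/-- **local characterisation of supports** -/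
theorem mem_Sp_loc [CompactSpace X] [T2Space X] {A : Set X} (hA : IsClosed A)
    {φ : List X → F} : φ ∈ Sp F A ↔ φ [] = 0 ∧
      ∀ a ∈ A, ∃ N ∈ 𝓝 a, ∀ l : List X, Inn N l → φ l = 0 := by
  constructor
  · intro h
    refine ⟨Sp_nil h, fun a ha => ?_⟩
    exact mem_Sp_singleton.1 (Sp_anti (singleton_subset_iff.2 ha) h)
  · rintro ⟨h0, h⟩
    choose! N hN hN' using h
    obtain ⟨W, hW, M, hM, h⟩ := exists_lebesgue hA N hN
    refine ⟨M, hM, W, hW, fun t htM ht => ?_⟩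
    rcases t with _ | ⟨x, t⟩
    · exact h0
    · obtain ⟨a, ha, h'⟩ := h x (htM x (by simp))
      exact hN' a ha _ fun i hi => h' _ (ht x (by simp) i hi)

theorem mem_LZ_loc [CompactSpace X] [T2Space X] {φ : List X → F} : φ ∈ LZ F X ↔ φ [] = 0 ∧
      ∀ a, ∃ N ∈ 𝓝 a, ∀ l : List X, Inn N l → φ l = 0 := by
  rw [LZ_eq_Sp, mem_Sp_loc isClosed_univ]
  simp

end supports

/-! ## the cohomology of a closed set, a general closed pair -/

section pair

variable {F : Type} [CommRing F] {X K Q : Type} [TopologicalSpace X] [TopologicalSpace K]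
  [TopologicalSpace Q]

/-- cochains supported off `x₀` whose restriction along `i` is locally zero -/
def Lr (F : Type) [CommRing F] (i : K → X) (x₀ : X) : Submodule F (List X → F) :=
  Sp F {x₀} ⊓ (LZ F K).comap (pull i)


theorem Lr_le {i : K → X} {x₀ : X} : Lr F i x₀ ≤ Sp F {x₀} := inf_le_left

theorem d_mem_Lr {i : K → X} {x₀ : X} {φ : List X → F} (h : φ ∈ Lr F i x₀) :
    d φ ∈ Lr F i x₀ := by
  refine ⟨d_mem_Sp h.1, ?_⟩
  change pull i (d φ) ∈ LZ F K
  rw [← d_pull]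
  exact d_mem_LZ h.2

theorem ev_mem_Lr {i : K → X} {x₀ : X} {φ : List X → F} (h : φ ∈ Lr F i x₀) :
    ev φ ∈ Lr F i x₀ := by
  refine ⟨ev_mem_Sp h.1, ?_⟩
  change pull i (ev φ) ∈ LZ F K
  rw [← ev_pull]
  exact ev_mem_LZ h.2

theorem Sp_range_le_Lr {i : K → X} (hi : Continuous i) {x₀ : X} (hx : x₀ ∈ range i) :
    Sp F (range i) ≤ Lr F i x₀ := fun φ h =>
  ⟨Sp_anti (singleton_subset_iff.2 hx) h, show pull i φ ∈ LZ F K by
    rw [LZ_eq_Sp]; exact pull_mem_Sp hi (fun x _ => mem_range_self x) h⟩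

theorem LZ_le_Lr {i : K → X} (hi : Continuous i) {x₀ : X} (hx : x₀ ∈ range i) :
    LZ F X ≤ Lr F i x₀ := (LZ_le_Sp _).trans (Sp_range_le_Lr hi hx)

open Classical in
/-- extension by zero -/
noncomputable def extz (i : K → X) (j : X → K) (ψ : List K → F) : List X → F :=
  fun l => if ∀ x ∈ l, x ∈ range i then ψ (l.map j) else 0

/-- **restriction is surjective on cochains** -/
theorem exists_ext {i : K → X} (hi : IsClosedEmbedding i) {k₀ : K} {ψ : List K → F}
    (h : ψ ∈ Sp F {k₀}) : ∃ φ ∈ Sp F {i k₀}, pull i φ = ψ := by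
  classical
  have hne : Nonempty K := ⟨k₀⟩
  set j := Function.invFun i with hj
  have hji : ∀ x, j (i x) = x := Function.leftInverse_invFun hi.injective
  refine ⟨extz i j ψ, ?_, ?_⟩
  · obtain ⟨N, hN, h⟩ := mem_Sp_singleton.1 h
    have h1 : N ∈ comap i (𝓝 (i k₀)) := by rw [← hi.isInducing.nhds_eq_comap]; exact hN
    obtain ⟨N', hN', h'⟩ := h1
    refine mem_Sp_singleton.2 ⟨N', hN', fun l hl => ?_⟩
    unfold extz
    split_ifs with hr
    · refine h _ fun x hx => ?_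
      obtain ⟨y, hy, rfl⟩ := List.mem_map.1 hx
      obtain ⟨z, rfl⟩ := hr y hy
      rw [hji]
      exact h' (hl _ hy)
    · rfl
  · funext l
    simp only [pull_apply, extz]
    rw [if_pos, List.map_map]
    · congr 1
      have : j ∘ i = id := funext hji
      rw [this, List.map_id]
    · intro x hx
      obtain ⟨y, _, rfl⟩ := List.mem_map.1 hx
      exact mem_range_self y

theorem ok_res {i : K → X} (hi : Continuous i) (k₀ : K) :
    AS412.SQ.Ok (d : (List X → F) →ₗ[F] _) (Sp F {i k₀}) (Lr F i (i k₀)) d (Sp F {k₀}) (LZ F K)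
      (pull i) where
  hM φ h := pull_mem_Sp hi (by intro x hx; rw [mem_singleton_iff] at hx ⊢; rw [hx]) h
  hZ φ h := h.2
  hd φ _ := by rw [d_pull, sub_self]; exact zero_mem _

/-- **restriction**: `H(Spp {x₀} / Lr) ≅ H(K)` -/
theorem res_bij {i : K → X} (hi : IsClosedEmbedding i) {k₀ : K} :
    Function.Bijective (AS412.SQ.map (pull (F := F) i) (ok_res (F := F) hi.continuous k₀)) := by
  refine sq_bij _ _ (fun _ h => d_mem_Sp h) (fun _ h => d_mem_LZ h) (fun _ h1 h2 => ⟨h1, h2⟩) ?_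
  intro ψ h
  obtain ⟨φ, h1, h2⟩ := exists_ext hi h
  exact ⟨φ, h1, by rw [h2, sub_self]; exact zero_mem _⟩

/-! ### tautness -/

/-- nearest point retraction -/
theorem exists_retract [CompactSpace X] [T2Space X] {A : Set X} {V : Set (X × X)}
    (hV : V ∈ 𝓝ˢ (diagonal X)) :
    ∃ (r : X → X) (N : Set X), N ∈ 𝓝ˢ A ∧ (∀ x ∈ N, r x ∈ A) ∧ (∀ x ∈ A, r x = x) ∧
      ∀ x, (x, r x) ∈ V := by
  classical
  set N : Set X := {x | ∃ a ∈ A, (x, a) ∈ V} with hN
  have hdiag : ∀ x, (x, x) ∈ V := fun x => subset_of_mem_nhdsSet hV rfl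
  have hNA : N ∈ 𝓝ˢ A := by
    rw [mem_nhdsSet_iff_forall]
    intro a ha
    obtain ⟨M, hM, h⟩ := diag_nhds hV a
    refine mem_of_superset hM fun x hx => ⟨a, ha, h x hx a (mem_of_mem_nhds hM)⟩
  have hch : ∀ x, ∃ y, (x, y) ∈ V ∧ (x ∈ N → y ∈ A) ∧ (x ∈ A → y = x) := by
    intro x
    by_cases hxA : x ∈ A
    · exact ⟨x, hdiag x, fun _ => hxA, fun _ => rfl⟩
    · by_cases hxN : x ∈ N
      · obtain ⟨a, ha, h⟩ := hxN
        exact ⟨a, h, fun _ => ha, fun h => absurd h hxA⟩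
      · exact ⟨x, hdiag x, fun h => absurd h hxN, fun _ => rfl⟩
  choose r h1 h2 h3 using hch
  exact ⟨r, N, hNA, h2, h3, h1⟩

/-- `V ∘ W ∘ V ⊆ W'` for small neighbourhoods of the diagonal -/
theorem exists_comp3 [CompactSpace X] [T2Space X] {W : Set (X × X)}
    (hW : W ∈ 𝓝ˢ (diagonal X)) :
    ∃ V ∈ 𝓝ˢ (diagonal X), (∀ x y, (x, y) ∈ V → (y, x) ∈ V) ∧
      ∀ x y z w, (x, y) ∈ V → (y, z) ∈ V → (z, w) ∈ V → (x, w) ∈ W := by
  let _ := uniformSpaceOfCompactR1 (γ := X)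
  have hU : uniformity X = 𝓝ˢ (diagonal X) := nhdsSet_diagonal_eq_uniformity.symm
  rw [← hU] at hW ⊢
  obtain ⟨V, hV, hs, hc⟩ := comp_comp_symm_mem_uniformity_sets hW
  refine ⟨V, hV, fun x y h => ?_, fun x y z w h1 h2 h3 => ?_⟩
  · exact hs.symm _ _ h
  · exact hc (SetRel.prodMk_mem_comp (SetRel.prodMk_mem_comp h1 h2) h3)

/-- smallness on a closed subspace -/
theorem exists_small [CompactSpace X] [T2Space X] {i : K → X} (hi : IsClosedEmbedding i)
    {φ : List X → F} (hr : pull i φ ∈ LZ F K) : ∃ W ∈ 𝓝ˢ (diagonal X), ∀ l : List X,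
      (∀ x ∈ l, x ∈ range i) → Sm W l → φ l = 0 := by
  have h0 : φ [] = 0 := by
    have := LZ_nil hr
    simpa using this
  obtain ⟨WK, hWK, hr⟩ := mem_LZ.1 hr
  have key : ∀ a ∈ range i, ∃ N ∈ 𝓝 a, ∀ l : List X, (∀ x ∈ l, x ∈ range i) →
      (∀ x ∈ l, x ∈ N) → φ l = 0 := by
    rintro _ ⟨k, rfl⟩
    obtain ⟨M, hM, h⟩ := diag_nhds hWK k
    have h1 : M ∈ comap i (𝓝 (i k)) := by rw [← hi.isInducing.nhds_eq_comap]; exact hM
    obtain ⟨N, hN, hNM⟩ := h1
    refine ⟨N, hN, fun l hl hlN => ?_⟩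
    have h2 : ∃ m : List K, m.map i = l := by
      clear hlN
      induction l with
      | nil => exact ⟨[], rfl⟩
      | cons x l ih =>
        obtain ⟨y, hy⟩ := hl x (by simp)
        obtain ⟨m, hm⟩ := ih fun z hz => hl z (by simp [hz])
        exact ⟨y :: m, by simp [hy, hm]⟩
    obtain ⟨m, rfl⟩ := h2
    refine hr m fun x hx y hy => h x ?_ y ?_
    · exact hNM (hlN _ (List.mem_map_of_mem hx))
    · exact hNM (hlN _ (List.mem_map_of_mem hy))
  choose! N hN hN' using key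
  obtain ⟨W, hW, M, hM, h⟩ := exists_lebesgue hi.isClosed_range N hN
  refine ⟨W, hW, fun l hl hs => ?_⟩
  rcases l with _ | ⟨x, l⟩
  · exact h0
  · have hx : x ∈ range i := hl x (by simp)
    obtain ⟨a, ha, h'⟩ := h x (subset_of_mem_nhdsSet hM hx)
    exact hN' a ha _ hl fun y hy => h' _ (hs x (by simp) y hy)

/-- **tautness** -/
theorem taut_aux [CompactSpace X] [T2Space X] {i : K → X} (hi : IsClosedEmbedding i)
    {x₀ : X} (φ : List X → F) (h : φ ∈ Lr F i x₀)
    (hd : d φ ∈ Sp F (range i)) : ∃ ψ ∈ Lr F i x₀, φ - d ψ ∈ Sp F (range i) := by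
  obtain ⟨hM, hr⟩ := h
  obtain ⟨N₀, hN₀, hM⟩ := mem_Sp_singleton.1 hM
  obtain ⟨W₁, hW₁, hr⟩ := exists_small hi hr
  obtain ⟨N₂, hN₂, W₂, hW₂, hd⟩ := hd
  obtain ⟨W₀, hW₀, M₀, hM₀, h₀⟩ := exists_lebesgue (isClosed_singleton (x := x₀)) (fun _ => N₀)
    (by rintro a rfl; exact hN₀)
  rw [nhdsSet_singleton] at hM₀
  obtain ⟨V, hV, hsym, hcomp⟩ := exists_comp3 (inter_mem hW₀ (inter_mem hW₁ hW₂))
  have hVd : ∀ x, (x, x) ∈ V := fun x => subset_of_mem_nhdsSet hV rfl
  obtain ⟨r, N, hN, hrA, hrid, hrV⟩ := exists_retract (A := range i) hV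
  -- mixed lists are small
  have hmix : ∀ l : List X, Sm V l → Sm (W₀ ∩ (W₁ ∩ W₂)) (l.map id ++ l.map r) := by
    intro l hl
    have hh : ∀ a ∈ l.map id ++ l.map r, ∃ x ∈ l, (x, a) ∈ V := by
      intro a ha
      rcases List.mem_append.1 ha with ha | ha
      · obtain ⟨x, hx, rfl⟩ := List.mem_map.1 ha
        exact ⟨x, hx, hVd _⟩
      · obtain ⟨x, hx, rfl⟩ := List.mem_map.1 ha
        exact ⟨x, hx, hrV _⟩
    intro a ha b hb
    obtain ⟨x, hx, hxa⟩ := hh a ha
    obtain ⟨y, hy, hyb⟩ := hh b hb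
    exact hcomp _ _ _ _ (hsym _ _ hxa) (hl x hx y hy) hyb
  refine ⟨-pr id r φ, ⟨?_, ?_⟩, ?_⟩
  · refine neg_mem (mem_Sp_singleton.2 ⟨M₀ ∩ N₀, inter_mem hM₀ hN₀, fun l hl => ?_⟩)
    refine pr_eq_zero fun m hm => hM m fun y hy => ?_
    rcases List.mem_append.1 (hm hy) with hy | hy
    · obtain ⟨x, hx, rfl⟩ := List.mem_map.1 hy
      exact (hl x hx).2
    · obtain ⟨x, hx, rfl⟩ := List.mem_map.1 hy
      obtain ⟨a, ha, h'⟩ := h₀ x (hl x hx).1
      exact h' _ (hcomp _ _ _ _ (hVd _) (hVd _) (hrV x)).1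
  · change pull i (-pr id r φ) ∈ LZ F K
    rw [map_neg]
    refine neg_mem (mem_LZ.2 ?_)
    have h1 : Tendsto (Prod.map i i) (𝓝ˢ (diagonal K)) (𝓝ˢ (diagonal X)) := by
      refine (hi.continuous.prodMap hi.continuous).tendsto_nhdsSet ?_
      rintro ⟨a, b⟩ hab
      simp only [mem_diagonal_iff] at hab ⊢
      simp [hab]
    refine ⟨_, h1 hV, fun l hl => ?_⟩
    have hl' : Sm V (l.map i) := by
      intro x hx y hy
      obtain ⟨x', hx', rfl⟩ := List.mem_map.1 hx
      obtain ⟨y', hy', rfl⟩ := List.mem_map.1 hy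
      exact hl x' hx' y' hy'
    rw [pull_apply]
    refine pr_eq_zero fun m hm => ?_
    refine hr m (fun y hy => ?_) (((hmix _ hl').sub hm).mono (fun p hp => hp.2.1))
    rcases List.mem_append.1 (hm hy) with hy | hy
    · obtain ⟨x, hx, rfl⟩ := List.mem_map.1 hy
      obtain ⟨z, _, rfl⟩ := List.mem_map.1 hx
      exact mem_range_self z
    · obtain ⟨x, hx, rfl⟩ := List.mem_map.1 hy
      obtain ⟨z, _, rfl⟩ := List.mem_map.1 hx
      rw [hrid _ (mem_range_self z)]
      exact mem_range_self z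
  · have e : φ - d (-pr id r φ) = pull r φ - pr id r (d φ) := by
      have h1 := prism id r φ
      rw [map_neg, sub_neg_eq_add]
      rw [pull_id] at h1
      have h2 : pull r φ = φ + (d (pr id r φ) + pr id r (d φ)) := by rw [← h1]; abel
      rw [h2]; abel
    rw [e]
    refine ⟨N ∩ N₂, inter_mem hN hN₂, V, hV, fun l hlN hl => ?_⟩
    rw [Pi.sub_apply, pull_apply, hr, pr_eq_zero, sub_zero]
    · intro m hm
      refine hd m (fun y hy => ?_) (((hmix _ hl).sub hm).mono fun p hp => hp.2.2)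
      rcases List.mem_append.1 (hm hy) with hy | hy
      · obtain ⟨x, hx, rfl⟩ := List.mem_map.1 hy
        exact (hlN x hx).2
      · obtain ⟨x, hx, rfl⟩ := List.mem_map.1 hy
        exact subset_of_mem_nhdsSet hN₂ (hrA _ (hlN x hx).1)
    · intro y hy
      obtain ⟨x, hx, rfl⟩ := List.mem_map.1 hy
      exact hrA _ (hlN x hx).1
    · refine ((hmix _ hl).sub ?_).mono (fun p hp => hp.2.1)
      intro y hy
      exact List.mem_append.2 (Or.inr hy)

/-- **tautness**: `H(Spp A / Z) ≅ H(Lr / Z)` -/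
theorem taut [CompactSpace X] [T2Space X] {i : K → X} (hi : IsClosedEmbedding i)
    {x₀ : X} (hx₀ : x₀ ∈ range i) :
    Function.Bijective (AS412.SQ.incl (d : (List X → F) →ₗ[F] _) (LZ F X)
      (Sp_range_le_Lr hi.continuous hx₀)) :=
  sq_incl_bij _ (LZ_le_Sp _) d_d fun φ h hd => taut_aux hi φ h hd

/-! ### collapse -/

theorem tube {q : X → Q} (hq : IsClosedMap q) {y : Q} {N : Set X} (hN : N ∈ 𝓝ˢ (q ⁻¹' {y})) :
    ∃ M ∈ 𝓝 y, ∀ x, q x ∈ M → x ∈ N := by
  rw [mem_nhdsSet_iff_exists] at hN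
  obtain ⟨O, hO, h1, h2⟩ := hN
  refine ⟨(q '' Oᶜ)ᶜ, (hq _ hO.isClosed_compl).isOpen_compl.mem_nhds ?_, ?_⟩
  · rintro ⟨x, hx, rfl⟩
    exact hx (h1 rfl)
  · intro x hx
    by_contra hxN
    exact hx ⟨x, fun hxO => hxN (h2 hxO), rfl⟩

theorem ok_col {q : X → Q} (hq : Continuous q) {A : Set X} {q₀ : Q} (hA : ∀ x ∈ A, q x = q₀) :
    AS412.SQ.Ok (d : (List Q → F) →ₗ[F] _) (Sp F {q₀}) (LZ F Q) d (Sp F A) (LZ F X)
      (pull q) where
  hM φ h := pull_mem_Sp (B := {q₀}) hq (fun x hx => hA x hx) h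
  hZ φ h := pull_mem_LZ hq h
  hd φ _ := by rw [d_pull, sub_self]; exact zero_mem _

/-- **collapse**: `H(Q) ≅ H(Spp A / Z)` -/
theorem col_bij [CompactSpace X] [T2Space X] [CompactSpace Q] [T2Space Q] {q : X → Q}
    (hq : Continuous q) (hs : Function.Surjective q) {A : Set X} {q₀ : Q}
    (hA : ∀ x, q x = q₀ ↔ x ∈ A) (hinj : ∀ x y, x ∉ A → q x = q y → x = y) :
    Function.Bijective (AS412.SQ.map (pull (F := F) q)
      (ok_col (F := F) hq (fun x hx => (hA x).2 hx))) := by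
  classical
  have hqc : IsClosedMap q := hq.isClosedMap
  have hAc : IsClosed A := by
    have : A = q ⁻¹' {q₀} := by ext x; rw [mem_preimage, mem_singleton_iff, hA]
    rw [this]
    exact isClosed_singleton.preimage hq
  have hpre : q ⁻¹' {q₀} = A := by ext x; rw [mem_preimage, mem_singleton_iff, hA]
  refine sq_bij _ _ (fun φ h => d_mem_Sp h) (fun φ h => d_mem_LZ h) ?_ ?_
  · intro φ hφ hφ'
    rw [mem_LZ_loc]
    refine ⟨Sp_nil hφ, fun y => ?_⟩
    by_cases hy : y = q₀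
    · subst hy
      exact mem_Sp_singleton.1 hφ
    · obtain ⟨x, rfl⟩ := hs y
      have hxA : x ∉ A := fun h => hy ((hA x).2 h)
      obtain ⟨N, hN, h⟩ := (mem_LZ_loc.1 hφ').2 x
      have hpre' : q ⁻¹' {q x} = {x} := by
        ext z
        simp only [mem_preimage, mem_singleton_iff]
        exact ⟨fun h => (hinj x z hxA h.symm).symm, fun h => by rw [h]⟩
      obtain ⟨M, hM, hMN⟩ := tube hqc (y := q x) (N := N) (by
        rw [hpre', nhdsSet_singleton]; exact hN)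
      refine ⟨M, hM, fun l hl => ?_⟩
      obtain ⟨m, rfl⟩ : ∃ m : List X, m.map q = l := by
        have := (List.map_surjective_iff.2 hs) l
        exact this
      exact h m fun z hz => hMN z (hl _ (List.mem_map_of_mem hz))
  · rintro φ hφ
    have h0 : φ [] = 0 := Sp_nil hφ
    obtain ⟨N, hN, W, hW, hφ⟩ := hφ
    set s := Function.surjInv hs with hsdef
    have hqs : ∀ y, q (s y) = y := Function.surjInv_eq hs
    set φ₁ : List X → F := fun l => if ∀ x ∈ l, x ∈ N then 0 else φ l with hφ₁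
    have hsq : ∀ x, x ∉ A → s (q x) = x := fun x hx => (hinj x _ hx (hqs _).symm).symm
    have hsqA : ∀ x, x ∈ A → s (q x) ∈ A := fun x hx => by
      rw [← hA, hqs, hA]; exact hx
    have hAN : A ⊆ N := subset_of_mem_nhdsSet hN
    refine ⟨pull s φ₁, ?_, ?_⟩
    · obtain ⟨M, hM, hMN⟩ := tube hqc (y := q₀) (N := N) (by rw [hpre]; exact hN)
      refine mem_Sp_singleton.2 ⟨M, hM, fun l hl => ?_⟩
      rw [pull_apply, hφ₁]
      simp only
      rw [if_pos]
      intro x hx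
      obtain ⟨y, hy, rfl⟩ := List.mem_map.1 hx
      exact hMN _ (by rw [hqs]; exact hl y hy)
    · rw [mem_LZ_loc]
      refine ⟨?_, fun x => ?_⟩
      · simp [hφ₁, h0]
      · obtain ⟨N', hN', hs'⟩ := diag_nhds hW x
        by_cases hx : x ∈ A
        · refine ⟨N' ∩ N, inter_mem hN' (mem_nhdsSet_iff_forall.1 hN x hx), fun l hl => ?_⟩
          rw [Pi.sub_apply, hφ l (fun a ha => (hl a ha).2)
            (fun a ha b hb => hs' a (hl a ha).1 b (hl b hb).1), pull_apply, pull_apply, hφ₁]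
          simp only
          rw [if_pos, sub_zero]
          intro a ha
          simp only [List.map_map, List.mem_map, Function.comp_apply] at ha
          obtain ⟨b, hb, rfl⟩ := ha
          by_cases hbA : b ∈ A
          · exact hAN (hsqA b hbA)
          · rw [hsq b hbA]; exact (hl b hb).2
        · refine ⟨N' ∩ Aᶜ, inter_mem hN' (hAc.isOpen_compl.mem_nhds hx), fun l hl => ?_⟩
          have e : (l.map q).map s = l := by
            rw [List.map_map]
            conv_rhs => rw [← List.map_id l]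
            refine List.map_congr_left fun a ha => ?_
            exact hsq a (hl a ha).2
          rw [Pi.sub_apply, pull_apply, pull_apply, e, hφ₁]
          simp only
          split_ifs with hlN
          · rw [hφ l hlN (fun a ha b hb => hs' a (hl a ha).1 b (hl b hb).1), sub_zero]
          · rw [sub_self]

end pair

end Crest.Agent.R090.Les412
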