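import Crest.Agent.R090.Ho_962

/-!
# Row 90, leaf A-POW (1): orbit spaces of finite groups in 962's model (helper389)

* `ofProper f hf : PMap U V` for a proper map;
* `desc π hs h hk` : factorisation of a pointed map through a surjective pointed map;
* `descOpen` : a pointed map which is `∞` off an open subspace factors through the collapse;
* `Orb G W := MulAction.orbitRel.Quotient G W` (T2, locally compact), `Orb.pr : PMap W (Orb G W)`;
* `Orb.map` : equivariant pointed maps descend, strictly functorially;
* pairs: invariant closed / open subspaces of `W` give closed / open subspaces of `Orb G W`.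
-/

set_option autoImplicit false
set_option linter.unusedSectionVars false

open Topology Filter Set

namespace Crest.Agent.R090.Orb389

open OnePoint Crest.Agent.R090.Sp962

universe u v w x

/-! ## proper maps, factorisations -/

section basic

variable {U : Type u} {V : Type v} {W : Type w} {X : Type x}
variable [TopologicalSpace U] [TopologicalSpace V] [TopologicalSpace W] [TopologicalSpace X]

/-- the pointed map of a proper map -/
def ofProper (f : U → V) (hf : IsProperMap f) : PMap U V where
  toFun := OnePoint.map f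
  cont := continuous_map hf.continuous (by
    rw [hasBasis_coclosedCompact.tendsto_iff hasBasis_coclosedCompact]
    rintro K ⟨hK, hK'⟩
    exact ⟨f ⁻¹' K, ⟨hK.preimage hf.continuous, hf.isCompact_preimage hK'⟩, fun x hx => hx⟩)
  map_inf := rfl

@[simp] theorem ofProper_coe (f : U → V) (hf : IsProperMap f) (x : U) :
    ofProper f hf x = (f x : OnePoint V) := rfl

theorem ofProper_surj (f : U → V) (hf : IsProperMap f) (hs : Function.Surjective f) :
    Function.Surjective (ofProper f hf) := by
  intro y
  induction y using OnePoint.rec with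
  | infty => exact ⟨∞, rfl⟩
  | coe y =>
    obtain ⟨x, rfl⟩ := hs y
    exact ⟨x, rfl⟩




theorem isQuotientMap_of_surj [T2Space V] [LocallyCompactSpace V] (π : PMap U V)
    (hs : Function.Surjective π) : IsQuotientMap π :=
  (π.cont.isClosedMap).isQuotientMap π.cont hs

/-- factorisation of a pointed map through a surjective pointed map -/
noncomputable def desc [T2Space V] [LocallyCompactSpace V] (π : PMap U V)
    (hs : Function.Surjective π) (h : PMap U W) (hk : ∀ a a', π a = π a' → h a = h a') :
    PMap V W where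
  toFun b := h (Function.surjInv hs b)
  cont := by
    refine (isQuotientMap_of_surj π hs).continuous_iff.2 ?_
    have : (fun b => h (Function.surjInv hs b)) ∘ π = h := by
      funext a
      exact hk _ _ (Function.surjInv_eq hs (π a))
    rw [this]
    exact h.cont
  map_inf := by
    rw [hk (Function.surjInv hs ∞) ∞ ((Function.surjInv_eq hs ∞).trans π.map_inf.symm)]
    exact h.map_inf

@[simp] theorem desc_apply [T2Space V] [LocallyCompactSpace V] (π : PMap U V)
    (hs : Function.Surjective π) (h : PMap U W) (hk : ∀ a a', π a = π a' → h a = h a')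
    (a : OnePoint U) : desc π hs h hk (π a) = h a := hk _ _ (Function.surjInv_eq hs (π a))

theorem desc_comp [T2Space V] [LocallyCompactSpace V] (π : PMap U V)
    (hs : Function.Surjective π) (h : PMap U W) (hk : ∀ a a', π a = π a' → h a = h a') :
    (desc π hs h hk).comp π = h := PMap.ext fun _ => desc_apply π hs h hk _

theorem eq_of_comp_surj {π : PMap U V} (hs : Function.Surjective π) {g g' : PMap V W}
    (h : g.comp π = g'.comp π) : g = g' := by
  refine PMap.ext fun b => ?_
  obtain ⟨a, ha⟩ := hs b
  rw [← ha]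
  exact congrArg (fun k : PMap U W => k a) h

theorem ofOpen_surj [T2Space V] (e : U → V) (he : IsOpenEmbedding e) :
    Function.Surjective (PMap.ofOpen e he) := by
  intro y
  induction y using OnePoint.rec with
  | infty => exact ⟨∞, (PMap.ofOpen e he).map_inf⟩
  | coe y => exact ⟨(e y : OnePoint V), PMap.ofOpen_coe e he y⟩

theorem ofOpen_eq_inf [T2Space V] (e : U → V) (he : IsOpenEmbedding e) (y : V) :
    PMap.ofOpen e he (y : OnePoint V) = ∞ ↔ y ∉ range e := by
  constructor
  · rintro h ⟨x, rfl⟩
    rw [PMap.ofOpen_coe] at h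
    exact coe_ne_infty _ h
  · exact PMap.ofOpen_of_notMem e he

theorem descOpen_aux [T2Space V] (e : U → V)
    (he : IsOpenEmbedding e) (h : PMap V W)
    (hk : ∀ y : V, y ∉ range e → h y = ∞) (a a' : OnePoint V)
    (haa : PMap.ofOpen e he a = PMap.ofOpen e he a') : h a = h a' := by
  have key : ∀ a : OnePoint V, PMap.ofOpen e he a = ∞ → h a = ∞ := by
    intro a ha
    induction a using OnePoint.rec with
    | infty => exact h.map_inf
    | coe a => exact hk a ((ofOpen_eq_inf e he a).1 ha)
  have key2 : ∀ (a : OnePoint V) (x : U), PMap.ofOpen e he a = (x : OnePoint U) →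
      a = (e x : OnePoint V) := fun a x ha => (PMap.collapse_eq_coe e he).1 ha
  generalize hb : PMap.ofOpen e he a = b at haa
  induction b using OnePoint.rec with
  | infty => rw [key a hb, key a' haa.symm]
  | coe b => rw [key2 a b hb, key2 a' b haa.symm]

/-- a pointed map which is `∞` off the open subspace factors through the collapse -/
noncomputable def descOpen [T2Space V] [T2Space U] [LocallyCompactSpace U] (e : U → V)
    (he : IsOpenEmbedding e) (h : PMap V W)
    (hk : ∀ y : V, y ∉ range e → h y = ∞) : PMap U W :=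
  desc (PMap.ofOpen e he) (ofOpen_surj e he) h (descOpen_aux e he h hk)

theorem descOpen_comp [T2Space V] [T2Space U] [LocallyCompactSpace U] (e : U → V)
    (he : IsOpenEmbedding e) (h : PMap V W) (hk : ∀ y : V, y ∉ range e → h y = ∞) :
    (descOpen e he h hk).comp (PMap.ofOpen e he) = h := desc_comp _ _ _ _

@[simp] theorem descOpen_coe [T2Space V] [T2Space U] [LocallyCompactSpace U] (e : U → V)
    (he : IsOpenEmbedding e) (h : PMap V W) (hk : ∀ y : V, y ∉ range e → h y = ∞) (x : U) :
    descOpen e he h hk x = h (e x : OnePoint V) := by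
  have := desc_apply (PMap.ofOpen e he) (ofOpen_surj e he) h (descOpen_aux e he h hk)
    (e x : OnePoint V)
  rw [PMap.ofOpen_coe] at this
  exact this

end basic

/-! ## orbit spaces -/

section orb

variable (G : Type x) [Group G] [Finite G]
variable (W : Type u) [TopologicalSpace W] [MulAction G W] [ContinuousConstSMul G W]

/-- the orbit space -/
abbrev Orb : Type u := MulAction.orbitRel.Quotient G W

/-- the projection -/
def Orb.mk {W : Type u} [MulAction G W] (x : W) : MulAction.orbitRel.Quotient G W :=
  Quotient.mk (MulAction.orbitRel G W) x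

variable {G W}

theorem Orb.mk_eq {x y : W} : Orb.mk G x = Orb.mk G y ↔ ∃ g : G, g • y = x := by
  unfold Orb.mk
  rw [Quotient.eq]
  rfl

theorem Orb.mk_smul (g : G) (x : W) : Orb.mk G (g • x) = Orb.mk G x := Orb.mk_eq.2 ⟨g, rfl⟩

theorem Orb.mk_surj : Function.Surjective (Orb.mk G : W → Orb G W) := Quotient.mk_surjective

theorem Orb.isOpenQuotientMap_mk : IsOpenQuotientMap (Orb.mk G : W → Orb G W) :=
  MulAction.isOpenQuotientMap_quotientMk

@[fun_prop] theorem Orb.continuous_mk : Continuous (Orb.mk G : W → Orb G W) :=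
  Orb.isOpenQuotientMap_mk.continuous

instance [LocallyCompactSpace W] : LocallyCompactSpace (Orb G W) :=
  (Orb.isOpenQuotientMap_mk (G := G) (W := W)).locallyCompactSpace


theorem Orb.isClosedMap_mk : IsClosedMap (Orb.mk G : W → Orb G W) := by
  intro s hs
  have hq := (Orb.isOpenQuotientMap_mk (G := G) (W := W)).isQuotientMap
  rw [← hq.isClosed_preimage]
  have : (Orb.mk G : W → Orb G W) ⁻¹' (Orb.mk G '' s) = ⋃ g : G, (fun x => g • x) ⁻¹' s := by
    ext x
    simp only [mem_preimage, mem_image, mem_iUnion]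
    constructor
    · rintro ⟨y, hy, h⟩
      obtain ⟨g, hg⟩ := Orb.mk_eq.1 h
      exact ⟨g, by rw [hg]; exact hy⟩
    · rintro ⟨g, hg⟩
      exact ⟨g • x, hg, Orb.mk_smul g x⟩
  rw [this]
  exact isClosed_iUnion_of_finite fun g => hs.preimage (continuous_const_smul g)

theorem Orb.isProperMap_mk : IsProperMap (Orb.mk G : W → Orb G W) := by
  rw [isProperMap_iff_isClosedMap_and_compact_fibers]
  refine ⟨Orb.continuous_mk, Orb.isClosedMap_mk, fun y => ?_⟩
  obtain ⟨x, rfl⟩ := Orb.mk_surj (G := G) y
  have : (Orb.mk G : W → Orb G W) ⁻¹' {Orb.mk G x} = range (fun g : G => g • x) := by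
    ext y
    simp only [mem_preimage, mem_singleton_iff, Orb.mk_eq, mem_range]
  rw [this]
  exact (finite_range _).isCompact

/-- the projection as a pointed map -/
def Orb.pr (G : Type x) [Group G] [Finite G] (W : Type u) [TopologicalSpace W] [MulAction G W]
    [ContinuousConstSMul G W] : PMap W (Orb G W) := ofProper (Orb.mk G) Orb.isProperMap_mk

@[simp] theorem Orb.pr_coe (x : W) : Orb.pr G W x = (Orb.mk G x : OnePoint (Orb G W)) := rfl

theorem Orb.pr_surj : Function.Surjective (Orb.pr G W) := ofProper_surj _ _ Orb.mk_surj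

/-- the action of a group element on the one point compactification -/
def actP (g : G) (W : Type u) [TopologicalSpace W] [MulAction G W] [ContinuousConstSMul G W] :
    PMap W W := PMap.ofHomeo (Homeomorph.smul g)

@[simp] theorem actP_coe (g : G) (x : W) : actP g W x = ((g • x : W) : OnePoint W) := rfl

theorem actP_one : actP (1 : G) W = PMap.id W := PMap.ext fun x => by simp

theorem actP_mul (g h : G) : actP (g * h) W = (actP g W).comp (actP h W) :=
  PMap.ext fun x => by simp [mul_smul]

theorem Orb.pr_actP (g : G) : (Orb.pr G W).comp (actP g W) = Orb.pr G W :=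
  PMap.ext fun x => by simp [Orb.mk_smul]

theorem Orb.pr_eq {a b : OnePoint W} : Orb.pr G W a = Orb.pr G W b ↔ ∃ g : G, actP g W b = a := by
  induction a using OnePoint.rec with
  | infty =>
    induction b using OnePoint.rec with
    | infty => simp
    | coe b => simp
  | coe a =>
    induction b using OnePoint.rec with
    | infty => simp
    | coe b => simp [Orb.mk_eq]

variable [T2Space W] [LocallyCompactSpace W]
variable {W' : Type v} [TopologicalSpace W'] [MulAction G W'] [ContinuousConstSMul G W']
variable {W'' : Type w} [TopologicalSpace W''] [MulAction G W''] [ContinuousConstSMul G W'']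
variable {X : Type*} [TopologicalSpace X]

/-- equivariance of a pointed map -/
def Equi (G : Type x) [Group G] {W : Type u} [TopologicalSpace W] [MulAction G W]
    [ContinuousConstSMul G W] {W' : Type v} [TopologicalSpace W'] [MulAction G W']
    [ContinuousConstSMul G W'] (f : PMap W W') : Prop :=
  ∀ g : G, f.comp (actP g W) = (actP g W').comp f

theorem Equi.apply {f : PMap W W'} (hf : Equi G f) (g : G) (a : OnePoint W) :
    f (actP g W a) = actP g W' (f a) := congrArg (fun k : PMap W W' => k a) (hf g)

theorem Equi.comp {f : PMap W W'} {f' : PMap W' W''} (hf' : Equi G f') (hf : Equi G f) :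
    Equi G (f'.comp f) := by
  intro g
  rw [PMap.comp_assoc, hf g, ← PMap.comp_assoc, hf' g, PMap.comp_assoc]

theorem Equi.id : Equi G (PMap.id W) := fun _ => rfl

/-- invariant pointed maps descend -/
noncomputable def Orb.lift (f : PMap W X) (hf : ∀ g : G, f.comp (actP g W) = f) :
    PMap (Orb G W) X :=
  desc (Orb.pr G W) Orb.pr_surj f (by
    intro a b h
    obtain ⟨g, rfl⟩ := Orb.pr_eq.1 h
    exact congrArg (fun k : PMap W X => k b) (hf g))

@[simp] theorem Orb.lift_mk (f : PMap W X) (hf : ∀ g : G, f.comp (actP g W) = f) (x : W) :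
    Orb.lift f hf ((Orb.mk G x : Orb G W) : OnePoint (Orb G W)) = f x :=
  desc_apply (Orb.pr G W) Orb.pr_surj f _ (x : OnePoint W)

theorem Orb.lift_pr (f : PMap W X) (hf : ∀ g : G, f.comp (actP g W) = f) :
    (Orb.lift f hf).comp (Orb.pr G W) = f := desc_comp _ _ _ _

/-- equivariant pointed maps descend -/
noncomputable def Orb.map (f : PMap W W') (hf : Equi G f) : PMap (Orb G W) (Orb G W') :=
  Orb.lift ((Orb.pr G W').comp f) (by
    intro g
    rw [PMap.comp_assoc, hf g, ← PMap.comp_assoc, Orb.pr_actP])

@[simp] theorem Orb.map_mk (f : PMap W W') (hf : Equi G f) (x : W) :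
    Orb.map f hf ((Orb.mk G x : Orb G W) : OnePoint (Orb G W)) = Orb.pr G W' (f x) :=
  Orb.lift_mk _ _ x

theorem Orb.map_pr (f : PMap W W') (hf : Equi G f) :
    (Orb.map f hf).comp (Orb.pr G W) = (Orb.pr G W').comp f := Orb.lift_pr _ _

theorem Orb.hom_ext {f g : PMap (Orb G W) X}
    (h : f.comp (Orb.pr G W) = g.comp (Orb.pr G W)) : f = g := eq_of_comp_surj Orb.pr_surj h

theorem Orb.map_comp [T2Space W'] [LocallyCompactSpace W'] {f : PMap W W'} {f' : PMap W' W''}
    (hf' : Equi G f') (hf : Equi G f) :
    Orb.map (f'.comp f) (hf'.comp hf) = (Orb.map f' hf').comp (Orb.map f hf) := by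
  refine Orb.hom_ext ?_
  rw [Orb.map_pr, PMap.comp_assoc, Orb.map_pr, ← PMap.comp_assoc, ← PMap.comp_assoc, Orb.map_pr]

theorem Orb.map_id : Orb.map (PMap.id W) (Equi.id (G := G)) = PMap.id (Orb G W) := by
  refine Orb.hom_ext ?_
  rw [Orb.map_pr]
  rfl

end orb

/-! ## subspaces and homeomorphisms -/

section sub

variable {G : Type x} [Group G] [Finite G]
variable {W : Type u} [TopologicalSpace W] [MulAction G W] [ContinuousConstSMul G W]
variable {W' : Type v} [TopologicalSpace W'] [MulAction G W'] [ContinuousConstSMul G W']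

/-- the map of orbit spaces of an equivariant function -/
def Orb.fmap (f : W → W') (hf : ∀ (g : G) x, f (g • x) = g • f x) : Orb G W → Orb G W' :=
  Quotient.map f (by
    rintro a b ⟨g, rfl⟩
    exact ⟨g, (hf g b).symm⟩)

@[simp] theorem Orb.fmap_mk (f : W → W') (hf : ∀ (g : G) x, f (g • x) = g • f x) (x : W) :
    Orb.fmap f hf (Orb.mk G x) = Orb.mk G (f x) := rfl

theorem Orb.continuous_fmap {f : W → W'} (hf : ∀ (g : G) x, f (g • x) = g • f x)
    (hc : Continuous f) : Continuous (Orb.fmap f hf) :=
  Orb.isOpenQuotientMap_mk.isQuotientMap.continuous_iff.2 (Orb.continuous_mk.comp hc)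

theorem Orb.fmap_injective {f : W → W'} (hf : ∀ (g : G) x, f (g • x) = g • f x)
    (hi : Function.Injective f) : Function.Injective (Orb.fmap f hf) := by
  intro a b
  obtain ⟨a, rfl⟩ := Quotient.mk_surjective a
  obtain ⟨b, rfl⟩ := Quotient.mk_surjective b
  intro h
  obtain ⟨g, hg⟩ := Orb.mk_eq.1 (show Orb.mk G (f a) = Orb.mk G (f b) from h)
  rw [← hf] at hg
  exact Orb.mk_eq.2 ⟨g, hi hg⟩

theorem Orb.isClosedMap_fmap {f : W → W'} (hf : ∀ (g : G) x, f (g • x) = g • f x)
    (h : IsClosedMap f) : IsClosedMap (Orb.fmap f hf) := by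
  intro s hs
  have : Orb.fmap f hf '' s = Orb.mk G '' (f '' (Orb.mk G ⁻¹' s)) := by
    ext y
    constructor
    · rintro ⟨x, hx, rfl⟩
      obtain ⟨x, rfl⟩ := Orb.mk_surj (G := G) x
      exact ⟨f x, ⟨x, hx, rfl⟩, rfl⟩
    · rintro ⟨_, ⟨x, hx, rfl⟩, rfl⟩
      exact ⟨Orb.mk G x, hx, rfl⟩
  rw [this]
  exact Orb.isClosedMap_mk _ (h _ (hs.preimage Orb.continuous_mk))

theorem Orb.isOpenMap_fmap {f : W → W'} (hf : ∀ (g : G) x, f (g • x) = g • f x)
    (h : IsOpenMap f) : IsOpenMap (Orb.fmap f hf) := by
  intro s hs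
  have : Orb.fmap f hf '' s = Orb.mk G '' (f '' (Orb.mk G ⁻¹' s)) := by
    ext y
    constructor
    · rintro ⟨x, hx, rfl⟩
      obtain ⟨x, rfl⟩ := Orb.mk_surj (G := G) x
      exact ⟨f x, ⟨x, hx, rfl⟩, rfl⟩
    · rintro ⟨_, ⟨x, hx, rfl⟩, rfl⟩
      exact ⟨Orb.mk G x, hx, rfl⟩
  rw [this]
  exact Orb.isOpenQuotientMap_mk.isOpenMap _ (h _ (hs.preimage Orb.continuous_mk))

theorem Orb.isClosedEmbedding_fmap {f : W → W'} (hf : ∀ (g : G) x, f (g • x) = g • f x)
    (h : IsClosedEmbedding f) : IsClosedEmbedding (Orb.fmap f hf) :=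
  .of_continuous_injective_isClosedMap (Orb.continuous_fmap hf h.continuous)
    (Orb.fmap_injective hf h.injective) (Orb.isClosedMap_fmap hf h.isClosedMap)

theorem Orb.isOpenEmbedding_fmap {f : W → W'} (hf : ∀ (g : G) x, f (g • x) = g • f x)
    (h : IsOpenEmbedding f) : IsOpenEmbedding (Orb.fmap f hf) :=
  .of_continuous_injective_isOpenMap (Orb.continuous_fmap hf h.continuous)
    (Orb.fmap_injective hf h.injective) (Orb.isOpenMap_fmap hf h.isOpenMap)

theorem Orb.mk_mem_range_fmap {f : W → W'} (hf : ∀ (g : G) x, f (g • x) = g • f x) (y : W') :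
    Orb.mk G y ∈ range (Orb.fmap f hf) ↔ y ∈ range f := by
  constructor
  · rintro ⟨x, hx⟩
    obtain ⟨x, rfl⟩ := Quotient.mk_surjective x
    obtain ⟨g, hg⟩ := Orb.mk_eq.1 (show Orb.mk G (f x) = Orb.mk G y from hx)
    exact ⟨g⁻¹ • x, by rw [hf, ← hg, inv_smul_smul]⟩
  · rintro ⟨x, rfl⟩
    exact ⟨Orb.mk G x, rfl⟩

/-- complementary ranges stay complementary -/
theorem Orb.range_compl {F : Type*} [TopologicalSpace F] [MulAction G F]
    [ContinuousConstSMul G F] {O : Type*} [TopologicalSpace O] [MulAction G O]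
    [ContinuousConstSMul G O] {i : F → W} (hi : ∀ (g : G) x, i (g • x) = g • i x)
    {j : O → W} (hj : ∀ (g : G) x, j (g • x) = g • j x) (h : range j = (range i)ᶜ) :
    range (Orb.fmap j hj) = (range (Orb.fmap i hi))ᶜ := by
  ext y
  obtain ⟨y, rfl⟩ := Orb.mk_surj (G := G) y
  rw [mem_compl_iff, Orb.mk_mem_range_fmap, Orb.mk_mem_range_fmap, h, mem_compl_iff]

end sub

end Crest.Agent.R090.Orb389
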