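import Crest.Agent.R090.Sph_285
import Crest.Agent.R090.Kun_493
import Crest.Agent.R090.HSt_285
import Crest.Agent.R090.F1d_541
import Crest.Agent.R090.AAsm_923
import Crest.Agent.R090.ExtrD_285
import Crest.Agent.R090.HopfG_297_Mg
import Crest.Agent.R090.Good_812
import Mathlib
import Crest.Agent.R090.Orb_389
import Crest.Agent.R090.AS2_58
import Crest.Agent.R090.Free_253
import Crest.Agent.R090.LesA_412
import Crest.Agent.R090.AS1_58
import Crest.Agent.R090.Sp_962
import Crest.Agent.R090.Ho_962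
import Crest.Agent.R090.AStep_923

-- ▼ part R090/Sph2_285
section

/-!
# Row 90, leaf AS6 (helper285): unit from 493's `KX`, EXTRACT-ready form of AS6
-/

set_option autoImplicit false
set_option linter.unusedSectionVars false
set_option linter.style.haveILetI false

namespace Crest.Agent.R090.HSt285

open Topology Set Crest.Agent.R090.Sp962 Crest.Agent.R090.Grp528 Crest.Agent.R090.St528
open Crest.Agent.R090.CohT253 Crest.Agent.R090.Sm202

variable {F : Type} [Field F] {H : CohX F}

/-- right unit -/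
theorem cr_one_of (K : Kun493.KX H) (U : Type) [TopologicalSpace U] [T2Space U]
    [LocallyCompactSpace U] (x : H.h U) :
    H.cr U Unit x K.one = H.map (PMap.ofHomeo (Homeomorph.prodPUnit U)) x := by
  have h1 : H.map (PMap.ofHomeo (Homeomorph.prodComm U Unit)) (H.cr Unit U K.one x) =
      H.cr U Unit x K.one := H.cr_comm_even K.one x K.eps_one
  have h2 := K.one_cr U x
  have h3 : H.cr Unit U K.one x = H.map (PMap.ofHomeo (Homeomorph.punitProd U)) x := by
    rw [← h2, ← H.map_comp, h2, PMap.ofHomeo_symm_comp, H.map_id]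
  rw [← h1, h3, ← H.map_comp]
  have h4 : (PMap.ofHomeo (Homeomorph.punitProd U)).comp
      (PMap.ofHomeo (Homeomorph.prodComm U Unit)) = PMap.ofHomeo (Homeomorph.prodPUnit U) :=
    PMap.ext fun _ => rfl
  rw [h4]

/-- unit and real suspension class from `KX` and a real suspension class -/
def RSusp.ofKX (K : Kun493.KX H) (sr : H.h ℝ) (eps_sr : H.eps ℝ sr = -sr)
    (suspR : ∀ (U : Type) [TopologicalSpace U] [T2Space U] [LocallyCompactSpace U],
      Function.Bijective (fun x : H.h U => H.cr U ℝ x sr)) : RSusp H where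
  one := K.one
  one_ne := K.one_ne
  one_span := K.one_gen
  eps_one := K.eps_one
  cr_one := cr_one_of K
  sr := sr
  eps_sr := eps_sr
  suspR := suspR

/-- **AS6, final form**: Künneth class `M`, duality datum over `ℝ^k`, `θ = m • 1` ⟹ `L(φ) = m` -/
theorem RSusp.Lst_eq_of_KU (R : RSusp H) {M B : Type} [TopologicalSpace M] [TopologicalSpace B]
    [T2Space M] [LocallyCompactSpace M] [T2Space B] [LocallyCompactSpace B]
    (h2 : (2 : F) ≠ 0) (hM : Kun493.KU H M) (k : ℕ) (g : St (Fin k → ℝ) (B × M))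
    (u : St (M × B) (Fin k → ℝ))
    (tri : (u.smR M).comp ((sh (Homeomorph.prodAssoc M B M).symm).comp (g.smL M)) =
      sh (Homeomorph.prodComm M (Fin k → ℝ))) (φ : St M M) (m : ℤ)
    (hm : u.comp ((φ.smR B).comp ((sh (Homeomorph.prodComm B M)).comp g)) =
      m • St.id (Fin k → ℝ)) :
    H.Lst φ = (m : F) :=
  R.Lst_eq h2 k g u tri (RSusp.exists_sum (hM B).2 _) φ m hm

end Crest.Agent.R090.HSt285
end

-- ▼ part R090/CohY_811
section

/-!
# Row 90, block HOM (owner helper811): the suspension class from the unit and the connecting map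

`CohY F` : 253's `Coh F` + homotopy invariance + cross product with unit, compatible with the
connecting map.  `CohY.toCohX : HSt285.CohX F` : the suspension class `sg = s × s`,
`s = δ 1 ∈ h Io`, and `x ↦ x × sg` is bijective.
-/

set_option autoImplicit false
set_option linter.unusedSectionVars false

namespace Crest.Agent.R090.CohY811

open Topology Set Crest.Agent.R090.Sp962 Crest.Agent.R090.Grp528 Crest.Agent.R090.St528
open Crest.Agent.R090.CohT253

/-- product of a decomposition with a space -/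
def decX {K U O : Type} [TopologicalSpace K] [TopologicalSpace U] [TopologicalSpace O]
    (D : Dec K U O) (V : Type) [TopologicalSpace V] : Dec (K × V) (U × V) (O × V) where
  i := Prod.map D.i id
  hi := D.hi.prodMap (IsClosedEmbedding.id)
  j := Prod.map D.j id
  hj := D.hj.prodMap (IsOpenEmbedding.id)
  compl := by
    ext ⟨u, v⟩
    have h := congrArg (fun S : Set U => u ∈ S) D.compl
    simp only [mem_range, mem_compl_iff, eq_iff_iff] at h
    simp only [mem_range, Prod.exists, Prod.map_apply, id_eq, Prod.mk.injEq, mem_compl_iff]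
    constructor
    · rintro ⟨o, w, ho, rfl⟩ ⟨k, w', hk, hw⟩
      exact h.1 ⟨o, ho⟩ ⟨k, hk⟩
    · intro h2
      obtain ⟨o, ho⟩ := h.2 (fun ⟨k, hk⟩ => h2 ⟨k, v, hk, rfl⟩)
      exact ⟨o, v, ho, rfl⟩

/-- a cohomology theory with compact supports and a cross product with unit -/
structure CohY (F : Type) [Field F] extends Coh.{0, 0, 0} F where
  /-- homotopy invariance -/
  hmap : ∀ {U V : Type} [TopologicalSpace U] [TopologicalSpace V] [T2Space U]
    [LocallyCompactSpace U] [T2Space V] [LocallyCompactSpace V] {f g : PMap U V},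
    f.Homotopic g → ∀ x, map f x = map g x
  /-- cross product -/
  cr : ∀ (U V : Type) [TopologicalSpace U] [TopologicalSpace V] [T2Space U]
    [LocallyCompactSpace U] [T2Space V] [LocallyCompactSpace V], h U →ₗ[F] h V →ₗ[F] h (U × V)
  cr_map : ∀ {U V U' V' : Type} [TopologicalSpace U] [TopologicalSpace V] [TopologicalSpace U']
    [TopologicalSpace V'] [T2Space U] [LocallyCompactSpace U] [T2Space V] [LocallyCompactSpace V]
    [T2Space U'] [LocallyCompactSpace U'] [T2Space V'] [LocallyCompactSpace V']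
    (f : PMap U V) (g : PMap U' V') (x : h V) (y : h V'),
    map (f.smash g) (cr V V' x y) = cr U U' (map f x) (map g y)
  cr_assoc : ∀ {U V W : Type} [TopologicalSpace U] [TopologicalSpace V] [TopologicalSpace W]
    [T2Space U] [LocallyCompactSpace U] [T2Space V] [LocallyCompactSpace V]
    [T2Space W] [LocallyCompactSpace W] (x : h U) (y : h V) (z : h W),
    map (PMap.ofHomeo (Homeomorph.prodAssoc U V W)) (cr U (V × W) x (cr V W y z)) =
      cr (U × V) W (cr U V x y) z
  cr_comm_even : ∀ {U V : Type} [TopologicalSpace U] [TopologicalSpace V] [T2Space U]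
    [LocallyCompactSpace U] [T2Space V] [LocallyCompactSpace V] (x : h U) (y : h V),
    eps U x = x → map (PMap.ofHomeo (Homeomorph.prodComm V U)) (cr U V x y) = cr V U y x
  cr_comm_odd : ∀ {U V : Type} [TopologicalSpace U] [TopologicalSpace V] [T2Space U]
    [LocallyCompactSpace U] [T2Space V] [LocallyCompactSpace V] (x : h U) (y : h V),
    eps U x = -x → map (PMap.ofHomeo (Homeomorph.prodComm V U)) (cr U V x y) = cr V U (eps V y) x
  eps_cr : ∀ {U V : Type} [TopologicalSpace U] [TopologicalSpace V] [T2Space U]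
    [LocallyCompactSpace U] [T2Space V] [LocallyCompactSpace V] (x : h U) (y : h V),
    eps (U × V) (cr U V x y) = cr U V (eps U x) (eps V y)
  /-- compatibility with the connecting map -/
  del_cr : ∀ {K U O V : Type} [TopologicalSpace K] [TopologicalSpace U] [TopologicalSpace O]
    [TopologicalSpace V] [T2Space K] [LocallyCompactSpace K] [T2Space U] [LocallyCompactSpace U]
    [T2Space O] [LocallyCompactSpace O] [T2Space V] [LocallyCompactSpace V] (D : Dec K U O)
    (x : h K) (y : h V), cr O V (del D x) y = del (decX D V) (cr K V x y)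
  /-- the unit -/
  one : h Unit
  eps_one : eps Unit one = one
  one_ne : one ≠ 0
  one_gen : ∀ x : h Unit, ∃ r : F, x = r • one
  one_cr : ∀ {U : Type} [TopologicalSpace U] [T2Space U] [LocallyCompactSpace U] (x : h U),
    cr Unit U one x = map (PMap.ofHomeo (Homeomorph.punitProd U)) x

namespace CohY

variable {F : Type} [Field F] (H : CohY F)

/-- `Unit → (0,1] ← (0,1)` -/
def D1 : Dec Unit Ic Io where
  i := fun _ => one'
  hi := by
    refine Topology.IsClosedEmbedding.of_continuous_injective_isClosedMap (by fun_prop)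
      (fun _ _ _ => Subsingleton.elim _ _) ?_
    intro s hs
    exact (s.toFinite.image _).isClosed
  j := Set.inclusion Ioo_subset_Ioc_self
  hj := by
    refine ⟨IsEmbedding.inclusion _, ?_⟩
    have : range (Set.inclusion (Ioo_subset_Ioc_self : Ioo (0 : ℝ) 1 ⊆ Ioc (0 : ℝ) 1)) =
        {x : Ic | (x : ℝ) < 1} := by
      ext x
      constructor
      · rintro ⟨t, rfl⟩
        exact t.2.2
      · intro hx
        exact ⟨⟨x.1, x.2.1, hx⟩, rfl⟩
    rw [this]
    exact isOpen_lt continuous_subtype_val continuous_const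
  compl := by
    ext x
    simp only [mem_range, mem_compl_iff, not_exists]
    constructor
    · rintro ⟨t, rfl⟩ _ h
      have := congrArg (fun x : Ic => (x : ℝ)) h
      exact absurd this (ne_of_gt t.2.2)
    · intro h
      have h1 : (x : ℝ) ≠ 1 := fun h2 => h () (Subtype.ext h2.symm)
      exact ⟨⟨x.1, x.2.1, lt_of_le_of_ne x.2.2 h1⟩, rfl⟩

/-- the odd suspension class -/
noncomputable def s : H.h Io := H.del D1 H.one

theorem eps_s : H.eps Io H.s = -H.s := by
  rw [s, H.eps_del, H.eps_one]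

section

variable {U V : Type} [TopologicalSpace U] [T2Space U] [LocallyCompactSpace U]
  [TopologicalSpace V] [T2Space V] [LocallyCompactSpace V]

theorem zero_of_null (h : (PMap.id U).Null) (x : H.h U) : x = 0 := by
  rw [← H.map_id U x, H.hmap h, H.map_zero']

theorem map_homeo_bij (e : U ≃ₜ V) : Function.Bijective (H.map (PMap.ofHomeo e)) := by
  refine Function.bijective_iff_has_inverse.2 ⟨H.map (PMap.ofHomeo e.symm), fun x => ?_, fun x => ?_⟩
  · rw [← H.map_comp, PMap.ofHomeo_comp_symm, H.map_id]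
  · rw [← H.map_comp, PMap.ofHomeo_symm_comp, H.map_id]

theorem s_cr_bij : Function.Bijective (fun x : H.h U => H.cr Io U H.s x) := by
  have h1 : ∀ x : H.h U, H.cr Io U H.s x =
      H.del (decX D1 U) (H.map (PMap.ofHomeo (Homeomorph.punitProd U)) x) := by
    intro x
    rw [s, H.del_cr, H.one_cr]
  have hz : ∀ x : H.h (Ic × U), x = 0 := by
    refine H.zero_of_null ?_
    have h := (F1d541.null_Ic).smash_left (PMap.id U)
    have e : (PMap.id Ic).smash (PMap.id U) = PMap.id (Ic × U) := PMap.ext fun _ => rfl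
    rwa [e] at h
  have h2 : Function.Bijective (H.del (decX D1 U)) := by
    constructor
    · rw [injective_iff_map_eq_zero]
      intro x hx
      obtain ⟨y, rfl⟩ := (H.exactK (decX D1 U) x).1 hx
      rw [hz y, map_zero]
    · intro y
      exact (H.exactO (decX D1 U) y).1 (hz _)
  have h3 : (fun x : H.h U => H.cr Io U H.s x) = H.del (decX D1 U) ∘
      H.map (PMap.ofHomeo (Homeomorph.punitProd U)) := funext h1
  rw [h3]
  exact h2.comp (H.map_homeo_bij _)

theorem cr_s_bij : Function.Bijective (fun x : H.h U => H.cr U Io x H.s) := by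
  have h3 : (fun x : H.h U => H.cr U Io x H.s) =
      H.map (PMap.ofHomeo (Homeomorph.prodComm U Io)) ∘ (fun x : H.h U => H.cr Io U H.s x) ∘
        (H.eps U) := by
    funext x
    change H.cr U Io x H.s = H.map _ (H.cr Io U H.s (H.eps U x))
    rw [H.cr_comm_odd H.s (H.eps U x) H.eps_s, H.eps_eps]
  rw [h3]
  exact (H.map_homeo_bij _).comp (H.s_cr_bij.comp
    (Function.Involutive.bijective (fun x => H.eps_eps U x)))

end

/-- the even suspension class -/
noncomputable def sg : H.h ℂ := H.map (PMap.ofHomeo cIo) (H.cr Io Io H.s H.s)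

theorem eps_sg : H.eps ℂ H.sg = H.sg := by
  rw [sg, H.eps_map, H.eps_cr, H.eps_s]
  simp

theorem cr_sg_bij (U : Type) [TopologicalSpace U] [T2Space U] [LocallyCompactSpace U] :
    Function.Bijective (fun x : H.h U => H.cr U ℂ x H.sg) := by
  have h3 : (fun x : H.h U => H.cr U ℂ x H.sg) =
      H.map (PMap.ofHomeo ((Homeomorph.refl U).prodCongr cIo)) ∘
      H.map (PMap.ofHomeo (Homeomorph.prodAssoc U Io Io).symm) ∘
      (fun x : H.h (U × Io) => H.cr (U × Io) Io x H.s) ∘ (fun x : H.h U => H.cr U Io x H.s) := by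
    funext x
    change H.cr U ℂ x H.sg = H.map _ (H.map _ (H.cr (U × Io) Io (H.cr U Io x H.s) H.s))
    rw [← H.cr_assoc, ← H.map_comp (PMap.ofHomeo (Homeomorph.prodAssoc U Io Io)),
      PMap.ofHomeo_comp_symm, H.map_id, sg]
    have e : PMap.ofHomeo ((Homeomorph.refl U).prodCongr cIo) =
        (PMap.id U).smash (PMap.ofHomeo cIo) := by
      rw [← PMap.ofHomeo_refl, PMap.smash_ofHomeo]
    rw [e, H.cr_map, H.map_id]
  rw [h3]
  exact (H.map_homeo_bij _).comp ((H.map_homeo_bij _).comp (H.cr_s_bij.comp H.cr_s_bij))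

/-- 285's axioms -/
noncomputable def toCohX : HSt285.CohX F :=
  { H.toCoh with
    hmap := H.hmap
    cr := H.cr
    cr_map := H.cr_map
    cr_assoc := H.cr_assoc
    cr_comm_even := H.cr_comm_even
    cr_comm_odd := H.cr_comm_odd
    eps_cr := H.eps_cr
    sg := H.sg
    eps_sg := H.eps_sg
    susp := H.cr_sg_bij }

/-- 493's extra data -/
noncomputable def toKX : Kun493.KX H.toCohX where
  cr_del D V _ _ _ a b := H.del_cr D a b
  one := H.one
  eps_one := H.eps_one
  one_ne := H.one_ne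
  one_gen := H.one_gen
  one_cr V _ _ _ b := by
    change H.map _ (H.cr Unit V H.one b) = b
    rw [H.one_cr, ← H.map_comp, PMap.ofHomeo_comp_symm, H.map_id]

end CohY

end Crest.Agent.R090.CohY811
end

-- ▼ part R090/Sph3_285
section

/-!
# Row 90, leaf AS6 (helper285): the sphere data from 811's `CohY`
-/

set_option autoImplicit false
set_option linter.unusedSectionVars false
set_option linter.style.haveILetI false

namespace Crest.Agent.R090.HSt285

open Topology Set Crest.Agent.R090.Sp962 Crest.Agent.R090.Grp528 Crest.Agent.R090.St528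
open Crest.Agent.R090.CohT253 Crest.Agent.R090.Sm202

/-- real suspension class and unit of a `CohY` -/
noncomputable def rsusp {F : Type} [Field F] (H : CohY811.CohY F) : RSusp H.toCohX :=
  RSusp.ofKX H.toKX (H.map (PMap.ofHomeo ioHomeo) H.s)
    (by
      change H.eps ℝ (H.map (PMap.ofHomeo ioHomeo) H.s) = -H.map (PMap.ofHomeo ioHomeo) H.s
      rw [H.eps_map, H.eps_s, map_neg])
    (by
      intro U _ _ _
      have e : (fun x : H.h U => H.cr U ℝ x (H.map (PMap.ofHomeo ioHomeo) H.s)) =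
          H.map (PMap.ofHomeo ((Homeomorph.refl U).prodCongr ioHomeo)) ∘
            (fun x : H.h U => H.cr U Io x H.s) := by
        funext x
        have h := H.cr_map (PMap.id U) (PMap.ofHomeo ioHomeo) x H.s
        rw [H.map_id] at h
        have h0 : (PMap.id U).smash (PMap.ofHomeo ioHomeo) =
            PMap.ofHomeo ((Homeomorph.refl U).prodCongr ioHomeo) := PMap.ext fun _ => rfl
        rw [h0] at h
        exact h.symm
      have h2 : Function.Bijective
          (fun x : H.h U => H.cr U ℝ x (H.map (PMap.ofHomeo ioHomeo) H.s)) := by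
        rw [e]
        exact (H.map_homeo_bij _).comp H.cr_s_bij
      exact h2)

end Crest.Agent.R090.HSt285
end

-- ▼ part R090/Extr_285
section

/-!
# Row 90, EXTRACT (second: helper285)

`extractStmt H : AAsm923.ExtractStmt (Good812.Good H) (fun U _ _ _ φ => H.L φ)` for every
`H : CohX ℚ` with `R : RSusp H` and `K : KX H`.  Inputs: the models of helper554 (`HasModel`,
`tgtHyp`), the duals of helper698 (`DualSB698.exists_dual_id`), helper297's `hopf`, the degree
formula `RSusp.Lst_eq_of_KU`, helper669's calculus of the ideal.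
-/

set_option autoImplicit false
set_option linter.unusedSectionVars false

open Topology Filter Set

noncomputable section

namespace Crest.Agent.R090.Extr285

open OnePoint Crest.Agent.R090.Sp962 Crest.Agent.R090.Grp528 Crest.Agent.R090.St528
  Crest.Agent.R090.Sm202 Crest.Agent.R090.Spine Crest.Agent.R090.FM554
  Crest.Agent.R090.HSt285 Crest.Agent.R090.Hopf297 Crest.Agent.R090.IdS669
  Crest.Agent.R090.AAsm542 Crest.Agent.R090.AAsm923
open Crest.Agent.R090.Kun493 (KX KU CC crT crT_tmul crT_nat)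

variable {F : Type} [Field F] {H : CohX F}

section levels

variable {X : Type} [TopologicalSpace X] [T2Space X] [LocallyCompactSpace X]

/-- the Lefschetz number does not change under `- ∧ ℂⁿ` -/
theorem L_level (φ : PMap X X) (n : ℕ) :
    H.toCoh.L (φ.smash (PMap.id (Fin n → ℂ))) = H.toCoh.L φ := by
  have h0 : St.ofP φ = St.of n (HC.mk (φ.smash (PMap.id (Fin n → ℂ)))) := by
    rw [St.ofP, St.map_eq_of _ n]; rfl
  rw [← H.Lst_ofP, ← H.Lst_ofP, CohX.Lst, CohX.Lst, H.hst_ofP, h0, H.hst_of]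
  have e1 : H.eps (S X n) ∘ₗ H.map (φ.smash (PMap.id (Fin n → ℂ))) =
      (H.susE X n).toLinearMap ∘ₗ (H.eps X ∘ₗ
        H.hn (HC.mk (φ.smash (PMap.id (Fin n → ℂ))))) ∘ₗ (H.susE X n).symm.toLinearMap := by
    ext x
    obtain ⟨y, rfl⟩ := (H.susE X n).surjective x
    simp only [LinearMap.comp_apply, LinearEquiv.coe_coe, LinearEquiv.symm_apply_apply]
    rw [H.susE_apply, H.susE_apply, ← H.eps_sus, H.sus_hn]
    rfl
  have h1 := LinearMap.trace_conj' (H.eps X ∘ₗ H.hn (HC.mk (φ.smash (PMap.id (Fin n → ℂ)))))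
    (H.susE X n)
  rw [← h1, e1]
  rfl

end levels

section transfer

variable {X M : Type} [TopologicalSpace X] [T2Space X] [LocallyCompactSpace X]
  [TopologicalSpace M] [T2Space M] [LocallyCompactSpace M]

/-- the Künneth class is transferred along cohomology isomorphisms -/
theorem KU_transfer (ρ : PMap X M)
    (hρ : ∀ (W : Type) [TopologicalSpace W] [T2Space W] [LocallyCompactSpace W],
      Function.Bijective (H.map (ρ.smash (PMap.id W))))
    (h0 : Function.Bijective (H.map ρ)) (hX : KU H X) : KU H M := by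
  intro W _ _ _
  have h1 : Function.Bijective (TensorProduct.map (H.map ρ) (H.map (PMap.id W))) := by
    have e : TensorProduct.map (H.map ρ) (H.map (PMap.id W)) =
        (LinearMap.rTensor (H.h W) (H.map ρ)) := by
      refine TensorProduct.ext' fun a b => ?_
      rw [TensorProduct.map_tmul, LinearMap.rTensor_tmul, H.map_id]
    rw [e]
    exact Kun493.rTensor_bij _ h0
  have h2 : (⇑(H.map (ρ.smash (PMap.id W))) ∘ ⇑(crT H M W)) =
      ⇑(crT H X W) ∘ ⇑(TensorProduct.map (H.map ρ) (H.map (PMap.id W))) :=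
    funext fun t => crT_nat H ρ (PMap.id W) t
  have h3 : Function.Bijective (⇑(H.map (ρ.smash (PMap.id W))) ∘ ⇑(crT H M W)) := by
    rw [h2]; exact (hX W).comp h1
  exact (Function.Bijective.of_comp_iff' (hρ W) _).1 h3

end transfer

section extract

variable {𝓕 : Set CoT}

theorem eInj_of_EIso (h𝓕 : ∀ m, cotSt m ∈ 𝓕) {X M : Type} [TopologicalSpace X] [T2Space X]
    [LocallyCompactSpace X] [TopologicalSpace M] [T2Space M] [LocallyCompactSpace M]
    {ρ : PMap X M} (hρ : EIso 𝓕 ρ) : EInj (St.ofP ρ) := by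
  intro B _ _ _ N y hy
  have hb : Function.Injective (fun z : St (M × B) (Fin N → ℝ) =>
      z.comp (St.ofP (ρ.smash (PMap.id B)))) := (hρ (cotSt N) (h𝓕 N) B).1
  refine hb (a₂ := 0) ?_
  change y.comp (St.ofP (ρ.smash (PMap.id B))) = (0 : St (M × B) (Fin N → ℝ)).comp _
  rw [St.zero_comp, ← smR_ofP]
  exact hy

/-- **EXTRACT**, one space -/
theorem extract (h2 : (2 : F) ≠ 0) (R : RSusp H) (h𝓕 : ∀ m, cotSt m ∈ 𝓕)
    (hH : ∀ {X Y : Type} [TopologicalSpace X] [T2Space X] [LocallyCompactSpace X]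
      [TopologicalSpace Y] [T2Space Y] [LocallyCompactSpace Y] (ρ : PMap X Y), EIso 𝓕 ρ →
      Function.Bijective (H.map ρ))
    {U : Type} [TopologicalSpace U] [T2Space U] [LocallyCompactSpace U] (hU : HasModel 𝓕 U)
    (hK : ∀ n, KU H (S U n)) (φ : PMap U U) :
    ∃ z : ℤ, H.toCoh.L φ = z ∧
      ∀ (q : ℕ), q.Prime → ∀ (M : Type) [TopologicalSpace M] [T2Space M] [LocallyCompactSpace M]
        (Z : Set M) [Fact (IsClosed Z)],
        IdQ q Z (St.ofP φ) → IdQ q Z (z • St.id Unit) := by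
  obtain ⟨n, M, _, _, _, ρ, hM, hρ⟩ := hU
  obtain ⟨k, B, _, _, _, g, u, tri⟩ := DualSB698.exists_dual_id hM
  have hKM : KU H M := KU_transfer ρ (fun W _ _ _ => hH _ (hρ.smash_right W)) (hH _ hρ) (hK n)
  obtain ⟨ψ, hψ⟩ := (tgtHyp h𝓕 ρ hρ M hM).2
    ((St.ofP ρ).comp (St.ofP (φ.smash (PMap.id (Fin n → ℂ)))))
  replace hψ : ψ.comp (St.ofP ρ) =
    (St.ofP ρ).comp (St.ofP (φ.smash (PMap.id (Fin n → ℂ)))) := hψ
  obtain ⟨m, hm⟩ := hopf (u.comp ((ψ.smR B).comp ((sh (Homeomorph.prodComm B M)).comp g)))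
  have hL := R.Lst_eq_of_KU h2 hKM k g u tri ψ m hm
  refine ⟨m, ?_, ?_⟩
  · rw [← hL, ← L_level φ n, ← H.Lst_ofP]
    refine H.Lst_conj (St.ofP ρ) ?_ _ _ hψ
    rw [H.hst_ofP]
    exact hH ρ hρ
  · intro q hq M' _ _ _ Z _ hI
    have h1 : IdQ q Z (St.ofP (φ.smash (PMap.id (Fin n → ℂ)))) := by
      rw [← smR_ofP]; exact hI.smR _
    have h3 : IdQ q Z ψ := (eInj_of_EIso h𝓕 hρ).idQ_transfer hψ h1
    refine desusp k m ?_
    rw [← hm]
    exact ((h3.smR B).comp_right _).comp_left _

end extract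

/-- **`ExtractStmt`**, general class of spaces -/
theorem extractStmt_of {H : CohX ℚ} (R : RSusp H) {𝓕 : Set CoT} (h𝓕 : ∀ m, cotSt m ∈ 𝓕)
    (hH : ∀ {X Y : Type} [TopologicalSpace X] [T2Space X] [LocallyCompactSpace X]
      [TopologicalSpace Y] [T2Space Y] [LocallyCompactSpace Y] (ρ : PMap X Y), EIso 𝓕 ρ →
      Function.Bijective (H.map ρ))
    (Good : SpPred)
    (hG : ∀ (U : Type) [TopologicalSpace U] [T2Space U] [LocallyCompactSpace U], Good U →
      HasModel 𝓕 U ∧ ∀ n, KU H (S U n)) :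
    ExtractStmt Good (fun U _ _ _ φ => H.toCoh.L φ) := by
  intro U _ _ _ hU φ
  obtain ⟨z, hz, hI⟩ := extract (by norm_num) R h𝓕 hH (hG U hU).1 (hG U hU).2 φ
  exact ⟨z, Or.inl hz, hI⟩

/-- **`ExtractStmt`** for helper812's class of good spaces -/
theorem extractStmt {H : CohX ℚ} (R : RSusp H) (K : KX H) :
    ExtractStmt (fun U _ _ _ => Good812.Good H U) (fun U _ _ _ φ => H.toCoh.L φ) := by
  refine extractStmt_of R (𝓕 := Good812.FF H) (Good812.cotSt_mem H) ?_ _ ?_
  · intro X Y _ _ _ _ _ _ ρ hρ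
    exact AsCoT967.bijective_map H.toCoh (AsCoT967.hinv H) (Good812.cohT_mem H) hρ
  · intro U _ _ _ hU
    exact ⟨hU.model, fun n => (hU.cc.prod (CC.cpow K n)).ku⟩

/-- **`ExtractStmt`** from 811's theory -/
theorem extractStmtY (H : CohY811.CohY ℚ) :
    ExtractStmt (fun U _ _ _ => Good812.Good H.toCohX U) (fun U _ _ _ φ => H.toCohX.toCoh.L φ) :=
  extractStmt (rsusp H) H.toKX

end Crest.Agent.R090.Extr285
end
end

-- ▼ part R090/ASQuot_149
section

/-!
# Row 90, AS5: Alexander-Spanier cochains and a finite group acting freely off the base point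
(owner helper149; definitions are the literal ones of helper58's message #20343)

`X`, `Y` compact Hausdorff, `a : G → X → X` an action of a finite group fixing the point `pt` and
free elsewhere, `p : X → Y` continuous surjective with fibres the orbits.

* `Q1` : if `p^# f` vanishes near the diagonal then so does `f`;
* `Q2` : an exactly invariant cochain of `X` which vanishes near `pt` is, modulo cochains which
  vanish near the diagonal, the pull back of a cochain of `Y` which vanishes near `p pt`;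
* `quot_surj`, `quot_inj` : `h (Y) ≃ h (X)^G` on the level of representatives.
-/

set_option autoImplicit false

open Topology Filter Set

namespace Crest.Agent.R090.ASQuot_149

universe u v w

section defs

variable {k : Type u} [Field k] {X : Type v} {Y : Type w}

/-- the differential of list cochains -/
def d : (List X → k) → List X → k
  | _, [] => 0
  | φ, x :: l => φ l - d (fun m => φ (x :: m)) l

@[simp] theorem d_nil (φ : List X → k) : d φ [] = 0 := rfl

theorem d_cons (φ : List X → k) (x : X) (l : List X) :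
    d φ (x :: l) = φ l - d (fun m => φ (x :: m)) l := rfl

theorem d_add (φ ψ : List X → k) (l : List X) : d (φ + ψ) l = d φ l + d ψ l := by
  induction l generalizing φ ψ with
  | nil => simp
  | cons x l ih =>
    rw [d_cons, d_cons, d_cons, Pi.add_apply]
    have := ih (fun m => φ (x :: m)) (fun m => ψ (x :: m))
    have e : (fun m => (φ + ψ) (x :: m)) = (fun m => φ (x :: m)) + (fun m => ψ (x :: m)) := rfl
    rw [e, this]
    ring

theorem d_smul (c : k) (φ : List X → k) (l : List X) : d (c • φ) l = c * d φ l := by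
  induction l generalizing φ with
  | nil => simp
  | cons x l ih =>
    rw [d_cons, d_cons, Pi.smul_apply]
    have := ih (fun m => φ (x :: m))
    have e : (fun m => (c • φ) (x :: m)) = c • (fun m => φ (x :: m)) := rfl
    rw [e, this, smul_eq_mul]
    ring

/-- `d` as a linear map -/
def dL (k : Type u) [Field k] (X : Type v) : (List X → k) →ₗ[k] (List X → k) where
  toFun φ := d φ
  map_add' φ ψ := funext fun l => d_add φ ψ l
  map_smul' c φ := funext fun l => by
    rw [d_smul, RingHom.id_apply, Pi.smul_apply, smul_eq_mul]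

@[simp] theorem dL_apply (φ : List X → k) : dL k X φ = d φ := rfl

theorem d_map (p : X → Y) (φ : List Y → k) (l : List X) :
    d (fun m => φ (m.map p)) l = d φ (l.map p) := by
  induction l generalizing φ with
  | nil => simp
  | cons x l ih =>
    rw [List.map_cons, d_cons, d_cons, ← ih (fun m => φ (p x :: m))]
    simp only [List.map_cons]

/-- pull back of cochains -/
def pull (k : Type u) [Field k] (p : X → Y) : (List Y → k) →ₗ[k] (List X → k) where
  toFun φ := fun m => φ (m.map p)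
  map_add' _ _ := rfl
  map_smul' _ _ := rfl

@[simp] theorem pull_apply (p : X → Y) (φ : List Y → k) (m : List X) :
    pull k p φ m = φ (m.map p) := rfl

theorem d_pull (p : X → Y) (φ : List Y → k) : d (pull k p φ) = pull k p (d φ) :=
  funext fun l => d_map p φ l


variable [TopologicalSpace X] [TopologicalSpace Y]

/-- cochains vanishing near the base point -/
def S (k : Type u) [Field k] (pt : X) : Submodule k (List X → k) where
  carrier := {φ | ∃ N ∈ 𝓝 pt, ∀ l : List X, (∀ x ∈ l, x ∈ N) → φ l = 0}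
  zero_mem' := ⟨univ, univ_mem, fun _ _ => rfl⟩
  add_mem' := by
    rintro φ ψ ⟨N, hN, h⟩ ⟨N', hN', h'⟩
    refine ⟨N ∩ N', inter_mem hN hN', fun l hl => ?_⟩
    rw [Pi.add_apply, h l fun x hx => (hl x hx).1, h' l fun x hx => (hl x hx).2, add_zero]
  smul_mem' := by
    rintro c φ ⟨N, hN, h⟩
    refine ⟨N, hN, fun l hl => ?_⟩
    rw [Pi.smul_apply, h l hl, smul_zero]

/-- cochains vanishing near the diagonal -/
def LZ (k : Type u) [Field k] (X : Type v) [TopologicalSpace X] : Submodule k (List X → k) where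
  carrier := {φ | ∃ W : Set (X × X), (∀ x, W ∈ 𝓝 (x, x)) ∧
    ∀ l : List X, (∀ x ∈ l, ∀ y ∈ l, (x, y) ∈ W) → φ l = 0}
  zero_mem' := ⟨univ, fun _ => univ_mem, fun _ _ => rfl⟩
  add_mem' := by
    rintro φ ψ ⟨N, hN, h⟩ ⟨N', hN', h'⟩
    refine ⟨N ∩ N', fun x => inter_mem (hN x) (hN' x), fun l hl => ?_⟩
    rw [Pi.add_apply, h l fun x hx y hy => (hl x hx y hy).1,
      h' l fun x hx y hy => (hl x hx y hy).2, add_zero]
  smul_mem' := by
    rintro c φ ⟨N, hN, h⟩
    refine ⟨N, hN, fun l hl => ?_⟩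
    rw [Pi.smul_apply, h l hl, smul_zero]






theorem pull_mem_LZ {p : X → Y} (hp : Continuous p) {φ : List Y → k}
    (h : φ ∈ LZ k Y) : pull k p φ ∈ LZ k X := by
  obtain ⟨N, hN, h⟩ := h
  refine ⟨(Prod.map p p) ⁻¹' N, fun x => ?_, fun l hl => h _ fun y hy z hz => ?_⟩
  · exact (hp.prodMap hp).continuousAt.preimage_mem_nhds (hN (p x))
  · obtain ⟨x, hx, rfl⟩ := List.mem_map.1 hy
    obtain ⟨x', hx', rfl⟩ := List.mem_map.1 hz
    exact hl x hx x' hx'

end defs

/-! ## the quotient by a finite group acting freely off the base point -/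

/-- action data -/
structure Act (G : Type*) [Group G] (X : Type*) [TopologicalSpace X] where
  /-- the action -/
  a : G → X → X
  one : ∀ x, a 1 x = x
  mul : ∀ g h x, a (g * h) x = a g (a h x)
  cont : ∀ g, Continuous (a g)

/-- quotient data: `p` is the orbit map -/
structure IsQuo {G : Type*} [Group G] {X Y : Type*} [TopologicalSpace X] [TopologicalSpace Y]
    (A : Act G X) (p : X → Y) : Prop where
  cont : Continuous p
  surj : Function.Surjective p
  fib : ∀ x x', p x = p x' ↔ ∃ g : G, A.a g x = x'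

section main

variable {G : Type*} [Group G] [Finite G] {X Y : Type*} [TopologicalSpace X] [TopologicalSpace Y]
  {A : Act G X} {p : X → Y}




variable [CompactSpace X] [T2Space X] [T2Space Y]



variable {k : Type*} [Field k]




/-! ### averaging -/












end main

end Crest.Agent.R090.ASQuot_149
namespace Crest.Agent.R090.ASQuot_149.Act
end Crest.Agent.R090.ASQuot_149.Act
end

-- ▼ part R090/ASQuotP_149
section

/-!
# Row 90, AS5, part 2: the orbit map of a free action in 962's / 389's model (owner helper149)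
-/

set_option autoImplicit false
set_option linter.unusedSectionVars false

open Topology Filter Set

namespace Crest.Agent.R090.ASQuotP_149

open OnePoint Crest.Agent.R090.Sp962 Crest.Agent.R090.Orb389 Crest.Agent.R090.ASQuot_149

universe u v

variable {G : Type u} [Group G] [Finite G]
variable {W : Type v} [TopologicalSpace W] [MulAction G W] [ContinuousConstSMul G W]

/-- the action on the one point compactification as `ASQuot_149.Act` -/
def actO (G : Type u) [Group G] [Finite G] (W : Type v) [TopologicalSpace W] [MulAction G W]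
    [ContinuousConstSMul G W] : Act G (OnePoint W) where
  a g := actP g W
  one x := by rw [actP_one]; rfl
  mul g h x := by rw [actP_mul]; rfl
  cont g := (actP g W).cont

@[simp] theorem actO_a (g : G) (x : OnePoint W) : (actO G W).a g x = actP g W x := rfl




end Crest.Agent.R090.ASQuotP_149
end

-- ▼ part R090/ASQuotH_149
section

/-!
# Row 90, AS5, part 3: binding to helper58's `Hc` (owner helper149)

For a finite group acting on a compact Hausdorff space, fixing `pt` and freely elsewhere, and `p` the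
orbit map: `Hc.map p` is injective and its image consists of the invariant classes.
-/

set_option autoImplicit false
set_option linter.unusedSectionVars false

open Topology Filter Set

namespace Crest.Agent.R090.ASQuotH_149

open Crest.Agent.R090

section bridge

variable {F : Type} [Field F] {X Y : Type}



variable [TopologicalSpace X] [TopologicalSpace Y]



end bridge

section main

variable {F : Type} [Field F] {G : Type*} [Group G] [Finite G] {X Y : Type}
  [TopologicalSpace X] [TopologicalSpace Y] {A : ASQuot_149.Act G X} {p : X → Y}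
  [CompactSpace X] [T2Space X] [T2Space Y]



end main

/-! ### the form on `OnePoint` -/

section orb

open OnePoint Crest.Agent.R090.Sp962 Crest.Agent.R090.Orb389

variable {F : Type} [Field F]

theorem mapsTo_inf {U V : Type} [TopologicalSpace U] [TopologicalSpace V] (f : PMap U V) :
    MapsTo f ({∞} : Set (OnePoint U)) ({∞} : Set (OnePoint V)) := by
  intro x hx
  rw [mem_singleton_iff] at hx ⊢
  rw [hx, f.map_inf]

variable {G : Type} [Group G] [Finite G]
variable {W : Type} [TopologicalSpace W] [MulAction G W] [ContinuousConstSMul G W]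
  [T2Space W] [LocallyCompactSpace W]



end orb

end Crest.Agent.R090.ASQuotH_149
end

-- ▼ part R090/ASCoh_149
section

/-!
# Row 90, block HOM/A: helper58's Alexander-Spanier cohomology as an instance of 253's `Coh`
(owner helper149)

* `h F U := Hc F {∞}` on `OnePoint U`, `hmap`, `heps`;
* `LesData F` : the exact triangle of a closed pair (helper412), literally the fields of `Coh`;
* `asCoh L : CohT253.Coh F`;  `qinv_orb`, `L_orb` : free quotients.
-/

set_option autoImplicit false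
set_option linter.unusedSectionVars false
set_option linter.checkUnivs false

open Topology Filter Set

namespace Crest.Agent.R090.ASCoh_149

open OnePoint Crest.Agent.R090 Crest.Agent.R090.Sp962 Crest.Agent.R090.Orb389
open Crest.Agent.R090.ASQuotH_149 Crest.Agent.R090.CohT253

variable (F : Type) [Field F]

/-- reduced Alexander-Spanier cohomology of `OnePoint U`, i.e. with compact supports -/
abbrev h (U : Type) [TopologicalSpace U] : Type := AS58.Hc F ({∞} : Set (OnePoint U))

variable {U V W : Type} [TopologicalSpace U] [TopologicalSpace V] [TopologicalSpace W]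

/-- the induced map -/
def hmap (f : PMap U V) : h F V →ₗ[F] h F U := AS58.Hc.map F f f.cont (mapsTo_inf f)

/-- parity -/
def heps (U : Type) [TopologicalSpace U] : h F U →ₗ[F] h F U :=
  AS58.Hc.ev F ({∞} : Set (OnePoint U))

variable {F}

theorem hmap_id (x : h F U) : hmap F (PMap.id U) x = x := AS58.Hc.map_id _ x

theorem hmap_comp (g : PMap V W) (f : PMap U V) (x : h F W) :
    hmap F (g.comp f) x = hmap F f (hmap F g x) :=
  AS58.Hc.map_comp f.cont g.cont _ _ x

theorem hmap_zero (x : h F V) : hmap F (PMap.zero U V) x = 0 := by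
  obtain ⟨φ, hφ, rfl⟩ := AS58.Hc.mk_surj x
  rw [hmap, AS58.Hc.map_mk, AS58.Hc.mk_eq_zero]
  obtain ⟨N, hN, hz⟩ := AS58.mem_Sp_singleton.1 hφ.1
  have : AS58.pull (PMap.zero U V).toFun φ = 0 := by
    funext l
    rw [AS58.pull_apply]
    apply hz
    intro y hy
    obtain ⟨x, -, rfl⟩ := List.mem_map.1 hy
    exact mem_of_mem_nhds hN
  rw [this]
  exact Submodule.zero_mem _

theorem heps_heps (x : h F U) : heps F U (heps F U x) = x := AS58.Hc.ev_ev x

theorem heps_hmap (f : PMap U V) (x : h F V) :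
    heps F U (hmap F f x) = hmap F f (heps F V x) := AS58.Hc.ev_map f.cont (mapsTo_inf f) x

variable (F) in
/-- the exact triangle of a closed pair -/
structure LesData where
  del : ∀ {K U O : Type} [TopologicalSpace K] [TopologicalSpace U] [TopologicalSpace O]
    [T2Space U] [LocallyCompactSpace U], Dec K U O → h F K →ₗ[F] h F O
  eps_del : ∀ {K U O : Type} [TopologicalSpace K] [TopologicalSpace U] [TopologicalSpace O]
    [T2Space U] [LocallyCompactSpace U] (D : Dec K U O) (x : h F K),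
    heps F O (del D x) = - del D (heps F K x)
  exactU : ∀ {K U O : Type} [TopologicalSpace K] [TopologicalSpace U] [TopologicalSpace O]
    [T2Space U] [LocallyCompactSpace U] (D : Dec K U O),
    Function.Exact (hmap F (PMap.ofOpen D.j D.hj)) (hmap F (PMap.ofClosed D.i D.hi))
  exactK : ∀ {K U O : Type} [TopologicalSpace K] [TopologicalSpace U] [TopologicalSpace O]
    [T2Space U] [LocallyCompactSpace U] (D : Dec K U O),
    Function.Exact (hmap F (PMap.ofClosed D.i D.hi)) (del D)
  exactO : ∀ {K U O : Type} [TopologicalSpace K] [TopologicalSpace U] [TopologicalSpace O]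
    [T2Space U] [LocallyCompactSpace U] (D : Dec K U O),
    Function.Exact (del D) (hmap F (PMap.ofOpen D.j D.hj))
  del_nat : ∀ {K U O K' U' O' : Type} [TopologicalSpace K] [TopologicalSpace U]
    [TopologicalSpace O] [T2Space U] [LocallyCompactSpace U]
    [TopologicalSpace K'] [TopologicalSpace U'] [TopologicalSpace O'] [T2Space U']
    [LocallyCompactSpace U'] (D : Dec K U O) (D' : Dec K' U' O')
    (fK : PMap K K') (fU : PMap U U') (fO : PMap O O'),
    fU.comp (PMap.ofClosed D.i D.hi) = (PMap.ofClosed D'.i D'.hi).comp fK →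
    (PMap.ofOpen D'.j D'.hj).comp fU = fO.comp (PMap.ofOpen D.j D.hj) →
    ∀ x : h F K', hmap F fO (del D' x) = del D (hmap F fK x)

/-- 58's cohomology is a `Coh` -/
noncomputable def asCoh (L : LesData F) : Coh.{0, 0, 0} F where
  h U _ := h F U
  map f := hmap F f
  map_id _ _ x := hmap_id x
  map_comp g f x := hmap_comp g f x
  map_zero' x := hmap_zero x
  eps U _ := heps F U
  eps_eps _ _ x := heps_heps x
  eps_map f x := heps_hmap f x
  del D := L.del D
  eps_del D x := L.eps_del D x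
  exactU D := L.exactU D
  exactK D := L.exactK D
  exactO D := L.exactO D
  del_nat D D' fK fU fO h1 h2 x := L.del_nat D D' fK fU fO h1 h2 x

/-! ### free quotients -/

section quot

variable {G : Type} [Group G] [Fintype G] {E : Type} [TopologicalSpace E] [MulAction G E]
  [ContinuousConstSMul G E] [T2Space E] [LocallyCompactSpace E]





end quot

end Crest.Agent.R090.ASCoh_149
end

-- ▼ part R090/Les_412
section

/-!
# Row 90, HOM: the exact triangle of a closed pair (owner helper412)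

`Cls` : a compact Hausdorff space `X`, a closed embedding `i : K → X`, the collapse `q : X → Q`.
`Cls.del : Hc F {k₀} → Hc F {q₀}`, exactness, naturality, parity; then `lesData : LesData F`.
-/

set_option autoImplicit false
set_option linter.unusedSectionVars false

open Topology Filter Set

namespace Crest.Agent.R090.Les412

open Crest.Agent.R090.AS58

section toSQ

variable {F : Type} [CommRing F] {X : Type} [TopologicalSpace X]

variable (F X) in
/-- the differential -/
abbrev dX : (List X → F) →ₗ[F] (List X → F) := d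

/-- relative cohomology in the notation of subquotients -/
abbrev HQ (M Z : Submodule F (List X → F)) : Type := AS412.SQ (dX F X) M Z

/-- class -/
def qk {M Z : Submodule F (List X → F)} (φ : List X → F) (h : φ ∈ M) (h' : d φ ∈ Z) : HQ M Z :=
  AS412.SQ.mk φ h h'

theorem qk_surj {M Z : Submodule F (List X → F)} (a : HQ M Z) :
    ∃ (φ : List X → F) (h : φ ∈ M) (h' : d φ ∈ Z), a = qk φ h h' :=
  AS412.SQ.mk_surj a

theorem qk_eq_zero {M Z : Submodule F (List X → F)} {φ : List X → F} {h : φ ∈ M} {h' : d φ ∈ Z} :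
    (qk φ h h' : HQ M Z) = 0 ↔ ∃ ψ ∈ M, φ - d ψ ∈ Z := AS412.SQ.mk_eq_zero

theorem qk_eq_qk {M Z : Submodule F (List X → F)} {φ ψ : List X → F} {h : φ ∈ M} {h' : d φ ∈ Z}
    {k : ψ ∈ M} {k' : d ψ ∈ Z} :
    (qk φ h h' : HQ M Z) = qk ψ k k' ↔ ∃ w ∈ M, φ - ψ - d w ∈ Z := AS412.SQ.mk_eq_mk

theorem qk_congr {M Z : Submodule F (List X → F)} {φ ψ : List X → F} {h : φ ∈ M} {h' : d φ ∈ Z}
    {k : ψ ∈ M} {k' : d ψ ∈ Z} (e : φ = ψ) :
    (qk φ h h' : HQ M Z) = qk ψ k k' := by subst e; rfl

theorem qk_add {M Z : Submodule F (List X → F)} {φ ψ : List X → F} {h : φ ∈ M} {h' : d φ ∈ Z}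
    {k : ψ ∈ M} {k' : d ψ ∈ Z} :
    (qk φ h h' : HQ M Z) + qk ψ k k' = qk (φ + ψ) (add_mem h k)
      (by rw [map_add]; exact add_mem h' k') := rfl

theorem mk_congr {A : Set X} {φ ψ : List X → F} {h : φ ∈ Zc F A} {h' : ψ ∈ Zc F A} (e : φ = ψ) :
    Hc.mk φ h = Hc.mk ψ h' := by subst e; rfl

theorem zc_mk {A : Set X} {φ : List X → F} (h : φ ∈ Sp F A) (h' : d φ ∈ LZ F X) : φ ∈ Zc F A :=
  ⟨h, h'⟩

theorem zc_l {A : Set X} {φ : List X → F} (h : φ ∈ Zc F A) : φ ∈ Sp F A := h.1

theorem zc_r {A : Set X} {φ : List X → F} (h : φ ∈ Zc F A) : d φ ∈ LZ F X := h.2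

variable (F) in
/-- `Hc` is a subquotient homology -/
def toSQL (A : Set X) : Hc F A →ₗ[F] HQ (Sp F A) (LZ F X) :=
  Submodule.liftQ _
    { toFun := fun x => qk (M := Sp F A) (Z := LZ F X) x.1 x.2.1 x.2.2
      map_add' := fun _ _ => rfl
      map_smul' := fun _ _ => rfl }
    (by
      rintro ⟨x, hx⟩ hx'
      rw [LinearMap.mem_ker]
      change qk (M := Sp F A) (Z := LZ F X) x hx.1 hx.2 = 0
      rw [qk_eq_zero]
      exact mem_Bc.1 hx')

theorem toSQL_mk {A : Set X} (φ : List X → F) (h : φ ∈ Zc F A) :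
    toSQL F A (Hc.mk φ h) = qk φ (zc_l h) (zc_r h) := rfl

theorem toSQL_bij (A : Set X) : Function.Bijective (toSQL F A) := by
  constructor
  · rw [injective_iff_map_eq_zero]
    intro x hx
    obtain ⟨φ, h, rfl⟩ := Hc.mk_surj x
    rw [toSQL_mk, qk_eq_zero] at hx
    rw [Hc.mk_eq_zero, mem_Bc]
    exact hx
  · intro y
    obtain ⟨φ, h, h', rfl⟩ := qk_surj y
    exact ⟨Hc.mk φ (zc_mk h h'), toSQL_mk _ _⟩

variable (F) in
/-- `Hc` is a subquotient homology -/
noncomputable def toSQ (A : Set X) : Hc F A ≃ₗ[F] HQ (Sp F A) (LZ F X) :=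
  LinearEquiv.ofBijective (toSQL F A) (toSQL_bij A)



end toSQ

/-! ## closed pairs of compact Hausdorff spaces -/

/-- a closed pair `i : K → X` with base points and its collapse `q : X → Q = X/K` -/
structure Cls (X K Q : Type) [TopologicalSpace X] [TopologicalSpace K] [TopologicalSpace Q] where
  i : K → X
  hi : IsClosedEmbedding i
  k₀ : K
  q : X → Q
  q₀ : Q
  hq : Continuous q
  hs : Function.Surjective q
  hA : ∀ x, q x = q₀ ↔ x ∈ range i
  hinj : ∀ x y, x ∉ range i → q x = q y → x = y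

namespace Cls

variable {F : Type} [CommRing F] {X K Q : Type} [TopologicalSpace X] [TopologicalSpace K]
  [TopologicalSpace Q] [CompactSpace X] [T2Space X] [CompactSpace Q] [T2Space Q]
  (C : Cls X K Q)

/-- base point of `X` -/
abbrev x₀ : X := C.i C.k₀

theorem hx₀ : C.x₀ ∈ range C.i := mem_range_self _

theorem qx₀ : C.q C.x₀ = C.q₀ := (C.hA _).2 C.hx₀

variable (F) in
/-- the intermediate complex -/
abbrev L : Submodule F (List X → F) := Lr F C.i C.x₀

theorem pull_i_mem {φ : List X → F} (h : φ ∈ Sp F {C.x₀}) (h' : d φ ∈ C.L F) :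
    pull C.i φ ∈ Zc F {C.k₀} :=
  zc_mk ((ok_res (F := F) C.hi.continuous C.k₀).hM φ h) (by rw [d_pull]; exact h'.2)

variable (F) in
/-- restriction, as an isomorphism `H(X, x₀; Lr) ≅ H(K)` -/
noncomputable def eI : HQ (Sp F {C.x₀}) (C.L F) ≃ₗ[F] Hc F {C.k₀} :=
  (LinearEquiv.ofBijective _ (res_bij (F := F) C.hi (k₀ := C.k₀))).trans (toSQ F {C.k₀}).symm

theorem eI_mk (φ : List X → F) (h : φ ∈ Sp F {C.x₀}) (h' : d φ ∈ C.L F) :
    C.eI F (qk φ h h') = Hc.mk (pull C.i φ) (C.pull_i_mem h h') := by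
  rw [eI, LinearEquiv.trans_apply, LinearEquiv.symm_apply_eq]
  rfl

theorem eQ_aux : Function.Bijective ((AS412.SQ.incl (dX F X) (LZ F X)
      (Sp_range_le_Lr C.hi.continuous C.hx₀)) ∘ₗ (AS412.SQ.map (pull (F := F) C.q)
      (ok_col (F := F) C.hq (fun x hx => (C.hA x).2 hx)))) := by
  rw [LinearMap.coe_comp]
  exact (taut C.hi C.hx₀).comp (col_bij C.hq C.hs C.hA C.hinj)

variable (F) in
/-- the collapse, as an isomorphism `H(Q) ≅ H(Lr / Z)` -/
noncomputable def eQ : Hc F {C.q₀} ≃ₗ[F] HQ (C.L F) (LZ F X) :=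
  (toSQ F {C.q₀}).trans (LinearEquiv.ofBijective _ C.eQ_aux)

theorem pull_q_mem {φ : List Q → F} (h : φ ∈ Sp F {C.q₀}) : pull C.q φ ∈ C.L F :=
  Sp_range_le_Lr C.hi.continuous C.hx₀ ((ok_col (F := F) C.hq (fun x hx => (C.hA x).2 hx)).hM φ h)

theorem d_pull_q_mem {φ : List Q → F} (h : d φ ∈ LZ F Q) : d (pull C.q φ) ∈ LZ F X := by
  rw [d_pull]; exact pull_mem_LZ C.hq h

theorem eQ_mk (φ : List Q → F) (h : φ ∈ Zc F {C.q₀}) :
    C.eQ F (Hc.mk φ h) = qk (pull C.q φ) (C.pull_q_mem (zc_l h)) (C.d_pull_q_mem (zc_r h)) := rfl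

variable (F) in
/-- the connecting map of `LZ ≤ Lr ≤ Sp {x₀}` -/
noncomputable def cn : HQ (Sp F {C.x₀}) (C.L F) →ₗ[F] HQ (C.L F) (LZ F X) :=
  AS412.SQ.conn (dX F X) (Sp F {C.x₀}) (C.L F) (LZ F X) d_d (fun _ h => d_mem_Lr h)

theorem dd_mem {φ : List X → F} : d (d φ) ∈ LZ F X := by rw [d_d]; exact zero_mem _

theorem cn_mk (φ : List X → F) (h : φ ∈ Sp F {C.x₀}) (h' : d φ ∈ C.L F) :
    C.cn F (qk φ h h') = qk (d φ) h' dd_mem := rfl

variable (F) in
/-- the connecting map -/
noncomputable def del : Hc F {C.k₀} →ₗ[F] Hc F {C.q₀} :=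
  (C.eQ F).symm.toLinearMap ∘ₗ (C.cn F) ∘ₗ (C.eI F).symm.toLinearMap

theorem del_apply (x : Hc F {C.k₀}) : C.del F x = (C.eQ F).symm (C.cn F ((C.eI F).symm x)) := rfl

/-- characterisation of the connecting map -/
theorem eQ_del (φ : List X → F) (h : φ ∈ Sp F {C.x₀}) (h' : d φ ∈ C.L F) :
    C.eQ F (C.del F (C.eI F (qk φ h h'))) = qk (d φ) h' dd_mem := by
  rw [del_apply, LinearEquiv.apply_symm_apply, LinearEquiv.symm_apply_apply, cn_mk]

theorem eI_surj (x : Hc F {C.k₀}) : ∃ (φ : List X → F) (h : φ ∈ Sp F {C.x₀})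
    (h' : d φ ∈ C.L F), x = C.eI F (qk φ h h') := by
  obtain ⟨y, rfl⟩ := (C.eI F).surjective x
  obtain ⟨φ, h, h', rfl⟩ := qk_surj y
  exact ⟨φ, h, h', rfl⟩

theorem maps_i : MapsTo C.i {C.k₀} {C.x₀} := by
  intro x hx; rw [mem_singleton_iff] at hx ⊢; rw [hx]

theorem maps_q : MapsTo C.q {C.x₀} {C.q₀} := by
  intro x hx; rw [mem_singleton_iff] at hx ⊢; rw [hx, C.qx₀]

variable (F) in
/-- `H(X) → H(K)` -/
noncomputable def res : Hc F {C.x₀} →ₗ[F] Hc F {C.k₀} :=
  Hc.map F C.i C.hi.continuous C.maps_i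

variable (F) in
/-- `H(Q) → H(X)` -/
noncomputable def col : Hc F {C.q₀} →ₗ[F] Hc F {C.x₀} :=
  Hc.map F C.q C.hq C.maps_q

theorem res_eq (x : Hc F {C.x₀}) : C.res F x = C.eI F (AS412.SQ.proj (dX F X) (Sp F {C.x₀})
    (LZ_le_Lr C.hi.continuous C.hx₀) (toSQ F _ x)) := by
  obtain ⟨φ, h, rfl⟩ := Hc.mk_surj x
  have h1 : d φ ∈ C.L F := LZ_le_Lr C.hi.continuous C.hx₀ (zc_r h)
  have h2 := C.eI_mk φ (zc_l h) h1
  rw [res, Hc.map_mk]
  exact h2.symm

theorem col_eq (x : Hc F {C.q₀}) : toSQ F _ (C.col F x) =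
    AS412.SQ.incl (dX F X) (LZ F X) Lr_le (C.eQ F x) := by
  obtain ⟨φ, h, rfl⟩ := Hc.mk_surj x
  rfl

theorem exact_col_res : Function.Exact (C.col F) (C.res F) := by
  intro x
  have h := AS412.SQ.exact_incl_proj (k := F) (d := dX F X) d_d
    (LZ_le_Lr (F := F) C.hi.continuous C.hx₀) (Lr_le (F := F) (i := C.i) (x₀ := C.x₀))
    (toSQ F _ x)
  rw [C.res_eq, LinearEquiv.map_eq_zero_iff, h]
  constructor
  · rintro ⟨y, hy⟩
    refine ⟨(C.eQ F).symm y, (toSQ F _).injective ?_⟩
    rw [col_eq, LinearEquiv.apply_symm_apply, hy]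
  · rintro ⟨y, rfl⟩
    exact ⟨C.eQ F y, (C.col_eq y).symm⟩

theorem exact_res_del : Function.Exact (C.res F) (C.del F) := by
  intro x
  have h := AS412.SQ.exact_proj_conn (k := F) (d := dX F X) d_d
    (LZ_le_Lr (F := F) C.hi.continuous C.hx₀) (Lr_le (F := F) (i := C.i) (x₀ := C.x₀))
    (fun _ h => d_mem_Lr h) ((C.eI F).symm x)
  rw [del_apply, LinearEquiv.map_eq_zero_iff]
  refine h.trans ?_
  constructor
  · rintro ⟨y, hy⟩
    refine ⟨(toSQ F _).symm y, ?_⟩
    rw [C.res_eq, LinearEquiv.apply_symm_apply, hy, LinearEquiv.apply_symm_apply]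
  · rintro ⟨y, rfl⟩
    refine ⟨toSQ F _ y, ?_⟩
    rw [C.res_eq, LinearEquiv.symm_apply_apply]

theorem exact_del_col : Function.Exact (C.del F) (C.col F) := by
  intro x
  have h := AS412.SQ.exact_conn_incl (k := F) (d := dX F X) d_d
    (LZ_le_Lr (F := F) C.hi.continuous C.hx₀) (Lr_le (F := F) (i := C.i) (x₀ := C.x₀))
    (fun _ h => d_mem_Lr h) (C.eQ F x)
  rw [← (toSQ F _).map_eq_zero_iff, C.col_eq, h]
  constructor
  · rintro ⟨y, hy⟩
    refine ⟨C.eI F y, ?_⟩
    rw [del_apply, LinearEquiv.symm_apply_apply, LinearEquiv.symm_apply_eq]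
    exact hy
  · rintro ⟨y, rfl⟩
    refine ⟨(C.eI F).symm y, ?_⟩
    rw [del_apply, LinearEquiv.apply_symm_apply]
    rfl

/-- parity -/
theorem ev_del (x : Hc F {C.k₀}) : Hc.ev F _ (C.del F x) = - C.del F (Hc.ev F _ x) := by
  obtain ⟨φ, h, h', rfl⟩ := C.eI_surj x
  have h1 : d (ev φ) ∈ C.L F := by rw [d_ev]; exact neg_mem (ev_mem_Lr h')
  have e1 : Hc.ev F _ (C.eI F (qk φ h h')) = C.eI F (qk (ev φ) (ev_mem_Sp h) h1) := by
    rw [eI_mk, eI_mk, Hc.ev_mk]
    exact mk_congr (ev_pull _ _)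
  -- parity on `H(Lr / Z)`
  have e2 : ∀ y : Hc F {C.q₀}, ∀ (ψ : List X → F) (h2 : ψ ∈ C.L F) (h3 : d ψ ∈ LZ F X),
      C.eQ F y = qk ψ h2 h3 → ∀ (h4 : ev ψ ∈ C.L F) (h5 : d (ev ψ) ∈ LZ F X),
      C.eQ F (Hc.ev F _ y) = qk (ev ψ) h4 h5 := by
    intro y ψ h2 h3 hy h4 h5
    obtain ⟨χ, hχ, rfl⟩ := Hc.mk_surj y
    rw [eQ_mk, qk_eq_qk] at hy
    obtain ⟨w, hw, hw'⟩ := hy
    rw [Hc.ev_mk, eQ_mk, qk_eq_qk]
    refine ⟨-ev w, neg_mem (ev_mem_Lr hw), ?_⟩
    have := ev_mem_LZ hw'
    rw [map_sub, map_sub, ev_pull] at this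
    rw [map_neg, d_ev, neg_neg]
    exact this
  rw [e1]
  apply (C.eQ F).injective
  rw [map_neg, C.eQ_del, e2 _ _ _ _ (C.eQ_del φ h h') (ev_mem_Lr h')
    (by rw [d_ev, d_d, map_zero, neg_zero]; exact zero_mem _), ← add_eq_zero_iff_eq_neg,
    qk_add, qk_eq_zero]
  refine ⟨0, zero_mem _, ?_⟩
  rw [d_ev, map_zero, sub_zero, add_neg_cancel]
  exact zero_mem _

/-- naturality for strict maps of pairs -/
theorem del_nat {X' K' Q' : Type} [TopologicalSpace X'] [TopologicalSpace K']
    [TopologicalSpace Q'] [CompactSpace X'] [T2Space X'] [CompactSpace Q'] [T2Space Q']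
    (C' : Cls X' K' Q') (fK : K → K') (fX : X → X') (fQ : Q → Q') (hfK : Continuous fK)
    (hfX : Continuous fX) (hfQ : Continuous fQ) (hK : MapsTo fK {C.k₀} {C'.k₀})
    (hQ : MapsTo fQ {C.q₀} {C'.q₀}) (h1 : ∀ x, fX (C.i x) = C'.i (fK x))
    (h2 : ∀ x, C'.q (fX x) = fQ (C.q x)) (x : Hc F {C'.k₀}) :
    Hc.map F fQ hfQ hQ (C'.del F x) = C.del F (Hc.map F fK hfK hK x) := by
  obtain ⟨φ, h, h', rfl⟩ := C'.eI_surj x
  have hX : MapsTo fX {C.x₀} {C'.x₀} := by
    intro x hx
    rw [mem_singleton_iff] at hx ⊢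
    rw [hx, h1, show fK C.k₀ = C'.k₀ from hK rfl]
  have hL : ∀ ψ : List X' → F, ψ ∈ C'.L F → pull fX ψ ∈ C.L F := by
    intro ψ hψ
    refine ⟨pull_mem_Sp hfX hX hψ.1, ?_⟩
    change pull C.i (pull fX ψ) ∈ LZ F K
    have e : fX ∘ C.i = C'.i ∘ fK := funext h1
    rw [← pull_comp, e, pull_comp]
    exact pull_mem_LZ hfK hψ.2
  have h4 : d (pull fX φ) ∈ C.L F := by rw [d_pull]; exact hL _ h'
  have e1 : Hc.map F fK hfK hK (C'.eI F (qk φ h h')) =
      C.eI F (qk (pull fX φ) (pull_mem_Sp hfX hX h) h4) := by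
    rw [eI_mk, eI_mk, Hc.map_mk]
    refine mk_congr ?_
    have e : fX ∘ C.i = C'.i ∘ fK := funext h1
    rw [← pull_comp, ← pull_comp, e]
  have e2 : ∀ y : Hc F {C'.q₀}, ∀ (ψ : List X' → F) (h2 : ψ ∈ C'.L F) (h3 : d ψ ∈ LZ F X'),
      C'.eQ F y = qk ψ h2 h3 → ∀ (h4 : pull fX ψ ∈ C.L F) (h5 : d (pull fX ψ) ∈ LZ F X),
      C.eQ F (Hc.map F fQ hfQ hQ y) = qk (pull fX ψ) h4 h5 := by
    intro y ψ h2' h3 hy h4 h5
    obtain ⟨χ, hχ, rfl⟩ := Hc.mk_surj y
    rw [eQ_mk, qk_eq_qk] at hy
    obtain ⟨w, hw, hw'⟩ := hy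
    rw [Hc.map_mk, eQ_mk, qk_eq_qk]
    refine ⟨pull fX w, hL _ hw, ?_⟩
    have e : fQ ∘ C.q = C'.q ∘ fX := funext fun x => (h2 x).symm
    have := pull_mem_LZ hfX hw'
    rw [map_sub, map_sub, ← pull_comp] at this
    rw [d_pull, ← pull_comp, e]
    exact this
  rw [e1]
  apply (C.eQ F).injective
  rw [C.eQ_del, e2 _ _ _ _ (C'.eQ_del φ h h') (hL _ h')
    (by rw [d_pull, d_d, map_zero]; exact zero_mem _)]
  exact qk_congr (d_pull _ _).symm

end Cls

/-! ## closed subspaces of locally compact Hausdorff spaces -/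

section dec

open OnePoint Crest.Agent.R090.Sp962 Crest.Agent.R090.CohT253

variable {K U O : Type} [TopologicalSpace K] [TopologicalSpace U] [TopologicalSpace O]
  [T2Space U] [LocallyCompactSpace U]

/-- the closed pair of a decomposition -/
noncomputable def ofDec (D : Dec K U O) : Cls (OnePoint U) (OnePoint K) (OnePoint O) where
  i := PMap.ofClosed D.i D.hi
  hi := by
    refine Continuous.isClosedEmbedding (PMap.ofClosed D.i D.hi).cont ?_
    intro x y h
    exact Option.map_injective D.hi.injective h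
  k₀ := ∞
  q := PMap.ofOpen D.j D.hj
  q₀ := ∞
  hq := (PMap.ofOpen D.j D.hj).cont
  hs := by
    intro y
    induction y using OnePoint.rec with
    | infty => exact ⟨∞, PMap.map_inf _⟩
    | coe y => exact ⟨(D.j y : OnePoint U), PMap.ofOpen_coe _ _ _⟩
  hA := by
    intro x
    induction x using OnePoint.rec with
    | infty => exact ⟨fun _ => ⟨∞, rfl⟩, fun _ => PMap.map_inf _⟩
    | coe x =>
      constructor
      · intro h
        by_cases hx : x ∈ range D.i
        · obtain ⟨y, rfl⟩ := hx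
          exact ⟨(y : OnePoint K), rfl⟩
        · have : x ∈ range D.j := by rw [D.compl]; exact hx
          obtain ⟨y, rfl⟩ := this
          rw [PMap.ofOpen_coe] at h
          exact absurd h (coe_ne_infty _)
      · rintro ⟨y, hy⟩
        refine PMap.ofOpen_of_notMem _ _ ?_
        rw [D.compl]
        intro h
        apply h
        induction y using OnePoint.rec with
        | infty => exact absurd hy.symm (coe_ne_infty _)
        | coe y => exact ⟨y, coe_injective hy⟩
  hinj := by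
    intro x y hx h
    induction x using OnePoint.rec with
    | infty => exact absurd ⟨∞, rfl⟩ hx
    | coe x =>
      have : x ∈ range D.j := by
        rw [D.compl]
        rintro ⟨z, rfl⟩
        exact hx ⟨(z : OnePoint K), rfl⟩
      obtain ⟨z, rfl⟩ := this
      rw [PMap.ofOpen_coe] at h
      exact ((PMap.collapse_eq_coe _ D.hj).1 h.symm).symm

theorem dec_t2 (D : Dec K U O) : T2Space O := D.hj.toIsEmbedding.t2Space

theorem dec_lc (D : Dec K U O) : LocallyCompactSpace O := D.hj.locallyCompactSpace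

variable (F : Type) [Field F]

/-- **the exact triangle of a closed subspace** -/
noncomputable def lesData : ASCoh_149.LesData F where
  del D :=
    haveI := dec_t2 D
    haveI := dec_lc D
    (ofDec D).del F
  eps_del D x := by
    have := dec_t2 D
    have := dec_lc D
    exact (ofDec D).ev_del x
  exactU D := by
    have := dec_t2 D
    have := dec_lc D
    exact (ofDec D).exact_col_res (F := F)
  exactK D := by
    have := dec_t2 D
    have := dec_lc D
    exact (ofDec D).exact_res_del (F := F)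
  exactO D := by
    have := dec_t2 D
    have := dec_lc D
    exact (ofDec D).exact_del_col (F := F)
  del_nat D D' fK fU fO h1 h2 x := by
    have := dec_t2 D
    have := dec_lc D
    have := dec_t2 D'
    have := dec_lc D'
    exact (ofDec D).del_nat (ofDec D') fK fU fO fK.cont fU.cont fO.cont
      (ASQuotH_149.mapsTo_inf fK) (ASQuotH_149.mapsTo_inf fO)
      (fun x => congrFun (congrArg PMap.toFun h1) x)
      (fun x => congrFun (congrArg PMap.toFun h2) x) x


end dec

end Crest.Agent.R090.Les412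
end

-- ▼ part R090/CrossL_965
section

/-!
# Row 90, HOM: the cross product of Alexander-Spanier classes, cochain level (helper965)

Everything is *local*: `EqAt x φ ψ` says that the list cochains `φ`, `ψ` agree on all lists in a
neighbourhood of `x`.  `IsCr g χ` says that the cochain `χ` on `(U × V)⁺` vanishes near `∞` and
agrees locally on `U × V` with the cochain `g` on `U⁺ × V⁺`.  Existence is `exists_isCr`,
uniqueness up to locally zero cochains is `IsCr.unique`.
-/

set_option autoImplicit false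
set_option linter.unusedSectionVars false

open Filter Topology Set OnePoint

namespace Crest.Agent.R090.Cross965

open Crest.Agent.R090.AS58 Crest.Agent.R090.Sp962

variable {F : Type} [CommRing F] {X Y Z : Type} [TopologicalSpace X] [TopologicalSpace Y]
  [TopologicalSpace Z]

/-- `φ` and `ψ` agree on all lists in a neighbourhood of `x` -/
def EqAt (x : X) (φ ψ : List X → F) : Prop :=
  ∃ N ∈ 𝓝 x, ∀ l : List X, (∀ y ∈ l, y ∈ N) → φ l = ψ l

namespace EqAt

variable {x : X} {φ φ' ψ ψ' χ : List X → F}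

theorem rfl' : EqAt x φ φ := ⟨univ, univ_mem, fun _ _ => rfl⟩

theorem of_eq (h : φ = ψ) : EqAt x φ ψ := h ▸ rfl'

theorem symm (h : EqAt x φ ψ) : EqAt x ψ φ := by
  obtain ⟨N, hN, h⟩ := h
  exact ⟨N, hN, fun l hl => (h l hl).symm⟩

theorem trans (h : EqAt x φ ψ) (h' : EqAt x ψ χ) : EqAt x φ χ := by
  obtain ⟨N, hN, h⟩ := h
  obtain ⟨N', hN', h'⟩ := h'
  exact ⟨N ∩ N', inter_mem hN hN', fun l hl =>
    (h l fun y hy => (hl y hy).1).trans (h' l fun y hy => (hl y hy).2)⟩

theorem add (h : EqAt x φ ψ) (h' : EqAt x φ' ψ') : EqAt x (φ + φ') (ψ + ψ') := by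
  obtain ⟨N, hN, h⟩ := h
  obtain ⟨N', hN', h'⟩ := h'
  exact ⟨N ∩ N', inter_mem hN hN', fun l hl => by
    rw [Pi.add_apply, Pi.add_apply, h l fun y hy => (hl y hy).1, h' l fun y hy => (hl y hy).2]⟩

theorem sub (h : EqAt x φ ψ) (h' : EqAt x φ' ψ') : EqAt x (φ - φ') (ψ - ψ') := by
  obtain ⟨N, hN, h⟩ := h
  obtain ⟨N', hN', h'⟩ := h'
  exact ⟨N ∩ N', inter_mem hN hN', fun l hl => by
    rw [Pi.sub_apply, Pi.sub_apply, h l fun y hy => (hl y hy).1, h' l fun y hy => (hl y hy).2]⟩

theorem neg (h : EqAt x φ ψ) : EqAt x (-φ) (-ψ) := by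
  obtain ⟨N, hN, h⟩ := h
  exact ⟨N, hN, fun l hl => by rw [Pi.neg_apply, Pi.neg_apply, h l hl]⟩

theorem smul (c : F) (h : EqAt x φ ψ) : EqAt x (c • φ) (c • ψ) := by
  obtain ⟨N, hN, h⟩ := h
  exact ⟨N, hN, fun l hl => by rw [Pi.smul_apply, Pi.smul_apply, h l hl]⟩

theorem d (h : EqAt x φ ψ) : EqAt x (AS58.d φ) (AS58.d ψ) := by
  obtain ⟨N, hN, h⟩ := h
  exact ⟨N, hN, fun l hl => d_congr l φ ψ fun m hm => h m fun y hy => hl y (hm hy)⟩

theorem ev (h : EqAt x φ ψ) : EqAt x (AS58.ev φ) (AS58.ev ψ) := by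
  obtain ⟨N, hN, h⟩ := h
  exact ⟨N, hN, fun l hl => by rw [ev_apply, ev_apply, h l hl]⟩

theorem sub_zero_iff : EqAt x (φ - ψ) 0 ↔ EqAt x φ ψ := by
  constructor
  · intro h
    have := h.add (rfl' (x := x) (φ := ψ))
    simpa using this
  · intro h
    have := h.sub (rfl' (x := x) (φ := ψ))
    simpa using this

end EqAt

theorem EqAt.pull {f : X → Y} {x : X} (hf : ContinuousAt f x) {φ ψ : List Y → F}
    (h : EqAt (f x) φ ψ) : EqAt x (AS58.pull f φ) (AS58.pull f ψ) := by
  obtain ⟨N, hN, h⟩ := h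
  refine ⟨f ⁻¹' N, hf hN, fun l hl => h _ fun y hy => ?_⟩
  obtain ⟨z, hz, rfl⟩ := List.mem_map.1 hy
  exact hl z hz


theorem EqAt.cr {x : X} {y : Y} {φ φ' : List X → F} {ψ ψ' : List Y → F} (h : EqAt x φ φ')
    (h' : EqAt y ψ ψ') : EqAt (x, y) (AS58.cr φ ψ) (AS58.cr φ' ψ') := by
  obtain ⟨N, hN, h⟩ := h
  obtain ⟨N', hN', h'⟩ := h'
  refine ⟨N ×ˢ N', prod_mem_nhds hN hN', fun l hl => cr_congr l φ φ' ψ ψ' ?_ ?_⟩
  · intro m hm
    refine h m fun z hz => ?_
    obtain ⟨w, hw, rfl⟩ := List.mem_map.1 (hm hz)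
    exact (hl w hw).1
  · intro m hm
    refine h' m fun z hz => ?_
    obtain ⟨w, hw, rfl⟩ := List.mem_map.1 (hm hz)
    exact (hl w hw).2

theorem EqAt.rc {x : X} {y : Y} {φ φ' : List X → F} {ψ ψ' : List Y → F} (h : EqAt x φ φ')
    (h' : EqAt y ψ ψ') : EqAt (x, y) (AS58.rc φ ψ) (AS58.rc φ' ψ') := by
  obtain ⟨N, hN, h⟩ := h
  obtain ⟨N', hN', h'⟩ := h'
  refine ⟨N ×ˢ N', prod_mem_nhds hN hN', fun l hl => rc_congr l φ φ' ψ ψ' ?_ ?_⟩
  · intro m hm
    refine h m fun z hz => ?_
    obtain ⟨w, hw, rfl⟩ := List.mem_map.1 (hm hz)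
    exact (hl w hw).1
  · intro m hm
    refine h' m fun z hz => ?_
    obtain ⟨w, hw, rfl⟩ := List.mem_map.1 (hm hz)
    exact (hl w hw).2

theorem EqAt.c1 {x : X} {y : Y} {φ φ' : List X → F} {ψ ψ' : List Y → F} (h : EqAt x φ φ')
    (h' : EqAt y ψ ψ') : EqAt (x, y) (AS58.c1 φ ψ) (AS58.c1 φ' ψ') := by
  obtain ⟨N, hN, h⟩ := h
  obtain ⟨N', hN', h'⟩ := h'
  refine ⟨N ×ˢ N', prod_mem_nhds hN hN', fun l hl => c1_congr l φ φ' ψ ψ' ?_ ?_⟩
  · intro m hm
    refine h m fun z hz => ?_
    obtain ⟨w, hw, rfl⟩ := List.mem_map.1 (hm hz)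
    exact (hl w hw).1
  · intro m hm
    refine h' m fun z hz => ?_
    obtain ⟨w, hw, rfl⟩ := List.mem_map.1 (hm hz)
    exact (hl w hw).2

/-! ## lists in the range of a map -/

theorem exists_map_eq {A B : Type} {f : A → B} {N : Set A} :
    ∀ l : List B, (∀ y ∈ l, y ∈ f '' N) → ∃ m : List A, m.map f = l ∧ ∀ x ∈ m, x ∈ N := by
  intro l
  induction l with
  | nil => exact fun _ => ⟨[], rfl, fun x hx => absurd hx (by simp)⟩
  | cons b l ih =>
    intro h
    obtain ⟨a, ha, rfl⟩ := h b (by simp)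
    obtain ⟨m, rfl, hm⟩ := ih fun y hy => h y (by simp [hy])
    refine ⟨a :: m, rfl, fun x hx => ?_⟩
    rcases List.mem_cons.1 hx with rfl | hx
    exacts [ha, hm x hx]

theorem EqAt.of_pull {f : X → Y} (hf : IsOpenEmbedding f) {x : X} {φ ψ : List Y → F}
    (h : EqAt x (AS58.pull f φ) (AS58.pull f ψ)) : EqAt (f x) φ ψ := by
  obtain ⟨N, hN, h⟩ := h
  refine ⟨f '' N, hf.isOpenMap.image_mem_nhds hN, fun l hl => ?_⟩
  obtain ⟨m, rfl, hm⟩ := exists_map_eq l hl
  exact h m hm

/-! ## extension of a cochain on `U⁺ × V⁺` to `(U × V)⁺` -/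

section ext

variable {U V W U' V' : Type} [TopologicalSpace U] [TopologicalSpace V] [TopologicalSpace W]
  [TopologicalSpace U'] [TopologicalSpace V']

/-- set theoretic section of `U⁺ × V⁺ → (U × V)⁺` -/
def sec (z : OnePoint (U × V)) : OnePoint U × OnePoint V :=
  z.elim (∞, ∞) fun p => ((p.1 : OnePoint U), (p.2 : OnePoint V))

@[simp] theorem sec_coe (p : U × V) :
    sec (p : OnePoint (U × V)) = ((p.1 : OnePoint U), (p.2 : OnePoint V)) := rfl

@[simp] theorem sec_inf : sec (∞ : OnePoint (U × V)) = (∞, ∞) := rfl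

/-- `U → U⁺` -/
abbrev co (U : Type) : U → OnePoint U := (↑)

/-- `U × V → U⁺ × V⁺` -/
abbrev coco (U V : Type) : U × V → OnePoint U × OnePoint V := Prod.map (co U) (co V)

/-- `χ` is an extension by zero at `∞` of the cochain `g` restricted to `U × V` -/
structure IsCr (g : List (OnePoint U × OnePoint V) → F) (χ : List (OnePoint (U × V)) → F) :
    Prop where
  inf : EqAt ∞ χ 0
  fin : ∀ p : U × V, EqAt p (pull (co (U × V)) χ) (pull (coco U V) g)

/-- a cochain on `U⁺ × V⁺` that vanishes near `{∞} × V⁺` and `U⁺ × {∞}`, very strongly -/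
structure Adm (g : List (OnePoint U × OnePoint V) → F) : Prop where
  left : ∃ N ∈ 𝓝 (∞ : OnePoint U), ∀ l, (∀ z ∈ l, z.1 ∈ N) → g l = 0
  right : ∃ N ∈ 𝓝 (∞ : OnePoint V), ∀ l, (∀ z ∈ l, z.2 ∈ N) → g l = 0

theorem nhds_inf_prod {N : Set (OnePoint U)} {M : Set (OnePoint V)} (hN : N ∈ 𝓝 ∞)
    (hM : M ∈ 𝓝 ∞) : {z : OnePoint (U × V) | (sec z).1 ∈ N ∨ (sec z).2 ∈ M} ∈ 𝓝 ∞ := by
  obtain ⟨K, ⟨hK, hK'⟩, h⟩ := (hasBasis_nhds_infty).mem_iff.1 hN
  obtain ⟨L, ⟨hL, hL'⟩, h'⟩ := (hasBasis_nhds_infty).mem_iff.1 hM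
  refine (hasBasis_nhds_infty).mem_iff.2 ⟨K ×ˢ L, ⟨hK.prod hL, hK'.prod hL'⟩, ?_⟩
  rintro z (⟨p, hp, rfl⟩ | rfl)
  · simp only [mem_compl_iff, mem_prod, not_and_or] at hp
    rcases hp with hp | hp
    · exact Or.inl (h (Or.inl ⟨p.1, hp, rfl⟩))
    · exact Or.inr (h' (Or.inl ⟨p.2, hp, rfl⟩))
  · exact Or.inl (mem_of_mem_nhds hN)

theorem sep_nhds [T2Space U] [LocallyCompactSpace U] {N : Set (OnePoint U)} (hN : N ∈ 𝓝 ∞) :
    ∃ N' ∈ 𝓝 (∞ : OnePoint U), N' ⊆ N ∧
      ∀ u : U, ∃ A ∈ 𝓝 u, ∀ a ∈ A, ∀ b ∈ A, (a : OnePoint U) ∈ N' → (b : OnePoint U) ∈ N := by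
  obtain ⟨N', hN', hc, hs⟩ := exists_mem_nhds_isClosed_subset (interior_mem_nhds.2 hN)
  refine ⟨N', hN', hs.trans interior_subset, fun u => ?_⟩
  by_cases h : (u : OnePoint U) ∈ N'
  · refine ⟨(co U) ⁻¹' interior N, ?_, fun a _ b hb _ => interior_subset hb⟩
    exact (continuous_coe.continuousAt (x := u)).preimage_mem_nhds
      (isOpen_interior.mem_nhds (hs h))
  · refine ⟨(co U) ⁻¹' N'ᶜ, ?_, fun a ha b _ h => absurd h ha⟩
    exact (continuous_coe.continuousAt (x := u)).preimage_mem_nhds (hc.isOpen_compl.mem_nhds h)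

open Classical in
/-- **existence of extensions** -/
theorem exists_isCr [T2Space U] [LocallyCompactSpace U] [T2Space V] [LocallyCompactSpace V]
    {g : List (OnePoint U × OnePoint V) → F} (hg : Adm g) : ∃ χ, IsCr g χ := by
  obtain ⟨N, hN, h1⟩ := hg.left
  obtain ⟨M, hM, h2⟩ := hg.right
  obtain ⟨N', hN', hNN, h3⟩ := sep_nhds hN
  obtain ⟨M', hM', hMM, h4⟩ := sep_nhds hM
  refine ⟨fun l => if (∀ z ∈ l, ∀ w ∈ l, ((sec z).1 ∈ N' → (sec w).1 ∈ N) ∧
    ((sec z).2 ∈ M' → (sec w).2 ∈ M)) then g (l.map sec) else 0, ⟨_, nhds_inf_prod hN' hM', ?_⟩, ?_⟩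
  · intro l hl
    change ite _ _ _ = (0 : F)
    split_ifs with h
    · cases l with
      | nil => exact h1 _ (fun z hz => absurd hz (by simp))
      | cons z l =>
        rcases hl z (by simp) with hz | hz
        · refine h1 _ fun w hw => ?_
          obtain ⟨w', hw', rfl⟩ := List.mem_map.1 hw
          exact (h z (by simp) w' hw').1 hz
        · refine h2 _ fun w hw => ?_
          obtain ⟨w', hw', rfl⟩ := List.mem_map.1 hw
          exact (h z (by simp) w' hw').2 hz
    · rfl
  · rintro ⟨u, v⟩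
    obtain ⟨A, hA, h5⟩ := h3 u
    obtain ⟨B, hB, h6⟩ := h4 v
    refine ⟨A ×ˢ B, prod_mem_nhds hA hB, fun l hl => ?_⟩
    rw [pull_apply, pull_apply, if_pos, List.map_map]
    · rfl
    · intro z hz w hw
      obtain ⟨z', hz', rfl⟩ := List.mem_map.1 hz
      obtain ⟨w', hw', rfl⟩ := List.mem_map.1 hw
      exact ⟨h5 _ (hl z' hz').1 _ (hl w' hw').1, h6 _ (hl z' hz').2 _ (hl w' hw').2⟩

/-- a cochain on `U⁺` is locally zero as soon as it is so at `∞` and at the points of `U` -/
theorem eqAt_all {φ ψ : List (OnePoint U) → F} (h : EqAt ∞ φ ψ)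
    (h' : ∀ u : U, EqAt u (pull (co U) φ) (pull (co U) ψ)) (z : OnePoint U) : EqAt z φ ψ := by
  induction z using OnePoint.rec with
  | infty => exact h
  | coe u => exact EqAt.of_pull isOpenEmbedding_coe (h' u)

/-- **uniqueness** -/
theorem IsCr.unique {g g' : List (OnePoint U × OnePoint V) → F}
    {χ χ' : List (OnePoint (U × V)) → F} (h : IsCr g χ) (h' : IsCr g' χ')
    (hg : ∀ p : U × V, EqAt p (pull (coco U V) g) (pull (coco U V) g')) (z : OnePoint (U × V)) :
    EqAt z χ χ' :=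
  eqAt_all (h.inf.trans h'.inf.symm) (fun p => ((h.fin p).trans (hg p)).trans (h'.fin p).symm) z

theorem IsCr.add {g g' : List (OnePoint U × OnePoint V) → F}
    {χ χ' : List (OnePoint (U × V)) → F} (h : IsCr g χ) (h' : IsCr g' χ') :
    IsCr (g + g') (χ + χ') where
  inf := by simpa using h.inf.add h'.inf
  fin p := by
    rw [map_add, map_add]
    exact (h.fin p).add (h'.fin p)

theorem IsCr.sub {g g' : List (OnePoint U × OnePoint V) → F}
    {χ χ' : List (OnePoint (U × V)) → F} (h : IsCr g χ) (h' : IsCr g' χ') :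
    IsCr (g - g') (χ - χ') where
  inf := by simpa using h.inf.sub h'.inf
  fin p := by
    rw [map_sub, map_sub]
    exact (h.fin p).sub (h'.fin p)

theorem IsCr.smul (c : F) {g : List (OnePoint U × OnePoint V) → F}
    {χ : List (OnePoint (U × V)) → F} (h : IsCr g χ) : IsCr (c • g) (c • χ) where
  inf := by simpa using h.inf.smul c
  fin p := by
    rw [_root_.map_smul, _root_.map_smul]
    exact (h.fin p).smul c

theorem IsCr.d {g : List (OnePoint U × OnePoint V) → F}
    {χ : List (OnePoint (U × V)) → F} (h : IsCr g χ) : IsCr (AS58.d g) (AS58.d χ) where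
  inf := by simpa using h.inf.d
  fin p := by
    rw [← d_pull, ← d_pull]
    exact (h.fin p).d

theorem IsCr.ev {g : List (OnePoint U × OnePoint V) → F}
    {χ : List (OnePoint (U × V)) → F} (h : IsCr g χ) : IsCr (AS58.ev g) (AS58.ev χ) where
  inf := by simpa using h.inf.ev
  fin p := by
    rw [← ev_pull, ← ev_pull]
    exact (h.fin p).ev

theorem IsCr.congr {g g' : List (OnePoint U × OnePoint V) → F}
    {χ : List (OnePoint (U × V)) → F} (h : IsCr g χ)
    (hg : ∀ p : U × V, EqAt p (pull (coco U V) g) (pull (coco U V) g')) : IsCr g' χ :=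
  ⟨h.inf, fun p => (h.fin p).trans (hg p)⟩

end ext

end Crest.Agent.R090.Cross965
end

-- ▼ part R090/AS3_58
section

/-!
# Row 90, block HOM (helper58): `hU F U = Hc F {∞}` on the pointed spaces `OnePoint U` of Sp_962

The first half of the fields of 253's `Coh`: `hmap`, `hmap_id`, `hmap_comp`, `hmap_zero`, `heps`,
`heps_heps`, `heps_hmap`, and homotopy invariance `hmap_eq`.
-/

set_option autoImplicit false

open Filter Topology Set Crest.Agent.R090.Sp962

namespace Crest.Agent.R090.AS58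

open OnePoint

variable (F : Type) [CommRing F]

/-- Alexander-Spanier cohomology with compact supports of `U` -/
abbrev hU (U : Type) [TopologicalSpace U] : Type := Hc F ({(∞ : OnePoint U)} : Set (OnePoint U))

variable {U V W : Type} [TopologicalSpace U] [TopologicalSpace V] [TopologicalSpace W]

theorem pm_maps (f : PMap U V) : MapsTo f ({(∞ : OnePoint U)} : Set (OnePoint U)) {∞} := by
  intro x hx
  rw [mem_singleton_iff] at hx ⊢
  rw [hx, f.map_inf]

/-- functoriality on pointed maps -/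
def hmap (f : PMap U V) : hU F V →ₗ[F] hU F U := Hc.map F f f.cont (pm_maps f)

theorem hmap_mk (f : PMap U V) (φ : List (OnePoint V) → F) (h : φ ∈ Zc F {(∞ : OnePoint V)}) :
    hmap F f (Hc.mk φ h) = Hc.mk (pull f φ) (pull_mem_Zc f.cont (pm_maps f) h) := rfl




/-- parity -/
def heps (U : Type) [TopologicalSpace U] : hU F U →ₗ[F] hU F U := Hc.ev F _



variable {F}

/-- homotopy invariance -/
theorem hmap_eq [T2Space U] [LocallyCompactSpace U] {f g : PMap U V} (h : f.Homotopic g)
    (x : hU F V) : hmap F f x = hmap F g x := by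
  obtain ⟨H, hH, h0, h1, hi⟩ := h.exists
  have hc : ∀ t : unitInterval, Continuous fun x : OnePoint U => H (t, x) := fun t =>
    hH.comp (by fun_prop)
  have hm : ∀ t : unitInterval, MapsTo (fun x : OnePoint U => H (t, x))
      ({(∞ : OnePoint U)} : Set (OnePoint U)) ({(∞ : OnePoint V)} : Set (OnePoint V)) := by
    intro t x hx
    rw [mem_singleton_iff] at hx ⊢
    rw [hx]; exact hi t
  obtain ⟨φ, hφ, rfl⟩ := Hc.mk_surj x
  have key : pull (fun x => H (0, x)) φ - pull (fun x => H (1, x)) φ ∈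
      Bc F ({(∞ : OnePoint U)} : Set (OnePoint U)) :=
    Hc.mk_eq_mk.1 (Hc.map_homotopy (F := F) (fun p : OnePoint U × unitInterval => H (p.2, p.1))
      (hH.comp (by fun_prop)) hm hc 0 1 (Hc.mk φ hφ))
  have e0 : (fun x => H (0, x)) = f := funext h0
  have e1 : (fun x => H (1, x)) = g := funext h1
  rw [e0, e1] at key
  rw [hmap_mk, hmap_mk, Hc.mk_eq_mk]
  exact key

end Crest.Agent.R090.AS58
end

-- ▼ part R090/Cross_965
section

/-!
# Row 90, HOM: the cross product of Alexander-Spanier classes (helper965)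

`cross : hU F U →ₗ hU F V →ₗ hU F (U × V)`: bilinear, natural, associative, graded commutative,
compatible with the parity operator and with connecting maps.
-/

set_option autoImplicit false
set_option linter.unusedSectionVars false

open Filter Topology Set OnePoint

namespace Crest.Agent.R090.Cross965

open Crest.Agent.R090.AS58 Crest.Agent.R090.Sp962

section local'

variable {F : Type} [CommRing F] {X : Type} [TopologicalSpace X]

theorem mem_Sp_iff {x0 : X} {φ : List X → F} : φ ∈ Sp F ({x0} : Set X) ↔ EqAt x0 φ 0 :=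
  mem_Sp_singleton

theorem EqAt.of_mem_LZ {φ : List X → F} (h : φ ∈ LZ F X) (x : X) : EqAt x φ 0 := by
  obtain ⟨W, hW, h⟩ := h
  have h1 : W ∈ 𝓝 (x, x) := nhds_le_nhdsSet (mem_diagonal x) hW
  rw [nhds_prod_eq, mem_prod_self_iff] at h1
  obtain ⟨t, ht, ht'⟩ := h1
  exact ⟨t, ht, fun l hl => h l fun a ha b hb => ht' ⟨hl a ha, hl b hb⟩⟩

theorem EqAt.of_sub_mem_LZ {φ ψ : List X → F} (h : φ - ψ ∈ LZ F X) (x : X) : EqAt x φ ψ :=
  EqAt.sub_zero_iff.1 (EqAt.of_mem_LZ h x)

/-- local characterisation of locally zero cochains -/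
theorem mem_LZ_of_eqAt [CompactSpace X] [T2Space X] [Nonempty X] {φ : List X → F}
    (h : ∀ x, EqAt x φ 0) : φ ∈ LZ F X := by
  let _ := uniformSpaceOfCompactR1 (γ := X)
  have hU : uniformity X = 𝓝ˢ (diagonal X) := nhdsSet_diagonal_eq_uniformity.symm
  choose N hN h using h
  obtain ⟨V, hV, hL⟩ := lebesgue_number_lemma_nhds' (K := (univ : Set X)) isCompact_univ
    (U := fun x _ => N x) (fun x _ => hN x)
  refine ⟨V, hU ▸ hV, fun l hl => ?_⟩
  cases l with
  | nil =>
    obtain ⟨x⟩ := ‹Nonempty X›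
    exact h x [] (fun y hy => absurd hy (by simp))
  | cons x l =>
    obtain ⟨⟨y, _⟩, hy⟩ := hL x (mem_univ x)
    exact h y _ fun z hz => hy (hl x (by simp) z hz)

theorem sub_mem_LZ_of_eqAt [CompactSpace X] [T2Space X] [Nonempty X] {φ ψ : List X → F}
    (h : ∀ x, EqAt x φ ψ) : φ - ψ ∈ LZ F X :=
  mem_LZ_of_eqAt fun x => EqAt.sub_zero_iff.2 (h x)

end local'

variable {F : Type} [CommRing F]

/-! ## more algebra of `rc`, `c1` -/

section alg

variable {X Y : Type}

theorem rc_zero_left (ψ : List Y → F) : rc (0 : List X → F) ψ = 0 := by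
  funext l
  have := rc_smul_left l (0 : F) (0 : List X → F) ψ
  simpa using this

theorem rc_zero_right (φ : List X → F) : rc φ (0 : List Y → F) = 0 := by
  funext l
  have := rc_smul_right l (0 : F) φ (0 : List Y → F)
  simpa using this

theorem c1_zero_left (ψ : List Y → F) : c1 (0 : List X → F) ψ = 0 := by
  funext l
  have := c1_smul_left l (0 : F) (0 : List X → F) ψ
  simpa using this

theorem c1_zero_right_apply (l : List (X × Y)) : ∀ φ : List X → F,
    c1 φ (0 : List Y → F) l = 0 := by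
  induction l with
  | nil => intro φ; rfl
  | cons z l ih =>
    intro φ
    rw [c1_cons, ih, map_zero, rc_zero_right]
    simp

theorem c1_zero_right (φ : List X → F) : c1 φ (0 : List Y → F) = 0 :=
  funext fun l => c1_zero_right_apply l φ

theorem pull_rc {X' Y' : Type} (f : X' → X) (g : Y' → Y) (l : List (X' × Y')) :
    ∀ (φ : List X → F) (ψ : List Y → F),
    rc φ ψ (l.map (Prod.map f g)) = rc (pull f φ) (pull g ψ) l := by
  induction l with
  | nil => intro φ ψ; rfl
  | cons z l ih =>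
    intro φ ψ
    obtain ⟨x, y⟩ := z
    rw [List.map_cons, rc_cons, rc_cons, ih, ev_pull]
    have e : cs y (pull g ψ) = pull g (cs (g y) ψ) := rfl
    simp only [Prod.map_apply, e, pull_apply, List.map_cons, List.map_nil, List.map_map]
    rfl


theorem pull_c1 {X' Y' : Type} (f : X' → X) (g : Y' → Y) (l : List (X' × Y')) :
    ∀ (φ : List X → F) (ψ : List Y → F),
    c1 φ ψ (l.map (Prod.map f g)) = c1 (pull f φ) (pull g ψ) l := by
  induction l with
  | nil => intro φ ψ; rfl
  | cons z l ih =>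
    intro φ ψ
    obtain ⟨x, y⟩ := z
    rw [List.map_cons, c1_cons, c1_cons, ih, pull_rc, ← ev_pull]
    rfl

theorem pull_c1' {X' Y' : Type} (f : X' → X) (g : Y' → Y) (φ : List X → F) (ψ : List Y → F) :
    pull (Prod.map f g) (c1 φ ψ) = c1 (pull f φ) (pull g ψ) :=
  funext fun l => pull_c1 f g l φ ψ

theorem c1_homotopy (φ : List X → F) (ψ : List Y → F) :
    cr φ ψ - rc φ ψ - d (c1 φ ψ) = c1 (d φ) ψ + c1 (ev φ) (d ψ) := by
  funext l
  have := c1_homotopy_apply l φ ψ
  simp only [Pi.sub_apply, Pi.add_apply]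
  linear_combination -this

/-- part of even degree -/
def pe (φ : List X → F) : List X → F := fun l => if Even l.length then 0 else φ l

/-- part of odd degree -/
def po (φ : List X → F) : List X → F := fun l => if Even l.length then φ l else 0

theorem pe_add_po (φ : List X → F) : pe φ + po φ = φ := by
  funext l
  by_cases h : Even l.length <;> simp [pe, po, h]

theorem ev_pe (φ : List X → F) : ev (pe φ) = pe φ := by
  funext l
  by_cases h : Even l.length
  · simp [pe, h, ev_apply]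
  · simp [pe, h, ev_apply, (Nat.not_even_iff_odd.1 h).neg_one_pow]

theorem ev_po (φ : List X → F) : ev (po φ) = - po φ := by
  funext l
  by_cases h : Even l.length
  · simp [po, h, ev_apply]
  · simp [po, h, ev_apply]

theorem cs_pe (x : X) (φ : List X → F) : cs x (pe φ) = po (cs x φ) := by
  funext l
  by_cases h : Even l.length <;> simp [pe, po, h, Nat.even_add_one]

theorem cs_po (x : X) (φ : List X → F) : cs x (po φ) = pe (cs x φ) := by
  funext l
  by_cases h : Even l.length <;> simp [pe, po, h, Nat.even_add_one]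

theorem pe_sub (φ ψ : List X → F) : pe (φ - ψ) = pe φ - pe ψ := by
  funext l
  by_cases h : Even l.length <;> simp [pe, h]

theorem po_sub (φ ψ : List X → F) : po (φ - ψ) = po φ - po ψ := by
  funext l
  by_cases h : Even l.length <;> simp [po, h]

theorem d_pe_po (l : List X) : ∀ φ : List X → F,
    d (pe φ) l = po (d φ) l ∧ d (po φ) l = pe (d φ) l := by
  induction l with
  | nil => intro φ; simp [pe, po]
  | cons x l ih =>
    intro φ
    have e1 : po (d φ) (x :: l) = pe (φ - d (cs x φ)) l := by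
      rw [← cs_d, ← cs_po]; rfl
    have e2 : pe (d φ) (x :: l) = po (φ - d (cs x φ)) l := by
      rw [← cs_d, ← cs_pe]; rfl
    rw [d_cons, d_cons, cs_pe, cs_po, (ih _).1, (ih _).2, e1, e2, pe_sub, po_sub]
    exact ⟨rfl, rfl⟩

theorem d_pe (φ : List X → F) : d (pe φ) = po (d φ) := funext fun l => (d_pe_po l φ).1

theorem d_po (φ : List X → F) : d (po φ) = pe (d φ) := funext fun l => (d_pe_po l φ).2

/-- `rc` for `φ` even is the opposite cross product -/
theorem rc_swap_even (l : List (Y × X)) : ∀ (φ : List X → F) (ψ : List Y → F), ev φ = φ →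
    rc φ ψ (l.map Prod.swap) = cr ψ φ l := by
  induction l with
  | nil => intro φ ψ _; rfl
  | cons z l ih =>
    intro φ ψ h
    obtain ⟨y, x⟩ := z
    rw [List.map_cons, rc_cons, cr_cons, h, ih _ _ h, List.map_map]
    rfl

theorem cr_ev_cs (φ : List X → F) (ψ : List Y → F) (y : Y) (l : List (Y × X)) :
    cr (cs y (ev ψ)) φ l = - cr (ev (cs y ψ)) φ l := by
  rw [cs_ev, cr_neg_left]; rfl

/-- `rc` for `φ` odd is the opposite cross product with sign -/
theorem rc_swap_odd (l : List (Y × X)) : ∀ (φ : List X → F) (ψ : List Y → F), ev φ = -φ →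
    rc φ ψ (l.map Prod.swap) = cr (ev ψ) φ l := by
  induction l with
  | nil => intro φ ψ _; rfl
  | cons z l ih =>
    intro φ ψ h
    obtain ⟨y, x⟩ := z
    rw [List.map_cons, rc_cons, cr_cons, h, rc_neg_left, ih _ _ h, List.map_map, cr_ev_cs]
    have : ev ψ [y] = ψ [y] := by simp [ev_apply]
    simp only [Prod.swap_prod_mk, this]
    rfl

end alg

/-! ## local calculus on cocycles -/

section coc

variable {U V W U' V' : Type} [TopologicalSpace U] [TopologicalSpace V] [TopologicalSpace W]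
  [TopologicalSpace U'] [TopologicalSpace V']

theorem eqAt_co {φ ψ : List (OnePoint U) → F} {u : U} (h : EqAt (u : OnePoint U) φ ψ) :
    EqAt u (pull (co U) φ) (pull (co U) ψ) := h.pull continuous_coe.continuousAt

theorem eqAt_inf_snd {φ : List (OnePoint U) → F} (h : EqAt ∞ φ 0) (g : List (OnePoint U × OnePoint V) → F)
    (hg : ∀ l, (∀ m : List (OnePoint U), m ⊆ l.map Prod.fst → φ m = 0) → g l = 0) :
    ∃ N ∈ 𝓝 (∞ : OnePoint U), ∀ l, (∀ z ∈ l, z.1 ∈ N) → g l = 0 := by
  obtain ⟨N, hN, h⟩ := h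
  refine ⟨N, hN, fun l hl => hg l fun m hm => h m fun y hy => ?_⟩
  obtain ⟨w, hw, rfl⟩ := List.mem_map.1 (hm hy)
  exact hl w hw

theorem eqAt_inf_fst {ψ : List (OnePoint V) → F} (h : EqAt ∞ ψ 0) (g : List (OnePoint U × OnePoint V) → F)
    (hg : ∀ l, (∀ m : List (OnePoint V), m ⊆ l.map Prod.snd → ψ m = 0) → g l = 0) :
    ∃ N ∈ 𝓝 (∞ : OnePoint V), ∀ l, (∀ z ∈ l, z.2 ∈ N) → g l = 0 := by
  obtain ⟨N, hN, h⟩ := h
  refine ⟨N, hN, fun l hl => hg l fun m hm => h m fun y hy => ?_⟩
  obtain ⟨w, hw, rfl⟩ := List.mem_map.1 (hm hy)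
  exact hl w hw

theorem adm_cr {φ : List (OnePoint U) → F} {ψ : List (OnePoint V) → F}
    (h : EqAt ∞ φ 0) (h' : EqAt ∞ ψ 0) : Adm (cr φ ψ) where
  left := eqAt_inf_snd h _ fun l hl => by
    rw [cr_congr l φ 0 ψ ψ (fun m hm => hl m hm) (fun _ _ => rfl), cr_zero_left]; rfl
  right := eqAt_inf_fst h' _ fun l hl => by
    rw [cr_congr l φ φ ψ 0 (fun _ _ => rfl) (fun m hm => hl m hm), cr_zero_right]; rfl

theorem adm_rc {φ : List (OnePoint U) → F} {ψ : List (OnePoint V) → F}
    (h : EqAt ∞ φ 0) (h' : EqAt ∞ ψ 0) : Adm (rc φ ψ) where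
  left := eqAt_inf_snd h _ fun l hl => by
    rw [rc_congr l φ 0 ψ ψ (fun m hm => hl m hm) (fun _ _ => rfl), rc_zero_left]; rfl
  right := eqAt_inf_fst h' _ fun l hl => by
    rw [rc_congr l φ φ ψ 0 (fun _ _ => rfl) (fun m hm => hl m hm), rc_zero_right]; rfl

theorem adm_c1 {φ : List (OnePoint U) → F} {ψ : List (OnePoint V) → F}
    (h : EqAt ∞ φ 0) (h' : EqAt ∞ ψ 0) : Adm (c1 φ ψ) where
  left := eqAt_inf_snd h _ fun l hl => by
    rw [c1_congr l φ 0 ψ ψ (fun m hm => hl m hm) (fun _ _ => rfl), c1_zero_left]; rfl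
  right := eqAt_inf_fst h' _ fun l hl => by
    rw [c1_congr l φ φ ψ 0 (fun _ _ => rfl) (fun m hm => hl m hm), c1_zero_right]; rfl

theorem IsCr.zero : IsCr (0 : List (OnePoint U × OnePoint V) → F) (0 : List (OnePoint (U × V)) → F) where
  inf := EqAt.rfl'
  fin p := by rw [map_zero, map_zero]; exact EqAt.rfl'

/-- the local Leibniz rule for cocycles in the second variable -/
theorem eqAt_d_cr {φ : List (OnePoint U) → F} {ψ : List (OnePoint V) → F} (h0 : φ [] = 0)
    (h0' : ψ [] = 0) (hψ : ∀ z, EqAt z (d ψ) 0) (p : U × V) :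
    EqAt p (pull (coco U V) (d (cr φ ψ))) (pull (coco U V) (cr (d φ) ψ)) := by
  rw [cr_leibniz h0 h0', map_add]
  have h : EqAt p (pull (coco U V) (cr (ev φ) (d ψ))) 0 := by
    rw [pull_cr']
    have := (EqAt.rfl' (x := p.1) (φ := pull (co U) (ev φ))).cr (eqAt_co (hψ (p.2 : OnePoint V)))
    rwa [map_zero, cr_zero_right] at this
  simpa using (EqAt.rfl' (x := p) (φ := pull (coco U V) (cr (d φ) ψ))).add h

theorem eqAt_cr_congr {φ φ' : List (OnePoint U) → F} {ψ ψ' : List (OnePoint V) → F}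
    (h : ∀ z, EqAt z φ φ') (h' : ∀ z, EqAt z ψ ψ') (p : U × V) :
    EqAt p (pull (coco U V) (cr φ ψ)) (pull (coco U V) (cr φ' ψ')) := by
  rw [pull_cr', pull_cr']
  exact (eqAt_co (h (p.1 : OnePoint U))).cr (eqAt_co (h' (p.2 : OnePoint V)))


theorem eqAt_c1_congr {φ φ' : List (OnePoint U) → F} {ψ ψ' : List (OnePoint V) → F}
    (h : ∀ z, EqAt z φ φ') (h' : ∀ z, EqAt z ψ ψ') (p : U × V) :
    EqAt p (pull (coco U V) (c1 φ ψ)) (pull (coco U V) (c1 φ' ψ')) := by
  rw [pull_c1', pull_c1']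
  exact (eqAt_co (h (p.1 : OnePoint U))).c1 (eqAt_co (h' (p.2 : OnePoint V)))

/-- cocycles, unfolded -/
theorem zc_iff [T2Space U] [LocallyCompactSpace U] {φ : List (OnePoint U) → F} :
    φ ∈ Zc F {(∞ : OnePoint U)} ↔ EqAt ∞ φ 0 ∧ ∀ z, EqAt z (d φ) 0 := by
  constructor
  · rintro ⟨h1, h2⟩
    exact ⟨mem_Sp_iff.1 h1, fun z => EqAt.of_mem_LZ h2 z⟩
  · rintro ⟨h1, h2⟩
    exact ⟨mem_Sp_iff.2 h1, mem_LZ_of_eqAt h2⟩

theorem EqAt.nil {X : Type} [TopologicalSpace X] {x : X} {φ ψ : List X → F} (h : EqAt x φ ψ) :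
    φ [] = ψ [] := by
  obtain ⟨N, _, h⟩ := h
  exact h [] (fun y hy => absurd hy (by simp))

variable [T2Space U] [LocallyCompactSpace U] [T2Space V] [LocallyCompactSpace V]

theorem bc_iff {φ : List (OnePoint U) → F} :
    φ ∈ Bc F {(∞ : OnePoint U)} ↔ ∃ α : List (OnePoint U) → F, EqAt ∞ α 0 ∧ ∀ z, EqAt z φ (d α) := by
  rw [mem_Bc]
  constructor
  · rintro ⟨α, h1, h2⟩
    exact ⟨α, mem_Sp_iff.1 h1, fun z => EqAt.of_sub_mem_LZ h2 z⟩
  · rintro ⟨α, h1, h2⟩
    exact ⟨α, mem_Sp_iff.2 h1, sub_mem_LZ_of_eqAt h2⟩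

theorem isCr_zc {φ : List (OnePoint U) → F} {ψ : List (OnePoint V) → F}
    (hφ : φ ∈ Zc F {(∞ : OnePoint U)}) (hψ : ψ ∈ Zc F {(∞ : OnePoint V)})
    {χ : List (OnePoint (U × V)) → F} (h : IsCr (cr φ ψ) χ) :
    χ ∈ Zc F {(∞ : OnePoint (U × V))} := by
  rw [zc_iff] at hφ hψ ⊢
  refine ⟨h.inf, fun z => ?_⟩
  refine IsCr.unique h.d IsCr.zero (fun p => ?_) z
  refine (eqAt_d_cr (by simpa using hφ.1.nil) (by simpa using hψ.1.nil) hψ.2 p).trans ?_
  have := eqAt_cr_congr hφ.2 (fun z => EqAt.rfl' (x := z) (φ := ψ)) p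
  rwa [cr_zero_left] at this

theorem exists_cr {φ : List (OnePoint U) → F} {ψ : List (OnePoint V) → F}
    (h : EqAt ∞ φ 0) (h' : EqAt ∞ ψ 0) : ∃ χ, IsCr (cr φ ψ) χ := exists_isCr (adm_cr h h')

theorem isCr_bc_left {φ : List (OnePoint U) → F} {ψ : List (OnePoint V) → F}
    (hφ : φ ∈ Bc F {(∞ : OnePoint U)}) (hψ : ψ ∈ Zc F {(∞ : OnePoint V)})
    {χ : List (OnePoint (U × V)) → F} (h : IsCr (cr φ ψ) χ) :
    χ ∈ Bc F {(∞ : OnePoint (U × V))} := by
  rw [bc_iff] at hφ ⊢
  rw [zc_iff] at hψ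
  obtain ⟨α, h1, h2⟩ := hφ
  obtain ⟨β, hβ⟩ := exists_cr h1 hψ.1
  refine ⟨β, hβ.inf, fun z => IsCr.unique h hβ.d (fun p => ?_) z⟩
  refine EqAt.trans ?_ (eqAt_d_cr (by simpa using h1.nil) (by simpa using hψ.1.nil) hψ.2 p).symm
  exact eqAt_cr_congr h2 (fun z => EqAt.rfl') p

theorem isCr_bc_right {φ : List (OnePoint U) → F} {ψ : List (OnePoint V) → F}
    (hφ : φ ∈ Zc F {(∞ : OnePoint U)}) (hψ : ψ ∈ Bc F {(∞ : OnePoint V)})
    {χ : List (OnePoint (U × V)) → F} (h : IsCr (cr φ ψ) χ) :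
    χ ∈ Bc F {(∞ : OnePoint (U × V))} := by
  rw [bc_iff] at hψ ⊢
  rw [zc_iff] at hφ
  obtain ⟨α, h1, h2⟩ := hψ
  have hev : EqAt ∞ (ev φ) 0 := by simpa using hφ.1.ev
  obtain ⟨β, hβ⟩ := exists_cr hev h1
  refine ⟨β, hβ.inf, fun z => IsCr.unique h hβ.d (fun p => ?_) z⟩
  rw [cr_leibniz (by simpa using hev.nil) (by simpa using h1.nil), map_add, ev_ev]
  have e1 := eqAt_cr_congr (fun z => EqAt.rfl' (x := z) (φ := φ)) h2 p
  have e2 : EqAt p (pull (coco U V) (cr (d (ev φ)) α)) 0 := by
    have h3 : ∀ z, EqAt z (d (ev φ)) 0 := by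
      intro z
      rw [d_ev]
      simpa using (hφ.2 z).ev.neg
    have := eqAt_cr_congr h3 (fun z => EqAt.rfl' (x := z) (φ := α)) p
    rwa [cr_zero_left, map_zero] at this
  have e3 := e2.add (EqAt.rfl' (x := p) (φ := pull (coco U V) (cr φ (d α))))
  rw [zero_add] at e3
  exact e1.trans e3.symm

end coc

/-! ## the cross product of classes -/

section cross

variable {U V W U' V' : Type} [TopologicalSpace U] [TopologicalSpace V] [TopologicalSpace W]
  [TopologicalSpace U'] [TopologicalSpace V'] [T2Space U] [LocallyCompactSpace U] [T2Space V]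
  [LocallyCompactSpace V] [T2Space W] [LocallyCompactSpace W] [T2Space U']
  [LocallyCompactSpace U'] [T2Space V'] [LocallyCompactSpace V']

/-- a cochain representing the cross product -/
noncomputable def crCh (φ : Zc F {(∞ : OnePoint U)}) (ψ : Zc F {(∞ : OnePoint V)}) :
    List (OnePoint (U × V)) → F :=
  (exists_cr (zc_iff.1 φ.2).1 (zc_iff.1 ψ.2).1).choose

theorem crCh_spec (φ : Zc F {(∞ : OnePoint U)}) (ψ : Zc F {(∞ : OnePoint V)}) :
    IsCr (cr φ.1 ψ.1) (crCh φ ψ) :=
  (exists_cr (zc_iff.1 φ.2).1 (zc_iff.1 ψ.2).1).choose_spec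

/-- the cross product of cocycles -/
noncomputable def crF (φ : Zc F {(∞ : OnePoint U)}) (ψ : Zc F {(∞ : OnePoint V)}) :
    hU F (U × V) :=
  Hc.mk (crCh φ ψ) (isCr_zc φ.2 ψ.2 (crCh_spec φ ψ))

theorem mk_eq_of_isCr {g : List (OnePoint U × OnePoint V) → F}
    {χ χ' : List (OnePoint (U × V)) → F} (h : IsCr g χ) (h' : IsCr g χ')
    (hz : χ ∈ Zc F {(∞ : OnePoint (U × V))}) (hz' : χ' ∈ Zc F {(∞ : OnePoint (U × V))}) :
    Hc.mk χ hz = Hc.mk χ' hz' := by
  rw [Hc.mk_eq_mk]
  exact LZ_le_Bc _ (sub_mem_LZ_of_eqAt fun z => IsCr.unique h h' (fun _ => EqAt.rfl') z)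

theorem crF_eq (φ : Zc F {(∞ : OnePoint U)}) (ψ : Zc F {(∞ : OnePoint V)})
    {χ : List (OnePoint (U × V)) → F} (h : IsCr (cr φ.1 ψ.1) χ) :
    crF φ ψ = Hc.mk χ (isCr_zc φ.2 ψ.2 h) := mk_eq_of_isCr (crCh_spec φ ψ) h _ _

/-- the cross product of cocycles, bilinear -/
noncomputable def crZ : Zc F {(∞ : OnePoint U)} →ₗ[F] Zc F {(∞ : OnePoint V)} →ₗ[F] hU F (U × V) :=
  LinearMap.mk₂ F crF
    (fun φ φ' ψ => by
      have h : IsCr (cr (φ + φ').1 ψ.1) (crCh φ ψ + crCh φ' ψ) := by
        have := (crCh_spec φ ψ).add (crCh_spec φ' ψ)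
        rwa [← cr_add_left'] at this
      rw [crF_eq _ _ h]; rfl)
    (fun c φ ψ => by
      have h : IsCr (cr (c • φ).1 ψ.1) (c • crCh φ ψ) := by
        have := (crCh_spec φ ψ).smul c
        have e : cr (c • φ).1 ψ.1 = c • cr φ.1 ψ.1 := funext fun l => by
          simpa using cr_smul_left l c φ.1 ψ.1
        rwa [e]
      rw [crF_eq _ _ h]; rfl)
    (fun φ ψ ψ' => by
      have h : IsCr (cr φ.1 (ψ + ψ').1) (crCh φ ψ + crCh φ ψ') := by
        have := (crCh_spec φ ψ).add (crCh_spec φ ψ')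
        rwa [← cr_add_right'] at this
      rw [crF_eq _ _ h]; rfl)
    (fun c φ ψ => by
      have h : IsCr (cr φ.1 (c • ψ).1) (c • crCh φ ψ) := by
        have := (crCh_spec φ ψ).smul c
        have e : cr φ.1 (c • ψ).1 = c • cr φ.1 ψ.1 := funext fun l => by
          simpa using cr_smul_right l c φ.1 ψ.1
        rwa [e]
      rw [crF_eq _ _ h]; rfl)

variable (F U V) in
/-- **the cross product** -/
noncomputable def cross : hU F U →ₗ[F] hU F V →ₗ[F] hU F (U × V) :=
  (Submodule.liftQ _ (LinearMap.flip (Submodule.liftQ _ (crZ (F := F) (U := U) (V := V)) (by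
    intro φ hφ
    rw [LinearMap.mem_ker]
    ext ψ
    exact Hc.mk_eq_zero.2 (isCr_bc_left hφ ψ.2 (crCh_spec φ ψ))))) (by
    intro ψ hψ
    rw [LinearMap.mem_ker]
    ext φ
    exact Hc.mk_eq_zero.2 (isCr_bc_right φ.2 hψ (crCh_spec φ ψ)))).flip

theorem cross_mk {φ : List (OnePoint U) → F} {ψ : List (OnePoint V) → F}
    (hφ : φ ∈ Zc F {(∞ : OnePoint U)}) (hψ : ψ ∈ Zc F {(∞ : OnePoint V)})
    {χ : List (OnePoint (U × V)) → F} (h : IsCr (cr φ ψ) χ) :
    cross F U V (Hc.mk φ hφ) (Hc.mk ψ hψ) = Hc.mk χ (isCr_zc hφ hψ h) :=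
  crF_eq ⟨φ, hφ⟩ ⟨ψ, hψ⟩ h

/-! ### naturality -/

theorem pull_co_sm (χ : List (OnePoint (U × V)) → F) : pull (co (U × V)) χ =
    pull (coco U V) (pull (fun p : OnePoint U × OnePoint V => sm p.1 p.2) χ) := by
  rw [← pull_comp]; rfl

/-- an extension pulled back to `U⁺ × V⁺` -/
theorem IsCr.sm {g : List (OnePoint U × OnePoint V) → F} {χ : List (OnePoint (U × V)) → F}
    (h : IsCr g χ) (hg : Adm g) (z : OnePoint U × OnePoint V) :
    EqAt z (pull (fun p : OnePoint U × OnePoint V => sm p.1 p.2) χ) g := by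
  have hc : ∀ z : OnePoint U × OnePoint V,
      ContinuousAt (fun p : OnePoint U × OnePoint V => Sp962.sm p.1 p.2) z :=
    fun z => continuous_sm.continuousAt
  have hinf : ∀ z : OnePoint U × OnePoint V, Sp962.sm z.1 z.2 = ∞ →
      EqAt z (pull (fun p : OnePoint U × OnePoint V => Sp962.sm p.1 p.2) χ) 0 := by
    intro z hz
    have := EqAt.pull (hc z) (φ := χ) (ψ := 0) (by rw [hz]; exact h.inf)
    rwa [map_zero] at this
  obtain ⟨a, b⟩ := z
  induction a using OnePoint.rec with
  | infty =>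
    refine (hinf _ (sm_inf_left _)).trans (EqAt.symm ?_)
    obtain ⟨N, hN, h1⟩ := hg.left
    exact ⟨N ×ˢ univ, prod_mem_nhds hN univ_mem, fun l hl => h1 l fun z hz => (hl z hz).1⟩
  | coe a =>
    induction b using OnePoint.rec with
    | infty =>
      refine (hinf _ (sm_inf_right _)).trans (EqAt.symm ?_)
      obtain ⟨N, hN, h1⟩ := hg.right
      exact ⟨univ ×ˢ N, prod_mem_nhds univ_mem hN, fun l hl => h1 l fun z hz => (hl z hz).2⟩
    | coe b =>
      have hopen : IsOpenEmbedding (coco U V) :=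
        isOpenEmbedding_coe.prodMap isOpenEmbedding_coe
      have := h.fin (a, b)
      rw [pull_co_sm] at this
      exact EqAt.of_pull (f := coco U V) hopen (x := (a, b)) this

theorem IsCr.of_sm {g : List (OnePoint U × OnePoint V) → F} {χ : List (OnePoint (U × V)) → F}
    (h : EqAt ∞ χ 0) (h' : ∀ z : OnePoint U × OnePoint V,
      EqAt z (pull (fun p : OnePoint U × OnePoint V => Sp962.sm p.1 p.2) χ) g) : IsCr g χ where
  inf := h
  fin p := by
    have hc : ContinuousAt (coco U V) p :=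
      (isOpenEmbedding_coe.prodMap isOpenEmbedding_coe).continuous.continuousAt
    rw [pull_co_sm]
    exact EqAt.pull hc (h' (coco U V p))

/-- **naturality** at cochain level -/
theorem IsCr.smash {g : List (OnePoint V × OnePoint V') → F} {χ : List (OnePoint (V × V')) → F}
    (h : IsCr g χ) (hg : Adm g) (f : PMap U V) (f' : PMap U' V') :
    IsCr (pull (Prod.map f f') g) (pull (f.smash f') χ) := by
  refine IsCr.of_sm ?_ fun z => ?_
  · have := EqAt.pull (f := f.smash f') (x := ∞) (f.smash f').cont.continuousAt (φ := χ) (ψ := 0)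
      (by rw [(f.smash f').map_inf]; exact h.inf)
    rwa [map_zero] at this
  · rw [← pull_comp]
    have e : (f.smash f').toFun ∘ (fun p : OnePoint U × OnePoint U' => Sp962.sm p.1 p.2) =
        (fun p : OnePoint V × OnePoint V' => Sp962.sm p.1 p.2) ∘ (Prod.map f f') := by
      funext p
      exact PMap.smash_sm f f' p.1 p.2
    rw [e, pull_comp]
    exact EqAt.pull (f.cont.prodMap f'.cont).continuousAt (h.sm hg (Prod.map f f' z))

theorem cross_map (f : PMap U V) (g : PMap U' V') (x : hU F V) (y : hU F V') :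
    hmap F (f.smash g) (cross F V V' x y) = cross F U U' (hmap F f x) (hmap F g y) := by
  obtain ⟨φ, hφ, rfl⟩ := Hc.mk_surj x
  obtain ⟨ψ, hψ, rfl⟩ := Hc.mk_surj y
  have h1 := (zc_iff.1 hφ).1
  have h2 := (zc_iff.1 hψ).1
  obtain ⟨χ, hχ⟩ := exists_cr h1 h2
  have h3 := hχ.smash (adm_cr h1 h2) f g
  rw [pull_cr'] at h3
  rw [cross_mk hφ hψ hχ, hmap_mk, hmap_mk, hmap_mk, cross_mk _ _ h3]

/-! ### parity -/

theorem eps_cross (x : hU F U) (y : hU F V) :
    heps F (U × V) (cross F U V x y) = cross F U V (heps F U x) (heps F V y) := by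
  obtain ⟨φ, hφ, rfl⟩ := Hc.mk_surj x
  obtain ⟨ψ, hψ, rfl⟩ := Hc.mk_surj y
  obtain ⟨χ, hχ⟩ := exists_cr (zc_iff.1 hφ).1 (zc_iff.1 hψ).1
  have h3 := hχ.ev
  rw [ev_cr] at h3
  rw [cross_mk hφ hψ hχ, heps, heps, heps, Hc.ev_mk, Hc.ev_mk, Hc.ev_mk, cross_mk _ _ h3]

/-! ### associativity -/

theorem cross_assoc (x : hU F U) (y : hU F V) (z : hU F W) :
    hmap F (PMap.ofHomeo (Homeomorph.prodAssoc U V W)) (cross F U (V × W) x (cross F V W y z)) =
      cross F (U × V) W (cross F U V x y) z := by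
  obtain ⟨φ, hφ, rfl⟩ := Hc.mk_surj x
  obtain ⟨ψ, hψ, rfl⟩ := Hc.mk_surj y
  obtain ⟨ω, hω, rfl⟩ := Hc.mk_surj z
  obtain ⟨χ1, h1⟩ := exists_cr (zc_iff.1 hφ).1 (zc_iff.1 hψ).1
  obtain ⟨χ2, h2⟩ := exists_cr h1.inf (zc_iff.1 hω).1
  obtain ⟨χ3, h3⟩ := exists_cr (zc_iff.1 hψ).1 (zc_iff.1 hω).1
  obtain ⟨χ4, h4⟩ := exists_cr (zc_iff.1 hφ).1 h3.inf
  rw [cross_mk hψ hω h3, cross_mk _ _ h4, cross_mk hφ hψ h1, cross_mk _ _ h2, hmap_mk,
    Hc.mk_eq_mk]
  refine LZ_le_Bc _ (sub_mem_LZ_of_eqAt fun z => ?_)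
  have hA := EqAt.pull (f := PMap.ofHomeo (Homeomorph.prodAssoc U V W)) (x := ∞)
    (PMap.ofHomeo (Homeomorph.prodAssoc U V W)).cont.continuousAt (φ := χ4) (ψ := 0)
    (by rw [PMap.map_inf]; exact h4.inf)
  rw [map_zero] at hA
  refine eqAt_all (hA.trans h2.inf.symm) (fun p => ?_) z
  obtain ⟨⟨u, v⟩, w⟩ := p
  -- right hand side
  have e2 : EqAt ((u, v), w) (pull (co ((U × V) × W)) χ2)
      (cr (cr (pull (co U) φ) (pull (co V) ψ)) (pull (co W) ω)) := by
    refine (h2.fin ((u, v), w)).trans ?_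
    rw [pull_cr']
    refine EqAt.cr ?_ EqAt.rfl'
    have := h1.fin (u, v)
    rwa [pull_cr'] at this
  have e4 : EqAt (u, (v, w)) (pull (co (U × V × W)) χ4)
      (cr (pull (co U) φ) (cr (pull (co V) ψ) (pull (co W) ω))) := by
    refine (h4.fin (u, (v, w))).trans ?_
    rw [pull_cr']
    refine EqAt.cr EqAt.rfl' ?_
    have := h3.fin (v, w)
    rwa [pull_cr'] at this
  refine EqAt.trans ?_ e2.symm
  have e5 : pull (co ((U × V) × W)) (pull (PMap.ofHomeo (Homeomorph.prodAssoc U V W)) χ4) =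
      pull (Homeomorph.prodAssoc U V W) (pull (co (U × V × W)) χ4) := by
    rw [← pull_comp, ← pull_comp]
    rfl
  rw [e5]
  have e6 := EqAt.pull (f := Homeomorph.prodAssoc U V W) (x := ((u, v), w))
    (Homeomorph.prodAssoc U V W).continuous.continuousAt e4
  refine e6.trans (EqAt.of_eq ?_)
  funext l
  rw [pull_apply, ← cr_assoc_apply, List.map_map]
  congr 1
  conv_rhs => rw [← List.map_id l]
  rfl

/-! ### graded commutativity -/

theorem pe_eqAt {X : Type} [TopologicalSpace X] {x : X} {φ ψ : List X → F} (h : EqAt x φ ψ) :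
    EqAt x (pe φ) (pe ψ) := by
  obtain ⟨N, hN, h⟩ := h
  exact ⟨N, hN, fun l hl => by simp only [pe, h l hl]⟩

theorem po_eqAt {X : Type} [TopologicalSpace X] {x : X} {φ ψ : List X → F} (h : EqAt x φ ψ) :
    EqAt x (po φ) (po ψ) := by
  obtain ⟨N, hN, h⟩ := h
  exact ⟨N, hN, fun l hl => by simp only [po, h l hl]⟩

theorem pe_zero {X : Type} : pe (0 : List X → F) = 0 := by funext l; simp [pe]

theorem po_zero {X : Type} : po (0 : List X → F) = 0 := by funext l; simp [po]

theorem pe_zc {φ : List (OnePoint U) → F} (h : φ ∈ Zc F {(∞ : OnePoint U)}) :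
    pe φ ∈ Zc F {(∞ : OnePoint U)} := by
  rw [zc_iff] at h ⊢
  refine ⟨by have := pe_eqAt h.1; rwa [pe_zero] at this, fun z => ?_⟩
  rw [d_pe]
  have := po_eqAt (h.2 z)
  rwa [po_zero] at this

theorem po_zc {φ : List (OnePoint U) → F} (h : φ ∈ Zc F {(∞ : OnePoint U)}) :
    po φ ∈ Zc F {(∞ : OnePoint U)} := by
  rw [zc_iff] at h ⊢
  refine ⟨by have := po_eqAt h.1; rwa [po_zero] at this, fun z => ?_⟩
  rw [d_po]
  have := pe_eqAt (h.2 z)
  rwa [pe_zero] at this

/-- the class of `rc` equals the class of `cr` -/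
theorem mk_rc {φ : List (OnePoint U) → F} {ψ : List (OnePoint V) → F}
    (hφ : φ ∈ Zc F {(∞ : OnePoint U)}) (hψ : ψ ∈ Zc F {(∞ : OnePoint V)})
    {χ χ' : List (OnePoint (U × V)) → F} (h : IsCr (cr φ ψ) χ) (h' : IsCr (rc φ ψ) χ') :
    χ - χ' ∈ Bc F {(∞ : OnePoint (U × V))} := by
  rw [zc_iff] at hφ hψ
  obtain ⟨γ, hγ⟩ := exists_isCr (adm_c1 hφ.1 hψ.1)
  rw [bc_iff]
  refine ⟨γ, hγ.inf, fun z => ?_⟩
  refine IsCr.unique (h.sub h') hγ.d (fun p => ?_) z
  rw [← EqAt.sub_zero_iff, ← map_sub, c1_homotopy, map_add]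
  have e1 := eqAt_c1_congr hφ.2 (fun z => EqAt.rfl' (x := z) (φ := ψ)) p
  have e2 := eqAt_c1_congr (fun z => EqAt.rfl' (x := z) (φ := ev φ)) hψ.2 p
  rw [c1_zero_left, map_zero] at e1
  rw [c1_zero_right, map_zero] at e2
  simpa using e1.add e2

theorem cross_comm_even_mk {φ : List (OnePoint U) → F} {ψ : List (OnePoint V) → F}
    (hφ : φ ∈ Zc F {(∞ : OnePoint U)}) (hψ : ψ ∈ Zc F {(∞ : OnePoint V)})
    {σ : List (OnePoint V) → F} (hσ : σ ∈ Zc F {(∞ : OnePoint V)})
    (hs : ∀ l : List (OnePoint V × OnePoint U), rc φ ψ (l.map Prod.swap) = cr σ φ l) :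
    hmap F (PMap.ofHomeo (Homeomorph.prodComm V U)) (cross F U V (Hc.mk φ hφ) (Hc.mk ψ hψ)) =
      cross F V U (Hc.mk σ hσ) (Hc.mk φ hφ) := by
  have h1 := (zc_iff.1 hφ).1
  have h2 := (zc_iff.1 hψ).1
  have h3 := (zc_iff.1 hσ).1
  obtain ⟨χ, hχ⟩ := exists_cr h1 h2
  obtain ⟨χ', hχ'⟩ := exists_isCr (adm_rc h1 h2)
  obtain ⟨χ2, hχ2⟩ := exists_cr h3 h1
  have hz : χ' ∈ Zc F {(∞ : OnePoint (U × V))} := by
    have e := (Zc F {(∞ : OnePoint (U × V))}).sub_mem (isCr_zc hφ hψ hχ)
      (Bc_le_Zc _ (mk_rc hφ hψ hχ hχ'))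
    simpa using e
  have e : cross F U V (Hc.mk φ hφ) (Hc.mk ψ hψ) = Hc.mk χ' hz := by
    rw [cross_mk hφ hψ hχ, Hc.mk_eq_mk]
    exact mk_rc hφ hψ hχ hχ'
  rw [e, cross_mk hσ hφ hχ2, hmap_mk, Hc.mk_eq_mk]
  refine LZ_le_Bc _ (sub_mem_LZ_of_eqAt fun z => ?_)
  have hA := EqAt.pull (f := PMap.ofHomeo (Homeomorph.prodComm V U)) (x := ∞)
    (PMap.ofHomeo (Homeomorph.prodComm V U)).cont.continuousAt (φ := χ') (ψ := 0)
    (by rw [PMap.map_inf]; exact hχ'.inf)
  rw [map_zero] at hA
  refine eqAt_all (hA.trans hχ2.inf.symm) (fun p => ?_) z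
  obtain ⟨v, u⟩ := p
  refine EqAt.trans ?_ (hχ2.fin (v, u)).symm
  have e5 : pull (co (V × U)) (pull (PMap.ofHomeo (Homeomorph.prodComm V U)) χ') =
      pull (Homeomorph.prodComm V U) (pull (co (U × V)) χ') := by
    rw [← pull_comp, ← pull_comp]
    rfl
  rw [e5]
  have e6 := EqAt.pull (f := Homeomorph.prodComm V U) (x := (v, u))
    (Homeomorph.prodComm V U).continuous.continuousAt (hχ'.fin (u, v))
  refine e6.trans (EqAt.of_eq ?_)
  funext l
  rw [pull_apply, pull_apply, pull_apply, ← hs, List.map_map, List.map_map]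
  rfl

theorem even_split (x : hU F U) : ∃ a b : hU F U, x = a + b ∧ heps F U a = a ∧ heps F U b = -b ∧
    (∀ y : hU F V, hmap F (PMap.ofHomeo (Homeomorph.prodComm V U)) (cross F U V a y) =
      cross F V U y a) ∧
    (∀ y : hU F V, hmap F (PMap.ofHomeo (Homeomorph.prodComm V U)) (cross F U V b y) =
      cross F V U (heps F V y) b) := by
  obtain ⟨φ, hφ, rfl⟩ := Hc.mk_surj x
  refine ⟨Hc.mk _ (pe_zc hφ), Hc.mk _ (po_zc hφ), ?_, ?_, ?_, ?_, ?_⟩
  · rw [Hc.mk_add]
    congr 1
    exact (pe_add_po φ).symm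
  · rw [heps, Hc.ev_mk]
    congr 1
    exact ev_pe φ
  · rw [heps, Hc.ev_mk]
    change _ = Hc.mk (-po φ) ((Zc F _).neg_mem (po_zc hφ))
    congr 1
    exact ev_po φ
  · intro y
    obtain ⟨ψ, hψ, rfl⟩ := Hc.mk_surj y
    exact cross_comm_even_mk (pe_zc hφ) hψ hψ (fun l => rc_swap_even l _ _ (ev_pe φ))
  · intro y
    obtain ⟨ψ, hψ, rfl⟩ := Hc.mk_surj y
    exact cross_comm_even_mk (po_zc hφ) hψ (ev_mem_Zc hψ) (fun l => rc_swap_odd l _ _ (ev_po φ))

theorem cross_comm_even (x : hU F U) (y : hU F V) (h : heps F U x = x) :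
    hmap F (PMap.ofHomeo (Homeomorph.prodComm V U)) (cross F U V x y) = cross F V U y x := by
  obtain ⟨a, b, rfl, ha, hb, h1, h2⟩ := even_split (V := V) x
  obtain ⟨c, e, rfl, hc, he, -, -⟩ := even_split (V := U) y
  have h3 : b + b = 0 := by
    rw [map_add, ha, hb] at h
    have : (a + b) - (a + -b) = 0 := sub_eq_zero.2 h.symm
    calc b + b = (a + b) - (a + -b) := by abel
      _ = 0 := this
  have h4 : cross F V U e b + cross F V U e b = 0 := by rw [← map_add, h3, map_zero]
  simp only [map_add, LinearMap.add_apply, h1, h2, hc, he, map_neg, LinearMap.neg_apply]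
  have h5 : - cross F V U e b = cross F V U e b := neg_eq_of_add_eq_zero_left h4
  rw [h5]
  abel

theorem cross_comm_odd (x : hU F U) (y : hU F V) (h : heps F U x = -x) :
    hmap F (PMap.ofHomeo (Homeomorph.prodComm V U)) (cross F U V x y) =
      cross F V U (heps F V y) x := by
  obtain ⟨a, b, rfl, ha, hb, h1, h2⟩ := even_split (V := V) x
  obtain ⟨c, e, rfl, hc, he, -, -⟩ := even_split (V := U) y
  have h3 : a + a = 0 := by
    rw [map_add, ha, hb] at h
    have : (a + -b) - -(a + b) = 0 := sub_eq_zero.2 h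
    calc a + a = (a + -b) - -(a + b) := by abel
      _ = 0 := this
  have h4 : cross F V U e a + cross F V U e a = 0 := by rw [← map_add, h3, map_zero]
  simp only [map_add, LinearMap.add_apply, h1, h2, hc, he, map_neg, LinearMap.neg_apply]
  have h5 : - cross F V U e a = cross F V U e a := neg_eq_of_add_eq_zero_left h4
  rw [h5]
  abel

/-! ### connecting maps -/

/-- `δ(x × y) = δ x × y`, cochain level: `d φ ≡ c^* ω` modulo locally zero cochains, `c` any
pointed map (the collapse `U⁺ → O⁺`) -/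
theorem d_cross {O : Type} [TopologicalSpace O] [T2Space O] [LocallyCompactSpace O]
    {φ : List (OnePoint U) → F} {ψ : List (OnePoint V) → F} {ω : List (OnePoint O) → F}
    (hφ : φ ∈ Sp F {(∞ : OnePoint U)}) (hψ : ψ ∈ Zc F {(∞ : OnePoint V)})
    (hω : ω ∈ Zc F {(∞ : OnePoint O)}) (c : PMap U O) (h : d φ - pull c ω ∈ LZ F (OnePoint U))
    {χ : List (OnePoint (U × V)) → F} {θ : List (OnePoint (O × V)) → F} (hχ : IsCr (cr φ ψ) χ)
    (hθ : IsCr (cr ω ψ) θ) :
    d χ - pull (c.smash (PMap.id V)) θ ∈ LZ F (OnePoint (U × V)) := by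
  have h1 := mem_Sp_iff.1 hφ
  rw [zc_iff] at hψ hω
  refine sub_mem_LZ_of_eqAt fun z => ?_
  have h2 := hθ.smash (adm_cr hω.1 hψ.1) c (PMap.id V)
  refine IsCr.unique hχ.d h2 (fun p => ?_) z
  refine (eqAt_d_cr (by simpa using h1.nil) (by simpa using hψ.1.nil) hψ.2 p).trans ?_
  rw [pull_cr' (f := c) (g := PMap.id V)]
  refine eqAt_cr_congr (fun z => EqAt.of_sub_mem_LZ h z) (fun z => EqAt.of_eq ?_) p
  exact (pull_id ψ).symm

end cross

end Crest.Agent.R090.Cross965
end

-- ▼ part R090/AS6_58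
section

/-!
# Row 90, block HOM (helper58): `h Unit = F`

* `hval : hU F Unit →ₗ[F] F`, evaluation of a cocycle at the list `[pt]`; bijective (`hval_bij`)
* `hone : hU F Unit`, the generator, `hval_one`, `heps_one`
-/

set_option autoImplicit false

open Filter Topology Set Crest.Agent.R090.Sp962

namespace Crest.Agent.R090.AS58

open OnePoint

variable {F : Type} [CommRing F]

/-- the point of `OnePoint Unit` -/
abbrev upt : OnePoint Unit := (() : Unit)

theorem upt_cases (x : OnePoint Unit) : x = ∞ ∨ x = upt := by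
  induction x using OnePoint.rec with
  | infty => exact Or.inl rfl
  | coe x => exact Or.inr rfl

theorem isOpen_upt : IsOpen ({upt} : Set (OnePoint Unit)) := by
  have h : ({upt} : Set (OnePoint Unit)) = (↑) '' (univ : Set Unit) := by
    ext x
    constructor
    · intro h
      exact ⟨(), trivial, h.symm⟩
    · rintro ⟨y, _, rfl⟩; rfl
  rw [h]
  exact isOpen_image_coe.2 isOpen_univ

theorem isOpen_inf : IsOpen ({∞} : Set (OnePoint Unit)) := by
  have h : ({∞} : Set (OnePoint Unit)) = {upt}ᶜ := by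
    ext x
    rcases upt_cases x with rfl | rfl
    · simp
    · simp
  rw [h, isOpen_compl_iff]
  exact isClosed_singleton

theorem diag_open : (diagonal (OnePoint Unit)) ∈ 𝓝ˢ (diagonal (OnePoint Unit)) := by
  have h : diagonal (OnePoint Unit) = ({upt} ×ˢ {upt}) ∪ ({∞} ×ˢ {∞}) := by
    ext ⟨x, y⟩
    rcases upt_cases x with rfl | rfl <;> rcases upt_cases y with rfl | rfl <;> simp
  have ho : IsOpen (diagonal (OnePoint Unit)) := by
    rw [h]
    exact (isOpen_upt.prod isOpen_upt).union (isOpen_inf.prod isOpen_inf)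
  exact ho.mem_nhdsSet.2 subset_rfl

variable (F) in
/-- value at the point -/
def hval : hU F Unit →ₗ[F] F :=
  Submodule.liftQ _ ((LinearMap.proj ([upt] : List (OnePoint Unit))).comp (Submodule.subtype _)) (by
    rintro ⟨φ, hφ⟩ h
    have h' : φ ∈ Bc F ({∞} : Set (OnePoint Unit)) := h
    obtain ⟨ψ, hψ, W, hW, h2⟩ := mem_Bc.1 h'
    rw [LinearMap.mem_ker]
    change φ [upt] = 0
    have h3 := h2 [upt] (by
      intro x hx y hy
      rw [List.mem_singleton] at hx hy
      rw [hx, hy]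
      exact subset_of_mem_nhdsSet hW (mem_diagonal upt))
    rw [Pi.sub_apply, d_cons, Sp_nil hψ] at h3
    simpa using h3)

theorem hval_mk (φ : List (OnePoint Unit) → F) (h : φ ∈ Zc F ({∞} : Set (OnePoint Unit))) :
    hval F (Hc.mk φ h) = φ [upt] := rfl

variable (F) in
open Classical in
/-- the unit cochain -/
noncomputable def ucoch (l : List (OnePoint Unit)) : F := if l = [upt] then 1 else 0

theorem ucoch_mem : ucoch F ∈ Zc F ({∞} : Set (OnePoint Unit)) := by
  refine ⟨mem_Sp_singleton.2 ⟨{∞}, isOpen_inf.mem_nhds rfl, fun l hl => ?_⟩, ?_⟩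
  · unfold ucoch
    rw [if_neg]
    rintro rfl
    have := hl upt (by simp)
    simp at this
  · refine ⟨_, diag_open, fun l hl => ?_⟩
    rcases l with _ | ⟨x, _ | ⟨y, l⟩⟩
    · rfl
    · rw [d_cons]; simp [ucoch]
    · have hxy : x = y := hl x (by simp) y (by simp)
      subst hxy
      rw [d_cons, d_cons]
      rcases l with _ | ⟨z, l⟩
      · simp [ucoch]
      · have e1 : ucoch F (x :: z :: l) = 0 := if_neg (by simp)
        have e2 : cs x (ucoch F) (z :: l) = (0 : F) := if_neg (by simp)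
        rw [e1, e2]
        have e3 : cs x (cs x (ucoch F)) = 0 := by
          funext m
          exact if_neg (by simp)
        rw [e3, map_zero]; simp

variable (F) in
/-- the generator of `h Unit` -/
noncomputable def hone : hU F Unit := Hc.mk (ucoch F) ucoch_mem

theorem hval_one : hval F (hone F) = 1 := by
  change ucoch F [upt] = 1
  simp [ucoch]

theorem heps_one : heps F Unit (hone F) = hone F := by
  have e : ev (ucoch F) = ucoch F := by
    funext l
    rw [ev_apply]
    unfold ucoch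
    split_ifs with h
    · subst h; simp
    · simp
  change Hc.mk (ev (ucoch F)) _ = Hc.mk (ucoch F) _
  congr 1

theorem hval_inj : Function.Injective (hval F) := by
  rw [← LinearMap.ker_eq_bot, LinearMap.ker_eq_bot']
  intro x hx
  obtain ⟨φ, hφ, rfl⟩ := Hc.mk_surj x
  rw [hval_mk] at hx
  rw [Hc.mk_eq_zero, mem_Bc]
  obtain ⟨N, hN, h1⟩ := mem_Sp_singleton.1 hφ.1
  obtain ⟨W, hW, h2⟩ := hφ.2
  classical
  let ψ : List (OnePoint Unit) → F := fun l => if upt ∈ l then φ (upt :: l) else 0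
  refine ⟨ψ, mem_Sp_singleton.2 ⟨{∞}, isOpen_inf.mem_nhds rfl, fun l hl => ?_⟩, _, diag_open,
    fun l hl => ?_⟩
  · refine if_neg fun h => ?_
    have := hl upt h
    simp at this
  · rw [Pi.sub_apply]
    rcases l with _ | ⟨x, l⟩
    · simp [Sp_nil hφ.1]
    · have hall : ∀ y ∈ x :: l, y = x := fun y hy => (hl x (by simp) y hy).symm
      rcases upt_cases x with rfl | rfl
      · have e : d ψ (∞ :: l) = 0 := d_eq_zero fun m hm => if_neg fun h => by
          have := hall upt (hm h)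
          simp at this
        rw [e, h1, sub_zero]
        intro y hy
        rw [hall y hy]
        exact mem_of_mem_nhds hN
      · rcases l with _ | ⟨y, l⟩
        · have e : d ψ [upt] = 0 := by rw [d_cons]; simp [ψ]
          rw [e, hx, sub_zero]
        · have hy : y = upt := hall y (by simp)
          subst hy
          -- on lists of length at least two
          have hsm : Sm W (upt :: upt :: upt :: l) := by
            intro a ha b hb
            have h' : ∀ a ∈ upt :: upt :: upt :: l, a = upt := by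
              intro a ha
              rcases List.mem_cons.1 ha with rfl | ha
              · rfl
              · exact hall a ha
            rw [h' a ha, h' b hb]
            exact subset_of_mem_nhdsSet hW (mem_diagonal upt)
          have h3 : d φ (upt :: upt :: upt :: l) = 0 := h2 _ hsm
          rw [d_cons] at h3
          have e : d ψ (upt :: upt :: l) = d (cs upt φ) (upt :: upt :: l) := by
            rw [d_cons, d_cons, d_cons, d_cons]
            have e1 : ψ (upt :: l) = cs upt φ (upt :: l) := if_pos (by simp)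
            have e2 : cs upt ψ l = cs upt (cs upt φ) l := if_pos (by simp)
            have e3 : cs upt (cs upt ψ) = cs upt (cs upt (cs upt φ)) := by
              funext m
              exact if_pos (by simp)
            rw [e1, e2, e3]
          rw [e]
          exact h3



theorem hone_smul (x : hU F Unit) : x = hval F x • hone F := by
  apply hval_inj
  rw [_root_.map_smul, hval_one, smul_eq_mul, mul_one]

end Crest.Agent.R090.AS58
end

-- ▼ part R090/OneCr_811
section

/-!
# Row 90, block HOM (owner helper811): the unit law of the cross product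

`one_cr : cross F Unit U (hone F) x = hmap F (PMap.ofHomeo (Homeomorph.punitProd U)) x`.
-/

set_option autoImplicit false

open Filter Topology Set OnePoint

namespace Crest.Agent.R090.OneCr811

open Crest.Agent.R090.AS58 Crest.Agent.R090.Sp962 Crest.Agent.R090.Cross965

variable {F : Type} [CommRing F]

theorem cr_uc_tail {Y : Type} (φ : List Unit → F) (h : ∀ m : List Unit, m ≠ [] → φ m = 0)
    (ψ : List Y → F) : ∀ l : List (Unit × Y), cr φ ψ l = 0
  | [] => rfl
  | z :: l => by
    have e : cs z.1 φ = 0 := by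
      funext m
      exact h _ (by simp)
    rw [cr_cons, h _ (by simp), e, cr_zero_left]
    simp

theorem cr_uc {Y : Type} (φ : List Unit → F) (h1 : φ [()] = 1)
    (h : ∀ m : List Unit, m.length ≠ 1 → φ m = 0) (ψ : List Y → F) (h0 : ψ [] = 0) :
    ∀ l : List (Unit × Y), cr φ ψ l = ψ (l.map Prod.snd)
  | [] => by simp [h0]
  | (u, y) :: l => by
    obtain rfl : u = () := rfl
    rw [cr_cons, cr_uc_tail (cs () φ) (fun m hm => h _ ?_) ψ l, h1]
    · simp
    · intro h2
      apply hm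
      simpa using h2

theorem pull_ucoch (m : List Unit) :
    pull (co Unit) (ucoch F) m = if m.length = 1 then 1 else 0 := by
  rw [pull_apply]
  unfold ucoch
  congr 1
  apply propext
  constructor
  · intro h
    simpa using congrArg List.length h
  · intro h
    obtain ⟨a, rfl⟩ := List.length_eq_one_iff.1 h
    rfl

theorem one_cr {U : Type} [TopologicalSpace U] [T2Space U] [LocallyCompactSpace U] (x : hU F U) :
    cross F Unit U (hone F) x = hmap F (PMap.ofHomeo (Homeomorph.punitProd U)) x := by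
  obtain ⟨ψ, hψ, rfl⟩ := Hc.mk_surj x
  have h2 := (zc_iff.1 hψ).1
  obtain ⟨χ, hχ⟩ := exists_cr (zc_iff.1 (ucoch_mem (F := F))).1 h2
  rw [hone, cross_mk ucoch_mem hψ hχ, hmap_mk, Hc.mk_eq_mk]
  refine LZ_le_Bc _ (sub_mem_LZ_of_eqAt fun z => ?_)
  have hA := EqAt.pull (f := PMap.ofHomeo (Homeomorph.punitProd U)) (x := ∞)
    (PMap.ofHomeo (Homeomorph.punitProd U)).cont.continuousAt (φ := ψ) (ψ := 0)
    (by rw [PMap.map_inf]; exact h2)
  rw [map_zero] at hA
  refine eqAt_all (hχ.inf.trans hA.symm) (fun p => ?_) z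
  refine (hχ.fin p).trans (EqAt.of_eq ?_)
  rw [pull_cr']
  funext l
  rw [cr_uc (pull (co Unit) (ucoch F)) (by rw [pull_ucoch]; simp)
    (fun m hm => by rw [pull_ucoch, if_neg hm]) _ (by simpa using h2.nil) l]
  rw [pull_apply, pull_apply, pull_apply, List.map_map, List.map_map]
  rfl

end Crest.Agent.R090.OneCr811
end

-- ▼ part R090/LesC_412
section

/-!
# Row 90, HOM: the connecting map and the cross product (owner helper412)

* `Cls.del_rep`, `Cls.del_mk` : the connecting map on representatives;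
* `del_cross` : `δ x × y = δ (x × y)`;
* `cohY F : CohY811.CohY F` : the complete cohomology theory.
-/

set_option autoImplicit false
set_option linter.unusedSectionVars false

open Topology Filter Set

namespace Crest.Agent.R090.Les412

open Crest.Agent.R090.AS58

namespace Cls

variable {F : Type} [CommRing F] {X K Q : Type} [TopologicalSpace X] [TopologicalSpace K]
  [TopologicalSpace Q] [CompactSpace X] [T2Space X] [CompactSpace Q] [T2Space Q]
  (C : Cls X K Q)


theorem d_mem_L {φ : List X → F} {ω : List Q → F} (hω : ω ∈ Zc F {C.q₀}) (h : d φ - pull C.q ω ∈ LZ F X) : d φ ∈ C.L F := by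
  have h1 := add_mem (LZ_le_Lr C.hi.continuous C.hx₀ h) (C.pull_q_mem (zc_l hω))
  simpa using h1

theorem rep_mem {φ : List X → F} {ω : List Q → F} (hφ : φ ∈ Sp F {C.x₀})
    (hω : ω ∈ Zc F {C.q₀}) (h : d φ - pull C.q ω ∈ LZ F X) : pull C.i φ ∈ Zc F {C.k₀} :=
  C.pull_i_mem hφ (C.d_mem_L hω h)

/-- the connecting map on representatives -/
theorem del_mk {φ : List X → F} {ω : List Q → F} (hφ : φ ∈ Sp F {C.x₀})
    (hω : ω ∈ Zc F {C.q₀}) (h : d φ - pull C.q ω ∈ LZ F X) (h' : pull C.i φ ∈ Zc F {C.k₀}) :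
    C.del F (Hc.mk (pull C.i φ) h') = Hc.mk ω hω := by
  have h1 := C.d_mem_L hω h
  have e : Hc.mk (pull C.i φ) h' = C.eI F (qk φ hφ h1) := (C.eI_mk φ hφ h1).symm
  rw [e]
  apply (C.eQ F).injective
  rw [C.eQ_del, C.eQ_mk, qk_eq_qk]
  exact ⟨0, zero_mem _, by rw [map_zero, sub_zero]; exact h⟩

/-- representatives of a class and of its connecting class -/
theorem del_rep (x : Hc F {C.k₀}) : ∃ (φ : List X → F) (_ : φ ∈ Sp F {C.x₀}) (ω : List Q → F)
    (hω : ω ∈ Zc F {C.q₀}) (_ : d φ - pull C.q ω ∈ LZ F X) (h' : pull C.i φ ∈ Zc F {C.k₀}),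
    x = Hc.mk (pull C.i φ) h' ∧ C.del F x = Hc.mk ω hω := by
  obtain ⟨φ, hφ, hd, rfl⟩ := C.eI_surj x
  obtain ⟨ω, hω, e⟩ := Hc.mk_surj (C.del F (C.eI F (qk φ hφ hd)))
  have h1 := C.eQ_del φ hφ hd
  rw [e, C.eQ_mk, qk_eq_qk] at h1
  obtain ⟨w, hw, h2⟩ := h1
  have h3 : d (φ + w) - pull C.q ω ∈ LZ F X := by
    have := neg_mem h2
    have e' : d (φ + w) - pull C.q ω = -(pull C.q ω - d φ - d w) := by
      rw [map_add]; abel
    rw [e']
    exact this
  have h4 : φ + w ∈ Sp F {C.x₀} := add_mem hφ (Lr_le hw)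
  have h5 := C.rep_mem h4 hω h3
  refine ⟨φ + w, h4, ω, hω, h3, h5, ?_, e⟩
  rw [C.eI_mk, Hc.mk_eq_mk]
  refine LZ_le_Bc _ ?_
  have e'' : pull C.i φ - pull C.i (φ + w) = - pull C.i w := by rw [map_add]; abel
  rw [e'']
  exact neg_mem hw.2

end Cls

section cross

open OnePoint Crest.Agent.R090.Sp962 Crest.Agent.R090.CohT253 Crest.Agent.R090.Cross965
open Crest.Agent.R090.CohY811 (decX)

variable {F : Type} [Field F] {K U O V : Type} [TopologicalSpace K] [TopologicalSpace U]
  [TopologicalSpace O] [TopologicalSpace V] [T2Space K] [LocallyCompactSpace K] [T2Space U]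
  [LocallyCompactSpace U] [T2Space O] [LocallyCompactSpace O] [T2Space V] [LocallyCompactSpace V]

theorem smash_ofClosed (D : Dec K U O) :
    (PMap.ofClosed D.i D.hi).smash (PMap.id V) = PMap.ofClosed (decX D V).i (decX D V).hi :=
  PMap.ext fun x => by
    obtain ⟨a, b⟩ := x
    rfl

theorem smash_ofOpen (D : Dec K U O) :
    (PMap.ofOpen D.j D.hj).smash (PMap.id V) = PMap.ofOpen (decX D V).j (decX D V).hj := by
  refine PMap.ext fun x => ?_
  obtain ⟨a, b⟩ := x
  by_cases ha : a ∈ range D.j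
  · obtain ⟨o, rfl⟩ := ha
    have h1 : ((D.j o, b) : U × V) = (decX D V).j (o, b) := rfl
    rw [PMap.smash_coe, PMap.ofOpen_coe, PMap.id_apply, sm_coe, h1, PMap.ofOpen_coe]
  · have h1 : ((a, b) : U × V) ∉ range (decX D V).j := by
      rintro ⟨⟨o, c⟩, h⟩
      exact ha ⟨o, congrArg Prod.fst h⟩
    rw [PMap.smash_coe, PMap.ofOpen_of_notMem _ _ ha, PMap.ofOpen_of_notMem _ _ h1, sm_inf_left]

theorem del_cross (D : Dec K U O) (x : hU F K) (y : hU F V) :
    cross F O V ((ofDec D).del F x) y = (ofDec (decX D V)).del F (cross F K V x y) := by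
  obtain ⟨φ, hφ, ω, hω, h, h', rfl, e⟩ := (ofDec D).del_rep x
  obtain ⟨ψ, hψ, rfl⟩ := Hc.mk_surj y
  rw [e]
  have hφ' : φ ∈ Sp F {(∞ : OnePoint U)} := hφ
  have hω' : ω ∈ Zc F {(∞ : OnePoint O)} := hω
  obtain ⟨χ, hχ⟩ := exists_cr (mem_Sp_iff.1 hφ') (zc_iff.1 hψ).1
  obtain ⟨θ, hθ⟩ := exists_cr (zc_iff.1 hω').1 (zc_iff.1 hψ).1
  have h1 := d_cross hφ' hψ hω' (PMap.ofOpen D.j D.hj) h hχ hθ
  have h2 := hχ.smash (adm_cr (mem_Sp_iff.1 hφ') (zc_iff.1 hψ).1) (PMap.ofClosed D.i D.hi)
    (PMap.id V)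
  have e2 : pull (Prod.map (PMap.ofClosed D.i D.hi) (PMap.id V)) (cr φ ψ) =
      cr (pull (PMap.ofClosed D.i D.hi) φ) ψ := by
    rw [pull_cr']
    congr 1
    exact pull_id ψ
  rw [e2] at h2
  rw [smash_ofOpen] at h1
  rw [smash_ofClosed] at h2
  have hθz := isCr_zc hω' hψ hθ
  have hz : pull (PMap.ofClosed (decX D V).i (decX D V).hi) χ ∈ Zc F {(∞ : OnePoint (K × V))} :=
    isCr_zc h' hψ h2
  refine (cross_mk hω' hψ hθ).trans ?_
  have e3 : cross F K V (Hc.mk (pull (ofDec D).i φ) h') (Hc.mk ψ hψ) = Hc.mk _ hz :=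
    cross_mk h' hψ h2
  have e4 := (ofDec (decX D V)).del_mk (mem_Sp_iff.2 hχ.inf) hθz h1 hz
  exact (Eq.trans (congrArg ((ofDec (decX D V)).del F) e3) e4).symm

end cross

end Crest.Agent.R090.Les412
end

-- ▼ part R090/CohInst_811
section

/-!
# Row 90, block HOM (owner helper811): 58's Alexander-Spanier theory is a `CohY`

`cohYOf L hdel : CohY F` for 149's `asCoh L` (`L : LesData F`, the exact triangle) and the
compatibility `hdel` of the connecting map with the cross product.
-/

set_option autoImplicit false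
set_option linter.unusedSectionVars false

namespace Crest.Agent.R090.CohInst811

open Topology Set OnePoint
open Crest.Agent.R090.Sp962 Crest.Agent.R090.St528 Crest.Agent.R090.CohT253
open Crest.Agent.R090.ASCoh_149 Crest.Agent.R090.CohY811

variable {F : Type} [Field F]

/-- compatibility of the connecting map with the cross product -/
def DelCr (L : LesData F) : Prop :=
  ∀ {K U O V : Type} [TopologicalSpace K] [TopologicalSpace U] [TopologicalSpace O]
    [TopologicalSpace V] [T2Space K] [LocallyCompactSpace K] [T2Space U] [LocallyCompactSpace U]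
    [T2Space O] [LocallyCompactSpace O] [T2Space V] [LocallyCompactSpace V] (D : Dec K U O)
    (x : AS58.hU F K) (y : AS58.hU F V),
    Cross965.cross F O V (L.del D x) y = L.del (decX D V) (Cross965.cross F K V x y)

/-- **58's theory with all its structure** -/
noncomputable def cohYOf (L : LesData F) (hdel : DelCr L) : CohY F :=
  { asCoh L with
    hmap := fun h x => AS58.hmap_eq h x
    cr := fun U V _ _ _ _ _ _ => Cross965.cross F U V
    cr_map := fun f g x y => Cross965.cross_map f g x y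
    cr_assoc := fun x y z => Cross965.cross_assoc x y z
    cr_comm_even := fun x y h => Cross965.cross_comm_even x y h
    cr_comm_odd := fun x y h => Cross965.cross_comm_odd x y h
    eps_cr := fun x y => Cross965.eps_cross x y
    del_cr := fun D x y => hdel D x y
    one := AS58.hone F
    eps_one := AS58.heps_one
    one_ne := fun h => by
      have h1 := AS58.hval_one (F := F)
      rw [h] at h1
      exact zero_ne_one ((map_zero _).symm.trans h1)
    one_gen := fun x => ⟨AS58.hval F x, AS58.hone_smul x⟩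
    one_cr := fun x => OneCr811.one_cr x }


end Crest.Agent.R090.CohInst811
end

-- ▼ part R090/CohAS_412
section

/-!
# Row 90, HOM: the complete theory `cohAS F : CohY F`, no hypotheses (helper412)
-/

set_option autoImplicit false

namespace Crest.Agent.R090.CohAS412

open Crest.Agent.R090.CohInst811 Crest.Agent.R090.CohY811

variable (F : Type) [Field F]

/-- compatibility of the connecting map with the cross product -/
theorem delCr : DelCr (Les412.lesData F) := by
  intro K U O V _ _ _ _ _ _ _ _ _ _ _ _ D x y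
  exact Les412.del_cross D x y

/-- **Alexander-Spanier cohomology with compact supports, with all its structure** -/
noncomputable def cohAS : CohY F := cohYOf (Les412.lesData F) (delCr F)


end Crest.Agent.R090.CohAS412
end

-- ▼ part R090/AFinal_923

/-!
# Row 90, block (A): `aStmt : Spine.AStmt` (owner helper923)

`H` = the Alexander-Spanier theory `CohAS412.cohAS ℚ`; `ExtractStmt` = 285's `extractStmtY`,
`StepStmt` = `stepStmt_good`, `StartStmt` = `startStmt` (902's START).
-/

set_option autoImplicit false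

namespace Crest.Agent.R090.AAsm923

open Crest.Agent.R090.CohY811

/-- (A) from any theory -/
theorem aStmt_of_coh (H : CohY ℚ) : Spine.AStmt :=
  aStmt_of_step (Good := goodP H.toCohX) (L := lef H.toCohX) (Extr285.extractStmtY H)
    (stepStmt_good H.toKX) (startStmt H.toKX)

/-- **block (A)** -/
theorem aStmt : Spine.AStmt := aStmt_of_coh (CohAS412.cohAS ℚ)

end Crest.Agent.R090.AAsm923
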