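import Crest.Agent.R090.Ho_962

/-!
# Row 90: smash powers over a finite index type (owner helper568)

* `smPi : (∀ i, OnePoint (U i)) → OnePoint (∀ i, U i)`;
* `PMap.pi`, its functoriality and homotopy invariance;
* naturality of the standard homeomorphisms;
* `PMap.restrict` : restriction to closed subsets.
-/

set_option autoImplicit false

open Topology Filter Set

namespace Crest.Agent.R090.Pi568

open OnePoint
open Crest.Agent.R090.Sp962
open scoped unitInterval

universe u v w x y

section smPi

variable {ι : Type u} {U : ι → Type v}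

open Classical in
/-- the collapse `∏ (U i)⁺ → (∏ U i)⁺` -/
noncomputable def smPi (x : ∀ i, OnePoint (U i)) : OnePoint (∀ i, U i) :=
  if h : ∃ p : ∀ i, U i, ∀ i, x i = (p i : OnePoint (U i)) then
    (h.choose : OnePoint (∀ i, U i)) else ∞

@[simp] theorem smPi_coe (p : ∀ i, U i) :
    smPi (fun i => (p i : OnePoint (U i))) = (p : OnePoint (∀ i, U i)) := by
  have h : ∃ p' : ∀ i, U i, ∀ i, (p i : OnePoint (U i)) = (p' i : OnePoint (U i)) :=
    ⟨p, fun _ => rfl⟩
  rw [smPi, dif_pos h]
  refine congrArg _ ?_
  funext i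
  exact (coe_injective (h.choose_spec i)).symm

theorem smPi_eq_coe {x : ∀ i, OnePoint (U i)} {p : ∀ i, U i} :
    smPi x = (p : OnePoint (∀ i, U i)) ↔ ∀ i, x i = (p i : OnePoint (U i)) := by
  constructor
  · intro h
    by_cases h' : ∃ p : ∀ i, U i, ∀ i, x i = (p i : OnePoint (U i))
    · obtain ⟨q, hq⟩ := h'
      have hx : x = fun i => (q i : OnePoint (U i)) := funext hq
      subst hx
      rw [smPi_coe, coe_eq_coe] at h
      subst h
      exact fun _ => rfl
    · rw [smPi, dif_neg h'] at h
      exact absurd h.symm (coe_ne_infty _)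
  · intro h
    have hx : x = fun i => (p i : OnePoint (U i)) := funext h
    subst hx
    exact smPi_coe p

theorem smPi_eq_inf {x : ∀ i, OnePoint (U i)} : smPi x = ∞ ↔ ∃ i, x i = ∞ := by
  constructor
  · intro h
    by_contra hc
    push Not at hc
    have : ∀ i, ∃ p : U i, x i = (p : OnePoint (U i)) := by
      intro i
      obtain ⟨p, hp⟩ := ne_infty_iff_exists.1 (hc i)
      exact ⟨p, hp.symm⟩
    choose p hp using this
    rw [smPi_eq_coe.2 hp] at h
    exact coe_ne_infty _ h
  · rintro ⟨i, hi⟩
    rw [smPi, dif_neg]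
    rintro ⟨p, hp⟩
    rw [hp i] at hi
    exact coe_ne_infty _ hi

theorem smPi_of_inf {x : ∀ i, OnePoint (U i)} (i : ι) (h : x i = ∞) : smPi x = ∞ :=
  smPi_eq_inf.2 ⟨i, h⟩

/-- a section of `smPi` -/
theorem smPi_surj [Nonempty ι] (q : OnePoint (∀ i, U i)) : ∃ x : ∀ i, OnePoint (U i), smPi x = q := by
  induction q using OnePoint.rec with
  | infty => exact ⟨fun _ => ∞, smPi_of_inf (Classical.arbitrary ι) rfl⟩
  | coe q => exact ⟨fun i => (q i : OnePoint (U i)), smPi_coe q⟩

variable [∀ i, TopologicalSpace (U i)]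

theorem continuous_smPi [Finite ι] [∀ i, T2Space (U i)] :
    Continuous (smPi : (∀ i, OnePoint (U i)) → OnePoint (∀ i, U i)) := by
  rw [continuous_iff_continuousAt]
  intro x
  by_cases hx : ∃ i, x i = ∞
  · obtain ⟨i, hi⟩ := hx
    have h0 : smPi x = ∞ := smPi_of_inf i hi
    rw [ContinuousAt, h0, hasBasis_nhds_infty.tendsto_right_iff]
    rintro K ⟨_, hK⟩
    have hK1 : IsCompact ((fun p : ∀ i, U i => p i) '' K) := hK.image (continuous_apply i)
    have h1 : IsOpen ((↑) '' ((fun p : ∀ i, U i => p i) '' K) : Set (OnePoint (U i)))ᶜ :=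
      isOpen_compl_image_coe.2 ⟨hK1.isClosed, hK1⟩
    have h2 : x i ∈ ((↑) '' ((fun p : ∀ i, U i => p i) '' K) : Set (OnePoint (U i)))ᶜ := by
      rw [hi]; exact infty_notMem_image_coe
    have h3 : IsOpen {y : ∀ i, OnePoint (U i) |
        y i ∈ ((↑) '' ((fun p : ∀ i, U i => p i) '' K) : Set (OnePoint (U i)))ᶜ} :=
      h1.preimage (continuous_apply i)
    filter_upwards [h3.mem_nhds h2] with y hy
    by_cases h : smPi y = ∞
    · rw [h]; exact Or.inr rfl
    · obtain ⟨q, hq⟩ := ne_infty_iff_exists.1 h
      have hq' := smPi_eq_coe.1 hq.symm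
      left
      refine ⟨q, ?_, hq⟩
      intro hqK
      exact hy ⟨q i, ⟨q, hqK, rfl⟩, (hq' i).symm⟩
  · push Not at hx
    have : ∀ i, ∃ p : U i, x i = (p : OnePoint (U i)) := by
      intro i
      obtain ⟨p, hp⟩ := ne_infty_iff_exists.1 (hx i)
      exact ⟨p, hp.symm⟩
    choose p hp using this
    have hxp : x = Pi.map (fun i => ((↑) : U i → OnePoint (U i))) p := funext hp
    subst hxp
    have he : IsOpenEmbedding (Pi.map (fun i => ((↑) : U i → OnePoint (U i)))) :=
      IsOpenEmbedding.piMap fun i => isOpenEmbedding_coe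
    have : ContinuousAt ((smPi : (∀ i, OnePoint (U i)) → OnePoint (∀ i, U i)) ∘
        (Pi.map (fun i => ((↑) : U i → OnePoint (U i))))) p := by
      have e : ((smPi : (∀ i, OnePoint (U i)) → OnePoint (∀ i, U i)) ∘
        (Pi.map (fun i => ((↑) : U i → OnePoint (U i))))) =
          ((↑) : (∀ i, U i) → OnePoint (∀ i, U i)) := by
        funext q
        exact smPi_coe q
      rw [e]
      exact continuous_coe.continuousAt
    exact he.continuousAt_iff.1 this

theorem _root_.Continuous.smPi568 {Z : Type*} [TopologicalSpace Z] [Finite ι] [∀ i, T2Space (U i)]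
    {f : ∀ i, Z → OnePoint (U i)} (hf : ∀ i, Continuous (f i)) :
    Continuous (fun z => smPi (fun i => f i z)) :=
  continuous_smPi.comp (continuous_pi hf)

theorem isQuotientMap_smPi [Finite ι] [Nonempty ι] [∀ i, T2Space (U i)]
    [∀ i, LocallyCompactSpace (U i)] :
    IsQuotientMap (smPi : (∀ i, OnePoint (U i)) → OnePoint (∀ i, U i)) :=
  continuous_smPi.isClosedMap.isQuotientMap continuous_smPi smPi_surj

/-- continuity of a map out of the smash product -/
theorem continuous_of_smPi [Finite ι] [∀ i, T2Space (U i)]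
    [∀ i, LocallyCompactSpace (U i)] {Y : Type*} [TopologicalSpace Y]
    {g : OnePoint (∀ i, U i) → Y}
    (h : Continuous (fun x : ∀ i, OnePoint (U i) => g (smPi x))) : Continuous g := by
  cases isEmpty_or_nonempty ι with
  | inl hι =>
    rw [OnePoint.continuous_iff]
    constructor
    · have : coclosedCompact (∀ i, U i) = ⊥ := by
        rw [coclosedCompact_eq_cocompact, cocompact_eq_bot]
      rw [this]
      exact tendsto_bot
    · have : (fun x : ∀ i, U i => g x) = fun _ : ∀ i, U i =>
          g ((fun i => (hι.false i).elim : ∀ i, U i) : OnePoint (∀ i, U i)) := by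
        funext x
        congr 2
        funext i
        exact (hι.false i).elim
      change Continuous (fun x : ∀ i, U i => g x)
      rw [this]
      exact continuous_const
  | inr hι => exact isQuotientMap_smPi.continuous_iff.2 h

/-- continuity of a map out of `K × (∏ U i)⁺` -/
theorem continuous_of_smPi' {K : Type*} [TopologicalSpace K] [T2Space K] [CompactSpace K]
    [Finite ι] [∀ i, T2Space (U i)]
    [∀ i, LocallyCompactSpace (U i)] {Y : Type*} [TopologicalSpace Y]
    {g : K × OnePoint (∀ i, U i) → Y} (h0 : Continuous (fun k => g (k, ∞)))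
    (h : Continuous (fun p : K × (∀ i, OnePoint (U i)) => g (p.1, smPi p.2))) : Continuous g := by
  cases isEmpty_or_nonempty ι with
  | inl hι =>
    rw [continuous_iff_continuousAt]
    rintro ⟨k, q⟩
    induction q using OnePoint.rec with
    | infty =>
      have hc : IsCompact (univ : Set (∀ i, U i)) := isCompact_univ
      have hn : ({∞} : Set (OnePoint (∀ i, U i))) ∈ 𝓝 (∞ : OnePoint (∀ i, U i)) := by
        have h1 : IsOpen ((↑) '' (univ : Set (∀ i, U i)) : Set (OnePoint (∀ i, U i)))ᶜ :=
          isOpen_compl_image_coe.2 ⟨isClosed_univ, hc⟩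
        have h2 : ((↑) '' (univ : Set (∀ i, U i)) : Set (OnePoint (∀ i, U i)))ᶜ = {∞} := by
          rw [image_univ, compl_range_coe]
        rw [h2] at h1
        exact h1.mem_nhds rfl
      have he : (fun p : K × OnePoint (∀ i, U i) => g (p.1, ∞)) =ᶠ[𝓝 (k, ∞)] g := by
        filter_upwards [prod_mem_nhds univ_mem hn] with p hp
        obtain ⟨a, b⟩ := p
        have : b = ∞ := hp.2
        rw [this]
      refine ContinuousAt.congr ?_ he
      exact (h0.comp continuous_fst).continuousAt
    | coe q =>
      have hn : IsOpen (range ((↑) : (∀ i, U i) → OnePoint (∀ i, U i))) := isOpen_range_coe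
      have he : (fun p : K × OnePoint (∀ i, U i) =>
          g (p.1, smPi (fun i => (q i : OnePoint (U i))))) =ᶠ[𝓝 (k, (q : OnePoint _))] g := by
        filter_upwards [prod_mem_nhds univ_mem (hn.mem_nhds ⟨q, rfl⟩)] with p hp
        obtain ⟨a, b⟩ := p
        obtain ⟨r, hr⟩ := hp.2
        have hr' : (r : OnePoint (∀ i, U i)) = b := hr
        have hrq : r = q := by
          funext i
          exact (hι.false i).elim
        rw [smPi_coe, ← hr', hrq]
      refine ContinuousAt.congr ?_ he
      exact (h.comp (continuous_fst.prodMk continuous_const)).continuousAt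
  | inr hι =>
    have hc : Continuous (fun p : K × (∀ i, OnePoint (U i)) => (p.1, smPi p.2)) :=
      continuous_fst.prodMk (continuous_smPi.comp continuous_snd)
    have hs : Function.Surjective
        (fun p : K × (∀ i, OnePoint (U i)) => (p.1, smPi p.2)) := by
      rintro ⟨k, q⟩
      obtain ⟨p, hp⟩ := smPi_surj q
      exact ⟨(k, p), by simpa using hp⟩
    exact (hc.isClosedMap.isQuotientMap hc hs).continuous_iff.2 h

end smPi

/-! ## the smash product of a family of maps -/

section pi

variable {ι : Type u} [Finite ι]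
variable {U : ι → Type v} {V : ι → Type w} {W : ι → Type x}
variable [∀ i, TopologicalSpace (U i)] [∀ i, TopologicalSpace (V i)] [∀ i, TopologicalSpace (W i)]
variable [∀ i, T2Space (U i)] [∀ i, LocallyCompactSpace (U i)]
variable [∀ i, T2Space (V i)]

omit [Finite ι] [∀ i, T2Space (U i)] [∀ i, LocallyCompactSpace (U i)] in
theorem elim_smPi {Y : Type*} {b : Y} {F : (∀ i, OnePoint (U i)) → Y}
    (hF : ∀ x, (∃ i, x i = ∞) → F x = b) (x : ∀ i, OnePoint (U i)) :
    (smPi x).elim b (fun p => F (fun i => (p i : OnePoint (U i)))) = F x := by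
  by_cases h : ∃ i, x i = ∞
  · rw [smPi_eq_inf.2 h, hF x h]; rfl
  · have h' : smPi x ≠ ∞ := fun hh => h (smPi_eq_inf.1 hh)
    obtain ⟨p, hp⟩ := ne_infty_iff_exists.1 h'
    have hp' := smPi_eq_coe.1 hp.symm
    have : x = fun i => (p i : OnePoint (U i)) := funext hp'
    rw [← hp, this]
    rfl

/-- the smash product of a finite family of pointed maps -/
noncomputable def _root_.Crest.Agent.R090.Sp962.PMap.pi (f : ∀ i, PMap (U i) (V i)) :
    PMap (∀ i, U i) (∀ i, V i) where
  toFun x := x.elim ∞ fun p => smPi (fun i => f i (p i))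
  cont := by
    refine continuous_of_smPi ?_
    have : (fun x : ∀ i, OnePoint (U i) =>
        (smPi x).elim ∞ fun p => smPi (fun i => f i (p i))) =
        fun x => smPi (fun i => f i (x i)) := by
      funext x
      refine elim_smPi (F := fun x => smPi (fun i => f i (x i))) ?_ x
      rintro x ⟨i, hi⟩
      exact smPi_of_inf i (by rw [hi]; exact (f i).map_inf)
    rw [this]
    exact Continuous.smPi568 fun i => (f i).cont.comp (continuous_apply i)
  map_inf := rfl

theorem pi_coe (f : ∀ i, PMap (U i) (V i)) (p : ∀ i, U i) :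
    PMap.pi f (p : OnePoint (∀ i, U i)) = smPi (fun i => f i (p i)) := rfl

theorem pi_smPi (f : ∀ i, PMap (U i) (V i)) (x : ∀ i, OnePoint (U i)) :
    PMap.pi f (smPi x) = smPi (fun i => f i (x i)) := by
  refine elim_smPi (F := fun x => smPi (fun i => f i (x i))) ?_ x
  rintro x ⟨i, hi⟩
  exact smPi_of_inf i (by rw [hi]; exact (f i).map_inf)

theorem pi_comp [∀ i, LocallyCompactSpace (V i)] [∀ i, T2Space (W i)]
    (g : ∀ i, PMap (V i) (W i)) (f : ∀ i, PMap (U i) (V i)) :
    (PMap.pi g).comp (PMap.pi f) = PMap.pi (fun i => (g i).comp (f i)) := by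
  refine PMap.ext fun p => ?_
  rw [PMap.comp_apply, pi_coe, pi_smPi, pi_coe]
  rfl

theorem pi_id : PMap.pi (fun i => PMap.id (U i)) = PMap.id (∀ i, U i) := by
  refine PMap.ext fun p => ?_
  rw [pi_coe]
  exact smPi_coe p



theorem pi_homotopic {f g : ∀ i, PMap (U i) (V i)} (h : ∀ i, (f i).Homotopic (g i)) :
    (PMap.pi f).Homotopic (PMap.pi g) := by
  choose H hH H0 H1 Hi using fun i => (h i).exists
  refine PMap.Homotopic.of
    (fun p => p.2.elim ∞ fun q => smPi (fun i => H i (p.1, q i))) ?_ ?_ ?_ ?_
  · refine continuous_of_smPi' continuous_const ?_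
    have : (fun p : I × (∀ i, OnePoint (U i)) =>
        (smPi p.2).elim ∞ fun q => smPi (fun i => H i (p.1, q i))) =
        fun p => smPi (fun i => H i (p.1, p.2 i)) := by
      funext p
      obtain ⟨t, x⟩ := p
      refine elim_smPi (F := fun x => smPi (fun i => H i (t, x i))) ?_ x
      rintro x ⟨i, hi⟩
      exact smPi_of_inf i (by rw [hi]; exact Hi i t)
    change Continuous (fun p : I × (∀ i, OnePoint (U i)) =>
        (smPi p.2).elim ∞ fun q => smPi (fun i => H i (p.1, q i)))
    rw [this]
    exact Continuous.smPi568 fun i => (hH i).comp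
      (continuous_fst.prodMk ((continuous_apply i).comp continuous_snd))
  · intro q
    change smPi (fun i => H i (0, q i)) = smPi (fun i => f i (q i))
    refine congrArg _ (funext fun i => H0 i _)
  · intro q
    change smPi (fun i => H i (1, q i)) = smPi (fun i => g i (q i))
    refine congrArg _ (funext fun i => H1 i _)
  · intro t
    rfl


end pi

end Crest.Agent.R090.Pi568
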