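import Mathlib
import Crest.Prelude.Def_TorusSlots
import Crest.Agent.R090.T5Defs_758
import Crest.Agent.R090.Deg_513
import Crest.Agent.R090.Pi_568

-- ▼ part R090/Bott_513
section

/-!
# Row 90, leaf BOTT (helper513)

`stz : ℝ³ ∖ 0 → ℂ⁺` (ratio coordinate of the line `range (1 + x̂·σ)/2`), the Bott map
`T² → ℂ⁺` is homotopic to the torus collapse `(e^{iφ}, e^{iψ}) ↦ tan (φ/2) + i tan (ψ/2)`;
finite smash products.
-/

set_option autoImplicit false

open Topology Filter Set

namespace Crest.Agent.R090.Bott513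

open OnePoint Crest.Agent.R090.Sp962 Crest.OpAlg Crest.Agent.R090.Deg513 Crest.Agent.R090.T5

/-- euclidean norm on `ℝ³` as in `bottProj` -/
noncomputable def nr (x : Fin 3 → ℝ) : ℝ := Real.sqrt (x 0 ^ 2 + x 1 ^ 2 + x 2 ^ 2)

theorem nr_nonneg (x : Fin 3 → ℝ) : 0 ≤ nr x := Real.sqrt_nonneg _

theorem sq_nr (x : Fin 3 → ℝ) : nr x ^ 2 = x 0 ^ 2 + x 1 ^ 2 + x 2 ^ 2 :=
  Real.sq_sqrt (by positivity)

theorem continuous_nr : Continuous nr := by
  unfold nr
  fun_prop

theorem nr_pos {x : Fin 3 → ℝ} (hx : x ≠ 0) : 0 < nr x := by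
  rcases eq_or_lt_of_le (nr_nonneg x) with h | h
  · exfalso
    apply hx
    have h1 := sq_nr x
    rw [← h] at h1
    have e0 : x 0 = 0 := by nlinarith [sq_nonneg (x 0), sq_nonneg (x 1), sq_nonneg (x 2)]
    have e1 : x 1 = 0 := by nlinarith [sq_nonneg (x 0), sq_nonneg (x 1), sq_nonneg (x 2)]
    have e2 : x 2 = 0 := by nlinarith [sq_nonneg (x 0), sq_nonneg (x 1), sq_nonneg (x 2)]
    funext i
    fin_cases i <;> simp [e0, e1, e2]
  · exact h

theorem abs_le_nr (x : Fin 3 → ℝ) : |x 2| ≤ nr x := by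
  apply Real.abs_le_sqrt
  nlinarith [sq_nonneg (x 0), sq_nonneg (x 1)]

theorem nr_add_nonneg (x : Fin 3 → ℝ) : 0 ≤ nr x + x 2 := by
  have := (abs_le.1 (abs_le_nr x)).1
  linarith

/-- stereographic ratio coordinate -/
noncomputable def stz (x : Fin 3 → ℝ) : OnePoint ℂ :=
  open Classical in
  if nr x + x 2 = 0 then ∞
  else ((⟨x 0 / (nr x + x 2), x 1 / (nr x + x 2)⟩ : ℂ) : OnePoint ℂ)

theorem stz_of_ne {x : Fin 3 → ℝ} (h : nr x + x 2 ≠ 0) :
    stz x = ((⟨x 0 / (nr x + x 2), x 1 / (nr x + x 2)⟩ : ℂ) : OnePoint ℂ) := if_neg h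

theorem stz_of_eq {x : Fin 3 → ℝ} (h : nr x + x 2 = 0) : stz x = ∞ := if_pos h

/-- `stz` is continuous off `0` -/
theorem continuousAt_stz {x : Fin 3 → ℝ} (hx : x ≠ 0) : ContinuousAt stz x := by
  have hc : Continuous (fun x : Fin 3 → ℝ => nr x + x 2) := continuous_nr.add (continuous_apply 2)
  by_cases h : nr x + x 2 = 0
  · show Tendsto _ _ (𝓝 (stz x))
    rw [stz_of_eq h, tendsto_infty_iff]
    intro R
    -- near `x`, `nr - x 2` is bounded below by `c = nr x`
    have hpos := nr_pos hx
    have h1 : ∀ᶠ y in 𝓝 x, nr x < nr y - y 2 := by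
      have : ContinuousAt (fun y : Fin 3 → ℝ => nr y - y 2) x :=
        (continuous_nr.sub (continuous_apply 2)).continuousAt
      exact this.eventually (lt_mem_nhds (by linarith))
    have h2 : ∀ᶠ y in 𝓝 x, (|R| + 1) ^ 2 * (nr y + y 2) < nr x := by
      have : ContinuousAt (fun y : Fin 3 → ℝ => (|R| + 1) ^ 2 * (nr y + y 2)) x :=
        (continuous_const.mul hc).continuousAt
      exact this.eventually (gt_mem_nhds (by
        show (|R| + 1) ^ 2 * (nr x + x 2) < nr x
        rw [h, mul_zero]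
        exact hpos))
    filter_upwards [h1, h2] with y hy1 hy2
    by_cases h0 : nr y + y 2 = 0
    · rw [stz_of_eq h0]; exact far_infty R
    · rw [stz_of_ne h0]
      refine far_coe.2 ?_
      have hp : 0 < nr y + y 2 := lt_of_le_of_ne (nr_add_nonneg y) (Ne.symm h0)
      have hsq : ‖(⟨y 0 / (nr y + y 2), y 1 / (nr y + y 2)⟩ : ℂ)‖ ^ 2 =
          (nr y - y 2) / (nr y + y 2) := by
        rw [Complex.sq_norm, Complex.normSq_apply]
        have := sq_nr y
        field_simp
        nlinarith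
      have h3 : (|R| + 1) ^ 2 < ‖(⟨y 0 / (nr y + y 2), y 1 / (nr y + y 2)⟩ : ℂ)‖ ^ 2 := by
        rw [hsq, lt_div_iff₀ hp]
        linarith
      have h4 := lt_of_pow_lt_pow_left₀ 2 (norm_nonneg _) h3
      have := le_abs_self R
      linarith
  · have h1 : ContinuousAt (fun x : Fin 3 → ℝ =>
        ((⟨x 0 / (nr x + x 2), x 1 / (nr x + x 2)⟩ : ℂ) : OnePoint ℂ)) x := by
      refine OnePoint.continuous_coe.continuousAt.comp ?_
      have h2 : ContinuousAt (fun x : Fin 3 → ℝ =>
          (((x 0 / (nr x + x 2) : ℝ) : ℂ) + ((x 1 / (nr x + x 2) : ℝ) : ℂ) * Complex.I)) x := by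
        have h3 : ContinuousAt (fun x : Fin 3 → ℝ => x 0 / (nr x + x 2)) x :=
          (continuous_apply 0).continuousAt.div hc.continuousAt h
        have h4 : ContinuousAt (fun x : Fin 3 → ℝ => x 1 / (nr x + x 2)) x :=
          (continuous_apply 1).continuousAt.div hc.continuousAt h
        exact (Complex.continuous_ofReal.continuousAt.comp h3).add
          ((Complex.continuous_ofReal.continuousAt.comp h4).mul continuousAt_const)
      refine h2.congr (Eventually.of_forall fun y => ?_)
      exact (Complex.mk_eq_add_mul_I _ _).symm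
    refine h1.congr ?_
    filter_upwards [hc.continuousAt.eventually_ne h] with y hy
    rw [stz_of_ne hy]

theorem continuous_stz_comp {X : Type*} [TopologicalSpace X] {g : X → Fin 3 → ℝ}
    (hg : Continuous g) (h0 : ∀ x, g x ≠ 0) : Continuous (fun x => stz (g x)) :=
  continuous_iff_continuousAt.2 fun x => (continuousAt_stz (h0 x)).comp hg.continuousAt


/-- inverse stereographic projection `ℂ⁺ → ℝ³`, `v ↦ (2 re v, 2 im v, 1 - |v|²)/(1+|v|²)` -/
noncomputable def sg (v : OnePoint ℂ) : Fin 3 → ℝ :=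
  v.elim ![0, 0, -1] (fun v => ![2 * v.re / (1 + ‖v‖ ^ 2), 2 * v.im / (1 + ‖v‖ ^ 2),
    (1 - ‖v‖ ^ 2) / (1 + ‖v‖ ^ 2)])

@[simp] theorem sg_infty : sg ∞ = ![0, 0, -1] := rfl

@[simp] theorem sg_coe (v : ℂ) : sg (v : OnePoint ℂ) = ![2 * v.re / (1 + ‖v‖ ^ 2),
    2 * v.im / (1 + ‖v‖ ^ 2), (1 - ‖v‖ ^ 2) / (1 + ‖v‖ ^ 2)] := rfl

theorem continuous_sg : Continuous sg := by
  rw [continuous_iff_continuousAt]
  intro v
  induction v using OnePoint.rec with
  | infty =>
    show Tendsto _ _ (𝓝 (sg ∞))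
    rw [sg_infty, Metric.tendsto_nhds]
    intro ε hε
    filter_upwards [eventually_far (W := ℂ) (2 / ε + 1)] with v hv
    induction v using OnePoint.rec with
    | infty => simpa using hε
    | coe v =>
      have h1 : 2 / ε + 1 < ‖v‖ := far_coe.1 hv
      have h2 : 0 < 2 / ε := by positivity
      have hn : 0 < ‖v‖ := by linarith
      have h3 : 2 < ε * ‖v‖ := by
        have : 2 / ε < ‖v‖ := by linarith
        rwa [div_lt_iff₀' hε] at this
      have hre := Complex.abs_re_le_norm v
      have him := Complex.abs_im_le_norm v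
      have hD : 0 < 1 + ‖v‖ ^ 2 := by positivity
      rw [dist_pi_lt_iff hε]
      intro i
      fin_cases i
      · simp only [sg_coe, Fin.zero_eta, Matrix.cons_val_zero, Real.dist_eq, sub_zero]
        rw [abs_div, abs_of_pos hD, abs_mul, abs_two, div_lt_iff₀ hD]
        nlinarith
      · show dist (2 * v.im / (1 + ‖v‖ ^ 2)) 0 < ε
        rw [Real.dist_eq, sub_zero, abs_div, abs_of_pos hD, abs_mul, abs_two, div_lt_iff₀ hD]
        nlinarith
      · have h4 : (1 - ‖v‖ ^ 2) / (1 + ‖v‖ ^ 2) - -1 = 2 / (1 + ‖v‖ ^ 2) := by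
          field_simp; ring
        simp only [sg_coe, Fin.reduceFinMk, Matrix.cons_val, Real.dist_eq]
        rw [h4, abs_of_pos (by positivity), div_lt_iff₀ hD]
        nlinarith
  | coe v =>
    rw [OnePoint.continuousAt_coe]
    have hD : ∀ v : ℂ, 1 + ‖v‖ ^ 2 ≠ 0 := fun v => by positivity
    have : Continuous (fun v : ℂ => (![2 * v.re / (1 + ‖v‖ ^ 2),
        2 * v.im / (1 + ‖v‖ ^ 2), (1 - ‖v‖ ^ 2) / (1 + ‖v‖ ^ 2)] : Fin 3 → ℝ)) := by
      refine continuous_pi fun i => ?_
      fin_cases i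
      · exact (continuous_const.mul Complex.continuous_re).div (by fun_prop) hD
      · exact (continuous_const.mul Complex.continuous_im).div (by fun_prop) hD
      · exact Continuous.div (by fun_prop) (by fun_prop) hD
    exact this.continuousAt


theorem stz_sg (v : OnePoint ℂ) : stz (sg v) = v := by
  induction v using OnePoint.rec with
  | infty =>
    apply stz_of_eq
    simp [nr]
  | coe v =>
    have hD : (0 : ℝ) < 1 + ‖v‖ ^ 2 := by positivity
    have hn : nr (sg (v : OnePoint ℂ)) = 1 := by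
      unfold nr
      have : (sg (v : OnePoint ℂ)) 0 ^ 2 + (sg (v : OnePoint ℂ)) 1 ^ 2 +
          (sg (v : OnePoint ℂ)) 2 ^ 2 = 1 := by
        simp only [sg_coe, Matrix.cons_val_zero, Matrix.cons_val_one, Matrix.cons_val]
        have h1 : ‖v‖ ^ 2 = v.re * v.re + v.im * v.im := by
          rw [Complex.sq_norm, Complex.normSq_apply]
        rw [h1]
        rw [h1] at hD
        field_simp
        ring
      rw [this, Real.sqrt_one]
    have h2 : nr (sg (v : OnePoint ℂ)) + (sg (v : OnePoint ℂ)) 2 = 2 / (1 + ‖v‖ ^ 2) := by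
      rw [hn]
      simp only [sg_coe, Matrix.cons_val]
      field_simp
      ring
    have h3 : nr (sg (v : OnePoint ℂ)) + (sg (v : OnePoint ℂ)) 2 ≠ 0 := by
      rw [h2]; positivity
    rw [stz_of_ne h3, h2, OnePoint.coe_eq_coe]
    refine Complex.ext ?_ ?_
    · simp only [sg_coe, Matrix.cons_val_zero]
      field_simp
    · simp only [sg_coe, Matrix.cons_val_one, Matrix.cons_val_zero]
      field_simp

/-! ## the torus collapse on `T²` -/

/-- the torus collapse on one `T²`, as a map to `ℂ⁺` -/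
noncomputable def tc2 (z w : Circle) : OnePoint ℂ :=
  open Classical in
  if (z : ℂ) = -1 ∨ (w : ℂ) = -1 then ∞
  else ((⟨(z : ℂ).im / (1 + (z : ℂ).re), (w : ℂ).im / (1 + (w : ℂ).re)⟩ : ℂ) : OnePoint ℂ)

theorem circle_eq_neg_one' {z : Circle} (h : (z : ℂ).re = -1) : (z : ℂ) = -1 := by
  have h1 : ‖(z : ℂ)‖ = 1 := Circle.norm_coe z
  have h2 := Complex.sq_norm (z : ℂ)
  rw [h1, Complex.normSq_apply, h] at h2
  have h3 : (z : ℂ).im = 0 := by nlinarith
  exact Complex.ext (by simpa using h) (by simpa using h3)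

theorem circle_one_add_re_pos {z : Circle} (h : (z : ℂ) ≠ -1) : 0 < 1 + (z : ℂ).re := by
  have h1 : ‖(z : ℂ)‖ = 1 := Circle.norm_coe z
  have h2 := Complex.abs_re_le_norm (z : ℂ)
  rw [h1] at h2
  have h3 := (abs_le.1 h2).1
  rcases eq_or_lt_of_le h3 with h4 | h4
  · exact absurd (circle_eq_neg_one' h4.symm) h
  · linarith

theorem circle_sq (z : Circle) : (z : ℂ).re ^ 2 + (z : ℂ).im ^ 2 = 1 := by
  have h1 : ‖(z : ℂ)‖ = 1 := Circle.norm_coe z
  have h2 := Complex.sq_norm (z : ℂ)
  rw [h1, Complex.normSq_apply] at h2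
  nlinarith

/-- one coordinate: `e^{iφ} ↦ tan (φ/2)`, `-1 ↦ ∞` -/
noncomputable def tc1 (z : Circle) : OnePoint ℝ :=
  open Classical in
  if (z : ℂ) = -1 then ∞ else (((z : ℂ).im / (1 + (z : ℂ).re) : ℝ) : OnePoint ℝ)

theorem continuous_tc1 : Continuous tc1 := by
  have hc : Continuous (fun z : Circle => 1 + (z : ℂ).re) :=
    continuous_const.add (Complex.continuous_re.comp continuous_subtype_val)
  have him : Continuous (fun z : Circle => (z : ℂ).im) :=
    Complex.continuous_im.comp continuous_subtype_val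
  rw [continuous_iff_continuousAt]
  intro z
  by_cases hz : (z : ℂ) = -1
  · show Tendsto _ _ (𝓝 (tc1 z))
    have : tc1 z = ∞ := if_pos hz
    rw [this, tendsto_infty_iff]
    intro R
    have h0 : 1 + (z : ℂ).re = 0 := by rw [hz]; simp
    have h2 : ∀ᶠ y : Circle in 𝓝 z, ((|R| + 1) ^ 2 + 1) * (1 + (y : ℂ).re) < 2 := by
      have : ContinuousAt (fun y : Circle => ((|R| + 1) ^ 2 + 1) * (1 + (y : ℂ).re)) z :=
        (continuous_const.mul hc).continuousAt
      exact this.eventually (gt_mem_nhds (by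
        show ((|R| + 1) ^ 2 + 1) * (1 + (z : ℂ).re) < 2
        rw [h0, mul_zero]
        exact two_pos))
    filter_upwards [h2] with y hy
    by_cases hy1 : (y : ℂ) = -1
    · have : tc1 y = ∞ := if_pos hy1
      rw [this]; exact far_infty R
    · have : tc1 y = (((y : ℂ).im / (1 + (y : ℂ).re) : ℝ) : OnePoint ℝ) := if_neg hy1
      rw [this]
      refine far_coe.2 ?_
      have hp := circle_one_add_re_pos hy1
      have hsq := circle_sq y
      have h3 : (|R| + 1) ^ 2 < ‖(y : ℂ).im / (1 + (y : ℂ).re)‖ ^ 2 := by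
        rw [Real.norm_eq_abs, sq_abs, div_pow, lt_div_iff₀ (by positivity)]
        have : (y : ℂ).im ^ 2 = (1 - (y : ℂ).re) * (1 + (y : ℂ).re) := by nlinarith
        rw [this, sq (1 + (y : ℂ).re), ← mul_assoc]
        apply mul_lt_mul_of_pos_right _ hp
        nlinarith
      have h4 := lt_of_pow_lt_pow_left₀ 2 (norm_nonneg _) h3
      have := le_abs_self R
      linarith
  · have hne : 1 + (z : ℂ).re ≠ 0 := (circle_one_add_re_pos hz).ne'
    have h1 : ContinuousAt (fun z : Circle => (((z : ℂ).im / (1 + (z : ℂ).re) : ℝ) : OnePoint ℝ))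
        z := OnePoint.continuous_coe.continuousAt.comp
          (him.continuousAt.div hc.continuousAt hne)
    refine h1.congr ?_
    filter_upwards [hc.continuousAt.eventually_ne hne] with y hy
    have hy1 : (y : ℂ) ≠ -1 := by
      intro h
      apply hy
      rw [h]; simp
    exact (if_neg hy1).symm

/-- real and imaginary part -/
noncomputable def reim : ℝ × ℝ ≃ₜ ℂ := Complex.equivRealProdCLM.symm.toHomeomorph

@[simp] theorem reim_apply (p : ℝ × ℝ) : reim p = ⟨p.1, p.2⟩ := rfl

theorem tc2_eq (z w : Circle) : tc2 z w = OnePoint.map reim (sm (tc1 z) (tc1 w)) := by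
  by_cases hz : (z : ℂ) = -1
  · have h1 : tc1 z = ∞ := if_pos hz
    rw [h1]
    exact if_pos (Or.inl hz)
  · by_cases hw : (w : ℂ) = -1
    · have h1 : tc1 w = ∞ := if_pos hw
      rw [h1, sm_inf_right]
      exact if_pos (Or.inr hw)
    · have h1 : tc1 z = (((z : ℂ).im / (1 + (z : ℂ).re) : ℝ) : OnePoint ℝ) := if_neg hz
      have h2 : tc1 w = (((w : ℂ).im / (1 + (w : ℂ).re) : ℝ) : OnePoint ℝ) := if_neg hw
      have h3 : tc2 z w = _ := if_neg (not_or.2 ⟨hz, hw⟩)
      rw [h1, h2, sm_coe, OnePoint.map_some, h3, reim_apply]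

theorem continuous_tc2 : Continuous (fun q : Circle × Circle => tc2 q.1 q.2) := by
  have : (fun q : Circle × Circle => tc2 q.1 q.2) =
      fun q => OnePoint.map reim (sm (tc1 q.1) (tc1 q.2)) := by
    funext q; exact tc2_eq _ _
  rw [this]
  exact reim.onePointCongr.continuous.comp
    ((continuous_tc1.comp continuous_fst).sm962 (continuous_tc1.comp continuous_snd))

theorem sphereVec_ne_zero (z w : Circle) : sphereVec z w ≠ 0 := by
  intro h
  have h0 := congrFun h 0
  have h1 := congrFun h 1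
  have h2 := congrFun h 2
  simp only [sphereVec, Matrix.cons_val_zero, Matrix.cons_val_one, Matrix.cons_val,
    Pi.zero_apply] at h0 h1 h2
  have hz := circle_sq z
  have hw := circle_sq w
  rw [h0] at hz
  rw [h1] at hw
  have hz' : ((z : ℂ).re - 1) * ((z : ℂ).re + 1) = 0 := by nlinarith
  have hw' : ((w : ℂ).re - 1) * ((w : ℂ).re + 1) = 0 := by nlinarith
  rcases mul_eq_zero.1 hz' with h3 | h3 <;> rcases mul_eq_zero.1 hw' with h4 | h4 <;> nlinarith

theorem continuous_sphereVec : Continuous (fun q : Circle × Circle => sphereVec q.1 q.2) := by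
  have hr1 : Continuous (fun q : Circle × Circle => ((q.1 : Circle) : ℂ).re) :=
    Complex.continuous_re.comp (continuous_subtype_val.comp continuous_fst)
  have hr2 : Continuous (fun q : Circle × Circle => ((q.2 : Circle) : ℂ).re) :=
    Complex.continuous_re.comp (continuous_subtype_val.comp continuous_snd)
  have hi1 : Continuous (fun q : Circle × Circle => ((q.1 : Circle) : ℂ).im) :=
    Complex.continuous_im.comp (continuous_subtype_val.comp continuous_fst)
  have hi2 : Continuous (fun q : Circle × Circle => ((q.2 : Circle) : ℂ).im) :=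
    Complex.continuous_im.comp (continuous_subtype_val.comp continuous_snd)
  refine continuous_pi fun i => ?_
  fin_cases i
  · exact hi1
  · exact hi2
  · exact (hr1.add hr2).sub continuous_const

/-- the segment from `sphereVec` to `sg (tc2)` -/
noncomputable def seg (t : ℝ) (z w : Circle) : Fin 3 → ℝ :=
  (1 - t) • sphereVec z w + t • sg (tc2 z w)

theorem seg_ne_zero {t : ℝ} (ht : t ∈ Icc (0 : ℝ) 1) (z w : Circle) : seg t z w ≠ 0 := by
  intro h
  have h0 := congrFun h 0
  have h1 := congrFun h 1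
  have h2 := congrFun h 2
  have hz := circle_sq z
  have hw := circle_sq w
  by_cases hinf : (z : ℂ) = -1 ∨ (w : ℂ) = -1
  · have h3 : tc2 z w = ∞ := if_pos hinf
    simp only [seg, h3, sg_infty, sphereVec, Pi.add_apply, Pi.smul_apply, smul_eq_mul,
      Matrix.cons_val, Pi.zero_apply] at h2
    have h4 : (z : ℂ).re + (w : ℂ).re - 1 ≤ -1 := by
      rcases hinf with h | h
      · have e : (z : ℂ).re = -1 := by rw [h]; simp
        nlinarith [sq_nonneg (w : ℂ).im, sq_nonneg ((w : ℂ).re - 1)]
      · have e : (w : ℂ).re = -1 := by rw [h]; simp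
        nlinarith [sq_nonneg (z : ℂ).im, sq_nonneg ((z : ℂ).re - 1)]
    nlinarith [ht.1, ht.2]
  · have h3 : tc2 z w = _ := if_neg hinf
    rw [not_or] at hinf
    have hpz := circle_one_add_re_pos hinf.1
    have hpw := circle_one_add_re_pos hinf.2
    simp only [seg, h3, sg_coe, sphereVec, Pi.add_apply, Pi.smul_apply, smul_eq_mul,
      Matrix.cons_val, Matrix.cons_val_zero, Matrix.cons_val_one, Pi.zero_apply] at h0 h1 h2
    set D : ℝ := 1 + ‖(⟨(z : ℂ).im / (1 + (z : ℂ).re), (w : ℂ).im / (1 + (w : ℂ).re)⟩ : ℂ)‖ ^ 2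
      with hD
    have hDpos : 0 < D := by positivity
    have key : ∀ b c : ℝ, 0 < c → (1 - t) * b + t * (2 * (b / c) / D) = 0 → b = 0 := by
      intro b c hc hb
      have h5 : b * ((1 - t) + t * (2 / (c * D))) = 0 := by
        rw [← hb]
        field_simp
      rcases mul_eq_zero.1 h5 with h6 | h6
      · exact h6
      · exfalso
        have h7 : 0 ≤ t * (2 / (c * D)) := mul_nonneg ht.1 (by positivity)
        have h8 : t = 1 := le_antisymm ht.2 (by linarith)
        rw [h8] at h6
        have h9 : 0 < 1 * (2 / (c * D)) := by positivity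
        linarith
    have ez : (z : ℂ).im = 0 := key _ _ hpz h0
    have ew : (w : ℂ).im = 0 := key _ _ hpw h1
    have e1 : (z : ℂ).re = 1 := by rw [ez] at hz; nlinarith
    have e2 : (w : ℂ).re = 1 := by rw [ew] at hw; nlinarith
    have e3 : (⟨(z : ℂ).im / (1 + (z : ℂ).re), (w : ℂ).im / (1 + (w : ℂ).re)⟩ : ℂ) = 0 :=
      Complex.ext (by simp [ez]) (by simp [ew])
    rw [hD, e3, e1, e2] at h2
    simp at h2

/-- **BOTT**: the homotopy between the ratio coordinate of the Bott line and `tc2` -/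
noncomputable def bottH (q : unitInterval × Circle × Circle) : OnePoint ℂ :=
  stz (seg q.1 q.2.1 q.2.2)

theorem continuous_bottH : Continuous bottH := by
  refine continuous_stz_comp ?_ (fun q => seg_ne_zero q.1.2 _ _)
  have h1 : Continuous (fun q : unitInterval × Circle × Circle => sphereVec q.2.1 q.2.2) :=
    continuous_sphereVec.comp continuous_snd
  have h2 : Continuous (fun q : unitInterval × Circle × Circle => sg (tc2 q.2.1 q.2.2)) :=
    continuous_sg.comp (continuous_tc2.comp continuous_snd)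
  have h3 : Continuous (fun q : unitInterval × Circle × Circle => (q.1 : ℝ)) := by fun_prop
  exact ((continuous_const.sub h3).smul h1).add (h3.smul h2)

@[simp] theorem bottH_zero (z w : Circle) : bottH (0, z, w) = stz (sphereVec z w) := by
  simp [bottH, seg]

@[simp] theorem bottH_one (z w : Circle) : bottH (1, z, w) = tc2 z w := by
  simp [bottH, seg, stz_sg]

/-- the ratio coordinate in terms of the projection: `P = lineProj z w`, `v = P₁₀ / P₀₀` -/
theorem stz_sphereVec (z w : Circle) :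
    stz (sphereVec z w) =
      (open Classical in
        if lineProj z w 0 0 = 0 then (∞ : OnePoint ℂ)
        else ((lineProj z w 1 0 / lineProj z w 0 0 : ℂ) : OnePoint ℂ)) := by
  classical
  have hx := sphereVec_ne_zero z w
  have hpos := nr_pos hx
  set x := sphereVec z w with hxdef
  have e00 : lineProj z w 0 0 = (((nr x + x 2) / (2 * nr x) : ℝ) : ℂ) := by
    show ((1 + x 2 / nr x : ℝ) : ℂ) / 2 = _
    have : (nr x + x 2) / (2 * nr x) = (1 + x 2 / nr x) / 2 := by field_simp
    rw [this]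
    push_cast
    ring
  have e10 : lineProj z w 1 0 = (⟨x 0, x 1⟩ : ℂ) * ((1 / (2 * nr x) : ℝ) : ℂ) := by
    show (((x 0 / nr x : ℝ) : ℂ) + ((x 1 / nr x : ℝ) : ℂ) * Complex.I) / 2 = _
    have h1 : (⟨x 0, x 1⟩ : ℂ) = (x 0 : ℂ) + (x 1 : ℂ) * Complex.I := by
      refine Complex.ext ?_ ?_ <;> simp
    rw [h1]
    push_cast
    ring
  by_cases h : nr x + x 2 = 0
  · rw [stz_of_eq h, if_pos]
    rw [e00, h]
    simp
  · rw [stz_of_ne h, if_neg, OnePoint.coe_eq_coe, e00, e10]
    · have h1 : (((nr x + x 2) / (2 * nr x) : ℝ) : ℂ) ≠ 0 := by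
        rw [Complex.ofReal_ne_zero]
        exact div_ne_zero h (by positivity)
      rw [eq_div_iff h1]
      have h2 : (⟨x 0 / (nr x + x 2), x 1 / (nr x + x 2)⟩ : ℂ) =
          (⟨x 0, x 1⟩ : ℂ) * ((1 / (nr x + x 2) : ℝ) : ℂ) := by
        refine Complex.ext ?_ ?_
        · rw [Complex.re_mul_ofReal]; ring
        · rw [Complex.im_mul_ofReal]; ring
      rw [h2, mul_assoc, ← Complex.ofReal_mul]
      congr 2
      field_simp
    · rw [e00, Complex.ofReal_eq_zero]
      exact div_ne_zero h (by positivity)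

end Crest.Agent.R090.Bott513
end

-- ▼ part R090/BottN_513

/-!
# Row 90, leaf BOTT, `N`-fold version (helper513)

* `tc = smPi tc1`, blocks, realification `(ℂ^N)⁺ ≃ (ℝ^{2N})⁺`;
* the smash of the Bott coordinates is (freely) homotopic to `tc` on the torus;
* maps out of compact spaces as `PMap`s.
-/

set_option autoImplicit false

open Topology Filter Set

namespace Crest.Agent.R090.Bott513

open OnePoint Crest.Agent.R090.Sp962 Crest.OpAlg Crest.Agent.R090.Deg513 Crest.Agent.R090.T5
  Crest.Agent.R090.Pi568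

/-! ## `tc` as a smash product -/

theorem tc1_of_eq {z : Circle} (h : (z : ℂ) = -1) : tc1 z = ∞ := if_pos h

theorem tc1_of_ne {z : Circle} (h : (z : ℂ) ≠ -1) :
    tc1 z = (((z : ℂ).im / (1 + (z : ℂ).re) : ℝ) : OnePoint ℝ) := if_neg h


theorem tc_eq_smPi {ι : Type*} (w : ι → Circle) : tc w = smPi (fun i => tc1 (w i)) := by
  by_cases h : ∃ i, (w i : ℂ) = -1
  · have h1 : tc w = ∞ := if_pos h
    rw [h1]
    obtain ⟨i, hi⟩ := h
    exact (smPi_of_inf i (tc1_of_eq hi)).symm
  · have h1 : tc w = ((fun i => (w i : ℂ).im / (1 + (w i : ℂ).re) : ι → ℝ) : OnePoint (ι → ℝ)) :=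
      if_neg h
    push Not at h
    rw [h1]
    exact (smPi_eq_coe.2 fun i => tc1_of_ne (h i)).symm

theorem continuous_tc {ι : Type*} [Finite ι] : Continuous (tc : (ι → Circle) → OnePoint (ι → ℝ)) := by
  have : (tc : (ι → Circle) → OnePoint (ι → ℝ)) = fun w => smPi (fun i => tc1 (w i)) :=
    funext tc_eq_smPi
  rw [this]
  exact Continuous.smPi568 fun i => continuous_tc1.comp (continuous_apply i)

/-- torus collapse of one block -/
noncomputable def tcB {p n : ℕ} (W : TT p n) : OnePoint (Fin n × Fin (2 * p) → ℝ) :=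
  tc (fun q : Fin n × Fin (2 * p) => W q.1 q.2)

theorem continuous_tcB {p n : ℕ} : Continuous (tcB : TT p n → _) :=
  continuous_tc.comp (continuous_pi fun q => (continuous_apply q.2).comp (continuous_apply q.1))

/-! ## blocks -/

/-- currying -/
def curryH (ι κ V : Type*) [TopologicalSpace V] : (ι → κ → V) ≃ₜ (ι × κ → V) where
  toEquiv := (Equiv.curry ι κ V).symm
  continuous_toFun := continuous_pi fun q => (continuous_apply q.2).comp (continuous_apply q.1)
  continuous_invFun := continuous_pi fun i => continuous_pi fun j => continuous_apply (i, j)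

@[simp] theorem curryH_apply {ι κ V : Type*} [TopologicalSpace V] (f : ι → κ → V) (q : ι × κ) :
    curryH ι κ V f q = f q.1 q.2 := rfl

theorem smPi_curry {ι κ V : Type*} [TopologicalSpace V] (x : ι × κ → OnePoint V) :
    smPi x = OnePoint.map (curryH ι κ V) (smPi (fun i => smPi (fun j => x (i, j)))) := by
  by_cases h : ∃ q, x q = ∞
  · obtain ⟨⟨i, j⟩, hq⟩ := h
    rw [smPi_of_inf (i, j) hq, smPi_of_inf i (smPi_of_inf j hq)]
    rfl
  · push Not at h
    have : ∀ q, ∃ v : V, x q = (v : OnePoint V) := fun q => by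
      obtain ⟨v, hv⟩ := ne_infty_iff_exists.1 (h q)
      exact ⟨v, hv.symm⟩
    choose v hv using this
    have h1 : smPi x = ((v : ι × κ → V) : OnePoint (ι × κ → V)) := smPi_eq_coe.2 hv
    have h2 : (fun i => smPi (fun j => x (i, j))) =
        fun i => ((fun j => v (i, j) : κ → V) : OnePoint (κ → V)) :=
      funext fun i => smPi_eq_coe.2 fun j => hv (i, j)
    rw [h1, h2, smPi_coe, OnePoint.map_some]
    rfl

/-- the torus collapse of `u` blocks is the smash of the collapses of the blocks -/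
theorem tc_allCoord {p n u : ℕ} {Y : Type*} (x : Fin u → Y × TT p n) :
    tc (allCoord x) = OnePoint.map (curryH (Fin u) (Fin n × Fin (2 * p)) ℝ)
      (smPi (fun b => tcB (x b).2)) := by
  rw [tc_eq_smPi]
  have h1 : (fun b => tcB (x b).2) =
      fun b => smPi (fun q : Fin n × Fin (2 * p) => tc1 ((x b).2 q.1 q.2)) :=
    funext fun b => tc_eq_smPi _
  rw [h1]
  exact smPi_curry (fun i => tc1 (allCoord x i))

/-! ## realification -/

theorem two_mul_lt {p : ℕ} (i : Fin p) : 2 * i.val < 2 * p := by omega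
theorem two_mul_add_lt {p : ℕ} (i : Fin p) : 2 * i.val + 1 < 2 * p := by omega

/-- `(ℂ^p)^n = (ℝ^{2p})^n` -/
noncomputable def realH (n p : ℕ) : (Fin n × Fin p → ℂ) ≃ₜ (Fin n × Fin (2 * p) → ℝ) where
  toFun v q := if q.2.val % 2 = 0 then (v (q.1, ⟨q.2.val / 2, by omega⟩)).re
    else (v (q.1, ⟨q.2.val / 2, by omega⟩)).im
  invFun w q := ⟨w (q.1, ⟨2 * q.2.val, two_mul_lt q.2⟩), w (q.1, ⟨2 * q.2.val + 1, two_mul_add_lt q.2⟩)⟩
  left_inv v := by
    funext q
    obtain ⟨j, i⟩ := q
    have h1 : 2 * i.val % 2 = 0 := by omega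
    have h2 : ¬ ((2 * i.val + 1) % 2 = 0) := by omega
    have h3 : 2 * i.val / 2 = i.val := by omega
    have h4 : (2 * i.val + 1) / 2 = i.val := by omega
    refine Complex.ext ?_ ?_
    · simp only [h1, if_true, h3]
    · simp only [h2, if_false, h4]
  right_inv w := by
    funext q
    obtain ⟨j, k⟩ := q
    by_cases h : k.val % 2 = 0
    · simp only [h, if_true]
      congr 2
      apply Fin.ext
      show 2 * (k.val / 2) = k.val
      omega
    · simp only [h, if_false]
      congr 2
      apply Fin.ext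
      show 2 * (k.val / 2) + 1 = k.val
      omega
  continuous_toFun := by
    refine continuous_pi fun q => ?_
    by_cases h : q.2.val % 2 = 0
    · simp only [h, if_true]
      exact Complex.continuous_re.comp (continuous_apply _)
    · simp only [h, if_false]
      exact Complex.continuous_im.comp (continuous_apply _)
  continuous_invFun := by
    refine continuous_pi fun q => ?_
    have h1 : Continuous (fun w : Fin n × Fin (2 * p) → ℝ =>
        ((w (q.1, ⟨2 * q.2.val, two_mul_lt q.2⟩) : ℝ) : ℂ) +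
          ((w (q.1, ⟨2 * q.2.val + 1, two_mul_add_lt q.2⟩) : ℝ) : ℂ) * Complex.I) :=
      (Complex.continuous_ofReal.comp (continuous_apply _)).add
        ((Complex.continuous_ofReal.comp (continuous_apply _)).mul continuous_const)
    exact h1.congr fun w => (Complex.mk_eq_add_mul_I _ _).symm

theorem tcB_eq {p n : ℕ} (W : TT p n) :
    tcB W = OnePoint.map (realH n p) (smPi (fun q : Fin n × Fin p =>
      tc2 (W q.1 ⟨2 * q.2.val, two_mul_lt q.2⟩) (W q.1 ⟨2 * q.2.val + 1, two_mul_add_lt q.2⟩))) := by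
  unfold tcB
  rw [tc_eq_smPi]
  by_cases h : ∃ q : Fin n × Fin (2 * p), tc1 (W q.1 q.2) = ∞
  · obtain ⟨⟨j, k⟩, hq⟩ := h
    rw [smPi_of_inf (j, k) hq]
    have h1 : tc2 (W j ⟨2 * (k.val / 2), by omega⟩) (W j ⟨2 * (k.val / 2) + 1, by omega⟩) = ∞ := by
      rw [tc2_eq]
      rcases Nat.mod_two_eq_zero_or_one k.val with h2 | h2
      · have h3 : (⟨2 * (k.val / 2), by omega⟩ : Fin (2 * p)) = k := Fin.ext (by
          show 2 * (k.val / 2) = k.val
          omega)
        rw [h3]
        simp only at hq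
        rw [hq]
        rfl
      · have h3 : (⟨2 * (k.val / 2) + 1, by omega⟩ : Fin (2 * p)) = k := Fin.ext (by
          show 2 * (k.val / 2) + 1 = k.val
          omega)
        rw [h3]
        simp only at hq
        rw [hq, sm_inf_right]
        rfl
    have h4 : smPi (fun q : Fin n × Fin p => tc2 (W q.1 ⟨2 * q.2.val, two_mul_lt q.2⟩)
        (W q.1 ⟨2 * q.2.val + 1, two_mul_add_lt q.2⟩)) = ∞ :=
      smPi_of_inf (j, ⟨k.val / 2, by omega⟩) h1
    rw [h4]
    rfl
  · push Not at h
    have hne : ∀ q : Fin n × Fin (2 * p), (W q.1 q.2 : ℂ) ≠ -1 := fun q hq =>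
      h q (tc1_of_eq hq)
    have h1 : smPi (fun q : Fin n × Fin (2 * p) => tc1 (W q.1 q.2)) =
        ((fun q : Fin n × Fin (2 * p) => (W q.1 q.2 : ℂ).im / (1 + (W q.1 q.2 : ℂ).re) :
          Fin n × Fin (2 * p) → ℝ) : OnePoint (Fin n × Fin (2 * p) → ℝ)) :=
      smPi_eq_coe.2 fun q => tc1_of_ne (hne q)
    have h2 : smPi (fun q : Fin n × Fin p => tc2 (W q.1 ⟨2 * q.2.val, two_mul_lt q.2⟩)
        (W q.1 ⟨2 * q.2.val + 1, two_mul_add_lt q.2⟩)) =
        ((fun q : Fin n × Fin p => (⟨(W q.1 ⟨2 * q.2.val, two_mul_lt q.2⟩ : ℂ).im /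
          (1 + (W q.1 ⟨2 * q.2.val, two_mul_lt q.2⟩ : ℂ).re),
          (W q.1 ⟨2 * q.2.val + 1, two_mul_add_lt q.2⟩ : ℂ).im /
          (1 + (W q.1 ⟨2 * q.2.val + 1, two_mul_add_lt q.2⟩ : ℂ).re)⟩ : ℂ) :
            Fin n × Fin p → ℂ) : OnePoint (Fin n × Fin p → ℂ)) :=
      smPi_eq_coe.2 fun q => if_neg (not_or.2 ⟨hne (q.1, _), hne (q.1, _)⟩)
    rw [h1, h2, OnePoint.map_some, OnePoint.coe_eq_coe]
    funext q
    obtain ⟨j, k⟩ := q
    by_cases hk : k.val % 2 = 0
    · have h3 : (⟨2 * (k.val / 2), by omega⟩ : Fin (2 * p)) = k := Fin.ext (by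
        show 2 * (k.val / 2) = k.val
        omega)
      show _ = if k.val % 2 = 0 then _ else _
      rw [if_pos hk]
      simp only [h3]
    · have h3 : (⟨2 * (k.val / 2) + 1, by omega⟩ : Fin (2 * p)) = k := Fin.ext (by
        show 2 * (k.val / 2) + 1 = k.val
        omega)
      show _ = if k.val % 2 = 0 then _ else _
      rw [if_neg hk]
      simp only [h3]

/-! ## the homotopy -/

/-- the Bott coordinates `P₁₀/P₀₀` of all the lines of a block, smashed together -/
noncomputable def bottB {p n : ℕ} (W : TT p n) : OnePoint (Fin n × Fin p → ℂ) :=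
  smPi (fun q : Fin n × Fin p => stz (sphereVec (W q.1 ⟨2 * q.2.val, two_mul_lt q.2⟩)
    (W q.1 ⟨2 * q.2.val + 1, two_mul_add_lt q.2⟩)))

theorem continuous_coord {p n : ℕ} (q : Fin n × Fin p) :
    Continuous (fun W : TT p n => ((W q.1 ⟨2 * q.2.val, two_mul_lt q.2⟩,
      W q.1 ⟨2 * q.2.val + 1, two_mul_add_lt q.2⟩) : Circle × Circle)) :=
  ((continuous_apply _).comp (continuous_apply q.1)).prodMk
    ((continuous_apply _).comp (continuous_apply q.1))

theorem continuous_bottB {p n : ℕ} : Continuous (bottB : TT p n → _) := by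
  refine Continuous.smPi568 fun q => ?_
  exact continuous_stz_comp (continuous_sphereVec.comp (continuous_coord q))
    (fun W => sphereVec_ne_zero _ _)


/-! ## scalars of modulus one -/


theorem continuousAt_smul_pi {ι : Type*} [Fintype ι] {c : ℂ} (hc : c ≠ 0) (w : OnePoint (ι → ℂ)) :
    ContinuousAt (fun p : ℂ × OnePoint (ι → ℂ) => OnePoint.map (fun v => p.1 • v) p.2) (c, w) := by
  refine ext_at (fun (c : ℂ) (v : ι → ℂ) => c • v) c w (fun x => ?_) ?_
  · exact (continuous_fst.smul continuous_snd).continuousAt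
  · intro R
    refine ⟨2 * |R| / ‖c‖, ?_⟩
    have h1 : ∀ᶠ t : ℂ in 𝓝 c, ‖c‖ / 2 < ‖t‖ := by
      have : Tendsto (fun t : ℂ => ‖t‖) (𝓝 c) (𝓝 ‖c‖) := continuous_norm.continuousAt
      exact this.eventually (lt_mem_nhds (by have := norm_pos_iff.2 hc; linarith))
    filter_upwards [h1] with t ht x hx
    rw [norm_smul]
    have hcp := norm_pos_iff.2 hc
    have h2 : 2 * |R| < ‖x‖ * ‖c‖ := by
      rwa [div_lt_iff₀ hcp] at hx
    have h3 : |R| < ‖t‖ * ‖x‖ := by
      have : ‖c‖ / 2 * ‖x‖ ≤ ‖t‖ * ‖x‖ := by gcongr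
      nlinarith
    exact lt_of_le_of_lt (le_abs_self R) h3

/-- `-1` is homotopic to `1`: free homotopy of maps into `(ℂ^ι)⁺` -/
theorem neg_homotopic {X ι : Type*} [TopologicalSpace X] [Fintype ι]
    (f g : C(X, OnePoint (ι → ℂ))) (hg : ∀ x, g x = OnePoint.map (fun v => -v) (f x)) :
    f.Homotopic g := by
  have hE : Continuous (fun t : unitInterval => Complex.exp (((t : ℝ) * Real.pi : ℝ) * Complex.I)) := by
    fun_prop
  refine ⟨⟨⟨fun a => OnePoint.map
    (fun v : ι → ℂ => Complex.exp (((a.1 : ℝ) * Real.pi : ℝ) * Complex.I) • v) (f a.2), ?_⟩,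
    ?_, ?_⟩⟩
  · rw [continuous_iff_continuousAt]
    rintro ⟨t, x⟩
    exact (continuousAt_smul_pi (c := Complex.exp (((t : ℝ) * Real.pi : ℝ) * Complex.I))
      (Complex.exp_ne_zero _) (f x)).comp_of_eq
      (f := fun a : unitInterval × X =>
        (Complex.exp (((a.1 : ℝ) * Real.pi : ℝ) * Complex.I), f a.2))
      (((hE.comp continuous_fst).prodMk (f.continuous.comp continuous_snd)).continuousAt) rfl
  · intro x
    show OnePoint.map (fun v : ι → ℂ =>
      Complex.exp ((((0 : unitInterval) : ℝ) * Real.pi : ℝ) * Complex.I) • v) (f x) = f x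
    have h1 : (fun v : ι → ℂ =>
        Complex.exp ((((0 : unitInterval) : ℝ) * Real.pi : ℝ) * Complex.I) • v) = id := by
      funext v
      simp
    rw [h1, OnePoint.map_id]
    rfl
  · intro x
    show OnePoint.map (fun v : ι → ℂ =>
      Complex.exp ((((1 : unitInterval) : ℝ) * Real.pi : ℝ) * Complex.I) • v) (f x) = g x
    have h1 : (fun v : ι → ℂ =>
        Complex.exp ((((1 : unitInterval) : ℝ) * Real.pi : ℝ) * Complex.I) • v) = fun v => -v := by
      funext v
      simp [Complex.exp_pi_mul_I]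
    rw [h1, hg]

/-! ## maps out of compact spaces as pointed maps -/

section ofC

variable {U V : Type*} [TopologicalSpace U] [CompactSpace U] [TopologicalSpace V]

/-- `U⁺ = U ⊔ {∞}` for compact `U`: a continuous map `U → V⁺` is a pointed map `U⁺ → V⁺`. -/
def ofC (f : C(U, OnePoint V)) : PMap U V :=
  PMap.ofFun f f.continuous (by
    have : (coclosedCompact U : Filter U) = ⊥ := by
      rw [← Filter.empty_mem_iff_bot]
      simpa using (isCompact_univ (X := U)).compl_mem_coclosedCompact_of_isClosed isClosed_univ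
    rw [this]
    exact tendsto_bot)

@[simp] theorem ofC_coe (f : C(U, OnePoint V)) (x : U) : ofC f x = f x := rfl

theorem isOpen_infty : IsOpen ({∞} : Set (OnePoint U)) := by
  rw [OnePoint.isOpen_iff_of_mem (mem_singleton _), OnePoint.coe_preimage_infty, compl_empty]
  exact ⟨isClosed_univ, isCompact_univ⟩

/-- a free homotopy out of a compact space is a pointed homotopy -/
theorem ofC_homotopic {f g : C(U, OnePoint V)} (h : f.Homotopic g) :
    (ofC f).Homotopic (ofC g) := by
  obtain ⟨F⟩ := h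
  refine PMap.Homotopic.of (fun p => p.2.elim ∞ fun x => F (p.1, x)) ?_ ?_ ?_ ?_
  · rw [continuous_iff_continuousAt]
    rintro ⟨t, x⟩
    induction x using OnePoint.rec with
    | infty =>
      have h1 : ∀ᶠ p : unitInterval × OnePoint U in 𝓝 (t, ∞), p.2 = ∞ := by
        have h2 : ({∞} : Set (OnePoint U)) ∈ 𝓝 ∞ := isOpen_infty.mem_nhds rfl
        exact (continuousAt_snd (p := ((t, ∞) : unitInterval × OnePoint U))).eventually h2
      have h4 : (fun p : unitInterval × OnePoint U => p.2.elim ∞ fun x => F (p.1, x))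
          =ᶠ[𝓝 (t, ∞)] fun _ => ∞ := by
        filter_upwards [h1] with p hp
        rw [hp]
        rfl
      exact continuousAt_const.congr h4.symm
    | coe x =>
      have hemb : IsOpenEmbedding (Prod.map (id : unitInterval → unitInterval)
        ((↑) : U → OnePoint U)) := IsOpenEmbedding.id.prodMap OnePoint.isOpenEmbedding_coe
      have key := (hemb.continuousAt_iff (g := fun p : unitInterval × OnePoint U =>
        p.2.elim ∞ fun x => F (p.1, x)) (x := (t, x))).1 (by
          have h1 : ((fun p : unitInterval × OnePoint U => p.2.elim ∞ fun x => F (p.1, x)) ∘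
              Prod.map (id : unitInterval → unitInterval) ((↑) : U → OnePoint U)) =
              fun p => F p := by
            funext p
            rfl
          rw [h1]
          exact F.continuous.continuousAt)
      exact key
  · intro x
    exact F.apply_zero x
  · intro x
    exact F.apply_one x
  · intro t
    rfl

end ofC

end Crest.Agent.R090.Bott513
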