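import Crest.Agent.R090.Exc_503
import Crest.Agent.R090.St3_528

/-!
# Row 90, leaf EX (helper503): the exact sequence of a closed pair in `St`, sphere targets

`SphT E`: every `OnePoint (E × ℂⁿ)` is a neighbourhood extensor (`E = ℝᵏ`, `ℂᵏ`, ...).
For `h : OC i e` (`F` closed in `U`, `O` the complement) and `SphT E`:

`St (U × Io) E → St (F × Io) E →[delta] St O E →[coll] St U E →[incl] St F E` is exact.
-/

set_option autoImplicit false
set_option linter.unusedSectionVars false
set_option linter.unusedVariables false

open Topology Filter Set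

namespace Crest.Agent.R090.Exc503

open OnePoint Crest.Agent.R090.Sp962 Crest.R090.Hep865
open Crest.Agent.R090.Grp528 Crest.Agent.R090.St528
open scoped unitInterval

universe u v w x u' v' w'

/-! ## sphere targets -/

/-- sphere targets -/
def SphT (E : Type x) [TopologicalSpace E] : Prop := ∀ n : ℕ, NE.{u} (OnePoint (S E n))

theorem SphT.of_homeo {E : Type x} {E' : Type w} [TopologicalSpace E] [TopologicalSpace E']
    (e : E ≃ₜ E') (h : SphT.{u} E) : SphT.{u} E' := fun n =>
  NE.of_homeo (e.prodCongr (Homeomorph.refl (Fin n → ℂ))).onePointCongr (h n)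

/-- finite dimensional real vector spaces are sphere targets -/
theorem SphT.fd (E : Type x) [AddCommGroup E] [Module ℝ E] [FiniteDimensional ℝ E]
    [TopologicalSpace E] [IsTopologicalAddGroup E] [ContinuousSMul ℝ E] [T2Space E] :
    SphT.{u} E := fun n => NE.onePoint (E × (Fin n → ℂ))



theorem SphT.real : SphT.{u} ℝ := SphT.fd ℝ
theorem SphT.Io : SphT.{u} Io := SphT.real.of_homeo ioHomeo

/-- levels of a sphere target are `NE` -/
theorem SphT.ne {E : Type x} [TopologicalSpace E] (h : SphT.{u} E) : NE.{u} (OnePoint E) :=
  NE.of_homeo (Homeomorph.onePointCongr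
    { toFun := fun p => p.1
      invFun := fun a => (a, Fin.elim0)
      left_inv := fun p => Prod.ext rfl (Subsingleton.elim _ _)
      right_inv := fun _ => rfl
      continuous_toFun := by fun_prop
      continuous_invFun := by fun_prop }) (h 0)

/-! ## every mapping cone is an open-closed pair -/

section mc

variable {F : Type u} {U : Type v} [TopologicalSpace F] [TopologicalSpace U]
variable [T2Space F] [T2Space U] [LocallyCompactSpace F] [LocallyCompactSpace U]

theorem MC.isClosedEmbedding_inr (f : PMap F U) : IsClosedEmbedding (MC.inr : U → MC f) := by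
  refine ⟨OC.isEmbedding_inr f, ?_⟩
  have h1 : Function.Injective (MC.i f) := by
    intro a b hab
    induction a using OnePoint.rec with
    | infty =>
      induction b using OnePoint.rec with
      | infty => rfl
      | coe b => exact absurd hab.symm (coe_ne_infty _)
    | coe a =>
      induction b using OnePoint.rec with
      | infty => exact absurd hab (coe_ne_infty _)
      | coe b =>
        have := coe_injective hab
        rw [MC.inr.injEq] at this
        rw [this]
  have h2 : IsClosedEmbedding (MC.i f) := (MC.i f).cont.isClosedEmbedding h1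
  have h4 : range (MC.inr : U → MC f) = ((↑) : MC f → OnePoint (MC f)) ⁻¹' (range (MC.i f)) := by
    ext z
    constructor
    · rintro ⟨p, rfl⟩
      exact ⟨p, rfl⟩
    · rintro ⟨p, hp⟩
      induction p using OnePoint.rec with
      | infty => exact absurd hp.symm (coe_ne_infty _)
      | coe p => exact ⟨p, coe_injective hp⟩
  rw [h4]
  exact h2.isClosed_range.preimage continuous_coe

/-- projection of the open part of the cone, inverse to `inl` -/
theorem MC.isOpenEmbedding_inl (f : PMap F U) : IsOpenEmbedding (MC.inl : F × Io → MC f) := by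
  have hr : range (MC.inl : F × Io → MC f) = (range (MC.inr : U → MC f))ᶜ := by
    ext z
    rcases z with p | y
    · simp
    · simp
  have ho : IsOpen (range (MC.inl : F × Io → MC f)) := by
    rw [hr]
    exact (MC.isClosedEmbedding_inr f).isClosed_range.isOpen_compl
  refine ⟨?_, ho⟩
  -- continuity
  have hcont : Continuous (MC.inl : F × Io → MC f) := by
    have h1 : Continuous fun p : F × Io => MC.q f (p.1 : OnePoint F) ((p.2 : Io) : ℝ) :=
      (MC.continuous_q f).comp ((continuous_coe.comp continuous_fst).prodMk
        (continuous_subtype_val.comp continuous_snd))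
    have h2 : (fun p : F × Io => MC.q f (p.1 : OnePoint F) ((p.2 : Io) : ℝ)) =
        ((↑) : MC f → OnePoint (MC f)) ∘ MC.inl := by
      funext p
      exact MC.q_of_mem f p.1 p.2.2
    rw [h2] at h1
    exact isOpenEmbedding_coe.isEmbedding.continuous_iff.2 h1
  -- the map `p` is a left inverse
  have hp : Continuous ((MC.p f) ∘ ((↑) : MC f → OnePoint (MC f))) :=
    (MC.p f).cont.comp continuous_coe
  have hi : IsInducing (((MC.p f) ∘ ((↑) : MC f → OnePoint (MC f))) ∘ MC.inl) := by
    have : (((MC.p f) ∘ ((↑) : MC f → OnePoint (MC f))) ∘ MC.inl) =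
        ((↑) : F × Io → OnePoint (F × Io)) := by
      funext p
      rfl
    rw [this]
    exact isOpenEmbedding_coe.isInducing
  refine ⟨IsInducing.of_comp hcont hp hi, ?_⟩
  intro a b hab
  rw [MC.inl.injEq] at hab
  exact hab

/-- `U → MC f ← F × Io` -/
theorem OC.ofMC (f : PMap F U) : OC (MC.inr : U → MC f) (MC.inl : F × Io → MC f) where
  ci := MC.isClosedEmbedding_inr f
  oe := MC.isOpenEmbedding_inl f
  compl := by
    ext z
    rcases z with p | y
    · simp
    · simp

theorem OC.ofMC_incl (f : PMap F U) : (OC.ofMC f).incl = MC.i f := PMap.ext fun _ => rfl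

theorem OC.ofMC_coll (f : PMap F U) : (OC.ofMC f).coll = MC.p f := by
  refine PMap.ext fun z => ?_
  rcases z with p | y
  · exact (OC.ofMC f).coll_e p
  · exact (OC.ofMC f).coll_i y

end mc

/-! ## the exact sequence -/

namespace OC

variable {F U O : Type u} {E : Type x}
variable [TopologicalSpace F] [TopologicalSpace U] [TopologicalSpace O] [TopologicalSpace E]
variable [T2Space F] [T2Space U] [T2Space O] [T2Space E]
variable [LocallyCompactSpace F] [LocallyCompactSpace U] [LocallyCompactSpace O]
  [LocallyCompactSpace E]
variable {i : F → U} {e : O → U}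

/-- restriction to the closed part -/
noncomputable def res (h : OC i e) (E : Type x) [TopologicalSpace E] [T2Space E]
    [LocallyCompactSpace E] : St U E →+ St F E := St.homComp (St.ofP h.incl)

/-- extension from the open part -/
noncomputable def ext (h : OC i e) (E : Type x) [TopologicalSpace E] [T2Space E]
    [LocallyCompactSpace E] : St O E →+ St U E := St.homComp (St.ofP h.coll)

@[simp] theorem res_apply (h : OC i e) (y : St U E) : h.res E y = y.comp (St.ofP h.incl) := rfl
@[simp] theorem ext_apply (h : OC i e) (y : St O E) : h.ext E y = y.comp (St.ofP h.coll) := rfl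


/-- **(S1)** exactness at `U` -/
theorem st_exists_coll (hE : SphT.{u} E) (h : OC i e) (y : St U E)
    (hy : y.comp (St.ofP h.incl) = 0) : ∃ z : St O E, y = z.comp (St.ofP h.coll) := by
  obtain ⟨n, -, a, rfl⟩ := y.exists_of_ge 0
  rw [St.ofP, St.map_eq_of _ n, St.of_comp_of, St.of_eq_zero_iff] at hy
  obtain ⟨k, hk⟩ := hy
  rw [stN_comp, stN_smash] at hk
  obtain ⟨g, hg⟩ := HC.mk_surj (stN a k)
  rw [← hg] at hk
  have hk' : (g.comp (h.prodRight (Fin (n + k) → ℂ)).incl).Null := by
    rw [h.prodRight_incl]
    exact HC.mk_eq.1 hk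
  obtain ⟨g', hg'⟩ := (h.prodRight (Fin (n + k) → ℂ)).exists_coll (hE (n + k)) g hk'
  refine ⟨St.of (n + k) (HC.mk g'), ?_⟩
  rw [St.ofP, St.map_eq_of _ (n + k), St.of_comp_of, ← St.of_stN a k, ← hg]
  congr 1
  rw [h.prodRight_coll] at hg'
  exact HC.sound hg'

/-- **(S3)** the collapse of a contractible closed subspace is injective -/
theorem st_collapse_inj (hE : SphT.{u} E) (h : OC i e) (hF : (PMap.id F).Null) {z : St O E}
    (hz : z.comp (St.ofP h.coll) = 0) : z = 0 := by
  obtain ⟨n, -, a, rfl⟩ := z.exists_of_ge 0
  rw [St.ofP, St.map_eq_of _ n, St.of_comp_of, St.of_eq_zero_iff] at hz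
  obtain ⟨k, hk⟩ := hz
  rw [stN_comp, stN_smash] at hk
  obtain ⟨g, hg⟩ := HC.mk_surj (stN a k)
  rw [← hg] at hk
  rw [St.of_eq_zero_iff]
  refine ⟨k, ?_⟩
  rw [← hg]
  refine HC.sound ((h.prodRight (Fin (n + k) → ℂ)).collapse_inj (hE (n + k)) ?_ ?_)
  · rw [← PMap.smash_id]
    exact hF.smash_left _
  · rw [h.prodRight_coll]
    exact HC.mk_eq.1 hk










theorem ofP_c_comp_i (h : OC i e) :
    (St.ofP h.c).comp (St.ofP (MC.i h.incl)) = St.ofP h.coll := by
  rw [← St.ofP_comp, h.c_comp_i]





end OC

/-! ### the second Puppe map -/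

section puppe

variable {F : Type u} {U : Type v} [TopologicalSpace F] [TopologicalSpace U]
variable [T2Space F] [T2Space U] [LocallyCompactSpace F] [LocallyCompactSpace U]




end puppe

namespace OC

variable {F U O : Type u} {E : Type x}
variable [TopologicalSpace F] [TopologicalSpace U] [TopologicalSpace O] [TopologicalSpace E]
variable [T2Space F] [T2Space U] [T2Space O] [T2Space E]
variable [LocallyCompactSpace F] [LocallyCompactSpace U] [LocallyCompactSpace O]
  [LocallyCompactSpace E]
variable {i : F → U} {e : O → U}

/-- restriction of suspended classes -/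
noncomputable def resS (h : OC i e) (E : Type x) [TopologicalSpace E] [T2Space E]
    [LocallyCompactSpace E] : St (U × Io) E →+ St (F × Io) E :=
  St.homComp (St.ofP (h.incl.smash (PMap.id Io)))

@[simp] theorem resS_apply (h : OC i e) (y : St (U × Io) E) :
    h.resS E y = y.comp (St.ofP (h.incl.smash (PMap.id Io))) := rfl




end OC

/-! ### naturality for strict maps of pairs -/

section nat

variable {F U O : Type u} {F' U' O' : Type u} {E : Type x}
variable [TopologicalSpace F] [TopologicalSpace U] [TopologicalSpace O] [TopologicalSpace E]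
variable [T2Space F] [T2Space U] [T2Space O] [T2Space E]
variable [LocallyCompactSpace F] [LocallyCompactSpace U] [LocallyCompactSpace O]
  [LocallyCompactSpace E]
variable [TopologicalSpace F'] [TopologicalSpace U'] [TopologicalSpace O']
variable [T2Space F'] [T2Space U'] [T2Space O'] [LocallyCompactSpace F'] [LocallyCompactSpace U']
  [LocallyCompactSpace O']
variable {i : F → U} {e : O → U} {i' : F' → U'} {e' : O' → U'}






end nat

end Crest.Agent.R090.Exc503
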