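import Crest.Agent.R090.Dens_255
import Crest.Agent.R090.ExcSt_503
import Crest.Agent.R090.SpineDefs_796

-- ▼ part R090/F2w_466
section

/-!
# Row 90, F2' (doc 20): density in source form (owner helper466)

Abstract version over a contravariant functor `G` on `PMap`s which is middle exact for closed pairs:
if `op` is a natural endomorphism of `G` and `op x` vanishes on `Z × T` for all `x : G (M × T)`, then
`op^[K] x` vanishes on `P_{K,s+1} × T` for all `x : G (P_{K,s} × T)`.
-/

set_option autoImplicit false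

open Topology Filter Set

namespace Crest.Agent.R090.F2w466

open OnePoint Sp962 Dens255

universe u v

/-! ## point set part -/

section pts

variable {M : Type u} {Z : Set M} {K s : ℕ}

theorem setOf_cons (y : Fin (K + 1) → M) [Decidable (y 0 ∈ Z)] :
    {i | y i ∈ Z} = (if y 0 ∈ Z then {0} else ∅) ∪ Fin.succ '' {i | Fin.tail y i ∈ Z} := by
  ext i
  refine Fin.cases ?_ (fun i => ?_) i
  · by_cases h : y 0 ∈ Z
    · simp [h]
    · simp [h]
  · by_cases h : y 0 ∈ Z
    · simp [h, Fin.tail]
    · simp [h, Fin.tail]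

theorem ncard_cons_of_notMem (y : Fin (K + 1) → M) (h : y 0 ∉ Z) :
    {i | y i ∈ Z}.ncard = {i | Fin.tail y i ∈ Z}.ncard := by
  classical
  rw [setOf_cons, if_neg h, empty_union, ncard_image_of_injective _ (Fin.succ_injective _)]

theorem ncard_cons_le (y : Fin (K + 1) → M) :
    {i | y i ∈ Z}.ncard ≤ {i | Fin.tail y i ∈ Z}.ncard + 1 := by
  classical
  rw [setOf_cons]
  refine (ncard_union_le _ _).trans ?_
  rw [ncard_image_of_injective _ (Fin.succ_injective _), add_comm]
  gcongr
  split_ifs <;> simp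

theorem le_ncard_cons (y : Fin (K + 1) → M) :
    {i | Fin.tail y i ∈ Z}.ncard ≤ {i | y i ∈ Z}.ncard := by
  classical
  rw [← ncard_image_of_injective _ (Fin.succ_injective _)]
  refine ncard_le_ncard ?_ (toFinite _)
  rintro _ ⟨i, hi, rfl⟩
  exact hi

theorem tail_mem {y : Fin (K + 1) → M} (h : y ∈ PP Z (Fin (K + 1)) (s + 1)) :
    Fin.tail y ∈ PP Z (Fin K) s := by
  have h1 := ncard_cons_le (Z := Z) y
  rw [mem_PP] at h ⊢
  omega

theorem cons_mem {m : M} {x : Fin K → M} (h : x ∈ PP Z (Fin K) s) :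
    (Fin.cons m x : Fin (K + 1) → M) ∈ PP Z (Fin (K + 1)) s := by
  have h1 := le_ncard_cons (Z := Z) (Fin.cons m x : Fin (K + 1) → M)
  rw [Fin.tail_cons] at h1
  exact le_trans h h1

theorem tail_mem' {y : Fin (K + 1) → M} (h : y ∈ PP Z (Fin (K + 1)) (s + 1)) (h0 : y 0 ∉ Z) :
    Fin.tail y ∈ PP Z (Fin K) (s + 1) := by
  rw [mem_PP, ← ncard_cons_of_notMem _ h0]
  exact h

/-- split off the first coordinate -/
def consH (M : Type u) [TopologicalSpace M] (K : ℕ) :
    M × (Fin K → M) ≃ₜ (Fin (K + 1) → M) where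
  toFun p := Fin.cons p.1 p.2
  invFun y := (y 0, Fin.tail y)
  left_inv p := by simp
  right_inv y := by simp
  continuous_toFun := by
    refine continuous_pi fun i => ?_
    refine Fin.cases ?_ (fun i => ?_) i
    · simpa using continuous_fst
    · simp only [Fin.cons_succ]; fun_prop
  continuous_invFun := by
    refine Continuous.prodMk (continuous_apply 0) (continuous_pi fun i => ?_)
    exact continuous_apply i.succ

/-- `M × P_{K,s} → P_{K+1,s}` -/
def consE (Z : Set M) (K s : ℕ) : M × PP Z (Fin K) s → PP Z (Fin (K + 1)) s :=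
  fun p => ⟨Fin.cons p.1 p.2.1, cons_mem p.2.2⟩

/-- `P_{K+1,s+1} → M × P_{K,s}` -/
def splitE (Z : Set M) (K s : ℕ) : PP Z (Fin (K + 1)) (s + 1) → M × PP Z (Fin K) s :=
  fun y => (y.1 0, ⟨Fin.tail y.1, tail_mem y.2⟩)

/-- `Zᶜ × P_{K,s+1} → P_{K+1,s+1}` -/
def openE (Z : Set M) (K s : ℕ) : (Zᶜ : Set M) × PP Z (Fin K) s → PP Z (Fin (K + 1)) s :=
  fun p => ⟨Fin.cons p.1.1 p.2.1, cons_mem p.2.2⟩

variable [TopologicalSpace M]

theorem isClosedEmbedding_consE (hZ : IsClosed Z) : IsClosedEmbedding (consE Z K s) := by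
  have h1 : IsClosedEmbedding (Subtype.val : PP Z (Fin (K + 1)) s → (Fin (K + 1) → M)) :=
    (isClosed_PP hZ s).isClosedEmbedding_subtypeVal
  rw [← h1.of_comp_iff]
  exact (consH M K).isClosedEmbedding.comp
    (IsClosedEmbedding.id.prodMap (isClosed_PP hZ s).isClosedEmbedding_subtypeVal)

theorem isClosedEmbedding_splitE (hZ : IsClosed Z) : IsClosedEmbedding (splitE Z K s) := by
  have h1 : IsClosedEmbedding
      (Prod.map id Subtype.val : M × PP Z (Fin K) s → M × (Fin K → M)) :=
    IsClosedEmbedding.id.prodMap (isClosed_PP hZ s).isClosedEmbedding_subtypeVal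
  rw [← h1.of_comp_iff]
  exact (consH M K).symm.isClosedEmbedding.comp
    (isClosed_PP hZ (s + 1)).isClosedEmbedding_subtypeVal

theorem isOpenEmbedding_openE (hZ : IsClosed Z) :
    IsOpenEmbedding (openE Z K (s + 1)) := by
  have h1 : IsEmbedding (Subtype.val : PP Z (Fin (K + 1)) (s + 1) → (Fin (K + 1) → M)) :=
    IsEmbedding.subtypeVal
  refine ⟨?_, ?_⟩
  · rw [← h1.of_comp_iff]
    exact (consH M K).isEmbedding.comp (IsEmbedding.subtypeVal.prodMap IsEmbedding.subtypeVal)
  · have h2 : range (openE Z K (s + 1)) = {y | y.1 0 ∈ Zᶜ} := by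
      ext y
      constructor
      · rintro ⟨p, rfl⟩
        exact p.1.2
      · intro h
        refine ⟨(⟨y.1 0, h⟩, ⟨Fin.tail y.1, tail_mem' y.2 h⟩), ?_⟩
        refine Subtype.ext ?_
        simp [openE]
    rw [h2]
    exact hZ.isOpen_compl.preimage ((continuous_apply 0).comp continuous_subtype_val)

omit [TopologicalSpace M] in
theorem notMem_range_openE {y : PP Z (Fin (K + 1)) (s + 1)} (h : y.1 0 ∈ Z) :
    y ∉ range (openE Z K (s + 1)) := by
  rintro ⟨p, rfl⟩
  exact p.1.2 h

theorem isOpenEmbedding_compl (hZ : IsClosed Z) (T : Type u) [TopologicalSpace T] :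
    IsOpenEmbedding (Prod.map Subtype.val id : (Zᶜ : Set M) × T → M × T) :=
  hZ.isOpen_compl.isOpenEmbedding_subtypeVal.prodMap IsOpenEmbedding.id

theorem isClosedEmbedding_Z (hZ : IsClosed Z) (T : Type u) [TopologicalSpace T] :
    IsClosedEmbedding (Prod.map Subtype.val id : Z × T → M × T) :=
  hZ.isClosedEmbedding_subtypeVal.prodMap IsClosedEmbedding.id

end pts

/-! ## the functor -/

/-- a contravariant functor on pointed maps of locally compact Hausdorff spaces with values in
pointed sets, middle exact for every closed pair -/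
structure PiF where
  /-- the functor -/
  G : ∀ (T : Type u) [TopologicalSpace T] [T2Space T] [LocallyCompactSpace T], Type v
  /-- zero -/
  zero : ∀ (T : Type u) [TopologicalSpace T] [T2Space T] [LocallyCompactSpace T], G T
  /-- restriction -/
  res : ∀ {T T' : Type u} [TopologicalSpace T] [T2Space T] [LocallyCompactSpace T]
    [TopologicalSpace T'] [T2Space T'] [LocallyCompactSpace T'], PMap T T' → G T' → G T
  res_zero : ∀ {T T' : Type u} [TopologicalSpace T] [T2Space T] [LocallyCompactSpace T]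
    [TopologicalSpace T'] [T2Space T'] [LocallyCompactSpace T'] (x : G T'),
    res (PMap.zero T T') x = zero T
  res_id : ∀ {T : Type u} [TopologicalSpace T] [T2Space T] [LocallyCompactSpace T] (x : G T),
    res (PMap.id T) x = x
  res_comp : ∀ {T T' T'' : Type u} [TopologicalSpace T] [T2Space T] [LocallyCompactSpace T]
    [TopologicalSpace T'] [T2Space T'] [LocallyCompactSpace T']
    [TopologicalSpace T''] [T2Space T''] [LocallyCompactSpace T'']
    (g : PMap T' T'') (f : PMap T T') (x : G T''), res (g.comp f) x = res f (res g x)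
  ex : ∀ {A T O : Type u} [TopologicalSpace A] [T2Space A] [LocallyCompactSpace A]
    [TopologicalSpace T] [T2Space T] [LocallyCompactSpace T]
    [TopologicalSpace O] [T2Space O] [LocallyCompactSpace O]
    (e : A → T) (he : IsClosedEmbedding e) (o : O → T) (ho : IsOpenEmbedding o)
    (_ : range o = (range e)ᶜ) (x : G T), res (PMap.ofClosed e he) x = zero A →
    ∃ y : G O, res (PMap.ofOpen o ho) y = x

namespace PiF

variable (F : PiF.{u, v})

section

variable {T T' : Type u} [TopologicalSpace T] [T2Space T] [LocallyCompactSpace T]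
    [TopologicalSpace T'] [T2Space T'] [LocallyCompactSpace T']

theorem res_z (f : PMap T T') : F.res f (F.zero T') = F.zero T := by
  rw [← F.res_zero (T := T') (T' := T') (F.zero T'), ← F.res_comp]
  exact F.res_zero _

end

/-- a natural endomorphism -/
structure Op where
  /-- the map -/
  op : ∀ {T : Type u} [TopologicalSpace T] [T2Space T] [LocallyCompactSpace T], F.G T → F.G T
  nat : ∀ {T T' : Type u} [TopologicalSpace T] [T2Space T] [LocallyCompactSpace T]
    [TopologicalSpace T'] [T2Space T'] [LocallyCompactSpace T'] (f : PMap T T') (x : F.G T'),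
    op (F.res f x) = F.res f (op x)

namespace Op

variable {F}
variable (a : F.Op) {T T' : Type u} [TopologicalSpace T] [T2Space T] [LocallyCompactSpace T]
    [TopologicalSpace T'] [T2Space T'] [LocallyCompactSpace T']


theorem iter_nat (n : ℕ) (f : PMap T T') (x : F.G T') :
    a.op^[n] (F.res f x) = F.res f (a.op^[n] x) := by
  induction n generalizing x with
  | zero => rfl
  | succ n ih => rw [Function.iterate_succ_apply, Function.iterate_succ_apply, a.nat, ih]

end Op

end PiF

/-! ## density -/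

section dens

variable {M : Type u} [TopologicalSpace M] [T2Space M] [LocallyCompactSpace M] {Z : Set M}
  [hZ' : Fact (IsClosed Z)]

instance instLcCompl : LocallyCompactSpace (Zᶜ : Set M) :=
  hZ'.out.isOpen_compl.isOpenEmbedding_subtypeVal.locallyCompactSpace

instance instLcZ : LocallyCompactSpace Z :=
  hZ'.out.isClosedEmbedding_subtypeVal.locallyCompactSpace

/-- the inclusion `P_{K,s+1} → P_{K,s}` -/
def inc (Z : Set M) [hZ' : Fact (IsClosed Z)] (K s : ℕ) :
    PMap (PP Z (Fin K) (s + 1)) (PP Z (Fin K) s) :=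
  inclS (isClosed_PP (ι := Fin K) hZ'.out (s + 1)) (PP_antitone Z (Nat.le_succ s))

theorem square (K s : ℕ) (T : Type u) [TopologicalSpace T] [T2Space T] [LocallyCompactSpace T] :
    ((PMap.ofOpen _ (isOpenEmbedding_compl hZ'.out (PP Z (Fin K) s × T))).comp
      (PMap.ofHomeo (Homeomorph.prodAssoc M (PP Z (Fin K) s) T))).comp
      ((PMap.ofClosed (splitE Z K s) (isClosedEmbedding_splitE hZ'.out)).smash (PMap.id T)) =
    ((PMap.ofHomeo (((Homeomorph.prodAssoc _ _ T).symm.trans
        ((Homeomorph.prodComm _ _).prodCongr (Homeomorph.refl T))).trans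
          (Homeomorph.prodAssoc _ _ T))).comp
      ((inc Z K s).smash (PMap.id ((Zᶜ : Set M) × T)))).comp
      ((PMap.ofHomeo (((Homeomorph.prodComm _ _).prodCongr (Homeomorph.refl T)).trans
        (Homeomorph.prodAssoc _ _ T))).comp
        ((PMap.ofOpen (openE Z K (s + 1)) (isOpenEmbedding_openE hZ'.out)).smash (PMap.id T))) := by
  refine PMap.ext ?_
  rintro ⟨y, t⟩
  by_cases h : y.1 0 ∈ Z
  · have h1 : (PMap.ofOpen (openE Z K (s + 1)) (isOpenEmbedding_openE hZ'.out))
        (y : OnePoint (PP Z (Fin (K + 1)) (s + 1))) = ∞ :=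
      PMap.ofOpen_of_notMem _ _ (notMem_range_openE h)
    have h2 : (PMap.ofOpen _ (isOpenEmbedding_compl hZ'.out (PP Z (Fin K) s × T)))
        (((y.1 0, ((⟨Fin.tail y.1, tail_mem y.2⟩ : PP Z (Fin K) s), t)) :
          M × (PP Z (Fin K) s × T)) : OnePoint (M × (PP Z (Fin K) s × T))) = ∞ := by
      refine PMap.ofOpen_of_notMem _ _ ?_
      rintro ⟨p, hp⟩
      have h3 : (p.1 : M) = y.1 0 := (Prod.ext_iff.1 hp).1
      exact p.1.2 (by rw [h3]; exact h)
    simp only [PMap.comp_apply, PMap.smash_coe, h1, PMap.id_apply, sm_inf_left, PMap.map_inf]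
    exact h2
  · obtain ⟨p, rfl⟩ : ∃ p, openE Z K (s + 1) p = y :=
      ⟨(⟨y.1 0, h⟩, ⟨Fin.tail y.1, tail_mem' y.2 h⟩), Subtype.ext (by simp [openE])⟩
    have h1 := PMap.ofOpen_coe (openE Z K (s + 1)) (isOpenEmbedding_openE hZ'.out) p
    simp only [PMap.comp_apply, PMap.smash_coe, h1, PMap.id_apply]
    have h3 := PMap.ofOpen_coe _ (isOpenEmbedding_compl hZ'.out (PP Z (Fin K) s × T))
      (p.1, ((⟨p.2.1, PP_antitone Z (Nat.le_succ s) p.2.2⟩ : PP Z (Fin K) s), t))
    exact h3

/-- **F2'**: density, source form -/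
theorem dens (F : PiF.{u, v}) (a : F.Op)
    (hyp : ∀ (T : Type u) [TopologicalSpace T] [T2Space T] [LocallyCompactSpace T]
      (x : F.G (M × T)), F.res (PMap.ofClosed _ (isClosedEmbedding_Z hZ'.out T)) (a.op x) =
        F.zero (Z × T)) (K : ℕ) :
    ∀ (s : ℕ) (T : Type u) [TopologicalSpace T] [T2Space T] [LocallyCompactSpace T]
      (x : F.G (PP Z (Fin K) s × T)),
      F.res ((inc Z K s).smash (PMap.id T)) (a.op^[K] x) = F.zero _ := by
  induction K with
  | zero =>
    intro s T _ _ _ x
    have h : (inc Z 0 s).smash (PMap.id T) = PMap.zero _ _ := by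
      refine PMap.ext ?_
      rintro ⟨⟨y, hy⟩, t⟩
      exfalso
      have : ({i : Fin 0 | y i ∈ Z}).ncard = 0 := by
        rw [Set.ncard_eq_zero]
        ext i
        exact i.elim0
      rw [mem_PP] at hy
      omega
    rw [h]
    exact F.res_zero _
  | succ K ih =>
    intro s T _ _ _ x
    have hZ := hZ'.out
    -- restriction to `M × P_{K,s}`
    set x1 := F.res ((PMap.ofClosed (consE Z K s) (isClosedEmbedding_consE hZ)).smash
      (PMap.id T)) x with hx1
    set y := F.res (PMap.ofHomeo (Homeomorph.prodAssoc M (PP Z (Fin K) s) T).symm) x1 with hy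
    have hxy : x1 = F.res (PMap.ofHomeo (Homeomorph.prodAssoc M (PP Z (Fin K) s) T)) y := by
      rw [hy, ← F.res_comp, PMap.ofHomeo_symm_comp, F.res_id]
    obtain ⟨h, hh⟩ := F.ex _ (isClosedEmbedding_Z hZ (PP Z (Fin K) s × T)) _
      (isOpenEmbedding_compl hZ (PP Z (Fin K) s × T)) (by
        ext ⟨m, p⟩
        constructor
        · rintro ⟨q, hq⟩ ⟨q', hq'⟩
          have h1 : (q.1 : M) = m := (Prod.ext_iff.1 hq).1
          have h2 : (q'.1 : M) = m := (Prod.ext_iff.1 hq').1
          exact q.1.2 (by rw [h1, ← h2]; exact q'.1.2)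
        · intro hm
          refine ⟨(⟨m, fun hm' => hm ⟨(⟨m, hm'⟩, p), rfl⟩⟩, p), rfl⟩) (a.op y) (hyp _ y)
    have e1 : (inc Z (K + 1) s).smash (PMap.id T) =
        ((PMap.ofClosed (consE Z K s) (isClosedEmbedding_consE hZ)).smash (PMap.id T)).comp
        ((PMap.ofClosed (splitE Z K s) (isClosedEmbedding_splitE hZ)).smash (PMap.id T)) := by
      refine PMap.ext ?_
      rintro ⟨y, t⟩
      simp only [PMap.comp_apply, PMap.smash_coe, PMap.id_apply, PMap.ofClosed_coe, sm_coe]
      have : consE Z K s (splitE Z K s y) = Set.inclusion (PP_antitone Z (Nat.le_succ s)) y := by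
        refine Subtype.ext ?_
        simp [consE, splitE]
      rw [this]
      rfl
    have e2 : a.op^[K + 1] x1 = F.res ((PMap.ofOpen _
        (isOpenEmbedding_compl hZ (PP Z (Fin K) s × T))).comp
        (PMap.ofHomeo (Homeomorph.prodAssoc M (PP Z (Fin K) s) T))) (a.op^[K] h) := by
      rw [Function.iterate_succ_apply, hxy, a.nat, ← hh, ← F.res_comp, a.iter_nat]
    rw [e1, F.res_comp, ← a.iter_nat, ← hx1, e2, ← F.res_comp, square]
    generalize (PMap.ofHomeo (((Homeomorph.prodComm _ _).prodCongr (Homeomorph.refl T)).trans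
        (Homeomorph.prodAssoc _ _ T))).comp
        ((PMap.ofOpen (openE Z K (s + 1)) (isOpenEmbedding_openE hZ'.out)).smash (PMap.id T)) = C
    rw [F.res_comp, F.res_comp, ← a.iter_nat, ih s _ _, F.res_z]

end dens

end Crest.Agent.R090.F2w466
end

-- ▼ part R090/F2St_466
section

/-!
# Row 90, node F2 in the stable category (owner helper466)

* `interchange_ofP`, `coh` : interchange with a strict factor, `(1_P ∧ a) ∧ 1_Q = 1_{P × Q} ∧ a`;
* `piF`, `opF`             : the functor `T ↦ St ((T × W) × Y) E` and the operator `1 ∧ a ∧ 1`;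
* `f2 : Spine.F2Stmt`.
-/

set_option autoImplicit false
set_option linter.unusedSectionVars false
set_option linter.style.haveILetI false

open Topology Filter Set

noncomputable section

namespace Crest.Agent.R090.F2St466

open OnePoint Crest.Agent.R090.Sp962 Crest.Agent.R090.Grp528 Crest.Agent.R090.St528
open Crest.Agent.R090.Dens255 Crest.Agent.R090.Sm202 Crest.Agent.R090.Block568
open Crest.Agent.R090.F2w466 Crest.Agent.R090.Exc503 Crest.Agent.R090.Spine

/-! ## interchange with a strict factor, coherence -/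

section coh

universe u v w x u' v'

variable {X : Type u} {Y : Type v} {W : Type w} {W' : Type x}
variable [TopologicalSpace X] [TopologicalSpace Y] [TopologicalSpace W] [TopologicalSpace W']
variable [T2Space X] [T2Space Y] [T2Space W] [T2Space W']
variable [LocallyCompactSpace X] [LocallyCompactSpace Y] [LocallyCompactSpace W]
variable [LocallyCompactSpace W']

theorem strict_lev (f : HC X Y) (n : ℕ) (W : Type w) [TopologicalSpace W] [T2Space W]
    [LocallyCompactSpace W] :
    (f.smash (h1 W)).smash (h1 (Fin n → ℂ)) = (f.smash (h1 (S W n))).conj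
      (asC X W (Fin n → ℂ)).symm (asC Y W (Fin n → ℂ)).symm := by
  have h := conj_asC f (h1 W) (h1 (Fin n → ℂ))
  rw [← conj_symm_conj (asC X W (Fin n → ℂ)) (asC Y W (Fin n → ℂ))
    ((f.smash (h1 W)).smash (h1 (Fin n → ℂ))), h, h1_smash_h1]

/-- interchange with a strict factor on the left -/
theorem interchange_ofP (f : PMap X Y) (a : St W W') :
    (a.smL Y).comp ((St.ofP f).smR W) = ((St.ofP f).smR W').comp (a.smL X) := by
  obtain ⟨n, -, a, rfl⟩ := a.exists_of_ge 0
  rw [smR_map, smR_map, smL_of, smL_of, St.map_eq_of _ n, St.map_eq_of _ n, St.of_comp_of,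
    St.of_comp_of, strict_lev, strict_lev, levL, levL, conj_comp_conj, conj_comp_conj,
    HC.smash_comp, HC.smash_comp, h1_comp, h1_comp, comp_h1, comp_h1]

/-- `f ∧ a` for a strict `f` -/
theorem prod_ofP_left (f : PMap X Y) (a : St W W') :
    (St.ofP f).prod a = (a.smL Y).comp ((St.ofP f).smR W) := (interchange_ofP f a).symm

theorem lev_coh (P : Type u') [TopologicalSpace P] [T2Space P] [LocallyCompactSpace P]
    (Q : Type v') [TopologicalSpace Q] [T2Space Q] [LocallyCompactSpace Q] {n : ℕ}
    (a : HC (S X n) (S Y n)) :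
    levL (P × Q) a = (levR Q (levL P a)).conj
      ((swR P X Q).prodCongr (Homeomorph.refl (Fin n → ℂ)))
      ((swR P Y Q).prodCongr (Homeomorph.refl (Fin n → ℂ))) := by
  rw [levL, levR, levL, conj_smash_h1, ← h1_smash_h1, ← conj_swR (h1 P) a (h1 Q), conj_conj,
    conj_conj, conj_conj]
  exact conj_ext (fun _ => rfl) (fun _ => rfl) _

/-- coherence: `(1_P ∧ a) ∧ 1_Q = 1_{P × Q} ∧ a` -/
theorem coh (P : Type u') [TopologicalSpace P] [T2Space P] [LocallyCompactSpace P]
    (Q : Type v') [TopologicalSpace Q] [T2Space Q] [LocallyCompactSpace Q] (a : St X Y) :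
    (sh (swR P Y Q)).comp ((a.smL P).smR Q) = (a.smL (P × Q)).comp (sh (swR P X Q)) := by
  obtain ⟨n, -, a, rfl⟩ := a.exists_of_ge 0
  rw [smL_of, smL_of, smR_of, sh_eq, sh_eq, St.map_eq_of _ n, St.map_eq_of _ n, St.of_comp_of,
    St.of_comp_of, hh_smash_h1, hh_smash_h1, lev_coh, hh_comp_eq_conj]

/-- conjugation form of `coh` -/
theorem coh' (P : Type u') [TopologicalSpace P] [T2Space P] [LocallyCompactSpace P]
    (Q : Type v') [TopologicalSpace Q] [T2Space Q] [LocallyCompactSpace Q] (a : St X Y) :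
    ((a.smL P).smR Q).comp (sh (swR P X Q).symm) = (sh (swR P Y Q).symm).comp (a.smL (P × Q)) := by
  have h2 := congrArg (fun z => ((sh (swR P Y Q).symm).comp z).comp (sh (swR P X Q).symm))
    (coh P Q a)
  simp only [← St.comp_assoc] at h2
  rw [sh_symm_comp, St.id_comp] at h2
  rw [h2, St.comp_assoc, sh_comp_symm, St.comp_id]

end coh

section

variable {W : Type} [TopologicalSpace W] [T2Space W] [LocallyCompactSpace W]

variable (W) (Y : Type) [TopologicalSpace Y] [T2Space Y] [LocallyCompactSpace Y] (j : ℕ)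

/-- the functor `T ↦ {T ∧ W ∧ Y, S^j}` -/
def piF : PiF.{0, 0} where
  G T _ _ _ := St ((T × W) × Y) (Fin j → ℝ)
  zero T _ _ _ := 0
  res f x := x.comp (St.ofP ((f.smash (PMap.id W)).smash (PMap.id Y)))
  res_zero x := by
    rw [PMap.smash_zero_left, PMap.smash_zero_left, St.ofP_zero, St.comp_zero]
  res_id x := by
    rw [PMap.smash_id, PMap.smash_id, St.ofP_id, St.comp_id]
  res_comp g f x := by
    rw [St.comp_assoc, ← St.ofP_comp, PMap.smash_comp, PMap.smash_comp, PMap.id_comp,
      PMap.id_comp]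
  ex {A T O} _ _ _ _ _ _ _ _ _ e he o ho hr x hx := by
    have h : OC e o := ⟨he, ho, hr⟩
    have h1 := (h.prodRight W).prodRight Y
    obtain ⟨g', hg'⟩ := h1.st_exists_coll (SphT.fd (Fin j → ℝ)) x (by
      rw [(h.prodRight W).prodRight_incl, h.prodRight_incl]
      exact hx)
    refine ⟨g', ?_⟩
    rw [hg', (h.prodRight W).prodRight_coll, h.prodRight_coll]
    rfl

/-- the operator `a` -/
def opF (a : St W W) : (piF W Y j).Op where
  op {T} _ _ _ x := St.comp (Z := Fin j → ℝ) x ((a.smL T).smR Y)
  nat {T T'} _ _ _ _ _ _ f x := by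
    have key : ∀ x : St ((T' × W) × Y) (Fin j → ℝ),
        (x.comp (St.ofP ((f.smash (PMap.id W)).smash (PMap.id Y)))).comp ((a.smL T).smR Y) =
          (x.comp ((a.smL T').smR Y)).comp (St.ofP ((f.smash (PMap.id W)).smash (PMap.id Y))) := by
      intro x
      rw [St.comp_assoc, St.comp_assoc, ← smR_ofP, ← smR_ofP, ← smR_comp, ← smR_comp,
        interchange_ofP]
    exact key x

variable {W} {j}

theorem npow_succ' (a : St W W) (n : ℕ) : npow a (n + 1) = a.comp (npow a n) := by
  induction n with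
  | zero =>
    change (St.id W).comp a = a.comp (St.id W)
    rw [St.id_comp, St.comp_id]
  | succ n ih =>
    calc npow a (n + 2) = (npow a (n + 1)).comp a := rfl
      _ = (a.comp (npow a n)).comp a := by rw [ih]
      _ = a.comp (npow a (n + 1)) := St.comp_assoc _ _ _

theorem opF_iter (a : St W W) (n : ℕ) {T : Type} [TopologicalSpace T] [T2Space T]
    [LocallyCompactSpace T] (x : St ((T × W) × Y) (Fin j → ℝ)) :
    (opF W Y j a).op^[n] x = x.comp (((npow a n).smL T).smR Y) := by
  induction n generalizing x with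
  | zero =>
    change x = x.comp (((St.id W).smL T).smR Y)
    rw [smL_id, smR_id, St.comp_id]
  | succ n ih =>
    have h1 : (opF W Y j a).op^[n + 1] x =
        (opF W Y j a).op^[n] (St.comp (Z := Fin j → ℝ) x ((a.smL T).smR Y)) :=
      Function.iterate_succ_apply _ n x
    have h2 := ih (St.comp (Z := Fin j → ℝ) x ((a.smL T).smR Y))
    refine h1.trans (h2.trans ?_)
    rw [npow_succ', smL_comp, smR_comp]
    exact St.comp_assoc _ _ _

/-- the shuffle `((A × T) × W) × Y = (A × W) × (T × Y)` -/
@[simps] def shuf (A T W Y : Type) [TopologicalSpace A] [TopologicalSpace T] [TopologicalSpace W]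
    [TopologicalSpace Y] : ((A × T) × W) × Y ≃ₜ (A × W) × (T × Y) where
  toFun p := ((p.1.1.1, p.1.2), (p.1.1.2, p.2))
  invFun q := (((q.1.1, q.2.1), q.1.2), q.2.2)
  left_inv _ := rfl
  right_inv _ := rfl
  continuous_toFun := by fun_prop
  continuous_invFun := by fun_prop

theorem shuf_nat (A T : Type) [TopologicalSpace A] [T2Space A] [LocallyCompactSpace A]
    [TopologicalSpace T] [T2Space T] [LocallyCompactSpace T] (a : St W W) :
    (sh (shuf A T W Y)).comp ((a.smL (A × T)).smR Y) =
      ((a.smL A).smR (T × Y)).comp (sh (shuf A T W Y)) := by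
  have e1 : sh (shuf A T W Y) = ((sh (swR A W (T × Y)).symm).comp
      ((St.ofP (PMap.ofHomeo (Homeomorph.prodAssoc A T Y))).smR W)).comp
        (sh (swR (A × T) W Y)) := by
    rw [smR_ofP, sh, sh, sh, ← St.ofP_comp, ← St.ofP_comp]
    exact congrArg St.ofP (PMap.ext fun _ => rfl)
  rw [e1, St.comp_assoc, coh, St.comp_assoc, ← St.comp_assoc (St.smR _ _) _
    (sh (swR (A × T) W Y)), ← interchange_ofP, ← St.comp_assoc,
    ← St.comp_assoc, ← coh', St.comp_assoc, St.comp_assoc, St.comp_assoc]

end

section dens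

variable {M : Type} [TopologicalSpace M] [T2Space M] [LocallyCompactSpace M] {Z : Set M}
  [hZ' : Fact (IsClosed Z)]

/-- `dens` without the parameter space -/
theorem dens' (F : PiF.{0, 0}) (a : F.Op)
    (hyp : ∀ (T : Type) [TopologicalSpace T] [T2Space T] [LocallyCompactSpace T]
      (x : F.G (M × T)), F.res (PMap.ofClosed _ (isClosedEmbedding_Z hZ'.out T)) (a.op x) =
        F.zero (Z × T)) (K s : ℕ) (x : F.G (PP Z (Fin K) s)) :
      F.res (inc Z K s) (a.op^[K] x) = F.zero _ := by
  have h1 := dens F a hyp K s Unit (F.res (PMap.ofHomeo (Homeomorph.prodPUnit _)) x)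
  rw [a.iter_nat, ← F.res_comp] at h1
  have h2 : (PMap.ofHomeo (Homeomorph.prodPUnit (PP Z (Fin K) s))).comp
      ((inc Z K s).smash (PMap.id Unit)) = (inc Z K s).comp
        (PMap.ofHomeo (Homeomorph.prodPUnit (PP Z (Fin K) (s + 1)))) := PMap.ext fun _ => rfl
  have h3 := congrArg (F.res (PMap.ofHomeo (Homeomorph.prodPUnit (PP Z (Fin K) (s + 1))).symm)) h1
  rw [h2, F.res_z, F.res_comp, ← F.res_comp _ (PMap.ofHomeo
    (Homeomorph.prodPUnit (PP Z (Fin K) (s + 1))).symm), PMap.ofHomeo_comp_symm, F.res_id] at h3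
  exact h3

end dens

/-- **F2** -/
theorem f2 : F2Stmt := by
  intro M _ _ _ Z hZ' W _ _ _ a h K s Y _ _ _ j g
  have h1 := dens' (piF W Y j) (opF W Y j a) (Z := Z) ?_ K s g
  · rw [opF_iter] at h1
    have h2 : (g.comp (((npow a K).smL (PP Z (Fin K) s)).smR Y)).comp
      (St.ofP (((inc Z K s).smash (PMap.id W)).smash (PMap.id Y))) = 0 := h1
    rw [tens, prod_ofP_left, smR_comp, smR_ofP, smR_ofP, ← St.comp_assoc]
    exact h2
  · intro T _ _ _ x
    have key : ∀ x : St (((M × T) × W) × Y) (Fin j → ℝ),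
        (x.comp ((a.smL (M × T)).smR Y)).comp
          (St.ofP (((PMap.ofClosed _ (isClosedEmbedding_Z hZ'.out T)).smash (PMap.id W)).smash
            (PMap.id Y))) = 0 := by
      intro x
      have e1 : (PMap.ofHomeo (shuf M T W Y)).comp
          (((PMap.ofClosed _ (isClosedEmbedding_Z hZ'.out T)).smash (PMap.id W)).smash
            (PMap.id Y)) = (((incl hZ'.out).smash (PMap.id W)).smash (PMap.id (T × Y))).comp
              (PMap.ofHomeo (shuf Z T W Y)) := PMap.ext fun _ => rfl
      have h3 := h (T × Y) j (x.comp (sh (shuf M T W Y).symm))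
      rw [tens, prod_ofP_left, smR_comp, smR_ofP, smR_ofP] at h3
      have h4 := congrArg (fun z => z.comp (sh (shuf Z T W Y))) h3
      simp only [St.zero_comp] at h4
      rw [St.comp_assoc, St.comp_assoc, St.comp_assoc, sh, sh, ← St.ofP_comp, ← e1, St.ofP_comp,
        ← St.comp_assoc (St.smR _ _)] at h4
      have h5 := shuf_nat Y M T a
      rw [sh] at h5
      rw [← h5, St.comp_assoc, ← St.comp_assoc (St.ofP _) (St.ofP _),
        St.ofP_homeo_symm_comp, St.id_comp, ← St.comp_assoc] at h4
      exact h4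
    exact key x

end Crest.Agent.R090.F2St466
end
end

-- ▼ part R090/EInI_466

/-!
# Row 90, node E-IN-I (owner helper466)

* `SNull.comp_left`, `SNull.comp_right`, `SNull.neg`, ... : `SNull` is an ideal;
* `stRing`, `permSt_smul`, `permSt_sq` : the Young element is a quasi-idempotent in `St (κ → V)`;
* `idQ_of_f1` : abstract form;  `einI : Spine.EInIStmt`.
-/

set_option autoImplicit false
set_option linter.unusedSectionVars false
set_option linter.style.haveILetI false

open Topology Filter Set

noncomputable section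

namespace Crest.Agent.R090.EInI466

open OnePoint Crest.Agent.R090.Sp962 Crest.Agent.R090.Grp528 Crest.Agent.R090.St528
open Crest.Agent.R090.Dens255 Crest.Agent.R090.Sm202 Crest.Agent.R090.Block568
open Crest.Agent.R090.Pi568 Crest.Agent.R090.Cyl349 Crest.Agent.R090.Young152
open Crest.Agent.R090.Spine Crest.Agent.R090.F2St466 Crest.Agent.R090.F0_933

/-! ## `SNull` -/

section SN

variable {X X' X'' Y Y' : Type} [TopologicalSpace X] [TopologicalSpace X'] [TopologicalSpace X'']
  [TopologicalSpace Y] [TopologicalSpace Y'] [T2Space X] [T2Space X'] [T2Space X''] [T2Space Y]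
  [T2Space Y'] [LocallyCompactSpace X] [LocallyCompactSpace X'] [LocallyCompactSpace X'']
  [LocallyCompactSpace Y] [LocallyCompactSpace Y']

theorem snull_comp_left {h : St X X'} (hh : SNull h) (g : St X' X'') : SNull (g.comp h) := by
  intro T _ _ _ j y
  rw [smR_comp, ← St.comp_assoc]
  exact hh T j _


theorem snull_neg {h : St X X'} (hh : SNull h) : SNull (-h) := by
  intro T _ _ _ j y
  rw [smR_neg, St.comp_neg, hh T j y, neg_zero]



theorem snull_natAbs {h : St X X'} {z : ℤ} (hh : SNull (z • h)) : SNull (z.natAbs • h) := by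
  rw [← natCast_zsmul]
  rcases Int.natAbs_eq z with hz | hz
  · rwa [← hz]
  · have : ((z.natAbs : ℤ)) = -z := by omega
    rw [this, neg_zsmul]
    exact snull_neg hh

theorem tens_zsmul (a : St X X') (z : ℤ) (b : St Y Y') : tens a (z • b) = z • tens a b := by
  rw [tens, tens, Sm202.prod_eq, Sm202.prod_eq, smL_zsmul, St.comp_zsmul]

/-- `(f ∘ a) ∧ b` for a strict `f` -/
theorem tens_ofP_comp (f : PMap X' X'') (a : St X X') (b : St Y Y') :
    tens ((St.ofP f).comp a) b = ((St.ofP f).smR Y').comp (tens a b) := by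
  rw [tens, tens, Sm202.prod_eq, Sm202.prod_eq, smR_comp, St.comp_assoc]

/-- `a ∧ (b' ∘ b)` -/
theorem tens_comp_right {Y'' : Type} [TopologicalSpace Y''] [T2Space Y''] [LocallyCompactSpace Y'']
    (a : St X X') (b' : St Y' Y'') (b : St Y Y') :
    tens a (b'.comp b) = (b'.smL X').comp (tens a b) := by
  rw [tens, tens, Sm202.prod_eq', Sm202.prod_eq', smL_comp, St.comp_assoc]

end SN

/-! ## the Young element -/

section young

variable {W : Type} [TopologicalSpace W] [T2Space W] [LocallyCompactSpace W]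

variable (W) in
/-- the ring of stable self maps -/
@[reducible] def stRing : Ring (St W W) :=
  { (inferInstance : AddCommGroup (St W W)) with
    mul := St.comp
    one := St.id W
    mul_assoc := fun a b c => St.comp_assoc a b c
    one_mul := fun a => St.id_comp a
    mul_one := fun a => St.comp_id a
    left_distrib := fun a b c => St.comp_add a b c
    right_distrib := fun a b c => St.add_comp a b c
    zero_mul := fun a => St.zero_comp a
    mul_zero := fun a => St.comp_zero a }

variable {V : Type} [TopologicalSpace V] [T2Space V] [LocallyCompactSpace V] {κ : Type}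
  [Fintype κ] [DecidableEq κ]

theorem permSt_zsmul (z : ℤ) (a : MonoidAlgebra ℤ (Equiv.Perm κ)) :
    permSt V (z • a) = z • permSt V a := by
  rw [permSt, permSt, Finset.smul_sum]
  refine Finset.sum_congr rfl fun σ _ => ?_
  rw [smul_smul]
  rfl

/-- permutations act multiplicatively -/
def permHom (V : Type) [TopologicalSpace V] [T2Space V] [LocallyCompactSpace V] (κ : Type)
    [Fintype κ] [DecidableEq κ] :
    letI := stRing (κ → V)
    Equiv.Perm κ →* St (κ → V) (κ → V) :=
  letI := stRing (κ → V)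
  { toFun := fun σ => St.ofP (PMap.ofHomeo (Strata973.perm (X := V) σ))
    map_one' := by
      rw [Strata973.perm_one, PMap.ofHomeo_refl, St.ofP_id]
      rfl
    map_mul' := fun σ τ => by
      change _ = (St.ofP _).comp (St.ofP _)
      rw [← St.ofP_comp]
      exact congrArg St.ofP (PMap.ext fun _ => rfl) }

theorem permSt_sq (D c : ℕ) :
    (permSt V (yF D c)).comp (permSt V (yF D c)) = M D c • permSt V (yF D c) := by
  letI := stRing (Fin (yr D c) → V)
  exact yF_sq_map (permHom V (Fin (yr D c)))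

/-- powers of `k • P`, `P ∘ P = m • P` -/
theorem comp_npow {P : St W W} {m k : ℤ} (hP : P.comp P = m • P) (K : ℕ) :
    P.comp (npow (k • P) K) = (k * m) ^ K • P := by
  induction K with
  | zero =>
    change P.comp (St.id W) = _
    rw [St.comp_id, pow_zero, one_zsmul]
  | succ K ih =>
    change P.comp ((npow (k • P) K).comp (k • P)) = _
    rw [← St.comp_assoc, ih, St.zsmul_comp, St.comp_zsmul, hP, smul_smul, smul_smul, pow_succ,
      mul_assoc]

end young

/-! ## the node -/

section node

variable {N : Type} [TopologicalSpace N] [T2Space N] [LocallyCompactSpace N] {Z : Set N}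
  [hZ : Fact (IsClosed Z)] {W : Type} [TopologicalSpace W] [T2Space W] [LocallyCompactSpace W]

/-- abstract form -/
theorem idQ_of_snull {q : ℕ} (hq : q.Prime) {P : St W W} {m k : ℤ} (hP : P.comp P = m • P)
    (hm : ¬ (q : ℤ) ∣ m) (hk : ¬ (q : ℤ) ∣ k)
    (h : SNull (tens (St.ofP (incl hZ.out)) (k • P))) : IdQ q Z P := by
  refine ⟨1, fun K s => ⟨((k * m) ^ K).natAbs, ?_, ?_⟩⟩
  · rw [← Int.natCast_dvd]
    intro hd
    have h1 : (q : ℤ) ∣ k * m := (Nat.prime_iff_prime_int.1 hq).dvd_of_dvd_pow hd
    rcases (Nat.prime_iff_prime_int.1 hq).dvd_or_dvd h1 with h2 | h2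
    · exact hk h2
    · exact hm h2
  · refine snull_natAbs ?_
    rw [← tens_zsmul, ← comp_npow hP K, tens_comp_right]
    exact snull_comp_left (f2 N Z W (k • P) h K s) _

end node

/-- **E-IN-I** -/
theorem einI : EInIStmt := by
  intro Z E _ _ _ _ _ _ f c D m hc hD h
  obtain ⟨V, i1, i2, i3, hV, L, hL⟩ := h
  refine ⟨V, i1, i2, i3, hV, ?_⟩
  have hM := not_dvd_M (D := D) hc
  refine idQ_of_snull (k := M D c ^ L) hc (permSt_sq D c) hM (fun hd => hM
    ((Nat.prime_iff_prime_int.1 hc).dvd_of_dvd_pow hd)) ?_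
  rw [← permSt_zsmul, ← yF_pow]
  -- `incl = (i^r) ∘ κ` stably
  have h1 : St.ofP (incl (isClosed_PP (Cyl.isClosedEmbedding_iU f).isClosed_range (ι := Fin (yr D c)) m)) =
      (St.ofP (pow (Fin (yr D c)) (Cyl.i f))).comp (St.ofP (kappa f (Fin (yr D c)) m)) := by
    rw [kappa, St.ofP_comp, ← St.comp_assoc, ← St.ofP_comp, pow_comp,
      St.ofP_congr (pow_homotopic (Cyl.i_comp_ret f)), pow_id, St.ofP_id, St.id_comp]
  have h2 := snull_comp_left hL ((St.ofP (pow (Fin (yr D c)) (Cyl.i f))).smR (Fin (yr D c) → V))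
  rw [← tens_ofP_comp, ← h1] at h2
  exact h2

end Crest.Agent.R090.EInI466
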