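import Crest.Agent.R090.F0ProdTop_96
import Crest.Agent.R090.F0Defs_806
import Crest.Agent.R090.HasCells_933
import Mathlib
import Crest.Agent.R090.I0a_275
import Crest.Agent.R090.GlueC_264
import Crest.Agent.R090.Match_513_Mg

-- ▼ part R090/F0Def_933
section

/-!
# Row 90, leaf F0 (owner helper933): finite dimensional backward-shift invariant subspaces

`ι` a finite index type (`ℂ^ι` = the coefficient space `ℂ^n`), `J` a bound for the degree:
`H = ℂ^ι ⊗ (polynomials of degree ≤ J) = (ι × Fin (J+1) → ℂ)`, `z^* = bs` the backward shift.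

This file: the shift and the operators `γ_W = z P_W + (1 - P_W)` with their identities.
-/

set_option autoImplicit false
set_option linter.unusedSectionVars false
set_option linter.unusedSimpArgs false
set_option linter.unusedVariables false

open Topology Filter Set Matrix
open scoped Kronecker

namespace Crest.Agent.R090.F0_933

/-- Hermitian idempotent matrices -/
structure IsPr {m : Type*} [Fintype m] (P : Matrix m m ℂ) : Prop where
  idem : P * P = P
  herm : Pᴴ = P

section defs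

variable (ι : Type) [Fintype ι] [DecidableEq ι] (J : ℕ)

/-- the index type of `H` -/
abbrev HI : Type := ι × Fin (J + 1)

/-- backward shift on `Fin (J+1) → ℂ` -/
abbrev sh : Matrix (Fin (J + 1)) (Fin (J + 1)) ℂ := F0Defs806.S (J + 1)

/-- backward shift `z^*` on `H` -/
abbrev bs : Matrix (HI ι J) (HI ι J) ℂ := F0Prod96.zS ι (J + 1)

theorem bs_def : bs ι J = (1 : Matrix ι ι ℂ) ⊗ₖ sh J := rfl

variable {ι}

/-- `p ⊗ 1` -/
def amp (p : Matrix ι ι ℂ) : Matrix (HI ι J) (HI ι J) ℂ := p ⊗ₖ (1 : Matrix _ _ ℂ)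

/-- `p ⊗ E_00` -/
def p0 (p : Matrix ι ι ℂ) : Matrix (HI ι J) (HI ι J) ℂ :=
  p ⊗ₖ (Matrix.single (0 : Fin (J + 1)) 0 (1 : ℂ))

/-- `γ_W = z P_W + (1 - P_W)` -/
def gam (p : Matrix ι ι ℂ) : Matrix (HI ι J) (HI ι J) ℂ := (bs ι J)ᴴ * amp J p + (1 - amp J p)

end defs

/-! ## operator identities -/

section ops

variable {ι : Type} [Fintype ι] [DecidableEq ι] {J : ℕ}

/-- projection to degree `0` -/
def E0 (ι : Type) [DecidableEq ι] (J : ℕ) : Matrix (HI ι J) (HI ι J) ℂ :=
  (1 : Matrix ι ι ℂ) ⊗ₖ (Matrix.single (0 : Fin (J + 1)) 0 (1 : ℂ))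

/-- projection to degree `J` -/
def EJ (ι : Type) [DecidableEq ι] (J : ℕ) : Matrix (HI ι J) (HI ι J) ℂ :=
  (1 : Matrix ι ι ℂ) ⊗ₖ (Matrix.single (Fin.last J) (Fin.last J) (1 : ℂ))

theorem sh_apply (x y : Fin (J + 1)) : sh J x y = if (x : ℕ) + 1 = y then 1 else 0 := by
  refine (F0Defs806.S_apply (J + 1) x y).trans ?_
  simp only [eq_comm]

theorem sh_mul_shH : sh J * (sh J)ᴴ = 1 - Matrix.single (Fin.last J) (Fin.last J) (1 : ℂ) := by
  ext x y
  rw [Matrix.mul_apply, Matrix.sub_apply, Matrix.one_apply, Matrix.single_apply]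
  simp only [conjTranspose_apply, sh_apply]
  by_cases hx : (x : ℕ) + 1 < J + 1
  · rw [Finset.sum_eq_single (⟨x + 1, hx⟩ : Fin (J + 1))]
    · have h1 : ¬ (Fin.last J = x ∧ Fin.last J = y) := by
        rintro ⟨h, -⟩; rw [← h] at hx; simp at hx
      rw [if_neg h1]
      by_cases hxy : x = y
      · subst hxy; simp
      · have : ¬ ((y : ℕ) = x) := fun h => hxy (Fin.ext h.symm)
        simp [hxy, this]
    · intro b _ hb
      have : ¬ ((x : ℕ) + 1 = b) := fun h => hb (Fin.ext h.symm)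
      simp [this]
    · simp
  · have hx' : x = Fin.last J := by
      apply Fin.ext; rw [Fin.val_last]; omega
    subst hx'
    rw [Finset.sum_eq_zero]
    · by_cases hxy : Fin.last J = y
      · simp [hxy]
      · simp [hxy]
    · intro b _
      have : ¬ ((Fin.last J : ℕ) + 1 = b) := by
        have := b.isLt; rw [Fin.val_last]; omega
      rw [if_neg this, zero_mul]

theorem shH_mul_sh : (sh J)ᴴ * sh J = 1 - Matrix.single (0 : Fin (J + 1)) 0 (1 : ℂ) := by
  ext x y
  rw [Matrix.mul_apply, Matrix.sub_apply, Matrix.one_apply, Matrix.single_apply]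
  simp only [conjTranspose_apply, sh_apply]
  by_cases hx : (x : ℕ) = 0
  · have hx' : x = 0 := Fin.ext hx
    subst hx'
    rw [Finset.sum_eq_zero]
    · by_cases hxy : (0 : Fin (J+1)) = y
      · simp [hxy]
      · simp [hxy]
    · intro b _
      simp
  · obtain ⟨k, hk⟩ : ∃ k, (x : ℕ) = k + 1 := Nat.exists_eq_succ_of_ne_zero hx
    have hk' : k < J + 1 := by have := x.isLt; omega
    rw [Finset.sum_eq_single (⟨k, hk'⟩ : Fin (J + 1))]
    · have h1 : ¬ ((0 : Fin (J + 1)) = x ∧ (0 : Fin (J + 1)) = y) := by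
        rintro ⟨h, -⟩; rw [← h] at hx; simp at hx
      rw [if_neg h1]
      by_cases hxy : x = y
      · subst hxy; simp [hk]
      · have : ¬ (k + 1 = (y : ℕ)) := fun h => hxy (Fin.ext (hk.trans h))
        simp [hxy, this]
    · intro b _ hb
      have : ¬ ((b : ℕ) + 1 = x) := fun h => hb (Fin.ext (by simpa using (by omega : (b : ℕ) = k)))
      simp [this]
    · simp

theorem single_last_mul_sh : Matrix.single (Fin.last J) (Fin.last J) (1 : ℂ) * sh J = 0 := by
  ext x y
  rw [Matrix.mul_apply]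
  simp only [Matrix.single_apply, sh_apply, Matrix.zero_apply]
  refine Finset.sum_eq_zero fun b _ => ?_
  by_cases h : Fin.last J = b
  · subst h
    have : ¬ ((Fin.last J : ℕ) + 1 = y) := by
      have := y.isLt; rw [Fin.val_last]; omega
    rw [if_neg this, mul_zero]
  · simp [h]

theorem sh_mul_single_zero (J : ℕ) :
    sh J * Matrix.single (0 : Fin (J + 1)) (0 : Fin (J + 1)) (1 : ℂ) = 0 := by
  ext x y
  rw [Matrix.mul_apply]
  simp only [Matrix.single_apply, sh_apply, Matrix.zero_apply]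
  refine Finset.sum_eq_zero fun b _ => ?_
  by_cases h : (0 : Fin (J+1)) = b
  · subst h
    simp
  · simp [h]

theorem sh_pow_apply (k : ℕ) (x y : Fin (J + 1)) :
    (sh J ^ k) x y = if (x : ℕ) + k = y then 1 else 0 := by
  induction k generalizing x y with
  | zero => simp [Matrix.one_apply, Fin.ext_iff]
  | succ k ih =>
    rw [pow_succ', Matrix.mul_apply]
    simp only [sh_apply, ih]
    by_cases hx : (x : ℕ) + 1 < J + 1
    · rw [Finset.sum_eq_single (⟨x + 1, hx⟩ : Fin (J + 1))]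
      · simp only [if_true]
        have : ((x : ℕ) + 1 + k = y) ↔ ((x : ℕ) + (k + 1) = y) := by omega
        simp [this]
      · intro b _ hb
        have : ¬ ((x : ℕ) + 1 = b) := fun h => hb (Fin.ext h.symm)
        simp [this]
      · simp
    · rw [Finset.sum_eq_zero]
      · have : ¬ ((x : ℕ) + (k + 1) = y) := by have := y.isLt; omega
        simp [this]
      · intro b _
        have : ¬ ((x : ℕ) + 1 = b) := by have := b.isLt; omega
        simp [this]

theorem single_last_eq : Matrix.single (Fin.last J) (Fin.last J) (1 : ℂ) =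
    Matrix.single (Fin.last J) 0 (1 : ℂ) * sh J ^ J := by
  ext x y
  rw [Matrix.mul_apply]
  simp only [Matrix.single_apply, sh_pow_apply]
  rw [Finset.sum_eq_single (0 : Fin (J + 1))]
  · by_cases hx : Fin.last J = x
    · by_cases hy : Fin.last J = y
      · subst hx; subst hy; simp
      · have : ¬ (J = (y : ℕ)) := fun h => hy (Fin.ext (by simpa using h))
        simp [hy, this]
    · simp [hx]
  · intro b _ hb
    simp [hb.symm]
  · simp

/-! ### identities on `H` -/

theorem kronecker_sub' {l m n o : Type*} (A : Matrix l m ℂ) (B C : Matrix n o ℂ) :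
    A ⊗ₖ (B - C) = A ⊗ₖ B - A ⊗ₖ C := by
  ext x y
  simp [Matrix.kroneckerMap_apply, mul_sub]

theorem bs_mul_bsH : bs ι J * (bs ι J)ᴴ = 1 - EJ ι J := by
  rw [bs_def, EJ, conjTranspose_kronecker, ← mul_kronecker_mul, sh_mul_shH]
  simp [kronecker_sub']

theorem bsH_mul_bs : (bs ι J)ᴴ * bs ι J = 1 - E0 ι J := by
  rw [bs_def, E0, conjTranspose_kronecker, ← mul_kronecker_mul, shH_mul_sh]
  simp [kronecker_sub']

theorem EJ_mul_bs : EJ ι J * bs ι J = 0 := by
  rw [bs_def, EJ, ← mul_kronecker_mul, single_last_mul_sh, kronecker_zero]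

theorem bs_mul_E0 : bs ι J * E0 ι J = 0 := by
  rw [bs_def, E0, ← mul_kronecker_mul]
  exact (congrArg _ (sh_mul_single_zero J)).trans (kronecker_zero _)

theorem E0_herm : (E0 ι J)ᴴ = E0 ι J := by
  rw [E0, conjTranspose_kronecker]; simp

theorem EJ_herm : (EJ ι J)ᴴ = EJ ι J := by
  rw [EJ, conjTranspose_kronecker]; simp

theorem E0_idem : E0 ι J * E0 ι J = E0 ι J := by
  rw [E0, ← mul_kronecker_mul]; simp


theorem E0_mul_bsH : E0 ι J * (bs ι J)ᴴ = 0 := by
  rw [← E0_herm, ← conjTranspose_mul, bs_mul_E0, conjTranspose_zero]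


theorem bs_mul_amp (p : Matrix ι ι ℂ) : bs ι J * amp J p = amp J p * bs ι J := by
  rw [bs_def, amp, ← mul_kronecker_mul, ← mul_kronecker_mul]; simp

theorem E0_mul_amp (p : Matrix ι ι ℂ) : E0 ι J * amp J p = amp J p * E0 ι J := by
  rw [E0, amp, ← mul_kronecker_mul, ← mul_kronecker_mul]; simp

theorem EJ_mul_amp (p : Matrix ι ι ℂ) : EJ ι J * amp J p = amp J p * EJ ι J := by
  rw [EJ, amp, ← mul_kronecker_mul, ← mul_kronecker_mul]; simp

theorem bsH_mul_amp (p : Matrix ι ι ℂ) : (bs ι J)ᴴ * amp J p = amp J p * (bs ι J)ᴴ := by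
  rw [bs_def, amp, conjTranspose_kronecker, ← mul_kronecker_mul, ← mul_kronecker_mul]; simp

theorem p0_eq (p : Matrix ι ι ℂ) : p0 J p = amp J p * E0 ι J := by
  rw [p0, amp, E0, ← mul_kronecker_mul]; simp

theorem amp_idem {p : Matrix ι ι ℂ} (hp : IsPr p) : amp J p * amp J p = amp J p := by
  rw [amp, ← mul_kronecker_mul, hp.idem]; simp

theorem amp_herm {p : Matrix ι ι ℂ} (hp : IsPr p) : (amp J p)ᴴ = amp J p := by
  rw [amp, conjTranspose_kronecker, hp.herm]; simp

/-- the rewriting system -/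
theorem reass {m : Type*} [Fintype m] {A B C : Matrix m m ℂ} (h : A * B = C) (D : Matrix m m ℂ) :
    A * (B * D) = C * D := by rw [← Matrix.mul_assoc, h]

theorem gamH {p : Matrix ι ι ℂ} (hp : IsPr p) :
    (gam J p)ᴴ = amp J p * bs ι J + (1 - amp J p) := by
  rw [gam, conjTranspose_add, conjTranspose_mul, conjTranspose_conjTranspose, conjTranspose_sub,
    conjTranspose_one, amp_herm hp]

theorem gam_eq (p : Matrix ι ι ℂ) :
    gam J p = amp J p * (bs ι J)ᴴ + (1 - amp J p) := by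
  rw [gam, bsH_mul_amp]

theorem gamH_mul_gam {p : Matrix ι ι ℂ} (hp : IsPr p) :
    (gam J p)ᴴ * gam J p = 1 - amp J p * EJ ι J := by
  rw [gamH hp, gam_eq]
  simp only [Matrix.mul_add, Matrix.add_mul, Matrix.mul_sub, Matrix.sub_mul, Matrix.mul_one,
    Matrix.one_mul, Matrix.mul_assoc, reass (bs_mul_amp p), bs_mul_amp p, reass (amp_idem hp),
    amp_idem hp, bs_mul_bsH]
  abel

theorem gam_mul_gamH {p : Matrix ι ι ℂ} (hp : IsPr p) :
    gam J p * (gam J p)ᴴ = 1 - p0 J p := by
  rw [gamH hp, gam_eq, p0_eq]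
  simp only [Matrix.mul_add, Matrix.add_mul, Matrix.mul_sub, Matrix.sub_mul, Matrix.mul_one,
    Matrix.one_mul, Matrix.mul_assoc, reass (bsH_mul_amp p), bsH_mul_amp p, reass (amp_idem hp),
    amp_idem hp, bsH_mul_bs]
  abel

theorem bs_mul_gam (p : Matrix ι ι ℂ) :
    bs ι J * gam J p = gam J p * bs ι J + p0 J p - amp J p * EJ ι J := by
  rw [gam_eq, p0_eq]
  simp only [Matrix.mul_add, Matrix.add_mul, Matrix.mul_sub, Matrix.sub_mul, Matrix.mul_one,
    Matrix.one_mul, Matrix.mul_assoc, reass (bs_mul_amp p), bs_mul_amp p, bs_mul_bsH, bsH_mul_bs]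
  abel

theorem bs_mul_gamH {p : Matrix ι ι ℂ} (hp : IsPr p) :
    bs ι J * (gam J p)ᴴ = (gam J p)ᴴ * bs ι J := by
  rw [gamH hp]
  simp only [Matrix.mul_add, Matrix.add_mul, Matrix.mul_sub, Matrix.sub_mul, Matrix.mul_one,
    Matrix.one_mul, Matrix.mul_assoc, reass (bs_mul_amp p), bs_mul_amp p]

theorem p0_herm {p : Matrix ι ι ℂ} (hp : IsPr p) : (p0 J p)ᴴ = p0 J p := by
  rw [p0_eq, conjTranspose_mul, E0_herm, amp_herm hp, E0_mul_amp]

theorem p0_idem {p : Matrix ι ι ℂ} (hp : IsPr p) : p0 J p * p0 J p = p0 J p := by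
  rw [p0_eq]
  simp only [Matrix.mul_assoc, reass (E0_mul_amp p), reass (amp_idem hp), E0_idem]

theorem p0_mul_gam {p : Matrix ι ι ℂ} (hp : IsPr p) : p0 J p * gam J p = 0 := by
  rw [p0_eq, gam_eq]
  simp only [Matrix.mul_add, Matrix.add_mul, Matrix.mul_sub, Matrix.sub_mul, Matrix.mul_one,
    Matrix.one_mul, Matrix.mul_assoc, reass (E0_mul_amp p), E0_mul_amp p, reass (amp_idem hp),
    E0_mul_bsH, Matrix.mul_zero]
  abel

theorem gamH_mul_p0 {p : Matrix ι ι ℂ} (hp : IsPr p) : (gam J p)ᴴ * p0 J p = 0 := by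
  rw [← p0_herm hp, ← conjTranspose_mul, p0_mul_gam hp, conjTranspose_zero]

theorem bs_mul_p0 (p : Matrix ι ι ℂ) : bs ι J * p0 J p = 0 := by
  rw [p0_eq, ← Matrix.mul_assoc, bs_mul_amp, Matrix.mul_assoc, bs_mul_E0, Matrix.mul_zero]


theorem trace_p0 (p : Matrix ι ι ℂ) : (p0 J p).trace = p.trace := by
  rw [p0, trace_kronecker]; simp

end ops

end Crest.Agent.R090.F0_933
end

-- ▼ part R090/F0Emb_933
section

/-!
# Row 90, leaf F0: the product and the closed embedding at a fixed `W` (owner helper933)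

For a projection `p` of rank `s` of `ℂ^ι` and `j ≤ J`,
`(a, (P, v)) ↦ (p₀ + γ P γᴴ, a₀ + γ v)` is a homeomorphism from
`{a // p a = a} × V (bs ι J) A j` onto the closed subspace `{P p₀ = p₀}` of `V (bs ι J) A (j + s)`.
-/

set_option autoImplicit false
set_option linter.unusedSectionVars false
set_option linter.unusedSimpArgs false
set_option linter.unusedVariables false

open Topology Filter Set Matrix
open scoped Kronecker
open Crest.Agent.R090.F0Defs806 (IsV V continuous_mk continuous_val)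

namespace Crest.Agent.R090.F0_933

variable {ι : Type} [Fintype ι] [DecidableEq ι] {J : ℕ} {A : Type}

theorem bs_eq : bs ι J = (1 : Matrix ι ι ℂ) ⊗ₖ F0Defs806.S (J + 1) := rfl

theorem bs_pow (k : ℕ) : bs ι J ^ k = (1 : Matrix ι ι ℂ) ⊗ₖ (sh J ^ k) := by
  induction k with
  | zero => simp
  | succ k ih =>
    rw [pow_succ, ih, bs_def, ← mul_kronecker_mul, pow_succ, Matrix.one_mul]

theorem bs_pow_zero : bs ι J ^ (J + 1) = 0 := by
  rw [bs_pow]
  have : sh J ^ (J + 1) = 0 := by
    ext x y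
    rw [sh_pow_apply, if_neg]
    · rfl
    · have := y.isLt; omega
  rw [this, kronecker_zero]

theorem EJ_eq : EJ ι J = ((1 : Matrix ι ι ℂ) ⊗ₖ (Matrix.single (Fin.last J) (0 : Fin (J + 1)) (1 : ℂ))) *
    bs ι J ^ J := by
  rw [bs_pow, EJ, ← mul_kronecker_mul, ← single_last_eq, Matrix.one_mul]

/-- in rank `≤ J` the top degree does not occur -/
theorem EJ_mul {j : ℕ} (hj : j ≤ J) {P : Matrix (HI ι J) (HI ι J) ℂ} {v : Matrix (HI ι J) A ℂ}
    (H : IsV (bs ι J) j P v) : EJ ι J * P = 0 := by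
  have h1 : bs ι J ^ j * P = 0 := H.pow_mul_eq_zero bs_pow_zero
  have h2 : bs ι J ^ J * P = 0 := by
    have h3 : bs ι J ^ J = bs ι J ^ (J - j) * bs ι J ^ j := by
      rw [← pow_add]; congr 1; omega
    rw [h3, Matrix.mul_assoc, h1, Matrix.mul_zero]
  rw [EJ_eq, Matrix.mul_assoc, h2, Matrix.mul_zero]

theorem mul_EJ {j : ℕ} (hj : j ≤ J) {P : Matrix (HI ι J) (HI ι J) ℂ} {v : Matrix (HI ι J) A ℂ}
    (H : IsV (bs ι J) j P v) : P * EJ ι J = 0 := by
  have := congrArg conjTranspose (EJ_mul hj H)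
  rwa [conjTranspose_mul, H.herm, EJ_herm, conjTranspose_zero] at this

theorem EJ_mul_vec {j : ℕ} (hj : j ≤ J) {P : Matrix (HI ι J) (HI ι J) ℂ}
    {v : Matrix (HI ι J) A ℂ} (H : IsV (bs ι J) j P v) : EJ ι J * v = 0 := by
  rw [← H.vec, ← Matrix.mul_assoc, EJ_mul hj H, Matrix.zero_mul]

/-- inclusion of degree `0` -/
def inj0 (ι : Type) [DecidableEq ι] (J : ℕ) : Matrix (HI ι J) ι ℂ :=
  Matrix.of fun x k => if x.1 = k ∧ x.2 = 0 then 1 else 0

theorem inj0_apply (x : HI ι J) (k : ι) : inj0 ι J x k = if x.1 = k ∧ x.2 = 0 then 1 else 0 := rfl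

theorem inj0H_mul_inj0 : (inj0 ι J)ᴴ * inj0 ι J = 1 := by
  ext x y
  rw [Matrix.mul_apply, Fintype.sum_prod_type]
  simp only [conjTranspose_apply, inj0_apply, Matrix.one_apply]
  rw [Finset.sum_eq_single x]
  · rw [Finset.sum_eq_single (0 : Fin (J + 1))]
    · simp
    · intro b _ hb; simp [hb]
    · simp
  · intro b _ hb; simp [hb]
  · simp

theorem inj0_mul_inj0H : inj0 ι J * (inj0 ι J)ᴴ = E0 ι J := by
  ext x y
  rw [Matrix.mul_apply, E0, kroneckerMap_apply]
  simp only [conjTranspose_apply, inj0_apply, Matrix.one_apply, Matrix.single_apply]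
  rw [Finset.sum_eq_single x.1]
  · by_cases h1 : x.1 = y.1 <;> by_cases h2 : x.2 = 0 <;> by_cases h3 : y.2 = 0 <;>
      simp [h1, h2, h3, eq_comm]
  · intro b _ hb; simp [hb.symm]
  · simp

theorem amp_mul_inj0 (p : Matrix ι ι ℂ) : amp J p * inj0 ι J = inj0 ι J * p := by
  ext x y
  rw [Matrix.mul_apply, Matrix.mul_apply, Fintype.sum_prod_type]
  simp only [amp, kroneckerMap_apply, inj0_apply, Matrix.one_apply]
  rw [Finset.sum_eq_single y, Finset.sum_eq_single x.1, Finset.sum_eq_single x.2]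
  · simp
  · intro b _ hb; simp [hb.symm]
  · simp
  · intro b _ hb; simp [hb.symm]
  · simp
  · intro b _ hb; simp [hb]
  · simp

theorem bs_mul_inj0 : bs ι J * inj0 ι J = 0 := by
  have h1 : inj0 ι J = E0 ι J * inj0 ι J := by
    rw [← inj0_mul_inj0H, Matrix.mul_assoc, inj0H_mul_inj0, Matrix.mul_one]
  rw [h1, ← Matrix.mul_assoc, bs_mul_E0, Matrix.zero_mul]

theorem p0_eq' (p : Matrix ι ι ℂ) : p0 J p = inj0 ι J * (p * (inj0 ι J)ᴴ) := by
  rw [p0_eq, ← inj0_mul_inj0H, ← Matrix.mul_assoc, amp_mul_inj0, Matrix.mul_assoc]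

theorem p0_mul_inj0 (p : Matrix ι ι ℂ) : p0 J p * inj0 ι J = inj0 ι J * p := by
  rw [p0_eq', Matrix.mul_assoc, Matrix.mul_assoc, inj0H_mul_inj0, Matrix.mul_one]

theorem gamH_mul_inj0 {p : Matrix ι ι ℂ} (hp : IsPr p) :
    (gam J p)ᴴ * inj0 ι J = inj0 ι J * (1 - p) := by
  rw [gamH hp]
  simp only [Matrix.mul_add, Matrix.add_mul, Matrix.mul_sub, Matrix.sub_mul, Matrix.mul_one,
    Matrix.one_mul, Matrix.mul_assoc, bs_mul_inj0, amp_mul_inj0, Matrix.mul_zero, zero_add]

theorem inj0H_mul_gam {p : Matrix ι ι ℂ} (hp : IsPr p) :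
    (inj0 ι J)ᴴ * gam J p = (1 - p) * (inj0 ι J)ᴴ := by
  have := congrArg conjTranspose (gamH_mul_inj0 (J := J) hp)
  rw [conjTranspose_mul, conjTranspose_conjTranspose, conjTranspose_mul, conjTranspose_sub,
    conjTranspose_one, hp.herm] at this
  exact this

/-! ### the product -/

/-- the product on projections -/
def prodP (J : ℕ) (p : Matrix ι ι ℂ) (P : Matrix (HI ι J) (HI ι J) ℂ) :
    Matrix (HI ι J) (HI ι J) ℂ :=
  p0 J p + gam J p * (P * (gam J p)ᴴ)

/-- the product on vectors -/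
def prodV (J : ℕ) (p : Matrix ι ι ℂ) (a : Matrix ι A ℂ) (v : Matrix (HI ι J) A ℂ) :
    Matrix (HI ι J) A ℂ :=
  inj0 ι J * a + gam J p * v

/-- right associated rewriting rules -/
theorem rr {k l m n : Type*} [Fintype l] [Fintype m] {A : Matrix k l ℂ} {B : Matrix l m ℂ}
    {C : Matrix k m ℂ} (h : A * B = C) (D : Matrix m n ℂ) : A * (B * D) = C * D := by
  rw [← Matrix.mul_assoc, h]

theorem isV_prod {j s : ℕ} (hj : j ≤ J) {p : Matrix ι ι ℂ} (hp : IsPr p) (hs : p.trace = s)
    {a : Matrix ι A ℂ} (ha : p * a = a) {P : Matrix (HI ι J) (HI ι J) ℂ}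
    {v : Matrix (HI ι J) A ℂ} (H : IsV (bs ι J) j P v) :
    IsV (bs ι J) (j + s) (prodP J p P) (prodV J p a v) := by
  have h1 := EJ_mul hj H
  have h2 := mul_EJ hj H
  have hg : (gam J p)ᴴ * (gam J p * P) = P := by
    rw [← Matrix.mul_assoc, gamH_mul_gam hp, Matrix.sub_mul, Matrix.one_mul, Matrix.mul_assoc, h1,
      Matrix.mul_zero, sub_zero]
  have hgv : (gam J p)ᴴ * (gam J p * v) = v := by
    rw [← Matrix.mul_assoc, gamH_mul_gam hp, Matrix.sub_mul, Matrix.one_mul, Matrix.mul_assoc,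
      EJ_mul_vec hj H, Matrix.mul_zero, sub_zero]
  have hg' : (gam J p)ᴴ * (gam J p * (bs ι J * P)) = bs ι J * P := by
    rw [← Matrix.mul_assoc, gamH_mul_gam hp, Matrix.sub_mul, Matrix.one_mul, Matrix.mul_assoc,
      ← Matrix.mul_assoc (EJ ι J), EJ_mul_bs, Matrix.zero_mul, Matrix.mul_zero, sub_zero]
  have hb : bs ι J * (gam J p * P) = gam J p * (bs ι J * P) + p0 J p * P := by
    rw [← Matrix.mul_assoc, bs_mul_gam, Matrix.sub_mul, Matrix.add_mul, Matrix.mul_assoc,
      Matrix.mul_assoc (amp J p), h1, Matrix.mul_zero, sub_zero]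
  have e1 : ∀ {n : Type} (X : Matrix (HI ι J) n ℂ),
      (gam J p)ᴴ * (gam J p * (P * X)) = P * X := by
    intro n X
    rw [← Matrix.mul_assoc (gam J p), ← Matrix.mul_assoc, hg]
  have e2 : ∀ {n : Type} (X : Matrix (HI ι J) n ℂ),
      (gam J p)ᴴ * (gam J p * (bs ι J * (P * X))) = bs ι J * (P * X) := by
    intro n X
    have := congrArg (· * X) hg'
    simpa only [Matrix.mul_assoc] using this
  have e3 : ∀ {n : Type} (X : Matrix (HI ι J) n ℂ),
      bs ι J * (gam J p * (P * X)) = gam J p * (bs ι J * (P * X)) + p0 J p * (P * X) := by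
    intro n X
    have := congrArg (· * X) hb
    simpa only [Matrix.mul_assoc, Matrix.add_mul] using this
  have e4 : ∀ {n : Type} (X : Matrix (HI ι J) n ℂ),
      P * (bs ι J * (P * X)) = bs ι J * (P * X) := by
    intro n X
    have := congrArg (· * X) H.inv
    simpa only [Matrix.mul_assoc, Matrix.add_mul] using this
  refine ⟨?_, ?_, ?_, ?_, ?_⟩
  · rw [prodP, conjTranspose_add, p0_herm hp, conjTranspose_mul, conjTranspose_mul,
      conjTranspose_conjTranspose, H.herm, Matrix.mul_assoc]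
  · rw [prodP]
    simp only [Matrix.mul_add, Matrix.add_mul, Matrix.mul_assoc, p0_idem hp, gamH_mul_p0 hp,
      Matrix.mul_zero, add_zero, rr (p0_mul_gam hp), Matrix.zero_mul, zero_add, e1,
      rr H.idem]
  · rw [prodP, Matrix.trace_add, trace_p0, hs, Matrix.trace_mul_comm, Matrix.mul_assoc,
      gamH_mul_gam hp, Matrix.mul_sub, Matrix.mul_one, ← EJ_mul_amp, ← Matrix.mul_assoc, h2,
      Matrix.zero_mul, sub_zero, H.tr]
    push_cast
    ring
  · rw [prodP]
    simp only [Matrix.mul_add, Matrix.add_mul, Matrix.mul_assoc, p0_idem hp, gamH_mul_p0 hp,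
      Matrix.mul_zero, add_zero, rr (p0_mul_gam hp), Matrix.zero_mul, zero_add, e1, e3, e2, e4,
      rr H.idem, bs_mul_p0, rr (p0_idem hp), rr (gamH_mul_p0 hp)]
  · rw [prodP, prodV]
    simp only [Matrix.mul_add, Matrix.add_mul, Matrix.mul_assoc, rr (p0_mul_inj0 (J := J) p),
      rr (p0_mul_gam hp), Matrix.zero_mul, add_zero, rr (gamH_mul_inj0 (J := J) hp), hgv, H.vec,
      ha, Matrix.sub_mul, Matrix.one_mul, sub_self, Matrix.mul_zero, zero_add]

/-- the inverse construction -/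
theorem isV_res {j s : ℕ} {p : Matrix ι ι ℂ} (hp : IsPr p) (hs : p.trace = s)
    {P : Matrix (HI ι J) (HI ι J) ℂ} {v : Matrix (HI ι J) A ℂ} (H : IsV (bs ι J) (j + s) P v)
    (hP : P * p0 J p = p0 J p) :
    IsV (bs ι J) j ((gam J p)ᴴ * (P * gam J p)) ((gam J p)ᴴ * v) := by
  have hP' : p0 J p * P = p0 J p := by
    have := congrArg conjTranspose hP
    rwa [conjTranspose_mul, H.herm, p0_herm hp] at this
  have k1 : gam J p * (gam J p)ᴴ = 1 - p0 J p := gam_mul_gamH hp
  have k3 : (gam J p)ᴴ * p0 J p = 0 := gamH_mul_p0 hp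
  refine ⟨?_, ?_, ?_, ?_, ?_⟩
  · rw [conjTranspose_mul, conjTranspose_mul, conjTranspose_conjTranspose, H.herm,
      Matrix.mul_assoc]
  · simp only [Matrix.mul_assoc, rr k1, Matrix.sub_mul, Matrix.one_mul, rr H.idem,
      Matrix.mul_sub, rr hP', rr hP, rr k3, Matrix.zero_mul, sub_zero]
  · rw [← Matrix.mul_assoc, Matrix.trace_mul_comm, ← Matrix.mul_assoc, k1, Matrix.sub_mul,
      Matrix.one_mul, hP', Matrix.trace_sub, H.tr, trace_p0, hs]
    push_cast
    ring
  · have k4 : bs ι J * (gam J p)ᴴ = (gam J p)ᴴ * bs ι J := bs_mul_gamH hp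
    have e4 : ∀ {n : Type} (X : Matrix (HI ι J) n ℂ),
        P * (bs ι J * (P * X)) = bs ι J * (P * X) := by
      intro n X
      have := congrArg (· * X) H.inv
      simpa only [Matrix.mul_assoc, Matrix.add_mul] using this
    simp only [Matrix.mul_assoc, rr k4, rr k1, Matrix.sub_mul, Matrix.one_mul, Matrix.mul_sub,
      rr hP, rr k3, Matrix.zero_mul, sub_zero, e4]
  · simp only [Matrix.mul_assoc, rr k1, Matrix.sub_mul, Matrix.one_mul, H.vec,
      Matrix.mul_sub, rr hP, rr k3, Matrix.zero_mul, sub_zero]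


theorem continuous_gam : Continuous (gam J : Matrix ι ι ℂ → _) := by
  unfold gam amp
  refine Continuous.add ?_ ?_
  · refine continuous_const.matrix_mul ?_
    refine continuous_matrix fun x y => ?_
    simp only [kroneckerMap_apply]
    exact (continuous_id.matrix_elem _ _).mul continuous_const
  · refine continuous_const.sub ?_
    refine continuous_matrix fun x y => ?_
    simp only [kroneckerMap_apply]
    exact (continuous_id.matrix_elem _ _).mul continuous_const

theorem continuous_p0 : Continuous (p0 J : Matrix ι ι ℂ → _) := by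
  unfold p0
  refine continuous_matrix fun x y => ?_
  simp only [kroneckerMap_apply]
  exact (continuous_id.matrix_elem _ _).mul continuous_const

variable (A) in
/-- vectors in `W` -/
abbrev WV (p : Matrix ι ι ℂ) : Type := {a : Matrix ι A ℂ // p * a = a}

/-- **the closed embedding at a fixed `W = im p`** -/
noncomputable def embHomeo {j s : ℕ} (hj : j ≤ J) {p : Matrix ι ι ℂ} (hp : IsPr p)
    (hs : p.trace = s) :
    WV A p × V (bs ι J) A j ≃ₜ {x : V (bs ι J) A (j + s) // x.1.1 * p0 J p = p0 J p} where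
  toFun x := ⟨⟨(prodP J p x.2.1.1, prodV J p x.1.1 x.2.1.2), isV_prod hj hp hs x.1.2 x.2.2⟩, by
    change prodP J p x.2.1.1 * p0 J p = p0 J p
    rw [prodP]
    simp only [Matrix.add_mul, Matrix.mul_assoc, p0_idem hp, gamH_mul_p0 hp, Matrix.mul_zero,
      add_zero]⟩
  invFun y := (⟨p * ((inj0 ι J)ᴴ * y.1.1.2), by rw [← Matrix.mul_assoc, hp.idem]⟩,
    ⟨((gam J p)ᴴ * (y.1.1.1 * gam J p), (gam J p)ᴴ * y.1.1.2), isV_res hp hs y.1.2 y.2⟩)
  left_inv x := by
    obtain ⟨⟨a, ha⟩, ⟨⟨P, v⟩, H⟩⟩ := x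
    have h1 := EJ_mul hj H
    have h2 := mul_EJ hj H
    have h3 := EJ_mul_vec hj H
    have hgg : (gam J p)ᴴ * gam J p = 1 - amp J p * EJ ι J := gamH_mul_gam hp
    refine Prod.ext (Subtype.ext ?_) (V.ext ?_ ?_)
    · change p * ((inj0 ι J)ᴴ * prodV J p a v) = a
      rw [prodV]
      simp only [Matrix.mul_add, Matrix.add_mul, Matrix.mul_assoc, rr (inj0H_mul_inj0 (J := J)),
        rr (inj0H_mul_gam (J := J) hp), Matrix.one_mul, Matrix.sub_mul, Matrix.mul_sub,
        rr hp.idem, ha, sub_self, add_zero]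
    · change (gam J p)ᴴ * (prodP J p P * gam J p) = P
      have q1 : P * ((gam J p)ᴴ * gam J p) = P := by
        rw [hgg, ← EJ_mul_amp, Matrix.mul_sub, Matrix.mul_one, ← Matrix.mul_assoc]
        change P - P * EJ ι J * amp J p = P
        rw [h2, Matrix.zero_mul, sub_zero]
      have q2 : (gam J p)ᴴ * (gam J p * P) = P := by
        rw [rr hgg, Matrix.sub_mul, Matrix.one_mul, Matrix.mul_assoc]
        change P - amp J p * (EJ ι J * P) = P
        rw [h1, Matrix.mul_zero, sub_zero]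
      rw [prodP]
      simp only [Matrix.mul_add, Matrix.add_mul, Matrix.mul_assoc, p0_mul_gam hp, Matrix.mul_zero,
        zero_add, q1, q2]
    · change (gam J p)ᴴ * prodV J p a v = v
      rw [prodV]
      simp only [Matrix.mul_add, Matrix.add_mul, Matrix.mul_assoc, rr (gamH_mul_inj0 (J := J) hp),
        rr hgg, Matrix.sub_mul, Matrix.one_mul, ha, sub_self, Matrix.mul_zero, zero_add, h3,
        sub_zero]
  right_inv y := by
    obtain ⟨⟨⟨P, v⟩, H⟩, hP⟩ := y
    change P * p0 J p = p0 J p at hP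
    have hP' : p0 J p * P = p0 J p := by
      have := congrArg conjTranspose hP
      rwa [conjTranspose_mul, H.herm, p0_herm hp] at this
    have k1 : gam J p * (gam J p)ᴴ = 1 - p0 J p := gam_mul_gamH hp
    refine Subtype.ext (V.ext ?_ ?_)
    · change prodP J p ((gam J p)ᴴ * (P * gam J p)) = P
      rw [prodP]
      simp only [Matrix.mul_add, Matrix.add_mul, Matrix.mul_assoc, k1, rr k1, Matrix.sub_mul,
        Matrix.one_mul, Matrix.mul_sub, Matrix.mul_one, hP, rr hP, hP', p0_idem hp, sub_self,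
        sub_zero]
      abel
    · change prodV J p (p * ((inj0 ι J)ᴴ * v)) ((gam J p)ᴴ * v) = v
      rw [prodV, rr k1, Matrix.sub_mul, Matrix.one_mul, p0_eq']
      simp only [Matrix.mul_assoc]
      abel
  continuous_toFun := by
    refine Continuous.subtype_mk (continuous_mk ?_ ?_) _
    · refine continuous_const.add (continuous_const.matrix_mul (Continuous.matrix_mul ?_
        continuous_const))
      exact continuous_fst.comp ((continuous_val _ _).comp continuous_snd)
    · refine Continuous.add (continuous_const.matrix_mul ?_) (continuous_const.matrix_mul ?_)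
      · exact continuous_subtype_val.comp continuous_fst
      · exact continuous_snd.comp ((continuous_val _ _).comp continuous_snd)
  continuous_invFun := by
    have h1 : Continuous fun y : {x : V (bs ι J) A (j + s) // x.1.1 * p0 J p = p0 J p} =>
        y.1.1 := (continuous_val _ _).comp continuous_subtype_val
    refine Continuous.prodMk (Continuous.subtype_mk ?_ _) (continuous_mk ?_ ?_)
    · exact continuous_const.matrix_mul (continuous_const.matrix_mul (continuous_snd.comp h1))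
    · exact continuous_const.matrix_mul ((continuous_fst.comp h1).matrix_mul continuous_const)
    · exact continuous_const.matrix_mul (continuous_snd.comp h1)

theorem isClosed_emb {j : ℕ} (p : Matrix ι ι ℂ) :
    IsClosed {x : V (bs ι J) A j | x.1.1 * p0 J p = p0 J p} :=
  isClosed_eq ((continuous_fst.comp (continuous_val _ _)).matrix_mul continuous_const)
    continuous_const

end Crest.Agent.R090.F0_933
end

-- ▼ part R090/F0Cells_933
section

/-!
# Row 90, leaf F0: cells of `V^{(A)}_{n,j}` and of the complement of the fibre over `W` (helper933)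
-/

set_option autoImplicit false
set_option linter.unusedSectionVars false
set_option linter.unusedSimpArgs false
set_option linter.unusedVariables false

open Topology Filter Set Matrix
open scoped Kronecker ComplexOrder
open Crest.Agent.R090.F0Defs806 (IsV V continuous_mk continuous_val)

namespace Crest.Agent.R090.F0_933

variable {ι : Type} [Fintype ι] [DecidableEq ι] {J : ℕ} {A : Type}

/-- the coordinate projection onto `ℂ^S` -/
def pS (S : Finset ι) : Matrix ι ι ℂ := Matrix.diagonal fun i => if i ∈ S then 1 else 0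

theorem isPr_pS (S : Finset ι) : IsPr (pS S) := by
  refine ⟨?_, ?_⟩
  · rw [pS, diagonal_mul_diagonal]
    congr 1; funext i
    by_cases h : i ∈ S <;> simp [h]
  · rw [pS, diagonal_conjTranspose]
    congr 1; funext i
    by_cases h : i ∈ S <;> simp [h]

theorem trace_pS (S : Finset ι) : (pS S).trace = (S.card : ℂ) := by
  rw [pS, trace_diagonal, Finset.sum_ite_mem]
  simp

theorem pS_mul_of_disjoint {S T : Finset ι} (h : Disjoint S T) : pS S * pS T = 0 := by
  rw [pS, pS, diagonal_mul_diagonal, ← diagonal_zero]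
  congr 1; funext i
  by_cases h1 : i ∈ S
  · have : i ∉ T := Finset.disjoint_left.1 h h1
    simp [this]
  · simp [h1]

theorem pS_insert {k : ι} {S : Finset ι} (h : k ∉ S) : pS (insert k S) = pS {k} + pS S := by
  rw [pS, pS, pS, diagonal_add]
  congr 1; funext i
  by_cases h1 : i = k
  · subst h1; simp [h]
  · simp [h1]

theorem p0_add (p q : Matrix ι ι ℂ) : p0 J (p + q) = p0 J p + p0 J q := by
  rw [p0, p0, p0, add_kronecker]

/-- the fibre `{a : A → ℂ^ι | p_S a = a}` is `ℂ^(A × S)` -/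
def wvHomeo (S : Finset ι) : WV A (pS S) ≃ₜ (S × A → ℂ) where
  toFun a x := a.1 x.1 x.2
  invFun f := ⟨Matrix.of fun i α => if h : i ∈ S then f (⟨i, h⟩, α) else 0, by
    ext i α
    rw [pS, diagonal_mul]
    by_cases h : i ∈ S <;> simp [h]⟩
  left_inv a := by
    obtain ⟨a, ha⟩ := a
    apply Subtype.ext
    ext i α
    simp only [Matrix.of_apply]
    by_cases h : i ∈ S
    · simp [h]
    · rw [← ha, pS, diagonal_mul]
      simp [h]
  right_inv f := by
    funext x
    obtain ⟨⟨i, hi⟩, α⟩ := x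
    simp [hi]
  continuous_toFun := by
    refine continuous_pi fun x => ?_
    exact (continuous_subtype_val (p := fun a : Matrix ι A ℂ => pS S * a = a)).matrix_elem _ _
  continuous_invFun := by
    refine Continuous.subtype_mk (continuous_matrix fun i α => ?_) _
    simp only [Matrix.of_apply]
    by_cases h : i ∈ S
    · simp only [h, dif_pos]
      exact continuous_apply _
    · simp only [h, dif_neg, not_false_iff]
      exact continuous_const

/-- any finite power of `ℂ` -/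
theorem exists_finHomeo (T : Type) [Finite T] : ∃ k, Nonempty ((T → ℂ) ≃ₜ (Fin k → ℂ)) := by
  obtain ⟨k, ⟨e⟩⟩ := Finite.exists_equiv_fin T
  exact ⟨k, ⟨Homeomorph.piCongrLeft (Y := fun _ => ℂ) e⟩⟩

/-- the closed condition `W ⊆ K` -/
def Cl (J : ℕ) (A : Type) (p : Matrix ι ι ℂ) (j : ℕ) : Set (V (bs ι J) A j) :=
  {x | x.1.1 * p0 J p = p0 J p}

theorem isClosed_Cl (p : Matrix ι ι ℂ) (j : ℕ) : IsClosed (Cl J A p j) := isClosed_emb p

/-- input OPEN: the open part `{e_k ∉ K}` -/
def OpenPart : Prop := ∀ (ι : Type) [Fintype ι] [DecidableEq ι] (k : ι) (J : ℕ) (A : Type)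
  [Fintype A] (j : ℕ), ∃ (B : Type) (_ : Fintype B),
    Nonempty (((Cl J A (pS {k}) j)ᶜ : Set (V (bs ι J) A j)) ≃ₜ V (bs {i : ι // i ≠ k} J) B j)

/-- rank zero -/
theorem hasCells_zero (A : Type) : HasCells (V (bs ι J) A 0) 1 := by
  have key : ∀ x : V (bs ι J) A 0, x.1.1 = 0 := by
    intro x
    have h1 : ((x.1.1)ᴴ * x.1.1).trace = 0 := by
      rw [x.2.herm, x.2.idem, x.2.tr]; simp
    exact (trace_conjTranspose_mul_self_eq_zero_iff).1 h1
  have key2 : ∀ x : V (bs ι J) A 0, x.1.2 = 0 := by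
    intro x
    rw [← x.2.vec, key x, Matrix.zero_mul]
  have pt : V (bs ι J) A 0 := ⟨(0, 0), ⟨by simp, by simp, by simp, by simp, by simp⟩⟩
  refine HasCells.cell _ 0 ?_
  refine { toFun := fun _ => 0, invFun := fun _ => pt, left_inv := ?_, right_inv := ?_,
           continuous_toFun := continuous_const, continuous_invFun := continuous_const }
  · intro x
    exact V.ext ((key pt).trans (key x).symm) ((key2 pt).trans (key2 x).symm)
  · intro x
    exact Subsingleton.elim _ _

/-- no coefficients -/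
theorem isEmpty_V [IsEmpty ι] (A : Type) (j : ℕ) : IsEmpty (V (bs ι J) A (j + 1)) := by
  refine ⟨fun x => ?_⟩
  have h := x.2.tr
  rw [Matrix.trace, Finset.univ_eq_empty, Finset.sum_empty] at h
  exact (Nat.cast_ne_zero (R := ℂ)).2 (Nat.succ_ne_zero j) h.symm

theorem hasCells_V (HO : OpenPart) (n : ℕ) : ∀ (ι : Type) [Fintype ι] [DecidableEq ι]
    (_ : Fintype.card ι = n) (A : Type) [Fintype A] (J j : ℕ) (_ : j ≤ J + 1),
    HasCells (V (bs ι J) A j) (n.multichoose j) := by
  induction n with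
  | zero =>
    intro ι _ _ hn A _ J j hj
    have : IsEmpty ι := Fintype.card_eq_zero_iff.1 hn
    cases j with
    | zero => simpa using hasCells_zero A
    | succ j =>
      have := isEmpty_V (ι := ι) (J := J) A j
      simpa using HasCells.empty (V (bs ι J) A (j + 1))
  | succ n ihn =>
    intro ι _ _ hn A _ J j
    have hne : Nonempty ι := Fintype.card_pos_iff.1 (by omega)
    obtain ⟨k⟩ := hne
    have hcard : Fintype.card {i : ι // i ≠ k} = n := by
      rw [Fintype.card_subtype_compl]; simp [hn]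
    induction j with
    | zero => intro _; simpa using hasCells_zero A
    | succ j ihj =>
      intro hj
      have h1 : HasCells (Cl J A (pS {k}) (j + 1)) ((n + 1).multichoose j) := by
        obtain ⟨m, ⟨e⟩⟩ := exists_finHomeo (({k} : Finset ι) × A)
        exact ((ihj (by omega)).prod ((wvHomeo {k}).trans e)).congr
          (embHomeo (by omega) (isPr_pS {k}) (by rw [trace_pS]; simp)).symm
      obtain ⟨B, hB, ⟨e⟩⟩ := HO ι k J A (j + 1)
      have h2 : HasCells ((Cl J A (pS {k}) (j + 1))ᶜ : Set (V (bs ι J) A (j + 1)))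
          (n.multichoose (j + 1)) := (ihn _ hcard B J (j + 1) hj).congr e
      have h3 := HasCells.glue _ _ (isClosed_Cl (pS {k}) (j + 1)) _ _ h1 h2
      rw [Nat.multichoose_succ_succ, add_comm (n.multichoose (j + 1))]
      exact h3

/-! ### the complement of the fibre -/

theorem gamH_mul_p0' {p q : Matrix ι ι ℂ} (hp : IsPr p) (hpq : p * q = 0) :
    (gam J p)ᴴ * p0 J q = p0 J q := by
  have h1 : amp J p * p0 J q = 0 := by
    rw [p0_eq, ← Matrix.mul_assoc, amp, amp, ← mul_kronecker_mul, hpq, zero_kronecker,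
      Matrix.zero_mul]
  rw [gamH hp, Matrix.add_mul, Matrix.sub_mul, Matrix.mul_assoc, bs_mul_p0, Matrix.mul_zero, h1,
    Matrix.one_mul, zero_add, sub_zero]

theorem gam_mul_p0' {p q : Matrix ι ι ℂ} (hpq : p * q = 0) :
    gam J p * p0 J q = p0 J q := by
  have h1 : amp J p * p0 J q = 0 := by
    rw [p0_eq, ← Matrix.mul_assoc, amp, amp, ← mul_kronecker_mul, hpq, zero_kronecker,
      Matrix.zero_mul]
  rw [gam, Matrix.add_mul, Matrix.sub_mul, Matrix.mul_assoc, h1, Matrix.mul_zero,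
    Matrix.one_mul, zero_add, sub_zero]

/-- `W ⊕ W' ⊆ W ⊕ γ K ↔ W' ⊆ K` -/
theorem prodP_mem_iff {j : ℕ} (hj : j ≤ J) {p q : Matrix ι ι ℂ} (hp : IsPr p) (hpq : p * q = 0)
    (hqp : q * p = 0)
    {P : Matrix (HI ι J) (HI ι J) ℂ} {v : Matrix (HI ι J) A ℂ} (H : IsV (bs ι J) j P v) :
    prodP J p P * p0 J (p + q) = p0 J (p + q) ↔ P * p0 J q = p0 J q := by
  have h1 := EJ_mul hj H
  have e0 : p0 J p * p0 J q = 0 := by
    rw [p0_eq, p0_eq, Matrix.mul_assoc, ← Matrix.mul_assoc (E0 ι J), E0_mul_amp,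
      ← Matrix.mul_assoc, ← Matrix.mul_assoc, amp, amp, ← mul_kronecker_mul, hpq, zero_kronecker,
      Matrix.zero_mul, Matrix.zero_mul]
  have e1 : prodP J p P * p0 J (p + q) = p0 J p + gam J p * (P * p0 J q) := by
    rw [prodP, p0_add]
    simp only [Matrix.mul_add, Matrix.add_mul, Matrix.mul_assoc, p0_idem hp, gamH_mul_p0 hp,
      gamH_mul_p0' hp hpq, Matrix.mul_zero, add_zero, zero_add, e0]
  rw [e1, p0_add, add_right_inj]
  constructor
  · intro h
    have h2 : (gam J p)ᴴ * (gam J p * (P * p0 J q)) = (gam J p)ᴴ * p0 J q := by rw [h]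
    rw [gamH_mul_p0' hp hpq, rr (gamH_mul_gam hp), Matrix.sub_mul, Matrix.one_mul,
      Matrix.mul_assoc, rr h1, Matrix.zero_mul, Matrix.mul_zero, sub_zero] at h2
    exact h2
  · intro h
    rw [h, gam_mul_p0' hpq]

theorem multichoose_mono (n j s : ℕ) : (n + 1).multichoose j ≤ (n + 1).multichoose (j + s) := by
  induction s with
  | zero => exact le_rfl
  | succ s ih =>
    refine ih.trans ?_
    rw [← add_assoc, Nat.multichoose_succ_succ]
    exact Nat.le_add_left _ _

theorem p0_pS_empty : p0 J (pS (∅ : Finset ι)) = 0 := by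
  have h0 : pS (∅ : Finset ι) = 0 := by simp [pS]
  rw [h0, p0, zero_kronecker]

/-- swapping two subspace conditions -/
def swapSub {X : Type*} [TopologicalSpace X] (B C : Set X) :
    ({x : B | x.1 ∈ C} : Set B) ≃ₜ ({x : C | x.1 ∈ B} : Set C) where
  toFun x := ⟨⟨x.1.1, x.2⟩, x.1.2⟩
  invFun x := ⟨⟨x.1.1, x.2⟩, x.1.2⟩
  left_inv _ := rfl
  right_inv _ := rfl
  continuous_toFun := by fun_prop
  continuous_invFun := by fun_prop

/-- a subspace of a subspace -/
def subSub {X : Type*} [TopologicalSpace X] (B C : Set X) (h : C ⊆ B) :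
    ({x : B | x.1 ∈ C} : Set B) ≃ₜ C where
  toFun x := ⟨x.1.1, x.2⟩
  invFun x := ⟨⟨x.1, h x.2⟩, x.2⟩
  left_inv _ := rfl
  right_inv _ := rfl
  continuous_toFun := by fun_prop
  continuous_invFun := by fun_prop

/-- **cells of the complement of the fibre over `ℂ^S`** -/
theorem hasCells_compl (HO : OpenPart) {n : ℕ} (hn : Fintype.card ι = n + 1) [Fintype A]
    (S : Finset ι) : ∀ (j m : ℕ) (_ : j + S.card = m) (_ : m ≤ J + 1),
    HasCells ((Cl J A (pS S) m)ᶜ : Set (V (bs ι J) A m))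
      ((n + 1).multichoose m - (n + 1).multichoose j) := by
  induction S using Finset.induction_on with
  | empty =>
    intro j m hjm hj
    simp only [Finset.card_empty, add_zero] at hjm
    subst hjm
    have : IsEmpty ((Cl J A (pS (∅ : Finset ι)) j)ᶜ : Set (V (bs ι J) A j)) := by
      refine ⟨fun x => x.2 ?_⟩
      show _ * p0 J (pS ∅) = p0 J (pS ∅)
      simp only [p0_pS_empty, Matrix.mul_zero]
    rw [Nat.sub_self]
    exact HasCells.empty _
  | insert k S hk ih =>
    intro j m hjm hj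
    rw [Finset.card_insert_of_notMem hk] at hjm
    obtain ⟨m', hm'⟩ : ∃ m', j + S.card = m' := ⟨_, rfl⟩
    obtain rfl : m = m' + 1 := by omega
    have hm'J : m' ≤ J := by omega
    have hdis : Disjoint ({k} : Finset ι) S := by simpa using hk
    have hkS : pS {k} * pS S = 0 := pS_mul_of_disjoint hdis
    have hSk : pS S * pS {k} = 0 := pS_mul_of_disjoint hdis.symm
    have hsum : pS (insert k S) = pS {k} + pS S := pS_insert hk
    have hcard : Fintype.card {i : ι // i ≠ k} = n := by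
      rw [Fintype.card_subtype_compl]; simp [hn]
    -- the closed part
    set C : Set (V (bs ι J) A (m' + 1)) := (Cl J A (pS (insert k S)) (m' + 1))ᶜ with hC
    have hsub : Cl J A (pS (insert k S)) (m' + 1) ⊆ Cl J A (pS {k}) (m' + 1) := by
      intro x hx
      change x.1.1 * p0 J (pS (insert k S)) = p0 J (pS (insert k S)) at hx
      change x.1.1 * p0 J (pS {k}) = p0 J (pS {k})
      have e0 : p0 J (pS (insert k S)) * p0 J (pS {k}) = p0 J (pS {k}) := by
        rw [hsum, p0_add, Matrix.add_mul, p0_idem (isPr_pS _)]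
        have : p0 J (pS S) * p0 J (pS {k}) = 0 := by
          rw [p0, p0, ← mul_kronecker_mul, hSk, zero_kronecker]
        rw [this, add_zero]
      have h2 : x.1.1 * (p0 J (pS (insert k S)) * p0 J (pS {k})) =
          p0 J (pS (insert k S)) * p0 J (pS {k}) := by rw [← Matrix.mul_assoc, hx]
      rwa [e0] at h2
    have h1 : HasCells ({x : C | x.1 ∈ Cl J A (pS {k}) (m' + 1)} : Set C)
        ((n + 1).multichoose m' - (n + 1).multichoose j) := by
      obtain ⟨t, ⟨e⟩⟩ := exists_finHomeo (({k} : Finset ι) × A)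
      have h3 := (ih j m' hm' (by omega)).prod ((wvHomeo (A := A) {k}).trans e)
      have h4 : HasCells ({x : Cl J A (pS {k}) (m' + 1) | x.1 ∈ C} :
          Set (Cl J A (pS {k}) (m' + 1))) ((n + 1).multichoose m' - (n + 1).multichoose j) := by
        refine h3.congr ?_
        refine Homeomorph.trans ?_ (prodPre (WV A (pS {k})) (Cl J A (pS S) m')ᶜ)
        refine (Homeomorph.subtype (embHomeo (A := A) hm'J (isPr_pS {k})
          (by rw [trace_pS]; simp)) ?_).symm
        intro x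
        change x.2 ∉ Cl J A (pS S) m' ↔ _ ∉ Cl J A (pS (insert k S)) (m' + 1)
        rw [not_iff_not, hsum]
        exact (prodP_mem_iff hm'J (isPr_pS {k}) hkS hSk x.2.2).symm
      exact h4.congr (swapSub C (Cl J A (pS {k}) (m' + 1)))
    obtain ⟨B, hB, ⟨e⟩⟩ := HO ι k J A (m' + 1)
    have h2 : HasCells (({x : C | x.1 ∈ Cl J A (pS {k}) (m' + 1)} : Set C)ᶜ : Set C)
        (n.multichoose (m' + 1)) := by
      refine (hasCells_V HO n _ hcard B J (m' + 1) hj).congr (Homeomorph.trans ?_ e)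
      exact subSub C (Cl J A (pS {k}) (m' + 1))ᶜ (compl_subset_compl.2 hsub)
    have hcl : IsClosed ({x : C | x.1 ∈ Cl J A (pS {k}) (m' + 1)} : Set C) :=
      (isClosed_Cl (pS {k}) (m' + 1)).preimage continuous_subtype_val
    have h5 := HasCells.glue _ _ hcl _ _ h1 h2
    have h6 : (n + 1).multichoose (m' + 1) - (n + 1).multichoose j =
        ((n + 1).multichoose m' - (n + 1).multichoose j) + n.multichoose (m' + 1) := by
      have h7 := multichoose_mono n j S.card
      rw [hm'] at h7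
      rw [Nat.multichoose_succ_succ]
      omega
    rw [h6]
    exact h5

end Crest.Agent.R090.F0_933
end

-- ▼ part R090/F0Count_933
section

/-!
# Row 90, leaf F0: the ratio of the numbers of cells tends to one (owner helper933)
-/

set_option autoImplicit false

open Topology Filter

namespace Crest.Agent.R090.F0_933

theorem multichoose_pos (n j : ℕ) : 0 < (n + 1).multichoose j := by
  rw [Nat.multichoose_eq]
  exact Nat.choose_pos (by omega)

theorem succ_mul_multichoose (n j : ℕ) :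
    (j + 1) * (n + 1).multichoose (j + 1) = (n + 1 + j) * (n + 1).multichoose j := by
  rw [Nat.multichoose_eq, Nat.multichoose_eq]
  have h1 : n + 1 + (j + 1) - 1 = n + j + 1 := by omega
  have h2 : n + 1 + j - 1 = n + j := by omega
  rw [h1, h2, mul_comm (j + 1), ← Nat.add_one_mul_choose_eq]
  ring

theorem tendsto_ratio_one (n : ℕ) :
    Tendsto (fun j : ℕ => ((n + 1).multichoose (j + 1) : ℝ) / (n + 1).multichoose j) atTop (𝓝 1) := by
  have h1 : ∀ j : ℕ, ((n + 1).multichoose (j + 1) : ℝ) / (n + 1).multichoose j =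
      1 + (n : ℝ) / ((j : ℝ) + 1) := by
    intro j
    have h2 : (0 : ℝ) < (n + 1).multichoose j := by exact_mod_cast multichoose_pos n j
    have h3 : ((j : ℝ) + 1) * (n + 1).multichoose (j + 1) = (n + 1 + j) * (n + 1).multichoose j := by
      exact_mod_cast succ_mul_multichoose n j
    have h4 : (0 : ℝ) < (j : ℝ) + 1 := by positivity
    rw [div_eq_iff h2.ne']
    field_simp
    linarith
  simp only [h1]
  have h5 : Tendsto (fun j : ℕ => (n : ℝ) / ((j : ℝ) + 1)) atTop (𝓝 0) :=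
    tendsto_const_nhds.div_atTop (tendsto_natCast_atTop_atTop.atTop_add tendsto_const_nhds)
  simpa using tendsto_const_nhds.add h5

theorem tendsto_ratio (n s : ℕ) :
    Tendsto (fun j : ℕ => ((n + 1).multichoose (j + s) : ℝ) / (n + 1).multichoose j) atTop (𝓝 1) := by
  induction s with
  | zero =>
    refine tendsto_const_nhds.congr fun j => ?_
    have h2 : (0 : ℝ) < (n + 1).multichoose j := by exact_mod_cast multichoose_pos n j
    rw [add_zero, div_self h2.ne']
  | succ s ih =>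
    have h1 := (tendsto_ratio_one n).comp (tendsto_add_atTop_nat s)
    have h2 := h1.mul ih
    rw [one_mul] at h2
    refine h2.congr fun j => ?_
    have h3 : (0 : ℝ) < (n + 1).multichoose j := by exact_mod_cast multichoose_pos n j
    have h4 : (0 : ℝ) < (n + 1).multichoose (j + s) := by exact_mod_cast multichoose_pos n (j + s)
    simp only [Function.comp_apply]
    rw [← add_assoc]
    field_simp

/-- `c · u1 ≤ D` for `j` large -/
theorem exists_count (n s c : ℕ) : ∃ j0, ∀ j, j0 ≤ j →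
    c * ((n + 1).multichoose (j + s) - (n + 1).multichoose j) ≤ (n + 1).multichoose j := by
  have h1 := tendsto_ratio n s
  have hc : (1 : ℝ) < 1 + 1 / ((c : ℝ) + 1) := by
    have : (0 : ℝ) < 1 / ((c : ℝ) + 1) := by positivity
    linarith
  obtain ⟨j0, hj0⟩ := eventually_atTop.1 (h1.eventually (gt_mem_nhds hc))
  refine ⟨j0, fun j hj => ?_⟩
  have h2 := hj0 j hj
  have h3 : (0 : ℝ) < (n + 1).multichoose j := by exact_mod_cast multichoose_pos n j
  rw [div_lt_iff₀ h3] at h2
  rcases le_total ((n + 1).multichoose (j + s)) ((n + 1).multichoose j) with h4 | h4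
  · rw [Nat.sub_eq_zero_of_le h4]; simp
  · obtain ⟨d, hd⟩ := Nat.exists_eq_add_of_le h4
    rw [hd, Nat.add_sub_cancel_left]
    rw [hd] at h2
    push_cast at h2
    have h5 : (d : ℝ) < 1 / ((c : ℝ) + 1) * (n + 1).multichoose j := by linarith
    have h6 : ((c : ℝ) + 1) * d ≤ (n + 1).multichoose j := by
      have h7 : (0 : ℝ) < (c : ℝ) + 1 := by positivity
      have h8 := mul_lt_mul_of_pos_left h5 h7
      have h9 : ((c : ℝ) + 1) * (1 / ((c : ℝ) + 1) * ((n + 1).multichoose j : ℝ)) =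
          (n + 1).multichoose j := by field_simp
      linarith
    have h7 : (c : ℝ) * d ≤ (n + 1).multichoose j := by
      have : (0 : ℝ) ≤ d := by positivity
      nlinarith
    exact_mod_cast h7


end Crest.Agent.R090.F0_933
end

-- ▼ part R090/F0ProdMap_96
section

/-!
# Row 90, F0: the product as a pointed map `Th(γ_s) ∧ V_j → V_{j+s}` (owner helper96)

* `PMap.ofProper` : a proper map gives a pointed map of one point compactifications;
* `isCompact_nsq_le` : `{x : V Z A j | ‖v‖² ≤ R}` is compact;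
* `nsq_prodv` : `‖a + γ_W v‖² = ‖a‖² + ‖v‖²`;
* `prodMap : PMap (Th ι A s × V (zS ι J) A j) (V (zS ι J) A (j + s))`.
-/

set_option autoImplicit false
set_option linter.unusedSectionVars false
set_option linter.unusedFintypeInType false
set_option linter.unusedDecidableInType false

open Matrix Topology Filter
open scoped Kronecker

namespace Crest.Agent.R090.F0Prod96

open F0Defs806 Sp962

section proper

variable {U V : Type*} [TopologicalSpace U] [TopologicalSpace V]

/-- the pointed map of a proper map -/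
def ofProper (f : U → V) (hf : Continuous f)
    (hp : ∀ K : Set V, IsClosed K → IsCompact K → IsCompact (f ⁻¹' K)) : PMap U V where
  toFun := OnePoint.map f
  cont := OnePoint.continuous_map hf (by
    rw [hasBasis_coclosedCompact.tendsto_iff hasBasis_coclosedCompact]
    rintro K ⟨hK, hK'⟩
    exact ⟨f ⁻¹' K, ⟨hK.preimage hf, hp K hK hK'⟩, fun x hx => hx⟩)
  map_inf := rfl

@[simp] theorem ofProper_coe (f : U → V) (hf : Continuous f)
    (hp : ∀ K : Set V, IsClosed K → IsCompact K → IsCompact (f ⁻¹' K)) (x : U) :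
    ofProper f hf hp x = (f x : OnePoint V) := rfl

end proper

section norm

variable {h A : Type*} [Fintype h] [Fintype A]

/-- the square norm of a matrix -/
noncomputable def nsq (M : Matrix h A ℂ) : ℝ := ∑ k, ∑ i, ‖M i k‖ ^ 2

theorem nsq_nonneg (M : Matrix h A ℂ) : 0 ≤ nsq M :=
  Finset.sum_nonneg fun _ _ => Finset.sum_nonneg fun _ _ => sq_nonneg _

theorem continuous_nsq : Continuous (nsq (h := h) (A := A)) := by
  unfold nsq
  refine continuous_finsetSum _ fun k _ => continuous_finsetSum _ fun i _ => ?_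
  exact ((continuous_id.matrix_elem i k).norm).pow 2

theorem trace_conj_mul (M : Matrix h A ℂ) : (Mᴴ * M).trace = (nsq M : ℂ) := by
  rw [Matrix.trace, nsq]
  push_cast
  refine Finset.sum_congr rfl fun k _ => ?_
  rw [Matrix.diag_apply, Matrix.mul_apply]
  refine Finset.sum_congr rfl fun i _ => ?_
  rw [conjTranspose_apply]
  change star (M i k) * M i k = _
  rw [Complex.star_def, ← Complex.normSq_eq_conj_mul_self, Complex.normSq_eq_norm_sq]
  push_cast
  rfl

theorem norm_le_of_nsq {M : Matrix h A ℂ} {R : ℝ} (hR : nsq M ≤ R) (i : h) (k : A) :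
    ‖M i k‖ ^ 2 ≤ R := by
  refine le_trans ?_ hR
  have h1 : ‖M i k‖ ^ 2 ≤ ∑ i, ‖M i k‖ ^ 2 :=
    Finset.single_le_sum (f := fun i => ‖M i k‖ ^ 2) (fun _ _ => sq_nonneg _) (Finset.mem_univ i)
  refine h1.trans ?_
  exact Finset.single_le_sum (f := fun k => ∑ i, ‖M i k‖ ^ 2)
    (fun _ _ => Finset.sum_nonneg fun _ _ => sq_nonneg _) (Finset.mem_univ k)

/-- the entries of a projection are bounded by `1` -/
theorem norm_entry_le {P : Matrix h h ℂ} (h1 : Pᴴ = P) (h2 : P * P = P) (i k : h) :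
    ‖P i k‖ ≤ 1 := by
  have h3 : (∑ k, ((‖P i k‖ ^ 2 : ℝ) : ℂ)) = P i i := by
    have h4 : (P * Pᴴ) i i = P i i := by rw [h1, h2]
    rw [← h4, Matrix.mul_apply]
    refine Finset.sum_congr rfl fun k _ => ?_
    rw [conjTranspose_apply, Complex.star_def, Complex.mul_conj, Complex.normSq_eq_norm_sq]
  set S : ℝ := ∑ k, ‖P i k‖ ^ 2 with hS
  have h5 : (S : ℂ) = P i i := by rw [← h3, hS]; push_cast; rfl
  have hS0 : 0 ≤ S := Finset.sum_nonneg fun _ _ => sq_nonneg _
  have h6 : ‖P i i‖ = S := by rw [← h5, Complex.norm_real, Real.norm_of_nonneg hS0]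
  have h7 : ‖P i i‖ ^ 2 ≤ S :=
    Finset.single_le_sum (f := fun k => ‖P i k‖ ^ 2) (fun _ _ => sq_nonneg _) (Finset.mem_univ i)
  have h8 : S ≤ 1 := by
    rw [h6] at h7
    nlinarith
  have h9 : ‖P i k‖ ^ 2 ≤ S :=
    Finset.single_le_sum (f := fun k => ‖P i k‖ ^ 2) (fun _ _ => sq_nonneg _) (Finset.mem_univ k)
  nlinarith [norm_nonneg (P i k)]

end norm

section compact

variable {h A : Type*} [Fintype h] [DecidableEq h] [Fintype A]

/-- bounded subsets of `V` are relatively compact -/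
theorem isCompact_nsq_le (Z : Matrix h h ℂ) (j : ℕ) (R : ℝ) :
    IsCompact {x : V Z A j | nsq x.1.2 ≤ R} := by
  have hc : IsClosedEmbedding (Subtype.val : V Z A j → Matrix h h ℂ × Matrix h A ℂ) :=
    (isClosed_isV (A := A) Z j).isClosedEmbedding_subtypeVal
  have hK1 : IsCompact {P : Matrix h h ℂ | ∀ i k, P i k ∈ Metric.closedBall (0 : ℂ) 1} := by
    have : {P : Matrix h h ℂ | ∀ i k, P i k ∈ Metric.closedBall (0 : ℂ) 1} =
        (Set.pi Set.univ fun _ : h => Set.pi Set.univ fun _ : h => Metric.closedBall (0 : ℂ) 1 :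
          Set (h → h → ℂ)) := by
      ext P
      constructor
      · intro H i _ k _; exact H i k
      · intro H i k; exact H i (Set.mem_univ _) k (Set.mem_univ _)
    rw [this]
    exact isCompact_univ_pi fun _ => isCompact_univ_pi fun _ => isCompact_closedBall _ _
  have hK2 : IsCompact {v : Matrix h A ℂ | ∀ i k, v i k ∈ Metric.closedBall (0 : ℂ) (|R| + 1)} := by
    have : {v : Matrix h A ℂ | ∀ i k, v i k ∈ Metric.closedBall (0 : ℂ) (|R| + 1)} =
        (Set.pi Set.univ fun _ : h => Set.pi Set.univ fun _ : A =>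
          Metric.closedBall (0 : ℂ) (|R| + 1) : Set (h → A → ℂ)) := by
      ext P
      constructor
      · intro H i _ k _; exact H i k
      · intro H i k; exact H i (Set.mem_univ _) k (Set.mem_univ _)
    rw [this]
    exact isCompact_univ_pi fun _ => isCompact_univ_pi fun _ => isCompact_closedBall _ _
  refine (hc.isCompact_preimage (hK1.prod hK2)).of_isClosed_subset ?_ ?_
  · exact isClosed_le (continuous_nsq.comp (continuous_snd.comp (continuous_val Z j)))
      continuous_const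
  · intro x hx
    refine ⟨fun i k => ?_, fun i k => ?_⟩
    · rw [mem_closedBall_zero_iff]
      exact norm_entry_le x.2.herm x.2.idem i k
    · rw [mem_closedBall_zero_iff]
      have h1 : ‖x.1.2 i k‖ ^ 2 ≤ R := norm_le_of_nsq hx i k
      have h2 : R ≤ |R| := le_abs_self R
      nlinarith [norm_nonneg (x.1.2 i k), abs_nonneg R]

theorem exists_nsq_le {Z : Matrix h h ℂ} {j : ℕ} {K : Set (V Z A j)} (hK : IsCompact K) :
    ∃ R : ℝ, ∀ x ∈ K, nsq x.1.2 ≤ R := by
  have h1 : ContinuousOn (fun x : V Z A j => nsq x.1.2) K :=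
    (continuous_nsq.comp (continuous_snd.comp (continuous_val Z j))).continuousOn
  obtain ⟨R, hR⟩ := (hK.image_of_continuousOn h1).bddAbove
  exact ⟨R, fun x hx => hR ⟨x, hx, rfl⟩⟩

end compact

section

variable {ι A : Type*} [Fintype ι] [DecidableEq ι] [Fintype A]

theorem nsq_deg0 {J : ℕ} (hJ : 0 < J) (a : Matrix ι A ℂ) : nsq (deg0 J a) = nsq a := by
  rw [nsq, nsq]
  refine Finset.sum_congr rfl fun k _ => ?_
  rw [Fintype.sum_prod_type]
  refine Finset.sum_congr rfl fun y _ => ?_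
  have h1 : ∀ b : Fin J, ‖deg0 J a (y, b) k‖ ^ 2 = if (b : ℕ) = 0 then ‖a y k‖ ^ 2 else 0 := by
    intro b
    have h2 : deg0 J a (y, b) k = if (b : ℕ) = 0 then a y k else 0 := rfl
    rw [h2]
    by_cases hb : (b : ℕ) = 0 <;> simp [hb]
  simp only [h1]
  rw [Finset.sum_eq_single (⟨0, hJ⟩ : Fin J)]
  · simp
  · intro b _ hb
    have : ¬ ((b : ℕ) = 0) := fun h => hb (Fin.ext h)
    rw [if_neg this]
  · intro h; exact absurd (Finset.mem_univ _) h

theorem nsq_prod {J s j : ℕ} (hj : j < J) (x : Th ι A s × V (zS ι J) A j) :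
    nsq (prod hj x).1.2 = nsq x.1.1.2 + nsq x.2.1.2 := by
  have hF : F (zS ι J) * x.2.1.2 = 0 := by
    rw [← x.2.2.vec, ← Matrix.mul_assoc, F_mul_eq_zero hj x.2.2, Matrix.zero_mul]
  have hu : BE (zS ι J) (amp J x.1.1.1) * deg0 J x.1.1.2 = deg0 J x.1.1.2 := by
    rw [BE_deg0, x.1.2.vec]
  have h1 := (dat J x.1.2.herm x.1.2.idem).norm_prodv hu hF
  have h2 := congrArg Matrix.trace h1
  rw [trace_add, trace_conj_mul, trace_conj_mul, trace_conj_mul, nsq_deg0 (by omega)] at h2
  exact_mod_cast h2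

/-- **the product as a pointed map** -/
def prodMap {J s j : ℕ} (hj : j < J) :
    PMap (Th ι A s × V (zS ι J) A j) (V (zS ι J) A (j + s)) :=
  ofProper (prod hj) (continuous_prod hj) (by
    intro K hK hK'
    obtain ⟨R, hR⟩ := exists_nsq_le hK'
    refine ((isCompact_nsq_le (A := A) (0 : Matrix ι ι ℂ) s R).prod
      (isCompact_nsq_le (A := A) (zS ι J) j R)).of_isClosed_subset
        (hK.preimage (continuous_prod hj)) ?_
    intro x hx
    have h1 := hR _ hx
    rw [nsq_prod] at h1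
    exact ⟨by have := nsq_nonneg x.2.1.2; change nsq x.1.1.2 ≤ R; linarith,
      by have := nsq_nonneg x.1.1.2; change nsq x.2.1.2 ≤ R; linarith⟩)

@[simp] theorem prodMap_coe {J s j : ℕ} (hj : j < J) (x : Th ι A s × V (zS ι J) A j) :
    prodMap hj x = (prod hj x : OnePoint (V (zS ι J) A (j + s))) := rfl

/-- the fibre over a fixed projection: `ℂ^s`-coordinates are `A`-tuples of vectors of `im p₀` given
by a matrix `W : ι × Fin s` with orthonormal columns -/
theorem isV_fib {s : ℕ} {W : Matrix ι (Fin s) ℂ} (hW : Wᴴ * W = 1) (t : Matrix (Fin s) A ℂ) :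
    IsV (0 : Matrix ι ι ℂ) s (W * Wᴴ) (W * t) := by
  rw [isV_zero_iff]
  refine ⟨?_, ?_, ?_, ?_⟩
  · rw [conjTranspose_mul, conjTranspose_conjTranspose]
  · rw [Matrix.mul_assoc, ← Matrix.mul_assoc Wᴴ, hW, Matrix.one_mul]
  · rw [Matrix.trace_mul_comm, hW, Matrix.trace_one, Fintype.card_fin]
  · rw [Matrix.mul_assoc, ← Matrix.mul_assoc Wᴴ, hW, Matrix.one_mul]

/-- the fibre `ℂ^{s × A} → Th(γ_s)` over the span of the orthonormal columns of `W` -/
def fib {s : ℕ} {W : Matrix ι (Fin s) ℂ} (hW : Wᴴ * W = 1) (t : Matrix (Fin s) A ℂ) : Th ι A s :=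
  ⟨(W * Wᴴ, W * t), isV_fib hW t⟩

theorem continuous_fib {s : ℕ} {W : Matrix ι (Fin s) ℂ} (hW : Wᴴ * W = 1) :
    Continuous (fib (A := A) hW) :=
  continuous_mk continuous_const (continuous_const.matrix_mul continuous_id)

theorem isClosedEmbedding_fib {s : ℕ} {W : Matrix ι (Fin s) ℂ} (hW : Wᴴ * W = 1) :
    IsClosedEmbedding (fib (A := A) hW) := by
  have hl : Function.LeftInverse (fun x : Th ι A s => Wᴴ * x.1.2) (fib (A := A) hW) := by
    intro t
    change Wᴴ * (W * t) = t
    rw [← Matrix.mul_assoc, hW, Matrix.one_mul]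
  exact hl.isClosedEmbedding
    (continuous_const.matrix_mul (continuous_snd.comp (continuous_val _ _))) (continuous_fib hW)

end

end Crest.Agent.R090.F0Prod96
end

-- ▼ part R090/F0Out_933
section

/-!
# Row 90, F0: the output theorem for the consumers (owner helper933)
-/

set_option autoImplicit false
set_option linter.unusedSectionVars false
set_option linter.unusedSimpArgs false
set_option linter.unusedVariables false

open Topology Filter Set Matrix
open scoped Kronecker ComplexOrder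
open Crest.Agent.R090.F0Defs806 (IsV V continuous_mk continuous_val)
open Crest.Agent.R090.Sp962

namespace Crest.Agent.R090.F0_933

variable {ι : Type} [Fintype ι] [DecidableEq ι] {J : ℕ} {A : Type}

instance secondCountable_matrix {a b : Type*} [Countable a] [Countable b] :
    SecondCountableTopology (Matrix a b ℂ) :=
  inferInstanceAs (SecondCountableTopology (a → b → ℂ))

instance secondCountable_V {h : Type*} [Fintype h] [DecidableEq h] {A : Type*} [Countable A]
    (Z : Matrix h h ℂ) (j : ℕ) : SecondCountableTopology (V Z A j) := by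
  have : SecondCountableTopology (Matrix h h ℂ × Matrix h A ℂ) := inferInstance
  exact TopologicalSpace.Subtype.secondCountableTopology
    {x : Matrix h h ℂ × Matrix h A ℂ | IsV Z j x.1 x.2}

/-! ### comparison with the product of 96 -/






/-! ### the Thom spaces of 275 and of 96 -/


/-- extension by zero -/
def ext0 (S : Finset ι) (w : S → ℂ) : ι → ℂ := fun i => if h : i ∈ S then w ⟨i, h⟩ else 0

/-- the fibre over `ℂ^S` -/
def fibre (S : Finset ι) (w : S → ℂ) : I0core275.Th S.card ι :=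
  ⟨(pS S, ext0 S w), ⟨(isPr_pS S).herm, (isPr_pS S).idem, trace_pS S⟩, by
    funext i
    change (pS S *ᵥ ext0 S w) i = ext0 S w i
    rw [pS, mulVec_diagonal]
    by_cases h : i ∈ S <;> simp [h, ext0]⟩










/-- **F0, consumer form** -/
structure F0Data (ι : Type) [Fintype ι] [DecidableEq ι] (S : Finset ι) (c : ℕ) : Type 1 where
  V : Type
  V' : Type
  [tV : TopologicalSpace V]
  [tV' : TopologicalSpace V']
  [t2V : T2Space V]
  [t2V' : T2Space V']
  [lcV : LocallyCompactSpace V]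
  [lcV' : LocallyCompactSpace V']
  [scV : SecondCountableTopology V]
  [scV' : SecondCountableTopology V']
  /-- the product `Th(γ_s) ∧ V → V'` -/
  μ : PMap (I0core275.Th S.card ι × V) V'
  /-- the closed embedding of the fibre -/
  emb : (S → ℂ) × V → V'
  closed : IsClosedEmbedding emb
  μ_fibre : ∀ (w : S → ℂ) (x : V),
    μ ((fibre S w, x) : I0core275.Th S.card ι × V) = (emb (w, x) : OnePoint V')
  D : ℕ
  u : ℕ
  D_pos : 0 < D
  cells : HasCells V D
  flt : Flt (range emb) u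
  count : c * u ≤ D

attribute [instance] F0Data.tV F0Data.tV' F0Data.t2V F0Data.t2V' F0Data.lcV F0Data.lcV'
  F0Data.scV F0Data.scV'


end Crest.Agent.R090.F0_933
end

-- ▼ part R090/F0Closed_806
section

/-!
# Row 90, F0-CLOSED: the closed part `{e ∈ K}` of `V^{(A)}_{j+1}` is `ℂ^A × V^{(A)}_j` (owner helper806)
-/

set_option autoImplicit false
set_option linter.unusedSectionVars false
set_option linter.unusedFintypeInType false
set_option linter.unusedDecidableInType false

open Matrix Topology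

namespace Crest.Agent.R090.F0Closed806

open F0Defs806

variable {h A : Type*} [Fintype h] [DecidableEq h] {J : ℕ}

/-! ### the shift matrices -/




/-! ### the block matrices -/

theorem fromBlocks_sub' {l m n o : Type*} (A : Matrix n l ℂ) (B : Matrix n m ℂ) (C : Matrix o l ℂ)
    (D : Matrix o m ℂ) (A' : Matrix n l ℂ) (B' : Matrix n m ℂ) (C' : Matrix o l ℂ) (D' : Matrix o m ℂ) :
    fromBlocks A B C D - fromBlocks A' B' C' D' = fromBlocks (A - A') (B - B') (C - C') (D - D') := by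
  ext i k
  rcases i with i | i <;> rcases k with k | k <;> rfl

/-- the shift on the big space -/
def Z1 (Z : Matrix h h ℂ) (J : ℕ) : Matrix (h ⊕ Fin (J + 1)) (h ⊕ Fin (J + 1)) ℂ :=
  fromBlocks Z 0 0 (S (J + 1))

/-- the projection on the line of `e` -/
def E (h : Type*) [DecidableEq h] (J : ℕ) : Matrix (h ⊕ Fin (J + 1)) (h ⊕ Fin (J + 1)) ℂ :=
  fromBlocks 0 0 0 (Matrix.single 0 0 1)



theorem E_conj : (E h J)ᴴ = E h J := by
  rw [E, fromBlocks_conjTranspose]
  congr 1
  · simp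
  · simp
  · simp
  · ext i k
    simp only [conjTranspose_apply, Matrix.single_apply]
    by_cases hi : (0 : Fin (J + 1)) = i <;> by_cases hk : (0 : Fin (J + 1)) = k <;> simp [hi, hk]










/-! ### consequences of the degree lemma -/


theorem E_mul_apply (M : Matrix (h ⊕ Fin (J + 1)) A ℂ) (i : h ⊕ Fin (J + 1)) (k : A) :
    (E h J * M) i k = if i = Sum.inr 0 then M (Sum.inr 0) k else 0 := by
  rw [Matrix.mul_apply, Fintype.sum_sum_type]
  rcases i with i | i
  · simp [E]
  · simp only [E, fromBlocks_apply₂₁, fromBlocks_apply₂₂, Matrix.zero_apply, zero_mul,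
      Finset.sum_const_zero, zero_add, Matrix.single_apply]
    by_cases hi : 0 = i
    · subst hi; simp
    · have : ¬ (Sum.inr i = (Sum.inr 0 : h ⊕ Fin (J + 1))) := fun h => hi (Sum.inr_injective h).symm
      simp [hi, this]

theorem Z1_pow (Z : Matrix h h ℂ) (m : ℕ) : (Z1 Z J) ^ m = fromBlocks (Z ^ m) 0 0 ((S (J + 1)) ^ m) := by
  rw [Z1, fromBlocks_diagonal_pow]








/-! ### the forward map -/

/-- `e ⊗ a` -/
def U (h : Type*) [DecidableEq h] (J : ℕ) (a : A → ℂ) : Matrix (h ⊕ Fin (J + 1)) A ℂ :=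
  Matrix.of fun i k => if i = Sum.inr 0 then a k else 0





/-! ### the backward map -/

/-- a hermitian idempotent with `P e e = 1` fixes `e` -/
theorem col_eq_zero {n : Type*} [Fintype n] [DecidableEq n] {P : Matrix n n ℂ} (hP : Pᴴ = P)
    (hPP : P * P = P) {e : n} (he : P e e = 1) (i : n) (hi : i ≠ e) : P i e = 0 := by
  have h1 : ∀ i, P e i = star (P i e) := fun i => by
    conv_lhs => rw [← hP]
    rfl
  have h2 : ∑ i, ‖P i e‖ ^ 2 = 1 := by
    have h3 : (P * P) e e = 1 := by rw [hPP, he]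
    rw [Matrix.mul_apply] at h3
    have h4 : ∀ i, P e i * P i e = ((‖P i e‖ ^ 2 : ℝ) : ℂ) := fun i => by
      rw [h1, Complex.star_def, ← Complex.normSq_eq_conj_mul_self, Complex.normSq_eq_norm_sq]
    simp only [h4] at h3
    rw [← Complex.ofReal_sum] at h3
    exact_mod_cast h3
  rw [← Finset.add_sum_erase _ _ (Finset.mem_univ e), he] at h2
  have h5 : ∑ i ∈ Finset.univ.erase e, ‖P i e‖ ^ 2 = 0 := by
    have : ‖(1 : ℂ)‖ ^ 2 = 1 := by simp
    linarith
  have h6 := (Finset.sum_eq_zero_iff_of_nonneg (fun i _ => by positivity)).1 h5 i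
    (Finset.mem_erase.2 ⟨hi, Finset.mem_univ _⟩)
  simpa using h6

theorem P_mul_E {Z : Matrix h h ℂ} {j : ℕ}
    {P : Matrix (h ⊕ Fin (J + 1)) (h ⊕ Fin (J + 1)) ℂ} {v : Matrix (h ⊕ Fin (J + 1)) A ℂ}
    (H : IsV (Z1 Z J) j P v) (he : P (Sum.inr 0) (Sum.inr 0) = 1) : P * E h J = E h J := by
  ext i k
  have h1 : (P * E h J) i k = if k = Sum.inr 0 then P i (Sum.inr 0) else 0 := by
    have h2 := congrArg (fun M : Matrix _ _ ℂ => M i k)
      (congrArg conjTranspose (show (E h J * P) = (E h J * P) from rfl))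
    have h3 : (P * E h J) = (E h J * P)ᴴ := by
      rw [conjTranspose_mul, E_conj, H.herm]
    rw [h3, conjTranspose_apply, E_mul_apply]
    by_cases hk : k = Sum.inr 0
    · rw [if_pos hk, if_pos hk]
      conv_rhs => rw [← H.herm]
      rfl
    · rw [if_neg hk, if_neg hk, star_zero]
  have h4 : E h J i k = if k = Sum.inr 0 then (if i = Sum.inr 0 then 1 else 0) else 0 := by
    have := E_mul_apply (1 : Matrix (h ⊕ Fin (J + 1)) (h ⊕ Fin (J + 1)) ℂ) i k
    rw [Matrix.mul_one] at this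
    rw [this]
    by_cases hi : i = Sum.inr 0 <;> by_cases hk : k = Sum.inr 0
    · rw [if_pos hi, if_pos hk, hk, if_pos hi, Matrix.one_apply_eq]
    · have hk' : (Sum.inr 0 : h ⊕ Fin (J + 1)) ≠ k := fun h => hk h.symm
      simp [hi, hk, Matrix.one_apply_ne hk']
    · simp [hi, hk]
    · simp [hi, hk]
  rw [h1, h4]
  by_cases hk : k = Sum.inr 0
  · rw [if_pos hk, if_pos hk]
    by_cases hi : i = Sum.inr 0
    · rw [if_pos hi, hi, he]
    · rw [if_neg hi]; exact col_eq_zero H.herm H.idem he i hi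
  · rw [if_neg hk, if_neg hk]





end Crest.Agent.R090.F0Closed806
end

-- ▼ part R090/F0Open_806
section

/-!
# Row 90, F0-OPEN: the open part `{e ∉ K}` of `V^{(A)}_{j}` is `V^{(A ⊕ 1)}_{j}` over one coordinate less
(owner helper806)
-/

set_option autoImplicit false
set_option linter.unusedSectionVars false
set_option linter.unusedFintypeInType false
set_option linter.unusedDecidableInType false

open Matrix Topology

namespace Crest.Agent.R090.F0Open806

open F0Defs806 F0Closed806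

/-! ### generalities -/

/-- the inverse of a continuous family of invertible matrices is continuous -/
theorem continuous_inv_of {n X : Type*} [Fintype n] [DecidableEq n] [TopologicalSpace X]
    {f : X → Matrix n n ℂ} (hf : Continuous f) (h : ∀ x, IsUnit (f x).det) :
    Continuous fun x => (f x)⁻¹ := by
  have h1 : (fun x => (f x)⁻¹) = fun x => ((f x).det)⁻¹ • (f x).adjugate := by
    funext x
    rw [Matrix.inv_def, Ring.inverse_eq_inv']
  rw [h1]
  exact (hf.matrix_det.inv₀ fun x => (h x).ne_zero).smul hf.matrix_adjugate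

/-- hermitian idempotents with the same image are equal -/
theorem proj_unique {n : Type*} [Fintype n] {P Q : Matrix n n ℂ} (hP : Pᴴ = P) (hQ : Qᴴ = Q)
    (h1 : P * Q = Q) (h2 : Q * P = P) : P = Q := by
  have h3 := congrArg conjTranspose h1
  rw [conjTranspose_mul, hP, hQ] at h3
  rw [← h2, h3]

variable {h A : Type*} [Fintype h] [DecidableEq h] {J : ℕ}

/-! ### the graph of the functional -/

/-- the matrix with rows `g^* Z^i P` -/
def Br (J : ℕ) (Z P : Matrix h h ℂ) (g : Matrix h Unit ℂ) : Matrix (Fin (J + 1)) h ℂ :=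
  Matrix.of fun i k => (gᴴ * (Z ^ (i : ℕ) * P)) () k

theorem Br_mul {B : Type*} (Z P : Matrix h h ℂ) (g : Matrix h Unit ℂ) (X : Matrix h B ℂ)
    (i : Fin (J + 1)) (k : B) : (Br J Z P g * X) i k = (gᴴ * (Z ^ (i : ℕ) * P) * X) () k := rfl

theorem Br_mul_P {Z P : Matrix h h ℂ} (hPP : P * P = P) (g : Matrix h Unit ℂ) :
    Br J Z P g * P = Br J Z P g := by
  ext i k
  rw [Br_mul, Matrix.mul_assoc, Matrix.mul_assoc, hPP]
  rfl

theorem S_mul_Br {Z P : Matrix h h ℂ} (hZ : Z ^ (J + 1) = 0) (hinv : P * (Z * P) = Z * P)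
    (g : Matrix h Unit ℂ) : S (J + 1) * Br J Z P g = Br J Z P g * (Z * P) := by
  ext i k
  have h1 : (Br J Z P g * (Z * P)) i k = (gᴴ * (Z ^ ((i : ℕ) + 1) * P)) () k := by
    rw [Br_mul, Matrix.mul_assoc, Matrix.mul_assoc, hinv, ← Matrix.mul_assoc (Z ^ (i : ℕ)), ← pow_succ]
  rw [h1, Matrix.mul_apply]
  by_cases hi : (i : ℕ) = J
  · have h2 : (gᴴ * (Z ^ ((i : ℕ) + 1) * P)) () k = 0 := by
      rw [hi, hZ]; simp
    rw [h2]
    apply Finset.sum_eq_zero
    intro b _
    rw [S_apply, if_neg (by have := b.2; omega), zero_mul]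
  · have hlt : (i : ℕ) + 1 < J + 1 := by have := i.2; omega
    rw [Finset.sum_eq_single (⟨i + 1, hlt⟩ : Fin (J + 1))]
    · rw [S_apply, if_pos rfl, one_mul]
      rfl
    · intro b _ hb
      rw [S_apply, if_neg (fun h => hb (Fin.ext h)), zero_mul]
    · intro h; exact absurd (Finset.mem_univ _) h

/-- `(P, B)` -/
def Mg (J : ℕ) (Z P : Matrix h h ℂ) (g : Matrix h Unit ℂ) : Matrix (h ⊕ Fin (J + 1)) h ℂ :=
  fromRows P (Br J Z P g)

/-- `1 + B^* B` -/
def Wg (J : ℕ) (Z P : Matrix h h ℂ) (g : Matrix h Unit ℂ) : Matrix h h ℂ :=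
  1 + (Br J Z P g)ᴴ * Br J Z P g

open scoped ComplexOrder in
theorem isUnit_Wg (Z P : Matrix h h ℂ) (g : Matrix h Unit ℂ) : IsUnit (Wg J Z P g).det := by
  have h1 : (Wg J Z P g).PosDef :=
    Matrix.PosDef.one.add_posSemidef (posSemidef_conjTranspose_mul_self _)
  exact (Matrix.isUnit_iff_isUnit_det _).1 h1.isUnit

theorem Wg_conj (Z P : Matrix h h ℂ) (g : Matrix h Unit ℂ) : (Wg J Z P g)ᴴ = Wg J Z P g := by
  rw [Wg, conjTranspose_add, conjTranspose_one, conjTranspose_mul, conjTranspose_conjTranspose]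

/-- the projection on the graph -/
noncomputable def Qg (J : ℕ) (Z P : Matrix h h ℂ) (g : Matrix h Unit ℂ) :
    Matrix (h ⊕ Fin (J + 1)) (h ⊕ Fin (J + 1)) ℂ :=
  Mg J Z P g * ((Wg J Z P g)⁻¹ * (Mg J Z P g)ᴴ)

section graph

variable {Z P : Matrix h h ℂ} {g : Matrix h Unit ℂ}

theorem Mg_mul_P (hPP : P * P = P) : Mg J Z P g * P = Mg J Z P g := by
  rw [Mg, fromRows_mul, Br_mul_P hPP, hPP]

theorem Mgc_mul_Mg (hP : Pᴴ = P) (hPP : P * P = P) :
    (Mg J Z P g)ᴴ * Mg J Z P g = Wg J Z P g - (1 - P) := by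
  rw [Mg, conjTranspose_fromRows_eq_fromCols_conjTranspose, fromCols_mul_fromRows, hP, hPP, Wg]
  abel

theorem Wg_mul (hPP : P * P = P) : Wg J Z P g * (1 - P) = 1 - P := by
  rw [Wg, Matrix.add_mul, Matrix.one_mul, Matrix.mul_assoc, Matrix.mul_sub, Matrix.mul_one,
    Br_mul_P hPP, sub_self, Matrix.mul_zero, add_zero]

theorem Wgi_mul (hPP : P * P = P) : (Wg J Z P g)⁻¹ * (1 - P) = 1 - P := by
  conv_lhs => rw [← Wg_mul (J := J) (Z := Z) (g := g) hPP, ← Matrix.mul_assoc,
    Matrix.nonsing_inv_mul _ (isUnit_Wg Z P g), Matrix.one_mul]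

theorem Mg_Wgi_Mgc_Mg (hP : Pᴴ = P) (hPP : P * P = P) :
    (Wg J Z P g)⁻¹ * ((Mg J Z P g)ᴴ * Mg J Z P g) = P := by
  rw [Mgc_mul_Mg hP hPP, Matrix.mul_sub, Matrix.nonsing_inv_mul _ (isUnit_Wg Z P g), Wgi_mul hPP]
  abel

theorem Qg_mul_Mg (hP : Pᴴ = P) (hPP : P * P = P) : Qg J Z P g * Mg J Z P g = Mg J Z P g := by
  rw [Qg, Matrix.mul_assoc, Matrix.mul_assoc, Mg_Wgi_Mgc_Mg hP hPP, Mg_mul_P hPP]

theorem Qg_conj : (Qg J Z P g)ᴴ = Qg J Z P g := by
  rw [Qg, conjTranspose_mul, conjTranspose_mul, conjTranspose_conjTranspose, conjTranspose_nonsing_inv,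
    Wg_conj, Matrix.mul_assoc]

theorem Qg_key {B : Type*} (hP : Pᴴ = P) (hPP : P * P = P) (X : Matrix h B ℂ) :
    Qg J Z P g * (Mg J Z P g * X) = Mg J Z P g * X := by
  rw [← Matrix.mul_assoc, Qg_mul_Mg hP hPP]

theorem Z1_mul_Mg (hZ : Z ^ (J + 1) = 0) (hinv : P * (Z * P) = Z * P) :
    Z1 Z J * Mg J Z P g = Mg J Z P g * (Z * P) := by
  rw [Z1, Mg, fromBlocks_mul_fromRows, fromRows_mul, S_mul_Br hZ hinv, hinv]
  simp

theorem Qg_isV {j : ℕ} {v : Matrix h A ℂ} (hZ : Z ^ (J + 1) = 0) (H : IsV Z j P v) :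
    IsV (Z1 Z J) j (Qg J Z P g) (Mg J Z P g * v) := by
  refine ⟨Qg_conj, ?_, ?_, ?_, Qg_key H.herm H.idem v⟩
  · conv_lhs => rw [show Qg J Z P g = Mg J Z P g * ((Wg J Z P g)⁻¹ * (Mg J Z P g)ᴴ) from rfl]
    exact Qg_key H.herm H.idem _
  · rw [Qg, Matrix.trace_mul_comm, Matrix.mul_assoc, Mg_Wgi_Mgc_Mg H.herm H.idem, H.tr]
  · have h1 : Z1 Z J * Qg J Z P g = Mg J Z P g * ((Z * P) * ((Wg J Z P g)⁻¹ * (Mg J Z P g)ᴴ)) := by
      rw [Qg, ← Matrix.mul_assoc, Z1_mul_Mg hZ H.inv, Matrix.mul_assoc]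
    rw [h1]
    exact Qg_key H.herm H.idem _

end graph

/-! ### the projection of the big space -/

/-- `π` -/
def pr (h : Type*) [DecidableEq h] (J : ℕ) : Matrix h (h ⊕ Fin (J + 1)) ℂ := fromCols 1 0

/-- the projection on the last summand -/
def R0 (h : Type*) [DecidableEq h] (J : ℕ) : Matrix (h ⊕ Fin (J + 1)) (h ⊕ Fin (J + 1)) ℂ :=
  fromBlocks 0 0 0 1

/-- the column `e` -/
def e1 (h : Type*) [DecidableEq h] (J : ℕ) : Matrix (h ⊕ Fin (J + 1)) Unit ℂ :=
  Matrix.of fun i _ => if i = Sum.inr 0 then 1 else 0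

theorem prc : (pr h J)ᴴ = fromRows 1 0 := by
  rw [pr, conjTranspose_fromCols_eq_fromRows_conjTranspose]; simp


theorem prc_mul_pr : (pr h J)ᴴ * pr h J = 1 - R0 h J := by
  rw [prc, pr, fromRows_mul_fromCols, R0, ← fromBlocks_one, fromBlocks_sub']
  simp

theorem pr_mul_fromRows {B : Type*} (X : Matrix h B ℂ) (Y : Matrix (Fin (J + 1)) B ℂ) :
    pr h J * fromRows X Y = X := by
  rw [pr, fromCols_mul_fromRows]; simp

theorem pr_mul_Mg (Z P : Matrix h h ℂ) (g : Matrix h Unit ℂ) : pr h J * Mg J Z P g = P :=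
  pr_mul_fromRows _ _

theorem Z_mul_pr (Z : Matrix h h ℂ) : Z * pr h J = pr h J * Z1 Z J := by
  rw [pr, Z1, mul_fromCols, fromCols_mul_fromBlocks]; simp

theorem Z_pow_mul_pr (Z : Matrix h h ℂ) (m : ℕ) : Z ^ m * pr h J = pr h J * (Z1 Z J) ^ m := by
  induction m with
  | zero => simp
  | succ m ih => rw [pow_succ, Matrix.mul_assoc, Z_mul_pr, ← Matrix.mul_assoc, ih, pow_succ,
      Matrix.mul_assoc]

theorem e1c_mul {B : Type*} (X : Matrix (h ⊕ Fin (J + 1)) B ℂ) (k : B) :
    ((e1 h J)ᴴ * X) () k = X (Sum.inr 0) k := by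
  rw [Matrix.mul_apply, Finset.sum_eq_single (Sum.inr 0)]
  · simp [e1]
  · intro b _ hb
    simp [e1, hb]
  · intro h; exact absurd (Finset.mem_univ _) h

theorem e1c_Z1_pow (Z : Matrix h h ℂ) {B : Type*} (X : Matrix (h ⊕ Fin (J + 1)) B ℂ)
    (i : Fin (J + 1)) (k : B) :
    ((e1 h J)ᴴ * ((Z1 Z J) ^ (i : ℕ) * X)) () k = X (Sum.inr i) k := by
  rw [e1c_mul, Z1_pow, Matrix.mul_apply, Fintype.sum_sum_type]
  simp only [fromBlocks_apply₂₁, fromBlocks_apply₂₂, Matrix.zero_apply, zero_mul,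
    Finset.sum_const_zero, zero_add, S_pow_apply]
  rw [Finset.sum_eq_single i]
  · simp
  · intro b _ hb
    rw [if_neg (fun h => hb (Fin.ext (by simpa using h))), zero_mul]
  · intro h; exact absurd (Finset.mem_univ _) h

/-- `1 - Q R Q` -/
def Wb (Q : Matrix (h ⊕ Fin (J + 1)) (h ⊕ Fin (J + 1)) ℂ) :
    Matrix (h ⊕ Fin (J + 1)) (h ⊕ Fin (J + 1)) ℂ := 1 - Q * (R0 h J * Q)

section big

variable {Q : Matrix (h ⊕ Fin (J + 1)) (h ⊕ Fin (J + 1)) ℂ}

theorem R0_conj : (R0 h J)ᴴ = R0 h J := by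
  rw [R0, fromBlocks_conjTranspose]; simp

theorem Wb_conj (hQ : Qᴴ = Q) : (Wb Q)ᴴ = Wb Q := by
  rw [Wb, conjTranspose_sub, conjTranspose_one, conjTranspose_mul, conjTranspose_mul, hQ, R0_conj,
    Matrix.mul_assoc]

theorem Q_mul_Wb (hQQ : Q * Q = Q) : Q * Wb Q = Q * ((1 - R0 h J) * Q) := by
  rw [Wb, Matrix.mul_sub, Matrix.mul_one, ← Matrix.mul_assoc Q Q, hQQ, Matrix.sub_mul, Matrix.one_mul,
    Matrix.mul_sub, hQQ]

theorem Wb_mul_Q (hQQ : Q * Q = Q) : Wb Q * Q = Q * ((1 - R0 h J) * Q) := by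
  rw [Wb, Matrix.sub_mul, Matrix.one_mul, Matrix.mul_assoc, Matrix.mul_assoc, hQQ, Matrix.sub_mul,
    Matrix.one_mul, Matrix.mul_sub, hQQ]

open scoped ComplexOrder in
/-- `1 - Q R Q` is invertible when `e ∉ K` -/
theorem isUnit_Wb {Z : Matrix h h ℂ} {j : ℕ} {v : Matrix (h ⊕ Fin (J + 1)) A ℂ}
    (H : IsV (Z1 Z J) j Q v) (he : Q (Sum.inr 0) (Sum.inr 0) ≠ 1) : IsUnit (Wb Q).det := by
  rw [← Matrix.isUnit_iff_isUnit_det, ← Matrix.mulVec_injective_iff_isUnit]
  have main : ∀ d : h ⊕ Fin (J + 1) → ℂ, Wb Q *ᵥ d = 0 → d = 0 := by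
    intro d hd
    have h1 : d = Q *ᵥ (R0 h J *ᵥ (Q *ᵥ d)) := by
      rw [Wb, Matrix.sub_mulVec, Matrix.one_mulVec, sub_eq_zero] at hd
      rw [Matrix.mulVec_mulVec, Matrix.mulVec_mulVec, Matrix.mul_assoc]
      exact hd
    have h2 : Q *ᵥ d = d := by
      conv_lhs => rw [h1]
      rw [Matrix.mulVec_mulVec, H.idem, ← h1]
    rw [h2] at h1
    have h3 : star d ⬝ᵥ d = star d ⬝ᵥ (R0 h J *ᵥ d) := by
      have h4 : star (Qᴴ *ᵥ d) = star d ᵥ* Q := by
        rw [Matrix.star_mulVec, conjTranspose_conjTranspose]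
      have h4' : star d ⬝ᵥ d = star d ⬝ᵥ (Q *ᵥ (R0 h J *ᵥ d)) :=
        congrArg (fun y => star d ⬝ᵥ y) h1
      rw [h4', Matrix.dotProduct_mulVec, ← h4, H.herm, h2]
    have h5 : ∀ i : h, d (Sum.inl i) = 0 := by
      have h6 : R0 h J *ᵥ d = Sum.elim (fun _ => 0) (fun i => d (Sum.inr i)) := by
        rw [R0, Matrix.fromBlocks_mulVec]
        funext i
        rcases i with i | i
        · simp
        · simp
      rw [h6, dotProduct, dotProduct, Fintype.sum_sum_type, Fintype.sum_sum_type] at h3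
      simp only [Sum.elim_inl, Sum.elim_inr, mul_zero, Finset.sum_const_zero, zero_add,
        Pi.star_apply] at h3
      have h7 : ∑ i : h, star (d (Sum.inl i)) * d (Sum.inl i) = 0 := by
        have := h3
        rwa [add_eq_right] at this
      have h8 : star (fun i : h => d (Sum.inl i)) ⬝ᵥ (fun i : h => d (Sum.inl i)) = 0 := h7
      rw [dotProduct_star_self_eq_zero] at h8
      exact fun i => congrFun h8 i
    by_contra hne
    have h9 : ∃ i, d (Sum.inr i) ≠ 0 := by
      by_contra h10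
      push Not at h10
      exact hne (funext fun i => by rcases i with i | i; exacts [h5 i, h10 i])
    classical
    set s : Finset (Fin (J + 1)) := Finset.univ.filter fun i => d (Sum.inr i) ≠ 0 with hs
    have hsn : s.Nonempty := by
      obtain ⟨i, hi⟩ := h9
      exact ⟨i, by simp [hs, hi]⟩
    set i0 := s.max' hsn with hi0
    have hi0s : d (Sum.inr i0) ≠ 0 := by
      have := s.max'_mem hsn
      simp only [hs, Finset.mem_filter, Finset.mem_univ, true_and] at this
      exact this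
    have hgt : ∀ b, i0 < b → d (Sum.inr b) = 0 := by
      intro b hb
      by_contra hb0
      have : b ≤ i0 := s.le_max' b (by simp [hs, hb0])
      exact absurd hb (not_lt.2 this)
    have hinv : ∀ m : ℕ, Q *ᵥ ((Z1 Z J) ^ m *ᵥ d) = (Z1 Z J) ^ m *ᵥ d := by
      intro m
      induction m with
      | zero => simpa using h2
      | succ m ih =>
        have h10 : (Z1 Z J) ^ (m + 1) *ᵥ d = (Z1 Z J * Q) *ᵥ ((Z1 Z J) ^ m *ᵥ d) := by
          rw [← Matrix.mulVec_mulVec _ (Z1 Z J) Q, ih, Matrix.mulVec_mulVec, ← pow_succ']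
        rw [h10, Matrix.mulVec_mulVec, H.inv]
    have hpow : (Z1 Z J) ^ (i0 : ℕ) *ᵥ d = d (Sum.inr i0) • Pi.single (Sum.inr 0) 1 := by
      rw [Z1_pow, Matrix.fromBlocks_mulVec]
      funext i
      rcases i with i | i
      · have : (d ∘ Sum.inl) = 0 := funext h5
        simp [this]
      · simp only [Sum.elim_inr, Matrix.zero_mulVec, zero_add, Pi.smul_apply, smul_eq_mul, Matrix.mulVec, dotProduct, S_pow_apply, Function.comp_apply]
        by_cases hi : i = 0
        · subst hi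
          rw [Finset.sum_eq_single i0]
          · simp
          · intro b _ hb
            rw [if_neg (fun h => hb (Fin.ext (by simpa using h))), zero_mul]
          · intro h; exact absurd (Finset.mem_univ _) h
        · have hne' : (Sum.inr i : h ⊕ Fin (J + 1)) ≠ Sum.inr 0 := fun h => hi (Sum.inr_injective h)
          rw [Pi.single_eq_of_ne hne', mul_zero]
          apply Finset.sum_eq_zero
          intro b _
          by_cases hb : (b : ℕ) = i + i0
          · have : i0 < b := by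
              rw [Fin.lt_def, hb]
              have : 0 < (i : ℕ) := Nat.pos_of_ne_zero (fun h => hi (Fin.ext h))
              omega
            rw [hgt b this, mul_zero]
          · rw [if_neg hb, zero_mul]
    have h11 := hinv i0
    rw [hpow, Matrix.mulVec_smul] at h11
    have h12 := congrFun h11 (Sum.inr 0)
    simp only [Pi.smul_apply, smul_eq_mul, Pi.single_eq_same, mul_one, Matrix.mulVec_single_one,
      Matrix.col_apply] at h12
    exact he (by
      have := mul_left_cancel₀ hi0s (h12.trans (mul_one _).symm)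
      exact this)
  intro x y hxy
  have h1 := main (x - y) (by rw [Matrix.mulVec_sub, sub_eq_zero]; exact hxy)
  exact sub_eq_zero.1 h1

theorem core {B : Type*} (hQQ : Q * Q = Q) (hW : IsUnit (Wb Q).det)
    (X : Matrix (h ⊕ Fin (J + 1)) B ℂ) (hX : Q * X = X) :
    (Wb Q)⁻¹ * (Q * ((1 - R0 h J) * X)) = X := by
  have h1 : Q * ((1 - R0 h J) * X) = Wb Q * X := by
    conv_lhs => rw [← hX, ← Matrix.mul_assoc (1 - R0 h J), ← Matrix.mul_assoc Q, ← Wb_mul_Q hQQ,
      Matrix.mul_assoc, hX]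
  rw [h1, ← Matrix.mul_assoc, Matrix.nonsing_inv_mul _ hW, Matrix.one_mul]

theorem D_comm (hQQ : Q * Q = Q) (hW : IsUnit (Wb Q).det) : (Wb Q)⁻¹ * Q = Q * (Wb Q)⁻¹ := by
  have h1 : Q * Wb Q = Wb Q * Q := by rw [Q_mul_Wb hQQ, Wb_mul_Q hQQ]
  calc (Wb Q)⁻¹ * Q = (Wb Q)⁻¹ * (Q * (Wb Q * (Wb Q)⁻¹)) := by
        rw [Matrix.mul_nonsing_inv _ hW, Matrix.mul_one]
    _ = (Wb Q)⁻¹ * ((Q * Wb Q) * (Wb Q)⁻¹) := by rw [Matrix.mul_assoc Q]
    _ = Q * (Wb Q)⁻¹ := by
        rw [h1, Matrix.mul_assoc, ← Matrix.mul_assoc, Matrix.nonsing_inv_mul _ hW, Matrix.one_mul]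

/-- the small projection -/
noncomputable def Pb (Q : Matrix (h ⊕ Fin (J + 1)) (h ⊕ Fin (J + 1)) ℂ) : Matrix h h ℂ :=
  pr h J * ((Wb Q)⁻¹ * (Q * (pr h J)ᴴ))

/-- the small vector -/
noncomputable def gb (Q : Matrix (h ⊕ Fin (J + 1)) (h ⊕ Fin (J + 1)) ℂ) : Matrix h Unit ℂ :=
  pr h J * ((Wb Q)⁻¹ * (Q * e1 h J))

theorem Q_D_Q {B : Type*} (hQQ : Q * Q = Q) (hW : IsUnit (Wb Q).det) (X : Matrix (h ⊕ Fin (J + 1)) B ℂ) :
    Q * ((Wb Q)⁻¹ * (Q * X)) = (Wb Q)⁻¹ * (Q * X) := by
  rw [← Matrix.mul_assoc, ← D_comm hQQ hW, Matrix.mul_assoc, ← Matrix.mul_assoc Q, hQQ]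

theorem Pb_key {B : Type*} (hQQ : Q * Q = Q) (hW : IsUnit (Wb Q).det)
    (X : Matrix (h ⊕ Fin (J + 1)) B ℂ) (hX : Q * X = X) : Pb Q * (pr h J * X) = pr h J * X := by
  rw [Pb, Matrix.mul_assoc, Matrix.mul_assoc, Matrix.mul_assoc, ← Matrix.mul_assoc (pr h J)ᴴ,
    prc_mul_pr, core hQQ hW X hX]

theorem Pb_conj (hQ : Qᴴ = Q) (hQQ : Q * Q = Q) (hW : IsUnit (Wb Q).det) : (Pb Q)ᴴ = Pb Q := by
  rw [Pb, conjTranspose_mul, conjTranspose_mul, conjTranspose_mul, conjTranspose_conjTranspose,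
    conjTranspose_nonsing_inv, Wb_conj hQ, hQ, Matrix.mul_assoc, Matrix.mul_assoc, ← Matrix.mul_assoc Q,
    ← D_comm hQQ hW, Matrix.mul_assoc]

theorem Pb_isV {Z : Matrix h h ℂ} {j : ℕ} {v : Matrix (h ⊕ Fin (J + 1)) A ℂ}
    (H : IsV (Z1 Z J) j Q v) (hW : IsUnit (Wb Q).det) :
    IsV Z j (Pb Q) (fromCols (pr h J * v) (gb Q)) := by
  have hQQ := H.idem
  refine ⟨Pb_conj H.herm hQQ hW, ?_, ?_, ?_, ?_⟩
  · exact Pb_key hQQ hW _ (Q_D_Q hQQ hW _)
  · have h1 : (Pb Q).trace = ((Wb Q)⁻¹ * (Q * (1 - R0 h J))).trace := by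
      rw [Pb, Matrix.trace_mul_comm, Matrix.mul_assoc, Matrix.mul_assoc, prc_mul_pr]
    have h2 : ((Wb Q)⁻¹ * (Q * (1 - R0 h J))).trace = Q.trace := by
      have h3 : (Wb Q)⁻¹ * (Q * (1 - R0 h J)) = Q * ((Wb Q)⁻¹ * (Q * (1 - R0 h J))) :=
        (Q_D_Q hQQ hW _).symm
      rw [h3, Matrix.trace_mul_comm, Matrix.mul_assoc, Matrix.mul_assoc, ← Wb_mul_Q hQQ]
      rw [← Matrix.mul_assoc, Matrix.nonsing_inv_mul _ hW, Matrix.one_mul]
    rw [h1, h2, H.tr]
  · have h1 : Z * Pb Q = pr h J * (Z1 Z J * ((Wb Q)⁻¹ * (Q * (pr h J)ᴴ))) := by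
      rw [Pb, ← Matrix.mul_assoc, Z_mul_pr, Matrix.mul_assoc]
    rw [h1]
    refine Pb_key hQQ hW _ ?_
    rw [← Q_D_Q hQQ hW, ← Matrix.mul_assoc (Z1 Z J), ← Matrix.mul_assoc Q, H.inv]
  · rw [mul_fromCols, Pb_key hQQ hW v H.vec, gb, Pb_key hQQ hW _ (Q_D_Q hQQ hW _)]

theorem D_Q_swap {B : Type*} (hQQ : Q * Q = Q) (hW : IsUnit (Wb Q).det)
    (X : Matrix (h ⊕ Fin (J + 1)) B ℂ) : Q * ((Wb Q)⁻¹ * X) = (Wb Q)⁻¹ * (Q * X) := by
  rw [← Matrix.mul_assoc, ← D_comm hQQ hW, Matrix.mul_assoc]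

theorem inv_pow {B : Type*} {Z : Matrix h h ℂ} {j : ℕ} {v : Matrix (h ⊕ Fin (J + 1)) A ℂ}
    (H : IsV (Z1 Z J) j Q v) (X : Matrix (h ⊕ Fin (J + 1)) B ℂ) (hX : Q * X = X) (m : ℕ) :
    Q * ((Z1 Z J) ^ m * X) = (Z1 Z J) ^ m * X := by
  induction m with
  | zero => simpa using hX
  | succ m ih =>
    have h10 : (Z1 Z J) ^ (m + 1) * X = (Z1 Z J * Q) * ((Z1 Z J) ^ m * X) := by
      rw [Matrix.mul_assoc, ih, ← Matrix.mul_assoc, ← pow_succ']
    rw [h10, ← Matrix.mul_assoc, H.inv]

end big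

/-! ### the two round trips -/

section roundtrip

variable {Z P : Matrix h h ℂ} {g : Matrix h Unit ℂ}

theorem Qg_ne_one {j : ℕ} {v : Matrix h A ℂ} (hZ : Z ^ (J + 1) = 0) (H : IsV Z j P v) :
    Qg J Z P g (Sum.inr 0) (Sum.inr 0) ≠ 1 := by
  intro he
  have h1 : Qg J Z P g * E h J = E h J := P_mul_E (Qg_isV hZ H) he
  rw [Qg, Matrix.mul_assoc, Matrix.mul_assoc] at h1
  have h2 : P * ((Wg J Z P g)⁻¹ * ((Mg J Z P g)ᴴ * E h J)) = 0 := by
    rw [← pr_mul_Mg (J := J) Z P g]
    rw [Matrix.mul_assoc, pr_mul_Mg, h1, pr, E, fromCols_mul_fromBlocks]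
    simp
  have h4 : Mg J Z P g * ((Wg J Z P g)⁻¹ * ((Mg J Z P g)ᴴ * E h J)) = 0 := by
    conv_lhs => rw [← Mg_mul_P (J := J) (Z := Z) (g := g) H.idem]
    rw [Mg_mul_P (J := J) (Z := Z) (g := g) H.idem]
    conv_lhs => enter [1]; rw [← Mg_mul_P (J := J) (Z := Z) (g := g) H.idem]
    rw [Matrix.mul_assoc, h2, Matrix.mul_zero]
  rw [h4] at h1
  have h3 := congrFun (congrFun h1 (Sum.inr 0)) (Sum.inr 0)
  simp [E] at h3

variable (hP : Pᴴ = P) (hPP : P * P = P)

include hP hPP

theorem Qg_idem : Qg J Z P g * Qg J Z P g = Qg J Z P g := by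
  conv_lhs => rw [show Qg J Z P g = Mg J Z P g * ((Wg J Z P g)⁻¹ * (Mg J Z P g)ᴴ) from rfl]
  exact Qg_key hP hPP _

theorem key' (hW : IsUnit (Wb (Qg J Z P g)).det) :
    (Wb (Qg J Z P g))⁻¹ * (Qg J Z P g * ((pr h J)ᴴ * P)) = Mg J Z P g := by
  have h1 : (pr h J)ᴴ * P = (1 - R0 h J) * Mg J Z P g := by
    rw [← prc_mul_pr, Matrix.mul_assoc, pr_mul_Mg]
  rw [h1]
  exact core (Qg_idem hP hPP) hW _ (Qg_mul_Mg hP hPP)

theorem P_fix {B : Type*} (X : Matrix (h ⊕ Fin (J + 1)) B ℂ) (hX : Qg J Z P g * X = X) :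
    P * (pr h J * X) = pr h J * X := by
  rw [← hX, Qg, Matrix.mul_assoc, ← Matrix.mul_assoc (pr h J), pr_mul_Mg, ← Matrix.mul_assoc, hPP]

theorem Pb_Qg (hW : IsUnit (Wb (Qg J Z P g)).det) : Pb (Qg J Z P g) = P := by
  have hQQ := Qg_idem (J := J) (Z := Z) (g := g) hP hPP
  refine proj_unique (Pb_conj Qg_conj hQQ hW) hP ?_ ?_
  · rw [Pb, Matrix.mul_assoc, Matrix.mul_assoc, Matrix.mul_assoc, key' hP hPP hW, pr_mul_Mg]
  · exact P_fix hP hPP _ (Q_D_Q hQQ hW _)

theorem gb_Qg (hW : IsUnit (Wb (Qg J Z P g)).det) (hg : P * g = g) : gb (Qg J Z P g) = g := by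
  have hQQ := Qg_idem (J := J) (Z := Z) (g := g) hP hPP
  have h1 : P * gb (Qg J Z P g) = gb (Qg J Z P g) := P_fix hP hPP _ (Q_D_Q hQQ hW _)
  have h2 : (gb (Qg J Z P g))ᴴ * P = gᴴ * P := by
    rw [gb, conjTranspose_mul, conjTranspose_mul, conjTranspose_mul, conjTranspose_nonsing_inv,
      Wb_conj Qg_conj, Qg_conj, Matrix.mul_assoc, Matrix.mul_assoc, Matrix.mul_assoc,
      D_Q_swap hQQ hW, key' hP hPP hW]
    ext i k
    rw [e1c_mul]
    simp [Mg, Br]
  have h3 := congrArg conjTranspose h2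
  rw [conjTranspose_mul, conjTranspose_mul, conjTranspose_conjTranspose, conjTranspose_conjTranspose,
    hP] at h3
  rw [← h1, h3, hg]

end roundtrip

theorem pr_mul_apply {B : Type*} (X : Matrix (h ⊕ Fin (J + 1)) B ℂ) (i : h) (k : B) :
    (pr h J * X) i k = X (Sum.inl i) k := by
  conv_lhs => rw [← fromRows_toRows X]
  rw [pr_mul_fromRows]
  rfl

section roundtrip2

variable {Z : Matrix h h ℂ} {j : ℕ} {Q : Matrix (h ⊕ Fin (J + 1)) (h ⊕ Fin (J + 1)) ℂ}
  {v : Matrix (h ⊕ Fin (J + 1)) A ℂ} (H : IsV (Z1 Z J) j Q v) (hW : IsUnit (Wb Q).det)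

include H hW

theorem Mg_b : Mg J Z (Pb Q) (gb Q) = (Wb Q)⁻¹ * (Q * (pr h J)ᴴ) := by
  have hQQ := H.idem
  set X := (Wb Q)⁻¹ * (Q * (pr h J)ᴴ) with hX
  have hQX : Q * X = X := Q_D_Q hQQ hW _
  have hPX : Pb Q = pr h J * X := rfl
  ext i k
  rcases i with i | i
  · rw [Mg, fromRows_apply_inl, hPX, pr_mul_apply]
  · rw [Mg, fromRows_apply_inr]
    show ((gb Q)ᴴ * (Z ^ (i : ℕ) * Pb Q)) () k = _
    have h1 : (gb Q)ᴴ * (Z ^ (i : ℕ) * Pb Q) = (e1 h J)ᴴ * ((Z1 Z J) ^ (i : ℕ) * X) := by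
      rw [hPX, ← Matrix.mul_assoc (Z ^ (i : ℕ)), Z_pow_mul_pr, Matrix.mul_assoc (pr h J), gb,
        conjTranspose_mul, conjTranspose_mul, conjTranspose_mul, conjTranspose_nonsing_inv,
        Wb_conj H.herm, H.herm, Matrix.mul_assoc, Matrix.mul_assoc, Matrix.mul_assoc,
        ← Matrix.mul_assoc (pr h J)ᴴ, prc_mul_pr, D_Q_swap hQQ hW,
        core hQQ hW _ (inv_pow H X hQX i)]
    rw [h1, e1c_Z1_pow]

theorem Mg_pr {B : Type*} (X : Matrix (h ⊕ Fin (J + 1)) B ℂ) (hX : Q * X = X) :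
    Mg J Z (Pb Q) (gb Q) * (pr h J * X) = X := by
  rw [Mg_b H hW, Matrix.mul_assoc, Matrix.mul_assoc, ← Matrix.mul_assoc (pr h J)ᴴ, prc_mul_pr,
    core H.idem hW X hX]

theorem Qg_b : Qg J Z (Pb Q) (gb Q) = Q := by
  have hQQ := H.idem
  have hV := Pb_isV H hW
  have hM : Q * Mg J Z (Pb Q) (gb Q) = Mg J Z (Pb Q) (gb Q) := by
    rw [Mg_b H hW]; exact Q_D_Q hQQ hW _
  refine proj_unique Qg_conj H.herm ?_ ?_
  · have h1 : Q = Mg J Z (Pb Q) (gb Q) * (pr h J * Q) := (Mg_pr H hW Q hQQ).symm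
    conv_lhs => rw [h1]
    have h2 := Qg_key (J := J) (Z := Z) (g := gb Q) hV.herm hV.idem (pr h J * Q)
    rw [← h1] at h2 ⊢
    exact h2
  · rw [Qg, ← Matrix.mul_assoc, hM]

end roundtrip2

/-! ### continuity -/

section cont

variable {X : Type*} [TopologicalSpace X]

theorem continuous_Mg {Z : Matrix h h ℂ} {P : X → Matrix h h ℂ} {g : X → Matrix h Unit ℂ}
    (hP : Continuous P) (hg : Continuous g) : Continuous fun x => Mg J Z (P x) (g x) := by
  refine continuous_matrix fun i k => ?_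
  rcases i with i | i
  · exact hP.matrix_elem _ _
  · exact (hg.matrix_conjTranspose.matrix_mul (continuous_const.matrix_mul hP)).matrix_elem _ _

theorem continuous_Wg {Z : Matrix h h ℂ} {P : X → Matrix h h ℂ} {g : X → Matrix h Unit ℂ}
    (hP : Continuous P) (hg : Continuous g) : Continuous fun x => Wg J Z (P x) (g x) := by
  have h1 : Continuous fun x => Br J Z (P x) (g x) := continuous_matrix fun i k =>
    (hg.matrix_conjTranspose.matrix_mul (continuous_const.matrix_mul hP)).matrix_elem _ _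
  exact continuous_const.add (h1.matrix_conjTranspose.matrix_mul h1)

theorem continuous_Qg {Z : Matrix h h ℂ} {P : X → Matrix h h ℂ} {g : X → Matrix h Unit ℂ}
    (hP : Continuous P) (hg : Continuous g) : Continuous fun x => Qg J Z (P x) (g x) :=
  (continuous_Mg hP hg).matrix_mul ((continuous_inv_of (continuous_Wg hP hg)
    fun _ => isUnit_Wg _ _ _).matrix_mul (continuous_Mg hP hg).matrix_conjTranspose)

end cont

theorem toCols_isV {Z P : Matrix h h ℂ} {j : ℕ} {w : Matrix h (A ⊕ Unit) ℂ} (H : IsV Z j P w) :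
    IsV Z j P w.toCols₁ ∧ P * w.toCols₂ = w.toCols₂ := by
  have h1 := H.vec
  rw [← fromCols_toCols w, mul_fromCols] at h1
  obtain ⟨h2, h3⟩ := fromCols_inj h1
  exact ⟨⟨H.herm, H.idem, H.tr, H.inv, h2⟩, h3⟩

/-- **F0-OPEN.** The open part `{e ∉ K}` of `V^{(A)}_j` over `h ⊕ Fin (J+1)` is `V^{(A ⊕ 1)}_j` over `h`. -/
noncomputable def openHomeo [Finite A] (Z : Matrix h h ℂ) (hZ : Z ^ (J + 1) = 0) (j : ℕ) :
    V Z (A ⊕ Unit) j ≃ₜ {x : V (Z1 Z J) A j // x.1.1 (Sum.inr 0) (Sum.inr 0) ≠ 1} where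
  toFun y := ⟨⟨(Qg J Z y.1.1 y.1.2.toCols₂, Mg J Z y.1.1 y.1.2.toCols₂ * y.1.2.toCols₁),
    Qg_isV hZ (toCols_isV y.2).1⟩, Qg_ne_one hZ y.2⟩
  invFun x := ⟨(Pb x.1.1.1, fromCols (pr h J * x.1.1.2) (gb x.1.1.1)), Pb_isV x.1.2 (isUnit_Wb x.1.2 x.2)⟩
  left_inv y := by
    obtain ⟨⟨P, w⟩, H⟩ := y
    have H' : IsV Z j P w := H
    have hW : IsUnit (Wb (Qg J Z P w.toCols₂)).det :=
      isUnit_Wb (Qg_isV hZ (toCols_isV H').1) (Qg_ne_one hZ H')
    refine V.ext (Pb_Qg H'.herm H'.idem hW) ?_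
    show fromCols (pr h J * (Mg J Z P w.toCols₂ * w.toCols₁)) (gb (Qg J Z P w.toCols₂)) = w
    rw [← Matrix.mul_assoc, pr_mul_Mg, (toCols_isV H').1.vec,
      gb_Qg H'.herm H'.idem hW (toCols_isV H').2, fromCols_toCols]
  right_inv x := by
    obtain ⟨⟨⟨Q, v⟩, H⟩, he⟩ := x
    have H' : IsV (Z1 Z J) j Q v := H
    have hW : IsUnit (Wb Q).det := isUnit_Wb H' he
    refine Subtype.ext (V.ext ?_ ?_)
    · show Qg J Z (Pb Q) ((fromCols (pr h J * v) (gb Q)).toCols₂) = Q
      rw [toCols₂_fromCols]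
      exact Qg_b H' hW
    · show Mg J Z (Pb Q) ((fromCols (pr h J * v) (gb Q)).toCols₂) *
        ((fromCols (pr h J * v) (gb Q)).toCols₁) = v
      rw [toCols₂_fromCols, toCols₁_fromCols]
      exact Mg_pr H' hW v H'.vec
  continuous_toFun := by
    have hP : Continuous fun y : V Z (A ⊕ Unit) j => y.1.1 := continuous_fst.comp (continuous_val _ _)
    have hw : Continuous fun y : V Z (A ⊕ Unit) j => y.1.2 := continuous_snd.comp (continuous_val _ _)
    have hg : Continuous fun y : V Z (A ⊕ Unit) j => y.1.2.toCols₂ :=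
      continuous_matrix fun i k => hw.matrix_elem _ _
    have hv : Continuous fun y : V Z (A ⊕ Unit) j => y.1.2.toCols₁ :=
      continuous_matrix fun i k => hw.matrix_elem _ _
    refine Continuous.subtype_mk (continuous_mk ?_ ?_) _
    · exact continuous_Qg hP hg
    · exact (continuous_Mg hP hg).matrix_mul hv
  continuous_invFun := by
    have hQ : Continuous fun x : {x : V (Z1 Z J) A j // x.1.1 (Sum.inr 0) (Sum.inr 0) ≠ 1} =>
        x.1.1.1 := continuous_fst.comp ((continuous_val _ _).comp continuous_subtype_val)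
    have hv : Continuous fun x : {x : V (Z1 Z J) A j // x.1.1 (Sum.inr 0) (Sum.inr 0) ≠ 1} =>
        x.1.1.2 := continuous_snd.comp ((continuous_val _ _).comp continuous_subtype_val)
    have hD : Continuous fun x : {x : V (Z1 Z J) A j // x.1.1 (Sum.inr 0) (Sum.inr 0) ≠ 1} =>
        (Wb x.1.1.1)⁻¹ := by
      refine continuous_inv_of ?_ fun x => isUnit_Wb x.1.2 x.2
      exact continuous_const.sub (hQ.matrix_mul (continuous_const.matrix_mul hQ))
    refine continuous_mk ?_ ?_
    · exact continuous_const.matrix_mul (hD.matrix_mul (hQ.matrix_mul continuous_const))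
    · refine continuous_matrix fun i k => ?_
      rcases k with k | k
      · exact (continuous_const.matrix_mul hv).matrix_elem _ _
      · exact (continuous_const.matrix_mul (hD.matrix_mul (hQ.matrix_mul continuous_const))).matrix_elem _ _

end Crest.Agent.R090.F0Open806
end

-- ▼ part R090/F0OpenK_806
section

/-!
# Row 90, F0-OPEN at an arbitrary coordinate; the Prop `OpenPart` of F0Cells_933 (owner helper806)
-/

set_option autoImplicit false
set_option linter.unusedSectionVars false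
set_option linter.unusedFintypeInType false
set_option linter.unusedDecidableInType false

open Matrix Topology
open scoped Kronecker

namespace Crest.Agent.R090.F0OpenK806

open F0Defs806 F0Closed806 F0Open806
open F0_933 (bs bs_eq p0 pS Cl OpenPart)

/-- cast of the shift -/
def reindexTo {h h' A A' : Type*} [Fintype h] [DecidableEq h] [Fintype h'] [DecidableEq h']
    {Z : Matrix h h ℂ} {Z' : Matrix h' h' ℂ} (e : h ≃ h') (f : A ≃ A')
    (hZ : Z.submatrix e.symm e.symm = Z') (j : ℕ) : V Z A j ≃ₜ V Z' A' j where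
  toFun x := ⟨(x.1.1.submatrix e.symm e.symm, x.1.2.submatrix e.symm f.symm), hZ ▸ x.2.reindex e f⟩
  invFun x := ⟨(x.1.1.submatrix e e, x.1.2.submatrix e f), by
    have h1 := x.2.reindex e.symm f.symm
    have h2 : Z'.submatrix e.symm.symm e.symm.symm = Z := by
      rw [← hZ, submatrix_submatrix]; simp
    exact h2 ▸ h1⟩
  left_inv x := by
    apply V.ext <;> simp [submatrix_submatrix]
  right_inv x := by
    apply V.ext <;> simp [submatrix_submatrix]
  continuous_toFun := by
    refine continuous_mk ?_ ?_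
    · exact (continuous_fst.comp (continuous_val Z j)).matrix_submatrix _ _
    · exact (continuous_snd.comp (continuous_val Z j)).matrix_submatrix _ _
  continuous_invFun := by
    refine continuous_mk ?_ ?_
    · exact (continuous_fst.comp (continuous_val _ j)).matrix_submatrix _ _
    · exact (continuous_snd.comp (continuous_val _ j)).matrix_submatrix _ _

variable {ι : Type} [Fintype ι] [DecidableEq ι]

/-- split off the coordinate `k` -/
def splitK (k : ι) (J : ℕ) : ι × Fin (J + 1) ≃ ({i : ι // i ≠ k} × Fin (J + 1)) ⊕ Fin (J + 1) where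
  toFun x := if h : x.1 = k then Sum.inr x.2 else Sum.inl (⟨x.1, h⟩, x.2)
  invFun := Sum.elim (fun x => (x.1.1, x.2)) (fun a => (k, a))
  left_inv x := by
    by_cases h : x.1 = k
    · simp only [h, dif_pos, Sum.elim_inr]
      exact Prod.ext h.symm rfl
    · simp [h]
  right_inv y := by
    rcases y with y | a
    · have := y.1.2
      simp [this]
    · simp

theorem splitK_symm_inl (k : ι) (J : ℕ) (x : {i : ι // i ≠ k} × Fin (J + 1)) :
    (splitK k J).symm (Sum.inl x) = (x.1.1, x.2) := rfl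

theorem splitK_symm_inr (k : ι) (J : ℕ) (a : Fin (J + 1)) :
    (splitK k J).symm (Sum.inr a) = (k, a) := rfl

theorem bs_split (k : ι) (J : ℕ) : (bs ι J).submatrix (splitK k J).symm (splitK k J).symm =
    Z1 (bs {i : ι // i ≠ k} J) J := by
  rw [bs_eq, bs_eq]
  ext x y
  rcases x with x | a <;> rcases y with y | b
  · simp only [submatrix_apply, splitK_symm_inl, kroneckerMap_apply, Z1, fromBlocks_apply₁₁,
      Matrix.one_apply, Subtype.ext_iff]
  · have := x.1.2
    simp [splitK_symm_inl, splitK_symm_inr, kroneckerMap_apply, Z1, this]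
  · have := y.1.2
    simp [splitK_symm_inl, splitK_symm_inr, kroneckerMap_apply, Z1, this.symm]
  · simp [splitK_symm_inr, kroneckerMap_apply, Z1]

/-- **F0-OPEN at the coordinate `k`** -/
noncomputable def openHomeoK {A : Type} [Finite A] (k : ι) (J j : ℕ) :
    {x : V (bs ι J) A j // x.1.1 (k, 0) (k, 0) ≠ 1} ≃ₜ V (bs {i : ι // i ≠ k} J) (A ⊕ Unit) j :=
  ((reindexTo (A := A) (splitK k J) (Equiv.refl A) (bs_split k J) j).subtype
    (p := fun x => x.1.1 (k, 0) (k, 0) ≠ 1) (q := fun x => x.1.1 (Sum.inr 0) (Sum.inr 0) ≠ 1)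
    (fun _ => Iff.rfl)).trans
    (openHomeo (A := A) (bs {i : ι // i ≠ k} J) F0_933.bs_pow_zero j).symm

theorem p0_pS (k : ι) (J : ℕ) : p0 J (pS {k}) = Matrix.single (k, 0) (k, 0) 1 := by
  ext x y
  obtain ⟨i, a⟩ := x
  obtain ⟨i', b⟩ := y
  simp only [p0, pS, kroneckerMap_apply, diagonal_apply, Matrix.single_apply, Finset.mem_singleton,
    Prod.mk.injEq]
  by_cases h1 : i = k
  · subst h1
    by_cases h2 : i = i'
    · subst h2
      by_cases h3 : (0 : Fin (J + 1)) = a <;> by_cases h4 : (0 : Fin (J + 1)) = b <;> simp [h3, h4]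
    · simp [h2]
  · have h1' : ¬ k = i := fun h => h1 h.symm
    simp [h1, h1']

theorem mul_single_iff {n : Type*} [Fintype n] [DecidableEq n] {P : Matrix n n ℂ} (hP : Pᴴ = P)
    (hPP : P * P = P) (e : n) : P * Matrix.single e e 1 = Matrix.single e e 1 ↔ P e e = 1 := by
  constructor
  · intro h
    have := congrFun (congrFun h e) e
    simpa using this
  · intro h
    ext i y
    by_cases hy : y = e
    · subst hy
      rw [mul_single_apply_same, mul_one]
      by_cases hi : i = y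
      · subst hi; rw [h]; simp
      · rw [col_eq_zero hP hPP h i hi, Matrix.single_apply_of_row_ne (Ne.symm hi)]
    · rw [mul_single_apply_of_ne _ _ _ _ _ hy, Matrix.single_apply_of_col_ne _ _ (Ne.symm hy)]

theorem mem_Cl_iff {A : Type} (k : ι) (J j : ℕ) (x : V (bs ι J) A j) :
    x ∈ Cl J A (pS {k}) j ↔ x.1.1 (k, 0) (k, 0) = 1 := by
  show x.1.1 * p0 J (pS {k}) = p0 J (pS {k}) ↔ _
  rw [p0_pS]
  exact mul_single_iff x.2.herm x.2.idem (k, 0)

/-- **the input OPEN of F0Cells_933** -/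
theorem openPart : OpenPart := by
  intro ι _ _ k J A _ j
  refine ⟨A ⊕ Unit, inferInstance, ⟨?_⟩⟩
  refine Homeomorph.trans ?_ (openHomeoK k J j)
  refine (Homeomorph.refl (V (bs ι J) A j)).subtype (fun x => ?_)
  exact (not_congr (mem_Cl_iff k J j x))

end Crest.Agent.R090.F0OpenK806
end

-- ▼ part R090/F0Mul_96
section

/-!
# Row 90, F0: the product `Th s ι ∧ V_j → V_{j+s}` in the names of 933 / 275 (owner helper96)

* `mulMap hj : PMap (Th s ι × V (bs ι J) Unit j) (V (bs ι J) Unit (j + s))`;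
* `fibM`, `emb` : the fibre over a fixed projection `p` and the closed embedding `E × V_j → V_{j+s}`;
* `mulMap_comp_fib : mulMap ∘ (fibM ∧ id) = ofClosed emb`;
* `null_emb : (fibM ∘ g).Null → (ofClosed emb ∘ (g ∧ id)).Null`.
-/

set_option autoImplicit false
set_option linter.unusedSectionVars false
set_option linter.unusedFintypeInType false
set_option linter.unusedDecidableInType false

open Matrix Topology Filter
open scoped Kronecker

namespace Crest.Agent.R090.F0Mul96

open F0_933 (bs HI amp gam p0 inj0 prodP prodV pS Cl WV)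
open F0Defs806 (IsV V continuous_mk continuous_val)
open Sp962 F0Prod96
open I0core275 (Th)

noncomputable section

variable {ι : Type} [Fintype ι] [DecidableEq ι] {J : ℕ}

/-- a vector as a one-column matrix -/
def col {ι : Type} (a : ι → ℂ) : Matrix ι Unit ℂ := Matrix.of fun i _ => a i

theorem mul_col (p : Matrix ι ι ℂ) (a : ι → ℂ) : p * col a = col (p *ᵥ a) := by
  ext i k
  rfl


theorem continuous_col {ι : Type} : Continuous (col (ι := ι)) :=
  continuous_matrix fun i _ => continuous_apply i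

theorem isPr_of {k : ℕ} {p : Matrix ι ι ℂ} (h : I0core275.IsPr k p) : F0_933.IsPr p :=
  ⟨h.idem, h.herm⟩

theorem norm_prodV {j : ℕ} (hj : j ≤ J) {p : Matrix ι ι ℂ} (hp : F0_933.IsPr p)
    {a : Matrix ι Unit ℂ} (ha : p * a = a) {P : Matrix (HI ι J) (HI ι J) ℂ}
    {v : Matrix (HI ι J) Unit ℂ} (H : IsV (bs ι J) j P v) :
    (prodV J p a v)ᴴ * prodV J p a v = aᴴ * a + vᴴ * v := by
  have h3 := F0_933.EJ_mul_vec hj H
  have h4 : (gam J p)ᴴ * (gam J p * v) = v := by
    rw [← Matrix.mul_assoc, F0_933.gamH_mul_gam hp, Matrix.sub_mul, Matrix.one_mul,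
      Matrix.mul_assoc, h3, Matrix.mul_zero, sub_zero]
  have h5 : aᴴ * ((inj0 ι J)ᴴ * (gam J p * v)) = 0 := by
    rw [← Matrix.mul_assoc (inj0 ι J)ᴴ, F0_933.inj0H_mul_gam hp, Matrix.mul_assoc,
      ← Matrix.mul_assoc aᴴ, Matrix.mul_sub, Matrix.mul_one]
    have : aᴴ * p = aᴴ := by
      have := congrArg conjTranspose ha
      rwa [conjTranspose_mul, hp.herm] at this
    rw [this, sub_self, Matrix.zero_mul]
  have h6 : (gam J p * v)ᴴ * (inj0 ι J * a) = 0 := by
    have := congrArg conjTranspose h5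
    simpa [conjTranspose_mul, Matrix.mul_assoc] using this
  have h7 : (inj0 ι J * a)ᴴ * (inj0 ι J * a) = aᴴ * a := by
    rw [conjTranspose_mul, Matrix.mul_assoc, ← Matrix.mul_assoc (inj0 ι J)ᴴ,
      F0_933.inj0H_mul_inj0, Matrix.one_mul]
  have h8 : (inj0 ι J * a)ᴴ * (gam J p * v) = 0 := by
    rw [conjTranspose_mul, Matrix.mul_assoc, h5]
  have h9 : (gam J p * v)ᴴ * (gam J p * v) = vᴴ * v := by
    rw [conjTranspose_mul, Matrix.mul_assoc, h4]
  rw [prodV, conjTranspose_add, Matrix.add_mul, Matrix.mul_add, Matrix.mul_add, h6, h7, h8, h9]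
  abel

/-- **the product** -/
def mulFun {s j : ℕ} (hj : j ≤ J) (x : Th s ι × V (bs ι J) Unit j) : V (bs ι J) Unit (j + s) :=
  ⟨(prodP J x.1.1.1 x.2.1.1, prodV J x.1.1.1 (col x.1.1.2) x.2.1.2),
    F0_933.isV_prod hj (isPr_of x.1.2.1) x.1.2.1.tr
      (by rw [mul_col, x.1.2.2]) x.2.2⟩

theorem continuous_mulFun {s j : ℕ} (hj : j ≤ J) :
    Continuous (mulFun (ι := ι) (s := s) hj) := by
  have h1 : Continuous fun x : Th s ι × V (bs ι J) Unit j => x.1.1.1 :=
    continuous_fst.comp ((I0core275.isClosedEmbedding_val s).continuous.comp continuous_fst)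
  have h2 : Continuous fun x : Th s ι × V (bs ι J) Unit j => x.1.1.2 :=
    continuous_snd.comp ((I0core275.isClosedEmbedding_val s).continuous.comp continuous_fst)
  have h3 : Continuous fun x : Th s ι × V (bs ι J) Unit j => x.2.1.1 :=
    continuous_fst.comp ((continuous_val _ _).comp continuous_snd)
  have h4 : Continuous fun x : Th s ι × V (bs ι J) Unit j => x.2.1.2 :=
    continuous_snd.comp ((continuous_val _ _).comp continuous_snd)
  have hg : Continuous (gam J : Matrix ι ι ℂ → _) := F0_933.continuous_gam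
  refine continuous_mk ?_ ?_
  · exact (F0_933.continuous_p0.comp h1).add ((hg.comp h1).matrix_mul
      (h3.matrix_mul (hg.comp h1).matrix_conjTranspose))
  · exact (continuous_const.matrix_mul (continuous_col.comp h2)).add ((hg.comp h1).matrix_mul h4)

theorem nsq_mulFun {s j : ℕ} (hj : j ≤ J) (x : Th s ι × V (bs ι J) Unit j) :
    nsq (mulFun hj x).1.2 = nsq (col x.1.1.2) + nsq x.2.1.2 := by
  have h1 := norm_prodV hj (isPr_of x.1.2.1) (a := col x.1.1.2) (by rw [mul_col, x.1.2.2]) x.2.2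
  have h2 := congrArg Matrix.trace h1
  rw [trace_add, trace_conj_mul, trace_conj_mul, trace_conj_mul] at h2
  exact_mod_cast h2

theorem isCompact_th (s : ℕ) (R : ℝ) : IsCompact {x : Th s ι | nsq (col x.1.2) ≤ R} := by
  refine (I0core275.isCompact_ball s (|R| + 1)).of_isClosed_subset ?_ ?_
  · exact isClosed_le (continuous_nsq.comp (continuous_col.comp
      (continuous_snd.comp (I0core275.isClosedEmbedding_val s).continuous))) continuous_const
  · intro x hx
    change ‖x.1.2‖ ≤ |R| + 1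
    rw [pi_norm_le_iff_of_nonneg (by positivity)]
    intro i
    have h1 : ‖x.1.2 i‖ ^ 2 ≤ R := norm_le_of_nsq (M := col x.1.2) hx i ()
    have h2 : R ≤ |R| := le_abs_self R
    nlinarith [norm_nonneg (x.1.2 i), abs_nonneg R]

/-- **the product as a pointed map** -/
def mulMap {s j : ℕ} (hj : j ≤ J) :
    PMap (Th s ι × V (bs ι J) Unit j) (V (bs ι J) Unit (j + s)) :=
  ofProper (mulFun hj) (continuous_mulFun hj) (by
    intro K hK hK'
    obtain ⟨R, hR⟩ := exists_nsq_le hK'
    refine ((isCompact_th (ι := ι) s R).prod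
      (isCompact_nsq_le (A := Unit) (bs ι J) j R)).of_isClosed_subset
        (hK.preimage (continuous_mulFun hj)) ?_
    intro x hx
    have h1 := hR _ hx
    rw [nsq_mulFun] at h1
    exact ⟨by have := nsq_nonneg x.2.1.2; change nsq (col x.1.1.2) ≤ R; linarith,
      by have := nsq_nonneg (col x.1.1.2); change nsq x.2.1.2 ≤ R; linarith⟩)

@[simp] theorem mulMap_coe {s j : ℕ} (hj : j ≤ J) (x : Th s ι × V (bs ι J) Unit j) :
    mulMap hj x = (mulFun hj x : OnePoint (V (bs ι J) Unit (j + s))) := rfl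

/-! ### the fibre over a fixed projection -/

section fib

variable {s j : ℕ} {p : Matrix ι ι ℂ} {E : Type} [TopologicalSpace E]

/-- the fibre over `p` -/
def fibFun (hp : I0core275.IsPr s p) (e : E ≃ₜ {w : ι → ℂ // p *ᵥ w = w}) (x : E) : Th s ι :=
  ⟨(p, (e x).1), hp, (e x).2⟩

theorem isClosedEmbedding_fib (hp : I0core275.IsPr s p) (e : E ≃ₜ {w : ι → ℂ // p *ᵥ w = w}) :
    IsClosedEmbedding (fibFun hp e) := by
  have hc : IsClosed {w : ι → ℂ | p *ᵥ w = w} :=
    isClosed_eq (continuous_const.matrix_mulVec continuous_id) continuous_id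
  have h1 : IsClosedEmbedding (fun x : E => ((p, (e x).1) : Matrix ι ι ℂ × (ι → ℂ))) := by
    have h2 : IsClosedEmbedding (fun w : ι → ℂ => ((p, w) : Matrix ι ι ℂ × (ι → ℂ))) := by
      refine ⟨isEmbedding_prodMkRight p, ?_⟩
      have : Set.range (fun w : ι → ℂ => ((p, w) : Matrix ι ι ℂ × (ι → ℂ))) =
          Prod.fst ⁻¹' {p} := by
        ext x
        constructor
        · rintro ⟨w, rfl⟩; rfl
        · intro hx; exact ⟨x.2, Prod.ext (Set.mem_singleton_iff.1 hx).symm rfl⟩
      rw [this]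
      exact isClosed_singleton.preimage continuous_fst
    exact h2.comp (hc.isClosedEmbedding_subtypeVal.comp e.isClosedEmbedding)
  have h3 : Continuous (fibFun hp e) := by
    refine Continuous.subtype_mk ?_ _
    exact h1.continuous
  exact IsClosedEmbedding.of_comp_iff (I0core275.isClosedEmbedding_val s) |>.1 h1

/-- the fibre over `p` as a pointed map -/
def fibM (hp : I0core275.IsPr s p) (e : E ≃ₜ {w : ι → ℂ // p *ᵥ w = w}) : PMap E (Th s ι) :=
  PMap.ofClosed (fibFun hp e) (isClosedEmbedding_fib hp e)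

@[simp] theorem fibM_coe (hp : I0core275.IsPr s p) (e : E ≃ₜ {w : ι → ℂ // p *ᵥ w = w}) (x : E) :
    fibM hp e x = (fibFun hp e x : OnePoint (Th s ι)) := rfl

/-- the embedding `E × V_j → V_{j+s}` -/
def emb (hj : j ≤ J) (hp : I0core275.IsPr s p) (e : E ≃ₜ {w : ι → ℂ // p *ᵥ w = w})
    (x : E × V (bs ι J) Unit j) : V (bs ι J) Unit (j + s) :=
  mulFun hj (fibFun hp e x.1, x.2)

theorem row_mem {p : Matrix ι ι ℂ} (a : WV Unit p) :
    p *ᵥ (fun i => a.1 i ()) = fun i => a.1 i () := by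
  funext i
  exact congrFun (congrFun a.2 i) ()

theorem col_mem {p : Matrix ι ι ℂ} (w : {w : ι → ℂ // p *ᵥ w = w}) :
    p * col w.1 = col w.1 := (mul_col p w.1).trans (congrArg col w.2)

/-- vectors in the image of `p`, two forms -/
def wvH (p : Matrix ι ι ℂ) : {w : ι → ℂ // p *ᵥ w = w} ≃ₜ WV Unit p where
  toFun w := ⟨col w.1, col_mem w⟩
  invFun a := ⟨fun i => a.1 i (), row_mem a⟩
  left_inv w := rfl
  right_inv a := rfl
  continuous_toFun := by
    have h : Continuous fun w : {w : ι → ℂ // p *ᵥ w = w} => col w.1 :=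
      continuous_col.comp continuous_subtype_val
    exact h.subtype_mk col_mem
  continuous_invFun := by
    have h : Continuous fun a : WV Unit p => fun i => a.1 i () :=
      continuous_pi fun i =>
        (continuous_subtype_val (p := fun a : Matrix ι Unit ℂ => p * a = a)).matrix_elem _ _
    exact h.subtype_mk row_mem

theorem emb_eq (hj : j ≤ J) (hp : I0core275.IsPr s p) (e : E ≃ₜ {w : ι → ℂ // p *ᵥ w = w})
    (x : E × V (bs ι J) Unit j) :
    emb hj hp e x = (F0_933.embHomeo (A := Unit) hj (isPr_of hp) hp.tr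
      ((wvH p) (e x.1), x.2)).1 := rfl

theorem isClosedEmbedding_emb (hj : j ≤ J) (hp : I0core275.IsPr s p)
    (e : E ≃ₜ {w : ι → ℂ // p *ᵥ w = w}) : IsClosedEmbedding (emb hj hp e) := by
  have h1 : IsClosedEmbedding (fun x : E × V (bs ι J) Unit j =>
      F0_933.embHomeo (A := Unit) hj (isPr_of hp) hp.tr ((wvH p) (e x.1), x.2)) :=
    (((e.trans (wvH p)).prodCongr (Homeomorph.refl _)).trans
      (F0_933.embHomeo (A := Unit) hj (isPr_of hp) hp.tr)).isClosedEmbedding
  exact ((F0_933.isClosed_emb p).isClosedEmbedding_subtypeVal).comp h1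

/-- the image is `{W ⊆ K}` -/
theorem range_emb (hj : j ≤ J) (hp : I0core275.IsPr s p)
    (e : E ≃ₜ {w : ι → ℂ // p *ᵥ w = w}) :
    Set.range (emb hj hp e) = Cl J Unit p (j + s) := by
  ext y
  constructor
  · rintro ⟨x, rfl⟩
    rw [emb_eq]
    exact (F0_933.embHomeo (A := Unit) hj (isPr_of hp) hp.tr ((wvH p) (e x.1), x.2)).2
  · intro hy
    refine ⟨(e.symm ((wvH p).symm ((F0_933.embHomeo (A := Unit) hj (isPr_of hp) hp.tr).symm
      ⟨y, hy⟩).1), ((F0_933.embHomeo (A := Unit) hj (isPr_of hp) hp.tr).symm ⟨y, hy⟩).2), ?_⟩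
    rw [emb_eq]
    simp



/-- **the product restricted to the fibre is the closed embedding** -/
theorem mulMap_comp_fib [T2Space E] [LocallyCompactSpace E] (hj : j ≤ J)
    (hp : I0core275.IsPr s p) (e : E ≃ₜ {w : ι → ℂ // p *ᵥ w = w}) :
    (mulMap hj).comp ((fibM hp e).smash (PMap.id (V (bs ι J) Unit j))) =
      PMap.ofClosed (emb hj hp e) (isClosedEmbedding_emb hj hp e) := by
  refine PMap.ext fun x => ?_
  obtain ⟨a, b⟩ := x
  rfl

/-- **null homotopies**: if `X⁺ → E⁺ → Th(γ_s)` is null, then `X ∧ V_j → E ∧ V_j → V_{j+s}` is null -/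
theorem null_emb [T2Space E] [LocallyCompactSpace E] (hj : j ≤ J)
    (hp : I0core275.IsPr s p) (e : E ≃ₜ {w : ι → ℂ // p *ᵥ w = w})
    {X : Type*} [TopologicalSpace X] [T2Space X] [LocallyCompactSpace X] (g : PMap X E)
    (hg : ((fibM hp e).comp g).Null) :
    ((PMap.ofClosed (emb hj hp e) (isClosedEmbedding_emb hj hp e)).comp
      (g.smash (PMap.id (V (bs ι J) Unit j)))).Null := by
  rw [← mulMap_comp_fib, PMap.comp_assoc, PMap.smash_comp, PMap.comp_id]
  exact (hg.smash_left _).comp_left _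

end fib

/-! ### the coordinate fibre (417's `inc`) -/

section inc

variable (a k : Type) [Fintype a] [DecidableEq a] [Fintype k] [DecidableEq k]

/-- the projection onto the first summand -/
def pInl : Matrix (a ⊕ k) (a ⊕ k) ℂ := fromBlocks 1 0 0 0

theorem isPr_pInl : I0core275.IsPr (Fintype.card a) (pInl a k) := by
  refine ⟨?_, ?_, ?_⟩
  · simp [pInl, fromBlocks_conjTranspose]
  · simp [pInl, fromBlocks_multiply]
  · simp [pInl, Matrix.trace, Fintype.sum_sum_type]

theorem pInl_eq : pInl a k = pS (Finset.univ.map ⟨Sum.inl, Sum.inl_injective⟩) := by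
  ext i j
  rw [pS, Matrix.diagonal_apply]
  rcases i with i | i <;> rcases j with j | j
  · by_cases h : i = j
    · subst h; simp [pInl]
    · simp [pInl, h]
  · simp [pInl]
  · simp [pInl]
  · simp [pInl]

theorem pInl_mulVec (w : a ⊕ k → ℂ) : pInl a k *ᵥ w = Sum.elim (fun i => w (Sum.inl i)) 0 := by
  rw [pInl, fromBlocks_mulVec]
  simp [Function.comp_def]

/-- `ℂ^a` is the fibre over `ℂ^a ⊕ 0` -/
def eInl : (a → ℂ) ≃ₜ {w : a ⊕ k → ℂ // pInl a k *ᵥ w = w} where
  toFun v := ⟨Sum.elim v 0, by rw [pInl_mulVec]; rfl⟩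
  invFun w i := w.1 (Sum.inl i)
  left_inv v := rfl
  right_inv w := by
    apply Subtype.ext
    have h := w.2
    rw [pInl_mulVec] at h
    exact h
  continuous_toFun := by
    refine Continuous.subtype_mk (continuous_pi fun i => ?_) _
    rcases i with i | i
    · exact continuous_apply i
    · exact continuous_const
  continuous_invFun := continuous_pi fun i => (continuous_apply _).comp continuous_subtype_val

end inc

end

end Crest.Agent.R090.F0Mul96
end

-- ▼ part R090/F0Final_933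
section

/-!
# Row 90, F0: the output theorem, unconditional (owner helper933)
-/

set_option autoImplicit false

namespace Crest.Agent.R090.F0_933



/-- cells of `V_{n,j}` -/
theorem hasCells_V' {n : ℕ} (ι : Type) [Fintype ι] [DecidableEq ι] (hn : Fintype.card ι = n)
    (A : Type) [Fintype A] (J j : ℕ) (hj : j ≤ J + 1) :
    HasCells (F0Defs806.V (bs ι J) A j) (n.multichoose j) :=
  hasCells_V F0OpenK806.openPart n ι hn A J j hj

/-- the level filtration of `V_{j+s}` with level zero `{ℂ^S ⊆ K}` -/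
theorem flt_Cl {ι : Type} [Fintype ι] [DecidableEq ι] {n : ℕ} (hn : Fintype.card ι = n + 1)
    (A : Type) [Fintype A] (J : ℕ) (S : Finset ι) (j m : ℕ) (hm : j + S.card = m) (hmJ : m ≤ J + 1) :
    Nonempty (Flt (Cl J A (pS S) m) ((n + 1).multichoose m - (n + 1).multichoose j)) := by
  obtain ⟨ch⟩ := (hasCells_compl (A := A) F0OpenK806.openPart hn S j m hm hmJ).chain
  exact ⟨ch.flt (isClosed_Cl _ _)⟩

/-- **F0 for the fibre over `ℂ^a ⊕ 0`** (the fibre of 417's `inc a k`, the embedding of 96) -/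
theorem flt_emb (a k : Type) [Fintype a] [DecidableEq a] [Fintype k] [DecidableEq k] {n : ℕ}
    (hn : Fintype.card (a ⊕ k) = n + 1) {j J : ℕ} (hj : j ≤ J)
    (hmJ : j + Fintype.card a ≤ J + 1) :
    Nonempty (Flt (Set.range (F0Mul96.emb (j := j) (J := J) hj (F0Mul96.isPr_pInl a k)
        (F0Mul96.eInl a k)))
      ((n + 1).multichoose (j + Fintype.card a) - (n + 1).multichoose j)) := by
  rw [F0Mul96.range_emb]
  have h1 := flt_Cl hn Unit J (Finset.univ.map ⟨Sum.inl, Sum.inl_injective⟩) j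
    (j + Fintype.card a) (by simp) hmJ
  rw [← F0Mul96.pInl_eq] at h1
  exact h1

/-- **F0, all numbers**: for every `c` there are `j ≤ J` with `c · u ≤ D` -/
theorem exists_flt_emb (a k : Type) [Fintype a] [DecidableEq a] [Fintype k] [DecidableEq k]
    [Nonempty (a ⊕ k)] (c : ℕ) :
    ∃ (j J D u : ℕ) (hj : j ≤ J), 0 < D ∧ c * u ≤ D ∧
      HasCells (F0Defs806.V (bs (a ⊕ k) J) Unit j) D ∧
      Nonempty (Flt (Set.range (F0Mul96.emb (j := j) (J := J) hj (F0Mul96.isPr_pInl a k)
        (F0Mul96.eInl a k))) u) := by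
  obtain ⟨n, hn⟩ : ∃ n, Fintype.card (a ⊕ k) = n + 1 :=
    Nat.exists_eq_succ_of_ne_zero Fintype.card_ne_zero
  obtain ⟨j, hj⟩ := exists_count n (Fintype.card a) c
  exact ⟨j, j + Fintype.card a, (n + 1).multichoose j,
    (n + 1).multichoose (j + Fintype.card a) - (n + 1).multichoose j, by omega,
    multichoose_pos n j, hj j le_rfl, hasCells_V' _ hn Unit _ _ (by omega),
    flt_emb a k hn (by omega) (by omega)⟩

end Crest.Agent.R090.F0_933
end

-- ▼ part R090/F0Conv_96

/-!
# Row 90, F0-NULL: from the form of I0 (417) to the pair of F1 (owner helper96)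

* `I0At a κ` : the pointed map `Z × ℂ^m → Th (a ⊕ m)`, `(z, w) ↦ inc (κ z, w)` is null for some `m`;
* `I0At.congr` : homotopy invariance in `κ`;
* `null_of_I0At` : the output consumed by 737 (`F1`), for every `c`.
-/

set_option autoImplicit false
set_option linter.unusedSectionVars false
set_option linter.unusedFintypeInType false
set_option linter.unusedDecidableInType false

open Topology Filter Set

namespace Crest.Agent.R090.F0Conv96

open OnePoint Crest.Agent.R090.Sp962 Crest.Agent.R090.Bott513 Crest.Agent.R090.Match513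
  Crest.Agent.R090.F0Mul96 Crest.Agent.R090.T5 Crest.Agent.R090.Glue264
open Crest.Agent.R090.F0_933 (bs Flt exists_flt_emb)

noncomputable section

/-- `ℂ^a × ℂ^m = ℂ^{a ⊕ m}` -/
def sumArrow (a : Type) (m : ℕ) : (a → ℂ) × (Fin m → ℂ) ≃ₜ (a ⊕ Fin m → ℂ) :=
  Homeomorph.sumArrowHomeomorphProdArrow.symm

@[simp] theorem sumArrow_apply (a : Type) (m : ℕ) (x : (a → ℂ) × (Fin m → ℂ)) :
    sumArrow a m x = Sum.elim x.1 x.2 := rfl

section gen

variable {Z : Type*} [TopologicalSpace Z] [CompactSpace Z] [T2Space Z]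

/-- `(z, w) ↦ (κ z, w)`, as a pointed map -/
def twist (a : Type) (κ : C(Z, OnePoint (a → ℂ))) (m : ℕ) :
    PMap (Z × (Fin m → ℂ)) (a ⊕ Fin m → ℂ) :=
  (PMap.ofHomeo (sumArrow a m)).comp ((ofC κ).smash (PMap.id (Fin m → ℂ)))

/-- **the output of I0** : after a suspension by `ℂ^m` the map `κ : Z → (ℂ^a)⁺`, followed by the
inclusion of the fibre of `ℂ^a ⊕ ℂ^m` into the Thom space of the Grassmannian, is null -/
def I0At (a : Type) [Fintype a] [DecidableEq a] (κ : C(Z, OnePoint (a → ℂ))) : Prop :=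
  ∃ (m : ℕ) (k : Type) (_ : Fintype k) (_ : DecidableEq k),
    ((fibM (isPr_pInl (a ⊕ Fin m) k) (eInl (a ⊕ Fin m) k)).comp (twist a κ m)).Null

theorem twist_homotopic {a : Type} [Finite a] {κ κ' : C(Z, OnePoint (a → ℂ))}
    (h : κ.Homotopic κ') (m : ℕ) : (twist a κ m).Homotopic (twist a κ' m) :=
  ((ofC_homotopic h).smash (PMap.Homotopic.refl _)).comp_left _

theorem I0At.congr {a : Type} [Fintype a] [DecidableEq a] {κ κ' : C(Z, OnePoint (a → ℂ))}
    (h : κ.Homotopic κ') (H : I0At a κ) : I0At a κ' := by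
  obtain ⟨m, k, i1, i2, hn⟩ := H
  exact ⟨m, k, i1, i2, ((twist_homotopic h m).symm.comp_left _).trans hn⟩

/-! ### the closed piece and its product structure -/

section theta

variable (a : Type) [Fintype a] [DecidableEq a] (m : ℕ) (k : Type) [Fintype k] [DecidableEq k]
variable {J j : ℕ} (hj : j ≤ J)
variable {E' : Type} [TopologicalSpace E'] [T2Space E'] [LocallyCompactSpace E']
  (er : (a → ℂ) ≃ₜ E')

/-- the small space -/
abbrev VV (a : Type) [Fintype a] [DecidableEq a] (m : ℕ) (k : Type) [Fintype k] [DecidableEq k]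
    (J j : ℕ) : Type := F0Defs806.V (bs ((a ⊕ Fin m) ⊕ k) J) Unit j

/-- the embedding of `(ℂ^a ⊕ ℂ^m) × V_j` -/
abbrev embA : (a ⊕ Fin m → ℂ) × VV a m k J j → VV a m k J (j + Fintype.card (a ⊕ Fin m)) :=
  emb hj (isPr_pInl (a ⊕ Fin m) k) (eInl (a ⊕ Fin m) k)

theorem isClosedEmbedding_embA : IsClosedEmbedding (embA a m k hj) :=
  isClosedEmbedding_emb hj _ _

theorem isClosed_range_embA : IsClosed (range (embA a m k hj)) :=
  (isClosedEmbedding_embA a m k hj).isClosed_range

/-- rearrangement -/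
def shuf : E' × ((Fin m → ℂ) × VV a m k J j) ≃ₜ (a ⊕ Fin m → ℂ) × VV a m k J j :=
  ((er.symm.prodCongr (Homeomorph.refl _)).trans
    (Homeomorph.prodAssoc (a → ℂ) (Fin m → ℂ) (VV a m k J j)).symm).trans
      ((sumArrow a m).prodCongr (Homeomorph.refl _))

/-- `A ≃ E' × (ℂ^m × V_j)` -/
def theta : range (embA a m k hj) ≃ₜ E' × ((Fin m → ℂ) × VV a m k J j) :=
  ((shuf a m k er).trans (isClosedEmbedding_embA a m k hj).isEmbedding.toHomeomorph).symm

theorem theta_symm_coe (x : (a → ℂ)) (w : Fin m → ℂ) (v : VV a m k J j) :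
    ((theta a m k hj er).symm (er x, (w, v)) : VV a m k J (j + Fintype.card (a ⊕ Fin m))) =
      embA a m k hj (Sum.elim x w, v) := by
  change embA a m k hj (Sum.elim (er.symm (er x)) w, v) = _
  rw [er.symm_apply_apply]

variable {Z : Type*} [TopologicalSpace Z] [CompactSpace Z] [T2Space Z]

theorem comp_theta (κ : C(Z, OnePoint (a → ℂ))) :
    (PMap.ofClosed (Subtype.val : range (embA a m k hj) → _)
        (isClosed_range_embA a m k hj).isClosedEmbedding_subtypeVal).comp
      ((PMap.ofHomeo (theta a m k hj er).symm).comp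
        (((PMap.ofHomeo er).comp (ofC κ)).smash (PMap.id ((Fin m → ℂ) × VV a m k J j)))) =
    ((PMap.ofClosed (embA a m k hj) (isClosedEmbedding_embA a m k hj)).comp
      ((twist a κ m).smash (PMap.id (VV a m k J j)))).comp
        (PMap.ofHomeo (Homeomorph.prodAssoc Z (Fin m → ℂ) (VV a m k J j)).symm) := by
  refine PMap.ext fun x => ?_
  obtain ⟨z, w, v⟩ := x
  simp only [PMap.comp_apply, PMap.smash_coe, PMap.ofHomeo_coe, PMap.id_apply, ofC_coe]
  have h1 : ((Homeomorph.prodAssoc Z (Fin m → ℂ) (VV a m k J j)).symm (z, w, v)) = ((z, w), v) :=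
    rfl
  rw [h1, PMap.smash_coe, PMap.id_apply]
  change _ = PMap.ofClosed (embA a m k hj) (isClosedEmbedding_embA a m k hj)
    (sm (PMap.ofHomeo (sumArrow a m) (sm (κ z) (w : OnePoint (Fin m → ℂ)))) _)
  generalize κ z = y
  induction y using OnePoint.rec with
  | infty => rfl
  | coe y =>
    simp only [PMap.ofHomeo_coe, sm_coe, PMap.ofClosed_coe, OnePoint.coe_eq_coe]
    exact theta_symm_coe a m k hj er y w v

/-- the general form -/
theorem null_theta {κ : C(Z, OnePoint (a → ℂ))}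
    (hn : ((fibM (isPr_pInl (a ⊕ Fin m) k) (eInl (a ⊕ Fin m) k)).comp (twist a κ m)).Null)
    {f : PMap Z E'} (hf : f.Homotopic ((PMap.ofHomeo er).comp (ofC κ))) :
    ((PMap.ofClosed (Subtype.val : range (embA a m k hj) → _)
        (isClosed_range_embA a m k hj).isClosedEmbedding_subtypeVal).comp
      ((PMap.ofHomeo (theta a m k hj er).symm).comp
        (f.smash (PMap.id ((Fin m → ℂ) × VV a m k J j))))).Null := by
  have h1 := (null_emb hj (isPr_pInl (a ⊕ Fin m) k) (eInl (a ⊕ Fin m) k) (twist a κ m)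
    hn).comp_right (PMap.ofHomeo (Homeomorph.prodAssoc Z (Fin m → ℂ) (VV a m k J j)).symm)
  rw [← comp_theta a m k hj er κ] at h1
  exact (((hf.smash (PMap.Homotopic.refl _)).comp_left _).comp_left _).trans h1

end theta

/-- **F0-NULL, general form**: for every `c` -/
theorem null_of_I0At' {a : Type} [Fintype a] [DecidableEq a] [Nonempty a]
    {E' : Type} [TopologicalSpace E'] [T2Space E'] [LocallyCompactSpace E']
    (er : (a → ℂ) ≃ₜ E') {κ : C(Z, OnePoint (a → ℂ))} (H : I0At a κ)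
    {f : PMap Z E'} (hf : f.Homotopic ((PMap.ofHomeo er).comp (ofC κ))) (c : ℕ) :
    ∃ (m : ℕ) (V B : Type) (_ : TopologicalSpace V) (_ : TopologicalSpace B)
      (_ : T2Space V) (_ : T2Space B) (_ : LocallyCompactSpace V) (_ : LocallyCompactSpace B)
      (_ : SecondCountableTopology V) (_ : SecondCountableTopology B)
      (A : Set B) (hA : IsClosed A) (θ : A ≃ₜ E' × ((Fin m → ℂ) × V)) (D u : ℕ),
      0 < D ∧ c * u ≤ D ∧ F0_933.HasCells V D ∧ Nonempty (Flt A u) ∧
      ((PMap.ofClosed (Subtype.val : A → B) hA.isClosedEmbedding_subtypeVal).comp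
        ((PMap.ofHomeo θ.symm).comp (f.smash (PMap.id ((Fin m → ℂ) × V))))).Null := by
  obtain ⟨m, k, i1, i2, hn⟩ := H
  obtain ⟨j, J, D, u, hj, hD, hcu, hcell, hflt⟩ := exists_flt_emb (a ⊕ Fin m) k c
  exact ⟨m, VV a m k J j, VV a m k J (j + Fintype.card (a ⊕ Fin m)), inferInstance,
    inferInstance, inferInstance, inferInstance, inferInstance, inferInstance, inferInstance,
    inferInstance, range (embA a m k hj), isClosed_range_embA a m k hj, theta a m k hj er, D, u,
    hD, hcu, hcell, hflt, null_theta a m k hj er hn hf⟩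

end gen

/-! ### the torus collapse `fZ` of 264 -/

section torus

variable {p n : ℕ} {Y : Type*} [TopologicalSpace Y] [CompactSpace Y] [T2Space Y]

/-- the torus coordinate on `Z₀` -/
def wZ (Z₀ : Set (Y × TT p n)) : C(Z₀, TT p n) :=
  ⟨fun z => (z : Y × TT p n).2, continuous_snd.comp continuous_subtype_val⟩





end torus

end

end Crest.Agent.R090.F0Conv96
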