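import Crest.Agent.R090.F0Defs_806
import Crest.Agent.R090.Ho_962

-- ▼ part R090/F0Prod_96
section

/-!
# Row 90, F0: the product `Th(γ_s(ℂ^n)) × V_{n,j} → V_{n,j+s}` (algebraic part; owner helper96)

Abstract form: `Z` a partial isometry (`Z Zᴴ Z = Z`, the backward shift `1 ⊗ S`), `B` a projection commuting
with `Z` (`B = P_W ⊗ 1`), `E = 1 - Zᴴ Z` (projection to degree `0`), `F = 1 - Z Zᴴ` (top degree),
`G = B Zᴴ + (1 - B)` (`γ_W`).  The product is `(W,a;K,v) ↦ (W ⊕ γ_W K, a + γ_W v)`: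
`(B E + G P Gᴴ, u + G v)`.
-/

set_option autoImplicit false
set_option linter.unusedSectionVars false
set_option linter.unusedFintypeInType false
set_option linter.unusedDecidableInType false

open Matrix Topology Filter
open scoped Kronecker

namespace Crest.Agent.R090.F0Prod96

open F0Defs806

section abs

variable {h A : Type*} [Fintype h] [DecidableEq h]

/-- projection to degree `0` -/
def E (Z : Matrix h h ℂ) : Matrix h h ℂ := 1 - Zᴴ * Z

/-- projection to the top degree -/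
def F (Z : Matrix h h ℂ) : Matrix h h ℂ := 1 - Z * Zᴴ

/-- the isometry `γ_W` -/
def G (Z B : Matrix h h ℂ) : Matrix h h ℂ := B * Zᴴ + (1 - B)

/-- `Z` is a partial isometry commuting with the projection `B` -/
structure Dat (Z B : Matrix h h ℂ) : Prop where
  pi : Z * (Zᴴ * Z) = Z
  herm : Bᴴ = B
  idem : B * B = B
  comm : B * Z = Z * B

variable {Z B : Matrix h h ℂ}

theorem Dat.comm' (D : Dat Z B) : B * Zᴴ = Zᴴ * B := by
  have := congrArg conjTranspose D.comm
  rw [conjTranspose_mul, conjTranspose_mul, D.herm] at this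
  exact this.symm

theorem Dat.pi' (D : Dat Z B) : Zᴴ * (Z * Zᴴ) = Zᴴ := by
  have := congrArg conjTranspose D.pi
  simpa [conjTranspose_mul, Matrix.mul_assoc] using this

theorem E_herm (Z : Matrix h h ℂ) : (E Z)ᴴ = E Z := by
  simp [E, conjTranspose_sub, conjTranspose_mul]

theorem Dat.Z_E (D : Dat Z B) : Z * E Z = 0 := by
  rw [E, mul_sub, mul_one, D.pi, sub_self]

theorem Dat.E_Zh (D : Dat Z B) : E Z * Zᴴ = 0 := by
  rw [E, sub_mul, one_mul, Matrix.mul_assoc, D.pi', sub_self]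

theorem Dat.E_idem (D : Dat Z B) : E Z * E Z = E Z := by
  have h1 : (1 - Zᴴ * Z) * E Z = E Z - Zᴴ * (Z * E Z) := by
    rw [sub_mul, one_mul, Matrix.mul_assoc]
  rw [D.Z_E, mul_zero, sub_zero] at h1
  exact h1

theorem Dat.B_E (D : Dat Z B) : B * E Z = E Z * B := by
  rw [E, mul_sub, sub_mul, mul_one, one_mul, ← Matrix.mul_assoc, D.comm', Matrix.mul_assoc, D.comm,
    Matrix.mul_assoc]

theorem Dat.F_Z (D : Dat Z B) : F Z * Z = 0 := by
  rw [F, sub_mul, one_mul, Matrix.mul_assoc, D.pi, sub_self]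

/-- the projection to `W` in degree `0` -/
def BE (Z B : Matrix h h ℂ) : Matrix h h ℂ := B * E Z

theorem Dat.BE_herm (D : Dat Z B) : (BE Z B)ᴴ = BE Z B := by
  rw [BE, conjTranspose_mul, E_herm, D.herm, D.B_E]

theorem Dat.BE_idem (D : Dat Z B) : BE Z B * BE Z B = BE Z B := by
  calc BE Z B * BE Z B = B * (E Z * B) * E Z := by simp only [BE, Matrix.mul_assoc]
    _ = B * (B * E Z) * E Z := by rw [D.B_E]
    _ = (B * B) * (E Z * E Z) := by simp only [Matrix.mul_assoc]
    _ = BE Z B := by rw [D.idem, D.E_idem, BE]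

theorem Dat.BE_G (D : Dat Z B) : BE Z B * G Z B = 0 := by
  have h1 : BE Z B * (B * Zᴴ) = 0 := by
    calc BE Z B * (B * Zᴴ) = B * (E Z * B) * Zᴴ := by simp only [BE, Matrix.mul_assoc]
      _ = B * (B * E Z) * Zᴴ := by rw [D.B_E]
      _ = (B * B) * (E Z * Zᴴ) := by simp only [Matrix.mul_assoc]
      _ = 0 := by rw [D.E_Zh, mul_zero]
  have h2 : BE Z B * B = BE Z B := by
    rw [BE, Matrix.mul_assoc, ← D.B_E, ← Matrix.mul_assoc, D.idem]
  rw [G, mul_add, h1, mul_sub, mul_one, h2, sub_self, zero_add]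

theorem Dat.Gh_BE (D : Dat Z B) : (G Z B)ᴴ * BE Z B = 0 := by
  have := congrArg conjTranspose D.BE_G
  rwa [conjTranspose_mul, D.BE_herm, conjTranspose_zero] at this

theorem Dat.G_conj (D : Dat Z B) : (G Z B)ᴴ = B * Z + (1 - B) := by
  rw [G, conjTranspose_add, conjTranspose_mul, conjTranspose_conjTranspose, conjTranspose_sub,
    conjTranspose_one, D.herm, ← D.comm]

theorem Dat.Gh_G (D : Dat Z B) : (G Z B)ᴴ * G Z B = 1 - B * F Z := by
  have e1 : B * Z * (B * Zᴴ) = B * (Z * Zᴴ) := by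
    calc B * Z * (B * Zᴴ) = B * (Z * B) * Zᴴ := by simp only [Matrix.mul_assoc]
      _ = B * (B * Z) * Zᴴ := by rw [D.comm]
      _ = (B * B) * (Z * Zᴴ) := by simp only [Matrix.mul_assoc]
      _ = B * (Z * Zᴴ) := by rw [D.idem]
  have e2 : B * Z * (1 - B) = 0 := by
    rw [D.comm, Matrix.mul_assoc, mul_sub, mul_one, D.idem, sub_self, mul_zero]
  have e3 : (1 - B) * (B * Zᴴ) = 0 := by
    rw [← Matrix.mul_assoc, sub_mul, one_mul, D.idem, sub_self, zero_mul]
  have e4 : (1 - B) * (1 - B) = 1 - B := by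
    rw [mul_sub, mul_one, sub_mul, one_mul, D.idem, sub_self, sub_zero]
  rw [D.G_conj, G, add_mul, mul_add, mul_add, e1, e2, e3, e4, F, mul_sub, mul_one]
  abel

/-- the condition `F P = 0` (no top degree part) -/
theorem Dat.Gh_G_mul (D : Dat Z B) {m : Type*} {M : Matrix h m ℂ} (hF : F Z * M = 0) :
    (G Z B)ᴴ * (G Z B * M) = M := by
  rw [← Matrix.mul_assoc, D.Gh_G, Matrix.sub_mul, Matrix.one_mul, Matrix.mul_assoc, hF,
    Matrix.mul_zero, sub_zero]

theorem Dat.Z_G (D : Dat Z B) {m : Type*} {M : Matrix h m ℂ} (hF : F Z * M = 0) :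
    Z * (G Z B * M) = BE Z B * M + G Z B * (Z * M) := by
  have e0 : Z * Zᴴ * M = M := by
    have : Z * Zᴴ = 1 - F Z := by rw [F]; abel
    rw [this, Matrix.sub_mul, Matrix.one_mul, hF, sub_zero]
  have e1 : Z * (B * Zᴴ * M) = B * M := by
    calc Z * (B * Zᴴ * M) = (Z * B) * (Zᴴ * M) := by simp only [Matrix.mul_assoc]
      _ = B * (Z * Zᴴ * M) := by rw [← D.comm]; simp only [Matrix.mul_assoc]
      _ = B * M := by rw [e0]
  have e2 : Z * ((1 - B) * M) = (1 - B) * (Z * M) := by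
    rw [← Matrix.mul_assoc, ← Matrix.mul_assoc, mul_sub, mul_one, sub_mul, one_mul, D.comm]
  have e3 : BE Z B * M = B * M - B * (Zᴴ * Z) * M := by
    rw [BE, E, mul_sub, mul_one, Matrix.sub_mul]
  rw [G, Matrix.add_mul, Matrix.mul_add, e1, e2, e3, Matrix.add_mul]
  have e4 : B * Zᴴ * (Z * M) = B * (Zᴴ * Z) * M := by simp only [Matrix.mul_assoc]
  rw [e4]
  abel

/-- the product on projections -/
def prodP (Z B P : Matrix h h ℂ) : Matrix h h ℂ := BE Z B + G Z B * P * (G Z B)ᴴ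

/-- the product on vectors -/
def prodv (Z B : Matrix h h ℂ) (u v : Matrix h A ℂ) : Matrix h A ℂ := u + G Z B * v

theorem Dat.prodP_mul_BE (D : Dat Z B) (P : Matrix h h ℂ) : prodP Z B P * BE Z B = BE Z B := by
  rw [prodP, add_mul, D.BE_idem, Matrix.mul_assoc _ _ (BE Z B), D.Gh_BE, mul_zero, add_zero]

theorem Dat.prodP_mul_G (D : Dat Z B) {m : Type*} (P : Matrix h h ℂ) {M : Matrix h m ℂ}
    (hF : F Z * M = 0) : prodP Z B P * (G Z B * M) = G Z B * (P * M) := by
  rw [prodP, Matrix.add_mul, ← Matrix.mul_assoc (BE Z B), D.BE_G, Matrix.zero_mul, zero_add,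
    Matrix.mul_assoc, D.Gh_G_mul hF, Matrix.mul_assoc]

/-- **the product formula**: `(W ⊕ γ_W K, u + γ_W v)` is `Z`-invariant of rank `j + s` -/
theorem Dat.isV (D : Dat Z B) {s j : ℕ} (htr : (BE Z B).trace = s) {P : Matrix h h ℂ}
    {u v : Matrix h A ℂ} (H : IsV Z j P v) (hF : F Z * P = 0) (hu : BE Z B * u = u) :
    IsV Z (j + s) (prodP Z B P) (prodv Z B u v) := by
  have hFv : F Z * v = 0 := by rw [← H.vec, ← Matrix.mul_assoc, hF, Matrix.zero_mul]
  refine ⟨?_, ?_, ?_, ?_, ?_⟩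
  · rw [prodP, conjTranspose_add, D.BE_herm, conjTranspose_mul, conjTranspose_mul,
      conjTranspose_conjTranspose, H.herm, Matrix.mul_assoc]
  · have h1 : prodP Z B P * (G Z B * P * (G Z B)ᴴ) = G Z B * P * (G Z B)ᴴ := by
      rw [← Matrix.mul_assoc, D.prodP_mul_G P hF, H.idem]
    calc prodP Z B P * prodP Z B P
        = prodP Z B P * (BE Z B + G Z B * P * (G Z B)ᴴ) := rfl
      _ = prodP Z B P := by rw [mul_add, h1, D.prodP_mul_BE, prodP]
  · rw [prodP, trace_add, htr, Matrix.trace_mul_comm, D.Gh_G_mul hF, H.tr]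
    push_cast
    ring
  · have h0 : Z * prodP Z B P = (BE Z B * P + G Z B * (Z * P)) * (G Z B)ᴴ := by
      rw [prodP, mul_add, BE, ← Matrix.mul_assoc Z B, ← D.comm, Matrix.mul_assoc B Z, D.Z_E,
        mul_zero, zero_add, ← Matrix.mul_assoc, D.Z_G hF, BE]
    have hFZ : F Z * (Z * P) = 0 := by rw [← Matrix.mul_assoc, D.F_Z, Matrix.zero_mul]
    rw [h0, ← Matrix.mul_assoc, mul_add, ← Matrix.mul_assoc (prodP Z B P), D.prodP_mul_BE,
      D.prodP_mul_G P hFZ, H.inv]
  · rw [prodv, Matrix.mul_add, D.prodP_mul_G P hFv, H.vec]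
    congr 1
    rw [← hu, ← Matrix.mul_assoc, D.prodP_mul_BE]

/-- the vector part is norm preserving -/
theorem Dat.norm_prodv (D : Dat Z B) {u v : Matrix h A ℂ} (hu : BE Z B * u = u)
    (hF : F Z * v = 0) : (prodv Z B u v)ᴴ * prodv Z B u v = uᴴ * u + vᴴ * v := by
  have h1 : uᴴ * (G Z B * v) = 0 := by
    rw [← hu, conjTranspose_mul, D.BE_herm, Matrix.mul_assoc, ← Matrix.mul_assoc (BE Z B), D.BE_G,
      Matrix.zero_mul, Matrix.mul_zero]
  have h2 : (G Z B * v)ᴴ * u = 0 := by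
    have := congrArg conjTranspose h1
    simpa [conjTranspose_mul] using this
  have h3 : (G Z B * v)ᴴ * (G Z B * v) = vᴴ * v := by
    rw [conjTranspose_mul, Matrix.mul_assoc, D.Gh_G_mul hF]
  rw [prodv, conjTranspose_add, Matrix.add_mul, Matrix.mul_add, Matrix.mul_add, h1, h2, h3]
  abel

/-! ### orthogonal lines -/






theorem Dat.add {B₁ B₂ : Matrix h h ℂ} (D₁ : Dat Z B₁) (D₂ : Dat Z B₂) (h12 : B₁ * B₂ = 0) :
    Dat Z (B₁ + B₂) := by
  have h21 : B₂ * B₁ = 0 := by
    have := congrArg conjTranspose h12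
    rwa [conjTranspose_mul, D₁.herm, D₂.herm, conjTranspose_zero] at this
  refine ⟨D₁.pi, ?_, ?_, ?_⟩
  · rw [conjTranspose_add, D₁.herm, D₂.herm]
  · rw [add_mul, mul_add, mul_add, D₁.idem, D₂.idem, h12, h21]; abel
  · rw [add_mul, mul_add, D₁.comm, D₂.comm]

theorem Dat.zero (hpi : Z * (Zᴴ * Z) = Z) : Dat Z 0 :=
  ⟨hpi, by simp, by simp, by simp⟩

@[simp] theorem prodP_zero (P : Matrix h h ℂ) : prodP Z 0 P = P := by
  simp [prodP, BE, G]

@[simp] theorem prodv_zero (v : Matrix h A ℂ) : prodv Z 0 0 v = v := by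
  simp [prodv, G]

end abs

end Crest.Agent.R090.F0Prod96
end

-- ▼ part R090/F0ProdTop_96

/-!
# Row 90, F0: the product `Th(γ_s(ℂ^ι)) × V_j → V_{j+s}` (space level; owner helper96)

`zS ι J = 1 ⊗ S J`, `Th ι A s = V 0 A s` (= pairs `(p, a)`, `p` projection of rank `s` of `ℂ^ι`,
`a : A → im p`; `A = Unit`: the total space of the tautological bundle over `Gr_s(ℂ^ι)`).
-/

set_option autoImplicit false
set_option linter.unusedSectionVars false
set_option linter.unusedFintypeInType false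
set_option linter.unusedDecidableInType false

open Matrix Topology Filter
open scoped Kronecker

namespace Crest.Agent.R090.F0Prod96

open F0Defs806

/-! ### the shift -/

theorem ShS (J : ℕ) :
    (S J)ᴴ * S J = diagonal (fun i : Fin J => if (i : ℕ) = 0 then (0 : ℂ) else 1) := by
  ext i k
  rw [Matrix.mul_apply]
  simp only [conjTranspose_apply, S_apply]
  by_cases hi : (i : ℕ) = 0
  · rw [Finset.sum_eq_zero]
    · by_cases hik : i = k
      · subst hik; simp [hi]
      · simp [hik]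
    · intro m _
      rw [if_neg (by omega)]
      simp
  · have hlt : (i : ℕ) - 1 < J := by have := i.2; omega
    rw [Finset.sum_eq_single (⟨(i : ℕ) - 1, hlt⟩ : Fin J)]
    · rw [if_pos (show (i : ℕ) = (i : ℕ) - 1 + 1 by omega)]
      by_cases hik : i = k
      · subst hik
        rw [if_pos (show (i : ℕ) = (i : ℕ) - 1 + 1 by omega)]
        simp [hi]
      · have : ¬ ((k : ℕ) = (i : ℕ) - 1 + 1) := fun h => hik (Fin.ext (by omega))
        rw [if_neg this]
        simp [hik]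
    · intro m _ hm
      have : ¬ ((i : ℕ) = m + 1) := fun h => hm (Fin.ext (by simp; omega))
      rw [if_neg this]
      simp
    · intro h; exact absurd (Finset.mem_univ _) h

theorem SSh (J : ℕ) :
    S J * (S J)ᴴ = diagonal (fun i : Fin J => if (i : ℕ) + 1 < J then (1 : ℂ) else 0) := by
  ext i k
  rw [Matrix.mul_apply]
  simp only [conjTranspose_apply, S_apply]
  by_cases hi : (i : ℕ) + 1 < J
  · rw [Finset.sum_eq_single (⟨(i : ℕ) + 1, hi⟩ : Fin J)]
    · by_cases hik : i = k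
      · subst hik; simp [hi]
      · have : ¬ ((i : ℕ) = k) := fun h => hik (Fin.ext h)
        simp [hik, this]
    · intro m _ hm
      have : ¬ ((m : ℕ) = i + 1) := fun h => hm (Fin.ext h)
      simp [this]
    · intro h; exact absurd (Finset.mem_univ _) h
  · rw [Finset.sum_eq_zero]
    · by_cases hik : i = k
      · subst hik; simp [hi]
      · simp [hik]
    · intro m _
      have : ¬ ((m : ℕ) = i + 1) := by have := m.2; omega
      simp [this]

theorem S_pi (J : ℕ) : S J * ((S J)ᴴ * S J) = S J := by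
  rw [ShS]
  ext i k
  rw [Matrix.mul_diagonal, S_apply]
  by_cases hk : (k : ℕ) = i + 1
  · have : (k : ℕ) ≠ 0 := by omega
    simp [hk]
  · simp [hk]

section

variable {ι A : Type*} [Fintype ι] [DecidableEq ι]

variable (ι) in
/-- the backward shift on `ℂ^ι ⊗ ℂ^J` -/
def zS (J : ℕ) : Matrix (ι × Fin J) (ι × Fin J) ℂ := (1 : Matrix ι ι ℂ) ⊗ₖ S J

/-- `p ⊗ 1` -/
def amp (J : ℕ) (p : Matrix ι ι ℂ) : Matrix (ι × Fin J) (ι × Fin J) ℂ :=
  p ⊗ₖ (1 : Matrix (Fin J) (Fin J) ℂ)

/-- vectors of degree `0` -/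
def deg0 (J : ℕ) (a : Matrix ι A ℂ) : Matrix (ι × Fin J) A ℂ :=
  Matrix.of fun x k => if (x.2 : ℕ) = 0 then a x.1 k else 0

theorem zS_pi (J : ℕ) : zS ι J * ((zS ι J)ᴴ * zS ι J) = zS ι J := by
  rw [zS, conjTranspose_kronecker, ← Matrix.mul_kronecker_mul, ← Matrix.mul_kronecker_mul, S_pi]
  simp

theorem zS_pow (J m : ℕ) : (zS ι J) ^ m = (1 : Matrix ι ι ℂ) ⊗ₖ ((S J) ^ m) := by
  induction m with
  | zero => simp
  | succ m ih => rw [pow_succ, ih, zS, ← Matrix.mul_kronecker_mul, mul_one, ← pow_succ]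

theorem zS_pow_eq_zero {J m : ℕ} (h : J ≤ m) : (zS ι J) ^ m = 0 := by
  rw [zS_pow, S_pow_eq_zero h, Matrix.kronecker_zero]

/-- the data of a projection `p` of `ℂ^ι` -/
theorem dat (J : ℕ) {p : Matrix ι ι ℂ} (h1 : pᴴ = p) (h2 : p * p = p) : Dat (zS ι J) (amp J p) := by
  refine ⟨zS_pi J, ?_, ?_, ?_⟩
  · rw [amp, conjTranspose_kronecker, h1, conjTranspose_one]
  · rw [amp, ← Matrix.mul_kronecker_mul, h2, mul_one]
  · rw [amp, zS, ← Matrix.mul_kronecker_mul, ← Matrix.mul_kronecker_mul]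
    simp

theorem E_zS (J : ℕ) : E (zS ι J) =
    (1 : Matrix ι ι ℂ) ⊗ₖ diagonal fun i : Fin J => if (i : ℕ) = 0 then (1 : ℂ) else 0 := by
  rw [E, zS, conjTranspose_kronecker, ← Matrix.mul_kronecker_mul, ShS, conjTranspose_one, one_mul]
  ext x y
  simp only [Matrix.sub_apply, Matrix.one_apply, Matrix.kroneckerMap_apply, Matrix.diagonal_apply]
  obtain ⟨x1, x2⟩ := x
  obtain ⟨y1, y2⟩ := y
  by_cases h1 : x1 = y1 <;> by_cases h2 : x2 = y2 <;> by_cases h3 : (x2 : ℕ) = 0 <;>
    simp [h1, h2, h3, Prod.ext_iff] <;> simp_all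

theorem F_zS (J : ℕ) : F (zS ι J) =
    (1 : Matrix ι ι ℂ) ⊗ₖ diagonal fun i : Fin J => if (i : ℕ) + 1 < J then (0 : ℂ) else 1 := by
  rw [F, zS, conjTranspose_kronecker, ← Matrix.mul_kronecker_mul, SSh, conjTranspose_one, one_mul]
  ext x y
  simp only [Matrix.sub_apply, Matrix.one_apply, Matrix.kroneckerMap_apply, Matrix.diagonal_apply]
  obtain ⟨x1, x2⟩ := x
  obtain ⟨y1, y2⟩ := y
  by_cases h1 : x1 = y1 <;> by_cases h2 : x2 = y2 <;>
    simp [h1, h2, Prod.ext_iff]
  by_cases h3 : (y2 : ℕ) + 1 < J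
  · rw [if_pos h3, if_pos h3]; simp
  · rw [if_neg h3, if_neg h3]; simp

theorem BE_zS (J : ℕ) (p : Matrix ι ι ℂ) : BE (zS ι J) (amp J p) =
    p ⊗ₖ diagonal fun i : Fin J => if (i : ℕ) = 0 then (1 : ℂ) else 0 := by
  rw [BE, E_zS, amp, ← Matrix.mul_kronecker_mul, mul_one, one_mul]

theorem trace_BE {J : ℕ} (hJ : 0 < J) (p : Matrix ι ι ℂ) :
    (BE (zS ι J) (amp J p)).trace = p.trace := by
  rw [BE_zS, Matrix.trace_kronecker, Matrix.trace_diagonal]
  rw [Finset.sum_eq_single (⟨0, hJ⟩ : Fin J)]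
  · simp
  · intro b _ hb
    have : ¬ ((b : ℕ) = 0) := fun h => hb (Fin.ext h)
    simp [this]
  · intro h; exact absurd (Finset.mem_univ _) h

theorem BE_deg0 (J : ℕ) {p : Matrix ι ι ℂ} (a : Matrix ι A ℂ) :
    BE (zS ι J) (amp J p) * deg0 J a = deg0 J (p * a) := by
  rw [BE_zS]
  ext x k
  obtain ⟨x1, x2⟩ := x
  have h1 : (p ⊗ₖ (diagonal fun i : Fin J => if (i : ℕ) = 0 then (1 : ℂ) else 0) * deg0 J a)
      (x1, x2) k = ∑ y : ι, ∑ b : Fin J, (p x1 y * (if x2 = b then
        (if (x2 : ℕ) = 0 then (1 : ℂ) else 0) else 0)) * (if (b : ℕ) = 0 then a y k else 0) := by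
    rw [Matrix.mul_apply, Fintype.sum_prod_type]
    rfl
  rw [h1]
  have h2 : (deg0 J (p * a)) (x1, x2) k = if (x2 : ℕ) = 0 then ∑ y, p x1 y * a y k else 0 := rfl
  by_cases h : (x2 : ℕ) = 0
  · rw [if_pos h] at h2
    rw [h2]
    refine Finset.sum_congr rfl fun y _ => ?_
    rw [Finset.sum_eq_single x2]
    · simp [h]
    · intro b _ hb
      simp [Ne.symm hb]
    · intro h; exact absurd (Finset.mem_univ _) h
  · rw [if_neg h] at h2
    rw [h2]
    refine Finset.sum_eq_zero fun y _ => Finset.sum_eq_zero fun b _ => ?_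
    by_cases hb : x2 = b
    · subst hb; simp [h]
    · simp [hb]

/-- no top degree part -/
theorem F_mul_eq_zero {J j : ℕ} (hj : j < J) {P : Matrix (ι × Fin J) (ι × Fin J) ℂ}
    {v : Matrix (ι × Fin J) A ℂ} (H : IsV (zS ι J) j P v) : F (zS ι J) * P = 0 := by
  have h1 : (zS ι J) ^ j * P = 0 := H.pow_mul_eq_zero (zS_pow_eq_zero (le_refl J))
  have h2 : (zS ι J) ^ (J - 1) * P = 0 := by
    have : J - 1 = (J - 1 - j) + j := by omega
    rw [this, pow_add, Matrix.mul_assoc, h1, Matrix.mul_zero]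
  have h3 : ∀ (x : ι) (i : Fin J) (c : ι × Fin J), (i : ℕ) + 1 = J → P (x, i) c = 0 := by
    intro x i c hi
    have h4 := congrFun (congrFun h2 (x, (⟨0, by omega⟩ : Fin J))) c
    have h5 : ((zS ι J) ^ (J - 1) * P) (x, (⟨0, by omega⟩ : Fin J)) c =
        ∑ y : ι, ∑ b : Fin J, ((if x = y then (1 : ℂ) else 0) *
          (if (b : ℕ) = 0 + (J - 1) then (1 : ℂ) else 0)) * P (y, b) c := by
      rw [zS_pow, Matrix.mul_apply, Fintype.sum_prod_type]
      refine Finset.sum_congr rfl fun y _ => Finset.sum_congr rfl fun b _ => ?_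
      rw [Matrix.kroneckerMap_apply, S_pow_apply, Matrix.one_apply]
    rw [h5, Finset.sum_eq_single x, Finset.sum_eq_single i] at h4
    · rw [if_pos rfl, if_pos (by omega)] at h4
      simpa using h4
    · intro b _ hb
      have : ¬ ((b : ℕ) = 0 + (J - 1)) := fun h => hb (Fin.ext (by omega))
      rw [if_neg this, mul_zero, zero_mul]
    · intro h; exact absurd (Finset.mem_univ _) h
    · intro b _ hb
      refine Finset.sum_eq_zero fun y _ => ?_
      simp [Ne.symm hb]
    · intro h; exact absurd (Finset.mem_univ _) h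
  rw [F_zS]
  ext x c
  obtain ⟨x1, x2⟩ := x
  rw [Matrix.mul_apply, Matrix.zero_apply]
  refine Finset.sum_eq_zero fun y _ => ?_
  obtain ⟨y1, y2⟩ := y
  rw [Matrix.kroneckerMap_apply, Matrix.diagonal_apply, Matrix.one_apply]
  by_cases hy : x2 = y2
  · subst hy
    by_cases h : (x2 : ℕ) + 1 < J
    · simp [h]
    · have : (x2 : ℕ) + 1 = J := by have := x2.2; omega
      rw [h3 y1 x2 c this, mul_zero]
  · simp [hy]

end

/-! ### the product -/

section

variable {ι A : Type*} [Fintype ι] [DecidableEq ι]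

variable (ι A) in
/-- pairs `(p, a)`: `p` a projection of rank `s` of `ℂ^ι`, `a : A → im p` -/
abbrev Th (s : ℕ) : Type _ := V (0 : Matrix ι ι ℂ) A s

theorem isV_zero_iff {p : Matrix ι ι ℂ} {a : Matrix ι A ℂ} {s : ℕ} :
    IsV (0 : Matrix ι ι ℂ) s p a ↔ pᴴ = p ∧ p * p = p ∧ p.trace = s ∧ p * a = a := by
  constructor
  · intro H; exact ⟨H.herm, H.idem, H.tr, H.vec⟩
  · rintro ⟨a, b, c, d⟩; exact ⟨a, b, c, by simp, d⟩

/-- **the product** on pairs of matrices -/
theorem isV_prod {J s j : ℕ} (hj : j < J) {p : Matrix ι ι ℂ} {a : Matrix ι A ℂ}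
    (h0 : IsV (0 : Matrix ι ι ℂ) s p a) {P : Matrix (ι × Fin J) (ι × Fin J) ℂ}
    {v : Matrix (ι × Fin J) A ℂ} (H : IsV (zS ι J) j P v) :
    IsV (zS ι J) (j + s) (prodP (zS ι J) (amp J p) P) (prodv (zS ι J) (amp J p) (deg0 J a) v) := by
  refine (dat J h0.herm h0.idem).isV ?_ H (F_mul_eq_zero hj H) ?_
  · rw [trace_BE (by omega), h0.tr]
  · rw [BE_deg0, h0.vec]

/-- **the product** `(W,a;K,v) ↦ (W ⊕ γ_W K, a + γ_W v)` -/
def prod {J s j : ℕ} (hj : j < J) (x : Th ι A s × V (zS ι J) A j) : V (zS ι J) A (j + s) :=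
  ⟨(prodP (zS ι J) (amp J x.1.1.1) x.2.1.1,
    prodv (zS ι J) (amp J x.1.1.1) (deg0 J x.1.1.2) x.2.1.2), isV_prod hj x.1.2 x.2.2⟩

theorem continuous_amp (J : ℕ) : Continuous (amp (ι := ι) J) := by
  refine continuous_matrix fun x y => ?_
  simp only [amp, Matrix.kroneckerMap_apply]
  exact (continuous_id.matrix_elem x.1 y.1).mul continuous_const

theorem continuous_deg0 (J : ℕ) : Continuous (deg0 (ι := ι) (A := A) J) := by
  refine continuous_matrix fun x y => ?_
  simp only [deg0, Matrix.of_apply]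
  by_cases h : (x.2 : ℕ) = 0
  · simp only [h, if_true]; exact continuous_id.matrix_elem x.1 y
  · simp only [h, if_false]; exact continuous_const

theorem continuous_G {h : Type*} [Fintype h] [DecidableEq h] (Z : Matrix h h ℂ) :
    Continuous (G Z) := by
  unfold G
  exact (continuous_id.matrix_mul continuous_const).add (continuous_const.sub continuous_id)

theorem continuous_prodP {h : Type*} [Fintype h] [DecidableEq h] (Z : Matrix h h ℂ) :
    Continuous (fun x : Matrix h h ℂ × Matrix h h ℂ => prodP Z x.1 x.2) := by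
  have h1 := continuous_G Z
  unfold prodP BE
  refine (continuous_fst.matrix_mul continuous_const).add ?_
  exact ((h1.comp continuous_fst).matrix_mul continuous_snd).matrix_mul
    (h1.comp continuous_fst).matrix_conjTranspose

theorem continuous_prodv {h : Type*} [Fintype h] [DecidableEq h] (Z : Matrix h h ℂ) :
    Continuous (fun x : Matrix h h ℂ × Matrix h A ℂ × Matrix h A ℂ => prodv Z x.1 x.2.1 x.2.2) := by
  have h1 := continuous_G Z
  unfold prodv
  exact (continuous_fst.comp continuous_snd).add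
    ((h1.comp continuous_fst).matrix_mul (continuous_snd.comp continuous_snd))

theorem continuous_prod {J s j : ℕ} (hj : j < J) :
    Continuous (prod (ι := ι) (A := A) (s := s) hj) := by
  have h1 : Continuous fun x : Th ι A s × V (zS ι J) A j => x.1.1.1 :=
    continuous_fst.comp ((continuous_val _ _).comp continuous_fst)
  have h2 : Continuous fun x : Th ι A s × V (zS ι J) A j => x.1.1.2 :=
    continuous_snd.comp ((continuous_val _ _).comp continuous_fst)
  have h3 : Continuous fun x : Th ι A s × V (zS ι J) A j => x.2.1.1 :=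
    continuous_fst.comp ((continuous_val _ _).comp continuous_snd)
  have h4 : Continuous fun x : Th ι A s × V (zS ι J) A j => x.2.1.2 :=
    continuous_snd.comp ((continuous_val _ _).comp continuous_snd)
  refine continuous_mk ?_ ?_
  · exact (continuous_prodP (zS ι J)).comp (((continuous_amp J).comp h1).prodMk h3)
  · exact (continuous_prodv (zS ι J)).comp (((continuous_amp J).comp h1).prodMk
      (((continuous_deg0 J).comp h2).prodMk h4))

end

end Crest.Agent.R090.F0Prod96
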