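import Crest.Agent.R090.I0a_275
import Crest.Agent.R090.BottN_513

-- ▼ part R090/I0Defs_417
section

/-!
# Row 90, I0 (owner helper417): operations on the Thom spaces `Th k ι` of `I0a_275`

* `ofTh`: pointed maps into `Th k ι` from proper maps;
* `mu`: the product `Th r ι × Th s κ → Th (r + s) (ι ⊕ κ)`;
* `reindex`: `Th k ι ≃ₜ Th k ι'` along `ι ≃ ι'`;
* `cst P S`: the inclusion of a fixed fibre;
* `pinch L`: the top cell chart of a rank one family on `ℂ^α ⊕ ℂ`.
-/

set_option autoImplicit false
set_option linter.unusedSectionVars false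

open Topology Filter Set Matrix

namespace Crest.Agent.R090.I0Defs417

open OnePoint Crest.Agent.R090.Sp962 Crest.Agent.R090.I0core275
open scoped unitInterval

variable {ι κ α : Type*} [Fintype ι] [DecidableEq ι] [Fintype κ] [DecidableEq κ]
  [Fintype α] [DecidableEq α]

/-! ## elementary facts on projections -/



theorem isPr_fromBlocks {r s : ℕ} {P : Matrix ι ι ℂ} {Q : Matrix κ κ ℂ} (hP : IsPr r P)
    (hQ : IsPr s Q) : IsPr (r + s) (fromBlocks P 0 0 Q) := by
  refine ⟨?_, ?_, ?_⟩
  · rw [fromBlocks_conjTranspose, hP.herm, hQ.herm]; simp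
  · rw [fromBlocks_multiply, hP.idem, hQ.idem]; simp
  · rw [trace, Fintype.sum_sum_type]
    simp only [diag_apply, fromBlocks_apply₁₁, fromBlocks_apply₂₂]
    have h1 : ∑ x, P x x = P.trace := rfl
    have h2 : ∑ x, Q x x = Q.trace := rfl
    rw [h1, h2, hP.tr, hQ.tr]; push_cast; rfl

theorem fromBlocks_diag_mulVec (P : Matrix ι ι ℂ) (Q : Matrix κ κ ℂ) (v : ι → ℂ) (w : κ → ℂ) :
    fromBlocks P 0 0 Q *ᵥ Sum.elim v w = Sum.elim (P *ᵥ v) (Q *ᵥ w) := by
  rw [fromBlocks_mulVec]
  simp

theorem isPr_reindex {k : ℕ} {P : Matrix ι ι ℂ} (hP : IsPr k P) (e : ι ≃ κ) :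
    IsPr k (Matrix.reindex e e P) := by
  refine ⟨?_, ?_, ?_⟩
  · rw [Matrix.reindex_apply, conjTranspose_submatrix, hP.herm]
  · rw [Matrix.reindex_apply, submatrix_mul_equiv, hP.idem]
  · rw [Matrix.reindex_apply, ← hP.tr, trace, trace]
    exact Fintype.sum_equiv e.symm _ _ fun i => rfl

theorem reindex_mulVec (e : ι ≃ κ) (P : Matrix ι ι ℂ) (v : ι → ℂ) :
    Matrix.reindex e e P *ᵥ (v ∘ e.symm) = (P *ᵥ v) ∘ e.symm := by
  funext i
  simp only [Matrix.reindex_apply, mulVec, dotProduct, submatrix_apply, Function.comp]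
  exact Fintype.sum_equiv e.symm _ _ fun i => rfl

/-! ## pointed maps into `Th k ι` -/

section ofTh

variable {U : Type*} [TopologicalSpace U]

/-- the pointed map given by a proper map -/
noncomputable def ofTh {k : ℕ} (f : U → Th k ι) (hf : Continuous f)
    (h : Tendsto (fun u => ‖(f u).1.2‖) (coclosedCompact U) atTop) : PMap U (Th k ι) :=
  PMap.ofFun (fun u => (f u : OnePoint (Th k ι))) (continuous_coe.comp hf) (tendsto_infty h)

@[simp] theorem ofTh_coe {k : ℕ} (f : U → Th k ι) (hf : Continuous f)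
    (h : Tendsto (fun u => ‖(f u).1.2‖) (coclosedCompact U) atTop) (u : U) :
    ofTh f hf h u = (f u : OnePoint (Th k ι)) := rfl

/-- properness from compact sublevel sets of a smaller function -/
theorem tendsto_of_compact_sublevel [T2Space U] {w n : U → ℝ} (hnw : ∀ u, n u ≤ w u)
    (hn : ∀ R : ℝ, ∃ K : Set U, IsCompact K ∧ ∀ u, n u ≤ R → u ∈ K) :
    Tendsto w (coclosedCompact U) atTop := by
  rw [tendsto_atTop]
  intro R
  obtain ⟨K, hK, hK'⟩ := hn R
  rw [coclosedCompact_eq_cocompact, Filter.Eventually, Filter.mem_cocompact]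
  refine ⟨K, hK, fun u hu => ?_⟩
  by_contra hlt
  rw [Set.mem_ofPred_eq, not_le] at hlt
  exact hu (hK' u ((hnw u).trans hlt.le))


end ofTh

/-! ## the product -/

/-- the product map on points -/
def muFun {r s : ℕ} (p : Th r ι × Th s κ) : Th (r + s) (ι ⊕ κ) :=
  ⟨(fromBlocks p.1.1.1 0 0 p.2.1.1, Sum.elim p.1.1.2 p.2.1.2),
    isPr_fromBlocks p.1.2.1 p.2.2.1, by rw [fromBlocks_diag_mulVec, p.1.2.2, p.2.2.2]⟩

theorem continuous_sumElim {X : Type*} [TopologicalSpace X] {f : X → ι → ℂ} {g : X → κ → ℂ}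
    (hf : Continuous f) (hg : Continuous g) : Continuous fun x => Sum.elim (f x) (g x) := by
  refine continuous_pi fun i => ?_
  rcases i with i | i
  · exact (continuous_apply i).comp hf
  · exact (continuous_apply i).comp hg

theorem continuous_muFun {r s : ℕ} : Continuous (muFun : Th r ι × Th s κ → Th (r + s) (ι ⊕ κ)) := by
  refine Continuous.subtype_mk (Continuous.prodMk ?_ ?_) _
  · exact Continuous.matrix_fromBlocks
      (continuous_fst.comp (continuous_subtype_val.comp continuous_fst)) continuous_const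
      continuous_const (continuous_fst.comp (continuous_subtype_val.comp continuous_snd))
  · exact continuous_sumElim (continuous_snd.comp (continuous_subtype_val.comp continuous_fst))
      (continuous_snd.comp (continuous_subtype_val.comp continuous_snd))

theorem norm_sumElim (v : ι → ℂ) (w : κ → ℂ) : ‖Sum.elim v w‖ = max ‖v‖ ‖w‖ := by
  refine le_antisymm ?_ ?_
  · refine (pi_norm_le_iff_of_nonneg (le_max_of_le_left (norm_nonneg _))).2 fun i => ?_
    rcases i with i | i
    · exact (norm_le_pi_norm v i).trans (le_max_left _ _)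
    · exact (norm_le_pi_norm w i).trans (le_max_right _ _)
  · refine max_le ?_ ?_
    · exact (pi_norm_le_iff_of_nonneg (norm_nonneg _)).2 fun i =>
        norm_le_pi_norm (Sum.elim v w) (Sum.inl i)
    · exact (pi_norm_le_iff_of_nonneg (norm_nonneg _)).2 fun i =>
        norm_le_pi_norm (Sum.elim v w) (Sum.inr i)

theorem tendsto_muFun {r s : ℕ} :
    Tendsto (fun p : Th r ι × Th s κ => ‖(muFun p).1.2‖) (coclosedCompact (Th r ι × Th s κ))
      atTop := by
  refine tendsto_of_compact_sublevel (n := fun p : Th r ι × Th s κ => max ‖p.1.1.2‖ ‖p.2.1.2‖)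
    (fun p => (norm_sumElim _ _).ge) fun R => ⟨_, (isCompact_ball r R).prod (isCompact_ball s R),
      fun p hp => ⟨(le_max_left _ _).trans hp, (le_max_right _ _).trans hp⟩⟩

/-- the product `Th r ι × Th s κ → Th (r + s) (ι ⊕ κ)` as a pointed map -/
noncomputable def mu {r s : ℕ} : PMap (Th r ι × Th s κ) (Th (r + s) (ι ⊕ κ)) :=
  ofTh muFun continuous_muFun tendsto_muFun

@[simp] theorem mu_coe {r s : ℕ} (p : Th r ι × Th s κ) :
    mu (p : OnePoint (Th r ι × Th s κ)) = (muFun p : OnePoint _) := rfl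

/-! ## reindexing -/

/-- reindexing along `ι ≃ κ` -/
def reidx {k : ℕ} (e : ι ≃ κ) : Th k ι ≃ₜ Th k κ where
  toFun x := ⟨(Matrix.reindex e e x.1.1, x.1.2 ∘ e.symm), isPr_reindex x.2.1 e, by
    rw [reindex_mulVec, x.2.2]⟩
  invFun x := ⟨(Matrix.reindex e.symm e.symm x.1.1, x.1.2 ∘ e), isPr_reindex x.2.1 e.symm, by
    have := reindex_mulVec e.symm x.1.1 x.1.2
    rw [Equiv.symm_symm] at this
    rw [this, x.2.2]⟩
  left_inv x := by
    refine Subtype.ext (Prod.ext ?_ ?_)
    · ext i j; simp
    · funext i; simp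
  right_inv x := by
    refine Subtype.ext (Prod.ext ?_ ?_)
    · ext i j; simp
    · funext i; simp
  continuous_toFun := by
    refine Continuous.subtype_mk (Continuous.prodMk ?_ ?_) _
    · exact (continuous_fst.comp continuous_subtype_val).matrix_reindex e e
    · exact continuous_pi fun i =>
        (continuous_apply (e.symm i)).comp (continuous_snd.comp continuous_subtype_val)
  continuous_invFun := by
    refine Continuous.subtype_mk (Continuous.prodMk ?_ ?_) _
    · exact (continuous_fst.comp continuous_subtype_val).matrix_reindex e.symm e.symm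
    · exact continuous_pi fun i =>
        (continuous_apply (e i)).comp (continuous_snd.comp continuous_subtype_val)

/-! ## fixed fibres -/

/-- the inclusion of a fixed fibre, parametrised by an injective linear map `S` into `im P` -/
noncomputable def cst {k : ℕ} {P : Matrix ι ι ℂ} (hP : IsPr k P) (S : (α → ℂ) →ₗ[ℂ] (ι → ℂ))
    (hS : Function.Injective S) (hPS : ∀ v, P *ᵥ S v = S v) : PMap (α → ℂ) (Th k ι) :=
  ofTh (fun v => ⟨(P, S v), hP, hPS v⟩)
    (Continuous.subtype_mk (continuous_const.prodMk S.continuous_of_finiteDimensional) _) (by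
      obtain ⟨K, hK, hK'⟩ := LinearMap.exists_antilipschitzWith S (LinearMap.ker_eq_bot.2 hS)
      refine tendsto_of_compact_sublevel (n := fun v => (K : ℝ)⁻¹ * ‖v‖) (fun v => ?_) fun R =>
        ⟨Metric.closedBall 0 (K * R), isCompact_closedBall _ _, fun v hv => ?_⟩
      · have := hK'.le_mul_dist v 0
        rw [dist_zero_right, map_zero, dist_zero_right] at this
        rw [inv_mul_le_iff₀ (by exact_mod_cast hK)]
        exact this
      · rw [mem_closedBall_zero_iff]
        rwa [inv_mul_le_iff₀ (by exact_mod_cast hK)] at hv)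

@[simp] theorem cst_coe {k : ℕ} {P : Matrix ι ι ℂ} (hP : IsPr k P) (S : (α → ℂ) →ₗ[ℂ] (ι → ℂ))
    (hS : Function.Injective S) (hPS : ∀ v, P *ᵥ S v = S v) (v : α → ℂ) :
    cst hP S hS hPS v =
      ((show Th k ι from ⟨(P, S v), hP, hPS v⟩ : Th k ι) : OnePoint (Th k ι)) := rfl

/-! ## the chart of a rank one family -/

/-- the coordinate of a rank one projection on `ℂ^α ⊕ ℂ` around `e_none` -/
noncomputable def slope (P : Matrix (Option α) (Option α) ℂ) : α → ℂ :=
  fun a => P (Option.some a) none / P none none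

theorem rank_one_sum {P : Matrix (Option α) (Option α) ℂ} (hP : IsPr 1 P) :
    ∑ a, ‖P (Option.some a) none‖ ^ 2 = ‖P none none‖ * (1 - ‖P none none‖) := by
  have h1 := hP.sum_sq none
  rw [Fintype.sum_option] at h1
  have h2 : ‖P none none‖ = ‖P none none‖ ^ 2 + ∑ a, ‖P none (Option.some a)‖ ^ 2 := by
    conv_lhs => rw [← h1]
    rw [Complex.norm_real, Real.norm_eq_abs, abs_of_nonneg]
    exact add_nonneg (sq_nonneg _) (Finset.sum_nonneg fun _ _ => sq_nonneg _)
  have h3 : ∀ a, ‖P (Option.some a) none‖ = ‖P none (Option.some a)‖ := fun a => by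
    have h4 : star (P none (Option.some a)) = P (Option.some a) none := congrFun (congrFun hP.herm (Option.some a)) none
    rw [← h4]; exact norm_star _
  simp only [h3]
  linarith

theorem sum_slope {P : Matrix (Option α) (Option α) ℂ} (hP : IsPr 1 P) (h0 : P none none ≠ 0) :
    1 + ∑ a, ‖slope P a‖ ^ 2 = ‖P none none‖⁻¹ := by
  have h1 := rank_one_sum hP
  have h2 : ‖P none none‖ ≠ 0 := norm_ne_zero_iff.2 h0
  have h3 : ∑ a, ‖slope P a‖ ^ 2 = (∑ a, ‖P (Option.some a) none‖ ^ 2) / ‖P none none‖ ^ 2 := by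
    rw [Finset.sum_div]
    exact Finset.sum_congr rfl fun a _ => by rw [slope, norm_div, div_pow]
  rw [h3, h1]
  field_simp
  ring

open Classical in
/-- the chart, as a map to the one point compactification -/
noncomputable def pch (P : Matrix (Option α) (Option α) ℂ) : OnePoint (α → ℂ) :=
  if P none none = 0 then ∞ else (slope P : OnePoint (α → ℂ))

theorem pch_of_ne {P : Matrix (Option α) (Option α) ℂ} (h : P none none ≠ 0) :
    pch P = (slope P : OnePoint (α → ℂ)) := if_neg h

theorem pch_of_eq {P : Matrix (Option α) (Option α) ℂ} (h : P none none = 0) :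
    pch P = ∞ := if_pos h

end Crest.Agent.R090.I0Defs417
end

-- ▼ part R090/I0Glue_417

/-!
# Row 90, I0 (owner helper417): the top cell chart as a pointed map, the top cell input, the glue
-/

set_option autoImplicit false
set_option linter.unusedSectionVars false

open Topology Filter Set Matrix

namespace Crest.Agent.R090.I0Glue417

open OnePoint Crest.Agent.R090.Sp962 Crest.Agent.R090.I0core275 Crest.Agent.R090.I0Defs417
  Crest.Agent.R090.Bott513 Crest.Agent.R090.Deg513
open scoped unitInterval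

/-! ## the chart `pinch` -/

section pinch

variable {α : Type*} [Fintype α] [DecidableEq α]
variable {B : Type*} [TopologicalSpace B]

theorem continuous_pch {L : B → Matrix (Option α) (Option α) ℂ} (hL : Continuous L)
    (hP : ∀ b, IsPr 1 (L b)) : Continuous fun b => pch (L b) := by
  have hd : Continuous fun b => L b none none := hL.matrix_elem _ _
  rw [continuous_iff_continuousAt]
  intro b
  by_cases h0 : L b none none = 0
  · have e0 : pch (L b) = ∞ := pch_of_eq h0
    rw [ContinuousAt, e0, tendsto_infty_iff]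
    intro R
    have hc : (0 : ℝ) < 1 + Fintype.card α * (|R| + 1) ^ 2 := by positivity
    have h1 : ∀ᶠ b' in 𝓝 b, ‖L b' none none‖ < (1 + Fintype.card α * (|R| + 1) ^ 2)⁻¹ := by
      have h2 : Tendsto (fun b' => ‖L b' none none‖) (𝓝 b) (𝓝 0) := by
        have := hd.norm.continuousAt (x := b)
        rwa [ContinuousAt, h0, norm_zero] at this
      exact h2.eventually_lt_const (by positivity)
    filter_upwards [h1] with b' hb'
    by_cases h2 : L b' none none = 0
    · rw [pch_of_eq h2]; exact far_infty R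
    · rw [pch_of_ne h2, far_coe]
      by_contra hcon
      rw [not_lt] at hcon
      have h3 := sum_slope (hP b') h2
      have h4 : ∑ a, ‖slope (L b') a‖ ^ 2 ≤ Fintype.card α * (|R| + 1) ^ 2 := by
        calc ∑ a, ‖slope (L b') a‖ ^ 2 ≤ ∑ _a : α, (|R| + 1) ^ 2 := by
              refine Finset.sum_le_sum fun a _ => ?_
              have h5 := norm_le_pi_norm (slope (L b')) a
              have h6 := le_abs_self R
              have h7 := norm_nonneg (slope (L b') a)
              nlinarith [abs_nonneg R]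
          _ = Fintype.card α * (|R| + 1) ^ 2 := by simp
      have h5 : 1 + Fintype.card α * (|R| + 1) ^ 2 < ‖L b' none none‖⁻¹ := by
        rw [lt_inv_comm₀ hc (norm_pos_iff.2 h2)]
        exact hb'
      linarith
  · have h1 : ∀ᶠ b' in 𝓝 b, L b' none none ≠ 0 := hd.continuousAt.eventually_ne h0
    have h2 : (fun b' => pch (L b')) =ᶠ[𝓝 b]
        fun b' => ((slope (L b') : α → ℂ) : OnePoint (α → ℂ)) := by
      filter_upwards [h1] with b' hb'
      exact pch_of_ne hb'
    refine ContinuousAt.congr ?_ h2.symm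
    refine continuous_coe.continuousAt.comp (f := fun b' => slope (L b')) ?_
    rw [continuousAt_pi]
    intro a
    exact (hL.matrix_elem _ _).continuousAt.div hd.continuousAt h0

/-- the chart, as a pointed map -/
noncomputable def pinch [CompactSpace B] (L : B → Matrix (Option α) (Option α) ℂ)
    (hL : Continuous L) (hP : ∀ b, IsPr 1 (L b)) : PMap B (α → ℂ) :=
  ofC ⟨fun b => pch (L b), continuous_pch hL hP⟩

@[simp] theorem pinch_coe [CompactSpace B] (L : B → Matrix (Option α) (Option α) ℂ)
    (hL : Continuous L) (hP : ∀ b, IsPr 1 (L b)) (b : B) : pinch L hL hP b = pch (L b) := rfl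

end pinch

/-! ## isometric change of the ambient space -/

section conj

variable {ι κ : Type*} [Fintype ι] [DecidableEq ι] [Fintype κ] [DecidableEq κ]

theorem isPr_conj {k : ℕ} {P : Matrix ι ι ℂ} (hP : IsPr k P) {V : Matrix κ ι ℂ}
    (hV : Vᴴ * V = 1) : IsPr k (V * P * Vᴴ) := by
  refine ⟨?_, ?_, ?_⟩
  · rw [conjTranspose_mul, conjTranspose_mul, conjTranspose_conjTranspose, hP.herm,
      Matrix.mul_assoc]
  · have : V * P * Vᴴ * (V * P * Vᴴ) = V * (P * (Vᴴ * V) * P) * Vᴴ := by
      simp only [Matrix.mul_assoc]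
    rw [this, hV, Matrix.mul_one, hP.idem]
  · rw [Matrix.trace_mul_comm, ← Matrix.mul_assoc, hV, Matrix.one_mul, hP.tr]

/-- the map `(P, v) ↦ (V P Vᴴ, V v)` for an isometry `V` -/
noncomputable def conjTh {k : ℕ} (V : Matrix κ ι ℂ) (hV : Vᴴ * V = 1) : PMap (Th k ι) (Th k κ) :=
  ofTh (fun x => ⟨(V * x.1.1 * Vᴴ, V *ᵥ x.1.2), isPr_conj x.2.1 hV, by
      show (V * x.1.1 * Vᴴ) *ᵥ (V *ᵥ x.1.2) = V *ᵥ x.1.2
      rw [Matrix.mulVec_mulVec, Matrix.mul_assoc, hV, Matrix.mul_one, ← Matrix.mulVec_mulVec,
        x.2.2]⟩)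
    (Continuous.subtype_mk (((continuous_const.matrix_mul
      (continuous_fst.comp continuous_subtype_val)).matrix_mul continuous_const).prodMk
        (continuous_const.matrix_mulVec (continuous_snd.comp continuous_subtype_val))) _) (by
      have hinj : Function.Injective (Matrix.mulVecLin V) := by
        intro v w h
        have h1 := congrArg (fun x => Vᴴ *ᵥ x) h
        simp only [Matrix.mulVecLin_apply, Matrix.mulVec_mulVec, hV, Matrix.one_mulVec] at h1
        exact h1
      obtain ⟨K, hK, hK'⟩ := LinearMap.exists_antilipschitzWith (Matrix.mulVecLin V)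
        (LinearMap.ker_eq_bot.2 hinj)
      refine tendsto_of_compact_sublevel (n := fun x : Th k ι => (K : ℝ)⁻¹ * ‖x.1.2‖)
        (fun x => ?_) fun R => ⟨_, isCompact_ball k (K * R), fun x hx => ?_⟩
      · have := hK'.le_mul_dist x.1.2 0
        rw [dist_zero_right, map_zero, dist_zero_right, Matrix.mulVecLin_apply] at this
        rw [inv_mul_le_iff₀ (by exact_mod_cast hK)]
        exact this
      · rwa [inv_mul_le_iff₀ (by exact_mod_cast hK)] at hx)

@[simp] theorem conjTh_coe {k : ℕ} (V : Matrix κ ι ℂ) (hV : Vᴴ * V = 1) (x : Th k ι) :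
    conjTh V hV x = ((show Th k κ from ⟨(V * x.1.1 * Vᴴ, V *ᵥ x.1.2), isPr_conj x.2.1 hV, by
      show (V * x.1.1 * Vᴴ) *ᵥ (V *ᵥ x.1.2) = V *ᵥ x.1.2
      rw [Matrix.mulVec_mulVec, Matrix.mul_assoc, hV, Matrix.mul_one, ← Matrix.mulVec_mulVec,
        x.2.2]⟩ : Th k κ) : OnePoint (Th k κ)) := rfl

end conj

/-! ## fibre inclusions -/

section fibres

variable {α β γ ι κ : Type*} [Fintype α] [Fintype β] [Fintype γ] [Fintype ι] [DecidableEq ι]
  [Fintype κ] [DecidableEq κ]

/-- `ℂ^α × ℂ^β = ℂ^(α ⊕ β)` -/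
def sumH (α β : Type*) : (α → ℂ) × (β → ℂ) ≃ₜ (α ⊕ β → ℂ) where
  toEquiv := (Equiv.sumArrowEquivProdArrow α β ℂ).symm
  continuous_toFun := continuous_pi fun i => by
    rcases i with i | i
    · exact (continuous_apply i).comp continuous_fst
    · exact (continuous_apply i).comp continuous_snd
  continuous_invFun := (continuous_pi fun i => continuous_apply (Sum.inl i)).prodMk
    (continuous_pi fun i => continuous_apply (Sum.inr i))







end fibres

/-! ## coordinate fibres -/

section coord

variable {γ δ ι κ : Type*} [Fintype γ] [Fintype δ] [Fintype ι] [DecidableEq ι]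
  [Fintype κ] [DecidableEq κ]

open Classical in
/-- the coordinate projection onto the range of an injection -/
noncomputable def pJ (s : γ → κ) : Matrix κ κ ℂ :=
  Matrix.diagonal fun k => if k ∈ range s then 1 else 0

theorem isPr_pJ {s : γ → κ} (hs : Function.Injective s) : IsPr (Fintype.card γ) (pJ s) := by
  classical
  refine ⟨?_, ?_, ?_⟩
  · rw [pJ, Matrix.diagonal_conjTranspose]
    congr 1
    funext k
    by_cases h : k ∈ range s
    · simp only [Pi.star_apply, if_pos h, star_one]
    · simp only [Pi.star_apply, if_neg h, star_zero]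
  · rw [pJ, Matrix.diagonal_mul_diagonal]
    congr 1
    funext k
    by_cases h : k ∈ range s
    · simp only [if_pos h, mul_one]
    · simp only [if_neg h, mul_zero]
  · rw [pJ, Matrix.trace_diagonal, Finset.sum_ite, Finset.sum_const_zero, add_zero,
      Finset.sum_const, nsmul_eq_mul, mul_one]
    norm_cast
    have : (Finset.univ.filter fun k => k ∈ range s) = Finset.univ.image s := by
      ext k; simp
    rw [this, Finset.card_image_of_injective _ hs, Finset.card_univ]

/-- extension by zero -/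
noncomputable def extLin (s : γ → κ) (hs : Function.Injective s) : (γ → ℂ) →ₗ[ℂ] (κ → ℂ) where
  toFun v := Function.extend s v 0
  map_add' v w := by
    funext k
    by_cases h : ∃ a, s a = k
    · obtain ⟨a, rfl⟩ := h
      simp [hs.extend_apply]
    · simp [Function.extend_apply' _ _ _ h]
  map_smul' c v := by
    funext k
    by_cases h : ∃ a, s a = k
    · obtain ⟨a, rfl⟩ := h
      simp [hs.extend_apply]
    · simp [Function.extend_apply' _ _ _ h]

theorem extLin_apply (s : γ → κ) (hs : Function.Injective s) (v : γ → ℂ) :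
    extLin s hs v = Function.extend s v 0 := rfl

theorem extLin_injective (s : γ → κ) (hs : Function.Injective s) :
    Function.Injective (extLin s hs) := by
  intro v w h
  funext a
  have := congrFun h (s a)
  rwa [extLin_apply, extLin_apply, hs.extend_apply, hs.extend_apply] at this

theorem pJ_mulVec_extLin (s : γ → κ) (hs : Function.Injective s) (v : γ → ℂ) :
    pJ s *ᵥ extLin s hs v = extLin s hs v := by
  classical
  funext k
  rw [pJ, Matrix.mulVec_diagonal, extLin_apply]
  by_cases h : k ∈ range s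
  · simp [h]
  · rw [if_neg h, Function.extend_apply' _ _ _ h]; simp

/-- the inclusion of the coordinate fibre: `v ↦ (coordinate plane, v extended by zero)` -/
noncomputable def fibJ (s : γ → κ) (hs : Function.Injective s) :
    PMap (γ → ℂ) (Th (Fintype.card γ) κ) :=
  cst (isPr_pJ hs) (extLin s hs) (extLin_injective s hs) (pJ_mulVec_extLin s hs)


theorem pJ_sum (s : γ → ι) (t : δ → κ) :
    fromBlocks (pJ s) 0 0 (pJ t) = pJ (Sum.map s t) := by
  classical
  rw [pJ, pJ, pJ, Matrix.fromBlocks_diagonal]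
  congr 1
  funext k
  rcases k with k | k
  · simp
  · simp

theorem extend_sum {s : γ → ι} {t : δ → κ} (hs : Function.Injective s) (ht : Function.Injective t)
    (v : γ → ℂ) (w : δ → ℂ) :
    Sum.elim (Function.extend s v 0) (Function.extend t w 0) =
      Function.extend (Sum.map s t) (Sum.elim v w) 0 := by
  have hst : Function.Injective (Sum.map s t) := hs.sumMap ht
  funext k
  rcases k with k | k
  · by_cases h : ∃ a, s a = k
    · obtain ⟨a, rfl⟩ := h
      have h1 := hst.extend_apply (Sum.elim v w) (0 : ι ⊕ κ → ℂ) (Sum.inl a)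
      rw [Sum.map_inl] at h1
      rw [h1, Sum.elim_inl, hs.extend_apply, Sum.elim_inl]
    · rw [Sum.elim_inl, Function.extend_apply' _ _ _ h, Function.extend_apply']
      · rfl
      · rintro ⟨a | a, ha⟩
        · exact h ⟨a, Sum.inl_injective ha⟩
        · exact Sum.inr_ne_inl ha
  · by_cases h : ∃ a, t a = k
    · obtain ⟨a, rfl⟩ := h
      have h1 := hst.extend_apply (Sum.elim v w) (0 : ι ⊕ κ → ℂ) (Sum.inr a)
      rw [Sum.map_inr] at h1
      rw [h1, Sum.elim_inr, ht.extend_apply, Sum.elim_inr]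
    · rw [Sum.elim_inr, Function.extend_apply' _ _ _ h, Function.extend_apply']
      · rfl
      · rintro ⟨a | a, ha⟩
        · exact Sum.inl_ne_inr ha
        · exact h ⟨a, Sum.inr_injective ha⟩

/-- the rank is only a label -/
def castTh {k k' : ℕ} (h : k = k') : Th k ι ≃ₜ Th k' ι := h ▸ Homeomorph.refl _

theorem castTh_val {k k' : ℕ} (h : k = k') (x : Th k ι) : (castTh h x).1 = x.1 := by
  subst h; rfl

/-- the coordinate fibre over `Fin j`, with the rank written as `j` -/
noncomputable def fibN {j : ℕ} (s : Fin j → κ) (hs : Function.Injective s) :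
    PMap (Fin j → ℂ) (Th j κ) :=
  (PMap.ofHomeo (castTh (Fintype.card_fin j))).comp (fibJ s hs)


theorem pJ_comp_equiv (s : γ → κ) (e : δ ≃ γ) : pJ (s ∘ e) = pJ s := by
  classical
  rw [pJ, pJ]
  congr 1
  funext k
  have h : (k ∈ range (s ∘ e)) ↔ k ∈ range s := by rw [e.surjective.range_comp]
  by_cases h1 : k ∈ range s
  · rw [if_pos h1, if_pos (h.2 h1)]
  · rw [if_neg h1, if_neg fun h2 => h1 (h.1 h2)]

theorem extend_comp_equiv {s : γ → κ} (hs : Function.Injective s) (e : δ ≃ γ) (w : δ → ℂ) :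
    Function.extend (s ∘ e) w 0 = Function.extend s (w ∘ e.symm) 0 := by
  have hs' : Function.Injective (s ∘ e) := hs.comp e.injective
  funext k
  by_cases h : ∃ a, s a = k
  · obtain ⟨a, rfl⟩ := h
    have h1 := hs'.extend_apply w (0 : κ → ℂ) (e.symm a)
    rw [Function.comp_apply, Equiv.apply_symm_apply] at h1
    rw [h1, hs.extend_apply, Function.comp_apply]
  · rw [Function.extend_apply' _ _ _ h, Function.extend_apply']
    rintro ⟨a, ha⟩
    exact h ⟨e a, ha⟩

/-- reindexing the parameters of a coordinate fibre -/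
def funH (e : γ ≃ δ) : (γ → ℂ) ≃ₜ (δ → ℂ) where
  toFun v := v ∘ e.symm
  invFun v := v ∘ e
  left_inv v := by funext i; simp
  right_inv v := by funext i; simp
  continuous_toFun := continuous_pi fun i => continuous_apply (e.symm i)
  continuous_invFun := continuous_pi fun i => continuous_apply (e i)

end coord

/-! ## the top cell input -/

/-- the top cell of (a space mapping to) the projective space of `ℂ^α ⊕ ℂ` splits off, up to
the fibre of a Thom space -/
def TopCellIn (α : Type) [Fintype α] [DecidableEq α] : Prop :=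
  ∃ (B : Type) (_ : TopologicalSpace B) (_ : CompactSpace B) (_ : T2Space B)
    (L : B → Matrix (Option α) (Option α) ℂ) (hL : Continuous L) (hP : ∀ b, IsPr 1 (L b))
    (κ : Type) (_ : Fintype κ) (_ : DecidableEq κ) (j : ℕ) (s : Fin j → κ)
    (hs : Function.Injective s) (τ : PMap ((α → ℂ) × (Fin j → ℂ)) (B × Th j κ)),
    (((pinch L hL hP).smash (PMap.id (Th j κ))).comp τ).Homotopic
      ((PMap.id (α → ℂ)).smash (fibN s hs))

/-! ## the glue -/

section glue

variable {α : Type} [Fintype α] [DecidableEq α]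
variable {Z Y : Type*} [TopologicalSpace Z] [T2Space Z] [LocallyCompactSpace Z]
  [TopologicalSpace Y] [T2Space Y] [LocallyCompactSpace Y]

theorem comp_congr_right {U V W : Type*} [TopologicalSpace U] [TopologicalSpace V]
    [TopologicalSpace W] {f : PMap V W} (e : U ≃ₜ V) (h : (f.comp (PMap.ofHomeo e)).Null) :
    f.Null := by
  have h1 := h.comp_right (PMap.ofHomeo e.symm)
  rw [PMap.comp_assoc, PMap.ofHomeo_comp_symm, PMap.comp_id] at h1
  exact h1

/-- if `g` dies on every pinch then `g ∧ (a fibre inclusion)` is null -/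
theorem null_smash_fibN (g : PMap (Z × (α → ℂ)) Y)
    (hA : ∀ (B : Type) [TopologicalSpace B] [CompactSpace B] [T2Space B]
      (L : B → Matrix (Option α) (Option α) ℂ) (hL : Continuous L) (hP : ∀ b, IsPr 1 (L b)),
      (g.comp ((PMap.id Z).smash (pinch L hL hP))).Null)
    (hT : TopCellIn α) :
    ∃ (κ : Type) (_ : Fintype κ) (_ : DecidableEq κ) (j : ℕ) (s : Fin j → κ)
      (hs : Function.Injective s), (g.smash (fibN s hs)).Null := by
  obtain ⟨B, _, _, _, L, hL, hP, κ, _, _, j, s, hs, τ, hτ⟩ := hT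
  refine ⟨κ, inferInstance, inferInstance, j, s, hs, ?_⟩
  have h1 := hA B L hL hP
  -- the composite
  let a1 : Z × ((α → ℂ) × Th j κ) ≃ₜ (Z × (α → ℂ)) × Th j κ := (Homeomorph.prodAssoc _ _ _).symm
  let a2 : Z × (B × Th j κ) ≃ₜ (Z × B) × Th j κ := (Homeomorph.prodAssoc _ _ _).symm
  have e1 : ((g.smash (PMap.id (Th j κ))).comp (PMap.ofHomeo a1)).comp
      ((PMap.id Z).smash ((pinch L hL hP).smash (PMap.id (Th j κ)))) =
      ((g.comp ((PMap.id Z).smash (pinch L hL hP))).smash (PMap.id (Th j κ))).comp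
        (PMap.ofHomeo a2) := by
    refine PMap.ext fun x => ?_
    obtain ⟨z, b, t⟩ := x
    have e2 : (PMap.ofHomeo a1) (sm (z : OnePoint Z) (sm (pinch L hL hP b)
        ((t : Th j κ) : OnePoint (Th j κ)))) =
        sm (sm (z : OnePoint Z) (pinch L hL hP b)) (t : OnePoint (Th j κ)) := by
      generalize pinch L hL hP b = y
      induction y using OnePoint.rec with
      | infty => rfl
      | coe y => rfl
    change (g.smash (PMap.id (Th j κ))) ((PMap.ofHomeo a1) (sm (z : OnePoint Z)
      (sm (pinch L hL hP b) ((t : Th j κ) : OnePoint (Th j κ))))) = _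
    rw [e2, PMap.smash_sm]
    rfl
  have h2 : (((g.smash (PMap.id (Th j κ))).comp (PMap.ofHomeo a1)).comp
      ((PMap.id Z).smash ((pinch L hL hP).smash (PMap.id (Th j κ))))).Null := by
    rw [e1]
    exact (h1.smash_left _).comp_right _
  have h3 := h2.comp_right ((PMap.id Z).smash τ)
  rw [PMap.comp_assoc, PMap.smash_comp] at h3
  have h4 : ((PMap.id Z).comp (PMap.id Z)).smash
      (((pinch L hL hP).smash (PMap.id (Th j κ))).comp τ) |>.Homotopic
      ((PMap.id Z).smash ((PMap.id (α → ℂ)).smash (fibN s hs))) :=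
    (PMap.Homotopic.refl _).smash hτ
  have h5 := ((h4.comp_left ((g.smash (PMap.id (Th j κ))).comp (PMap.ofHomeo a1))).symm).trans h3
  let a3 : Z × ((α → ℂ) × (Fin j → ℂ)) ≃ₜ (Z × (α → ℂ)) × (Fin j → ℂ) :=
    (Homeomorph.prodAssoc _ _ _).symm
  have e3 : ((g.smash (PMap.id (Th j κ))).comp (PMap.ofHomeo a1)).comp
      ((PMap.id Z).smash ((PMap.id (α → ℂ)).smash (fibN s hs))) =
      (g.smash (fibN s hs)).comp (PMap.ofHomeo a3) := by
    refine PMap.ext fun x => ?_
    obtain ⟨z, w⟩ := x
    rfl
  rw [e3] at h5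
  exact comp_congr_right _ h5

end glue

/-! ## the assembly -/

section final

variable {α0 : Type} [Fintype α0]

/-- the output of the block (I0) -/
def I0At {Z : Type} [TopologicalSpace Z] [T2Space Z] [LocallyCompactSpace Z]
    (kap : PMap Z (α0 → ℂ)) : Prop :=
  ∃ (m : ℕ) (κ : Type) (_ : Fintype κ) (_ : DecidableEq κ) (s : α0 ⊕ Fin m → κ)
    (hs : Function.Injective s),
    ((fibJ s hs).comp ((PMap.ofHomeo (sumH α0 (Fin m))).comp
      (kap.smash (PMap.id (Fin m → ℂ))))).Null

theorem i0At_of {Z : Type} [TopologicalSpace Z] [T2Space Z] [LocallyCompactSpace Z]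
    {α ι ι' : Type} [Fintype α] [DecidableEq α] [Fintype ι] [DecidableEq ι] [Fintype ι']
    [DecidableEq ι'] {N r : ℕ} (kap : PMap Z (α0 → ℂ)) (e0 : PMap Z (Th N ι))
    (E : PMap (Th N ι × (α → ℂ)) (Th r ι')) (s0 : α0 → ι) (hs0 : Function.Injective s0)
    (hN : Fintype.card α0 = N) (s1 : α0 ⊕ α → ι') (hs1 : Function.Injective s1)
    (hr : Fintype.card (α0 ⊕ α) = r)
    (hstart : e0.Homotopic ((PMap.ofHomeo (castTh hN)).comp ((fibJ s0 hs0).comp kap)))
    (hE : E.comp (((PMap.ofHomeo (castTh hN)).comp (fibJ s0 hs0)).smash (PMap.id (α → ℂ))) =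
      (PMap.ofHomeo (castTh hr)).comp ((fibJ s1 hs1).comp (PMap.ofHomeo (sumH α0 α))))
    (hA : ∀ (B : Type) [TopologicalSpace B] [CompactSpace B] [T2Space B]
      (L : B → Matrix (Option α) (Option α) ℂ) (hL : Continuous L) (hP : ∀ b, IsPr 1 (L b)),
      ((E.comp (e0.smash (PMap.id (α → ℂ)))).comp
        ((PMap.id Z).smash (pinch L hL hP))).Null)
    (hT : TopCellIn α) : I0At kap := by
  obtain ⟨κ, _, _, j, s, hs, h⟩ := null_smash_fibN _ hA hT
  have h1 : (E.comp (e0.smash (PMap.id (α → ℂ)))).Homotopic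
      (((PMap.ofHomeo (castTh hr)).comp ((fibJ s1 hs1).comp (PMap.ofHomeo (sumH α0 α)))).comp
        (kap.smash (PMap.id (α → ℂ)))) := by
    rw [← hE, PMap.comp_assoc, PMap.smash_comp]
    exact PMap.Homotopic.comp_left _ (hstart.smash (PMap.Homotopic.refl _))
  have h2 := ((h1.smash (PMap.Homotopic.refl (fibN s hs))).symm).trans h
  -- apply the product
  have h3 := h2.comp_left (mu (r := r) (s := j) (ι := ι') (κ := κ))
  have hcard : r + j = Fintype.card ((α0 ⊕ α) ⊕ Fin j) := by
    rw [Fintype.card_sum, hr, Fintype.card_fin]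
  -- reindexing
  let e : α ⊕ Fin j ≃ Fin (Fintype.card (α ⊕ Fin j)) := Fintype.equivFin _
  let e' : α0 ⊕ Fin (Fintype.card (α ⊕ Fin j)) ≃ (α0 ⊕ α) ⊕ Fin j :=
    ((Equiv.refl α0).sumCongr e.symm).trans (Equiv.sumAssoc _ _ _).symm
  have hs' : Function.Injective (Sum.map s1 s ∘ e') := (hs1.sumMap hs).comp e'.injective
  refine ⟨Fintype.card (α ⊕ Fin j), ι' ⊕ κ, inferInstance, inferInstance, Sum.map s1 s ∘ e', hs', ?_⟩
  have hcard' : r + j = Fintype.card (α0 ⊕ Fin (Fintype.card (α ⊕ Fin j))) := by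
    rw [hcard]; exact Fintype.card_congr e'.symm
  let d : (Z × (α → ℂ)) × (Fin j → ℂ) ≃ₜ Z × (Fin (Fintype.card (α ⊕ Fin j)) → ℂ) :=
    (Homeomorph.prodAssoc _ _ _).trans
      ((Homeomorph.refl Z).prodCongr ((sumH α (Fin j)).trans (funH e)))
  refine comp_congr_right d ?_
  have h4 := (h3.comp_left (PMap.ofHomeo (castTh (ι := ι' ⊕ κ) hcard')))
  have e5 : (PMap.ofHomeo (castTh (ι := ι' ⊕ κ) hcard')).comp
      (mu.comp ((((PMap.ofHomeo (castTh hr)).comp
        ((fibJ s1 hs1).comp (PMap.ofHomeo (sumH α0 α)))).comp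
        (kap.smash (PMap.id (α → ℂ)))).smash (fibN s hs))) =
      ((fibJ (Sum.map s1 s ∘ e') hs').comp
        ((PMap.ofHomeo (sumH α0 (Fin (Fintype.card (α ⊕ Fin j))))).comp
          (kap.smash (PMap.id (Fin (Fintype.card (α ⊕ Fin j)) → ℂ))))).comp (PMap.ofHomeo d) := by
    refine PMap.ext fun x => ?_
    obtain ⟨⟨z, a⟩, x⟩ := x
    change (PMap.ofHomeo (castTh (ι := ι' ⊕ κ) hcard')) (mu (sm ((PMap.ofHomeo (castTh hr))
      ((fibJ s1 hs1) ((PMap.ofHomeo (sumH α0 α)) (sm (kap z) (a : OnePoint (α → ℂ))))))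
      (fibN s hs x))) = (fibJ (Sum.map s1 s ∘ e') hs')
      ((PMap.ofHomeo (sumH α0 (Fin (Fintype.card (α ⊕ Fin j)))))
        (sm (kap z) ((funH e (sumH α (Fin j) (a, x)) : Fin (Fintype.card (α ⊕ Fin j)) → ℂ) :
          OnePoint (Fin (Fintype.card (α ⊕ Fin j)) → ℂ))))
    generalize kap z = y
    induction y using OnePoint.rec with
    | infty => rfl
    | coe v =>
      refine congrArg (fun y : Th (Fintype.card (α0 ⊕ Fin (Fintype.card (α ⊕ Fin j)))) (ι' ⊕ κ) =>
        (y : OnePoint (Th (Fintype.card (α0 ⊕ Fin (Fintype.card (α ⊕ Fin j)))) (ι' ⊕ κ))))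
        (Subtype.ext ?_)
      rw [castTh_val]
      refine Prod.ext ?_ ?_
      · refine (congrArg₂ (fun A B => fromBlocks A 0 0 B)
          (congrArg Prod.fst (castTh_val hr _))
          (congrArg Prod.fst (castTh_val (Fintype.card_fin j) _))).trans ?_
        refine Eq.trans ?_ (pJ_comp_equiv (Sum.map s1 s) e').symm
        exact pJ_sum s1 s
      · refine (congrArg₂ (fun A B => Sum.elim A B)
          (congrArg Prod.snd (castTh_val hr _))
          (congrArg Prod.snd (castTh_val (Fintype.card_fin j) _))).trans ?_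
        refine (extend_sum hs1 hs (Sum.elim v a) x).trans ?_
        refine Eq.trans ?_ (extend_comp_equiv (hs1.sumMap hs) e' _).symm
        congr 1
        funext i
        rcases i with (i | i) | i
        · rfl
        · change a i = Sum.elim a x (e.symm (e (Sum.inl i)))
          rw [Equiv.symm_apply_apply]; rfl
        · change x i = Sum.elim a x (e.symm (e (Sum.inr i)))
          rw [Equiv.symm_apply_apply]; rfl
  rw [e5] at h4
  refine h4.trans (.of_eq (PMap.ext fun x => ?_))
  simp

end final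

end Crest.Agent.R090.I0Glue417
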