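import Crest.Agent.R090.I0a_275
import Crest.Agent.R090.I0Glue_417
import Crest.Agent.R090.Match_513_Mg
import Crest.Agent.R090.F0Conv_96

-- ▼ part R090/I0b_275
section

/-!
# Row 90, I0-CORE part b (owner helper275): isomorphic bundles give homotopic projections
-/

set_option autoImplicit false
set_option linter.unusedSectionVars false

open Topology Filter Set Matrix

namespace Crest.Agent.R090.I0core275

open OnePoint Crest.Agent.R090.Sp962
open scoped unitInterval ComplexOrder

variable {ι κ : Type*} [Fintype ι] [DecidableEq ι] [Fintype κ] [DecidableEq κ]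

/-- data of an isomorphism `X` from the image of `P` onto the image of `P'` -/
structure IsIso (P : Matrix ι ι ℂ) (P' : Matrix κ κ ℂ) (X : Matrix κ ι ℂ) (Y : Matrix ι κ ℂ) :
    Prop where
  XP : X * P = X
  YX : Y * X = P
  P'X : P' * X = X
  XY : X * Y = P'

section path

variable (P : Matrix ι ι ℂ) (X : Matrix κ ι ℂ) (s : ℝ)

/-- the embedding of the path -/
noncomputable def emb : Matrix (ι ⊕ κ) ι ℂ :=
  fromRows (((1 - s : ℝ) : ℂ) • P) ((s : ℂ) • X)

/-- the Gram matrix of the path -/
noncomputable def gram : Matrix ι ι ℂ := (emb P X s)ᴴ * emb P X s + (1 - P)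

/-- the path of projections -/
noncomputable def pathP : Matrix (ι ⊕ κ) (ι ⊕ κ) ℂ := emb P X s * ((gram P X s)⁻¹ * (emb P X s)ᴴ)

end path

variable {P : Matrix ι ι ℂ} {P' : Matrix κ κ ℂ} {X : Matrix κ ι ℂ} {Y : Matrix ι κ ℂ} {k : ℕ}

theorem IsPr.compl_mul (hP : IsPr k P) : (1 - P) * P = 0 := by
  rw [Matrix.sub_mul, Matrix.one_mul, hP.idem, sub_self]

theorem IsPr.mul_compl (hP : IsPr k P) : P * (1 - P) = 0 := by
  rw [Matrix.mul_sub, Matrix.mul_one, hP.idem, sub_self]

theorem IsPr.compl_idem (hP : IsPr k P) : (1 - P) * (1 - P) = 1 - P := by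
  rw [Matrix.mul_sub, hP.compl_mul, Matrix.mul_one, sub_zero]

theorem IsPr.compl_herm (hP : IsPr k P) : (1 - P)ᴴ = 1 - P := by
  rw [conjTranspose_sub, conjTranspose_one, hP.herm]

theorem gram_herm (hP : IsPr k P) (s : ℝ) : (gram P X s)ᴴ = gram P X s := by
  rw [gram, conjTranspose_add, conjTranspose_mul, conjTranspose_conjTranspose, hP.compl_herm]

theorem emb_mul_compl (hP : IsPr k P) (hX : X * P = X) (s : ℝ) : emb P X s * (1 - P) = 0 := by
  rw [emb, fromRows_mul, Matrix.smul_mul, Matrix.smul_mul, hP.mul_compl, Matrix.mul_sub,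
    Matrix.mul_one, hX, sub_self, smul_zero, smul_zero]
  exact fromRows_zero

theorem gram_mul_compl (hP : IsPr k P) (hX : X * P = X) (s : ℝ) :
    gram P X s * (1 - P) = 1 - P := by
  rw [gram, Matrix.add_mul, Matrix.mul_assoc, emb_mul_compl hP hX, Matrix.mul_zero, zero_add,
    hP.compl_idem]

theorem compl_mul_gram (hP : IsPr k P) (hX : X * P = X) (s : ℝ) :
    (1 - P) * gram P X s = 1 - P := by
  have h := congrArg conjTranspose (gram_mul_compl hP hX s)
  rwa [conjTranspose_mul, gram_herm hP, hP.compl_herm] at h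

theorem isUnit_gram (hP : IsPr k P) (h : IsIso P P' X Y) (s : ℝ) : IsUnit (gram P X s) := by
  rw [← Matrix.mulVec_injective_iff_isUnit]
  have key : ∀ v : ι → ℂ, gram P X s *ᵥ v = 0 → v = 0 := by
    intro v hv
    have h1 : (1 - P) *ᵥ v = 0 := by
      rw [← compl_mul_gram hP h.XP s, ← Matrix.mulVec_mulVec, hv, Matrix.mulVec_zero]
    have h2 : ((emb P X s)ᴴ * emb P X s) *ᵥ v = 0 := by
      rw [gram, Matrix.add_mulVec, h1, add_zero] at hv
      exact hv
    rw [Matrix.conjTranspose_mul_self_mulVec_eq_zero] at h2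
    rw [emb, Matrix.fromRows_mulVec] at h2
    have h3 : (((1 - s : ℝ) : ℂ) • P) *ᵥ v = 0 := funext fun i => congrFun h2 (Sum.inl i)
    have h4 : ((s : ℂ) • X) *ᵥ v = 0 := funext fun i => congrFun h2 (Sum.inr i)
    have h5 : v = P *ᵥ v := by
      rw [Matrix.sub_mulVec, Matrix.one_mulVec, sub_eq_zero] at h1
      exact h1
    rw [Matrix.smul_mulVec, ← h5] at h3
    have h6 : (s : ℂ) • v = 0 := by
      have : Y *ᵥ (((s : ℂ) • X) *ᵥ v) = 0 := by rw [h4, Matrix.mulVec_zero]
      rw [Matrix.smul_mulVec, Matrix.mulVec_smul, Matrix.mulVec_mulVec, h.YX, ← h5] at this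
      exact this
    have h7 : v = ((1 - s : ℝ) : ℂ) • v + (s : ℂ) • v := by
      rw [← add_smul]; push_cast; simp
    rw [h7, h3, h6, add_zero]
  intro v w hvw
  have := key (v - w) (by rw [Matrix.mulVec_sub]; exact sub_eq_zero.2 hvw)
  exact sub_eq_zero.1 this

theorem gram_inv_mul (hP : IsPr k P) (h : IsIso P P' X Y) (s : ℝ) :
    (gram P X s)⁻¹ * gram P X s = 1 :=
  Matrix.nonsing_inv_mul _ ((Matrix.isUnit_iff_isUnit_det _).1 (isUnit_gram hP h s))


theorem gram_inv_compl (hP : IsPr k P) (h : IsIso P P' X Y) (s : ℝ) :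
    (gram P X s)⁻¹ * (1 - P) = 1 - P := by
  conv_lhs => rw [← gram_mul_compl hP h.XP s, ← Matrix.mul_assoc, gram_inv_mul hP h, Matrix.one_mul]

theorem gram_inv_herm (hP : IsPr k P) (s : ℝ) :
    ((gram P X s)⁻¹)ᴴ = (gram P X s)⁻¹ := by
  rw [conjTranspose_nonsing_inv, gram_herm hP]

/-- `G⁻¹ MᴴM = P` -/
theorem gram_inv_emb (hP : IsPr k P) (h : IsIso P P' X Y) (s : ℝ) :
    (gram P X s)⁻¹ * ((emb P X s)ᴴ * emb P X s) = P := by
  have h1 : (emb P X s)ᴴ * emb P X s = gram P X s - (1 - P) := by rw [gram]; abel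
  rw [h1, Matrix.mul_sub, gram_inv_mul hP h, gram_inv_compl hP h, sub_sub_cancel]

theorem emb_mul_P (hP : IsPr k P) (hX : X * P = X) (s : ℝ) : emb P X s * P = emb P X s := by
  have h := emb_mul_compl hP hX s
  rw [Matrix.mul_sub, Matrix.mul_one, sub_eq_zero] at h
  exact h.symm

theorem isPr_pathP (hP : IsPr k P) (h : IsIso P P' X Y) (s : ℝ) : IsPr k (pathP P X s) := by
  refine ⟨?_, ?_, ?_⟩
  · rw [pathP, conjTranspose_mul, conjTranspose_mul, conjTranspose_conjTranspose,
      gram_inv_herm hP, Matrix.mul_assoc]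
  · have : pathP P X s * pathP P X s =
        emb P X s * ((gram P X s)⁻¹ * ((emb P X s)ᴴ * emb P X s)) *
          ((gram P X s)⁻¹ * (emb P X s)ᴴ) := by
      simp only [pathP, Matrix.mul_assoc]
    rw [this, gram_inv_emb hP h, emb_mul_P hP h.XP, pathP]
  · rw [pathP, Matrix.trace_mul_comm, Matrix.mul_assoc, gram_inv_emb hP h, hP.tr]

theorem pathP_zero (hP : IsPr k P) : pathP P X 0 = fromBlocks P 0 0 0 := by
  have h1 : emb P X 0 = fromRows P 0 := by simp [emb]
  have h2 : gram P X 0 = 1 := by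
    rw [gram, h1, conjTranspose_fromRows_eq_fromCols_conjTranspose, fromCols_mul_fromRows,
      hP.herm, hP.idem]
    simp
  rw [pathP, h2, h1, inv_one, Matrix.one_mul, conjTranspose_fromRows_eq_fromCols_conjTranspose,
    fromRows_mul_fromCols, hP.herm, hP.idem]
  simp

theorem pathP_one (hP : IsPr k P) (hP' : P'ᴴ = P') (h : IsIso P P' X Y) :
    pathP P X 1 = fromBlocks 0 0 0 P' := by
  have h1 : emb P X 1 = fromRows 0 X := by simp [emb]
  have h2 := gram_inv_emb hP h 1
  rw [h1, conjTranspose_fromRows_eq_fromCols_conjTranspose, fromCols_mul_fromRows,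
    Matrix.mul_zero, zero_add] at h2
  have h3 : X * ((gram P X 1)⁻¹ * Xᴴ) = P' := by
    have h4 : X * ((gram P X 1)⁻¹ * Xᴴ) * P' = P' := by
      rw [← h.XY]
      calc X * ((gram P X 1)⁻¹ * Xᴴ) * (X * Y) = X * ((gram P X 1)⁻¹ * (Xᴴ * X)) * Y := by
            simp only [Matrix.mul_assoc]
        _ = X * Y := by rw [h2, h.XP]
    have h5 := congrArg conjTranspose h4
    rw [conjTranspose_mul, conjTranspose_mul, conjTranspose_mul, conjTranspose_conjTranspose, hP',
      gram_inv_herm hP] at h5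
    rw [← h5, Matrix.mul_assoc, ← Matrix.mul_assoc P' X, h.P'X]
  rw [pathP, h1, conjTranspose_fromRows_eq_fromCols_conjTranspose, conjTranspose_zero,
    mul_fromCols, fromRows_mul_fromCols, h3, Matrix.mul_zero, Matrix.zero_mul, Matrix.mul_zero,
    Matrix.zero_mul]

theorem continuous_inv_mat {Z : Type*} [TopologicalSpace Z] {G : Z → Matrix ι ι ℂ}
    (hG : Continuous G) (hu : ∀ z, IsUnit (G z)) : Continuous fun z => (G z)⁻¹ := by
  have h : (fun z => (G z)⁻¹) = fun z => ((G z).det)⁻¹ • (G z).adjugate := by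
    funext z
    rw [Matrix.inv_def, Ring.inverse_eq_inv']
  rw [h]
  refine Continuous.smul (Continuous.inv₀ hG.matrix_det fun z => ?_) hG.matrix_adjugate
  exact ((Matrix.isUnit_iff_isUnit_det _).1 (hu z)).ne_zero

theorem continuous_pathP {Z : Type*} [TopologicalSpace Z] {P : Z → Matrix ι ι ℂ}
    {P' : Z → Matrix κ κ ℂ} {X : Z → Matrix κ ι ℂ} {Y : Z → Matrix ι κ ℂ} {s : Z → ℝ}
    (hPc : Continuous P) (hXc : Continuous X) (hs : Continuous s)
    (hP : ∀ z, IsPr k (P z)) (h : ∀ z, IsIso (P z) (P' z) (X z) (Y z)) :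
    Continuous fun z => pathP (P z) (X z) (s z) := by
  have he : Continuous fun z => emb (P z) (X z) (s z) := by
    refine continuous_matrix fun i j => ?_
    rcases i with i | i
    · exact (Complex.continuous_ofReal.comp (continuous_const.sub hs)).mul
        (hPc.matrix_elem i j)
    · exact (Complex.continuous_ofReal.comp hs).mul (hXc.matrix_elem i j)
  have hg : Continuous fun z => gram (P z) (X z) (s z) :=
    (he.matrix_conjTranspose.matrix_mul he).add (continuous_const.sub hPc)
  have hi : Continuous fun z => (gram (P z) (X z) (s z))⁻¹ :=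
    continuous_inv_mat hg fun z => isUnit_gram (hP z) (h z) (s z)
  exact he.matrix_mul (hi.matrix_mul he.matrix_conjTranspose)

end Crest.Agent.R090.I0core275
end

-- ▼ part R090/I0c_275
section

/-!
# Row 90, I0-CORE part c (owner helper275): amplitude homotopies
-/

set_option autoImplicit false
set_option linter.unusedSectionVars false

open Topology Filter Set Matrix

namespace Crest.Agent.R090.I0core275

open OnePoint Crest.Agent.R090.Sp962
open scoped unitInterval ComplexOrder Kronecker

variable {ι κ : Type*} [Fintype ι] [DecidableEq ι] [Fintype κ] [DecidableEq κ]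

/-! ## construction of pointed maps and homotopies -/

theorem coclosedCompact_eq_bot_of_compact (X : Type*) [TopologicalSpace X] [CompactSpace X] :
    coclosedCompact X = ⊥ := by
  rw [← Filter.empty_mem_iff_bot, hasBasis_coclosedCompact.mem_iff]
  exact ⟨univ, ⟨isClosed_univ, isCompact_univ⟩, by simp⟩

/-- a free map on a compact space is a pointed map -/
def ofCompact {X V : Type*} [TopologicalSpace X] [TopologicalSpace V] [CompactSpace X]
    (f : X → OnePoint V) (hf : Continuous f) : PMap X V :=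
  PMap.ofFun f hf (by rw [coclosedCompact_eq_bot_of_compact]; exact tendsto_bot)

@[simp] theorem ofCompact_coe {X V : Type*} [TopologicalSpace X] [TopologicalSpace V]
    [CompactSpace X] (f : X → OnePoint V) (hf : Continuous f) (x : X) :
    ofCompact f hf (x : OnePoint X) = f x := rfl

/-- homotopies of free maps on a compact space -/
theorem homotopic_of_compact {X V : Type*} [TopologicalSpace X] [TopologicalSpace V]
    [CompactSpace X] {f g : PMap X V} (H : I × X → OnePoint V) (hH : Continuous H)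
    (h0 : ∀ x : X, H (0, x) = f x) (h1 : ∀ x : X, H (1, x) = g x) : f.Homotopic g := by
  refine PMap.Homotopic.of (fun p : I × OnePoint X => p.2.elim ∞ fun u => H (p.1, u)) ?_ h0 h1
    (fun _ => rfl)
  refine continuous_ext H hH ?_
  rw [coclosedCompact_eq_bot_of_compact]
  exact tendsto_bot

/-- properness criterion -/
theorem tendsto_coclosedCompact_of {X : Type*} [TopologicalSpace X] {f : X → ℝ}
    (hf : Continuous f) (h : ∀ R, IsCompact {x | f x ≤ R}) :
    Tendsto f (coclosedCompact X) atTop := by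
  rw [tendsto_atTop]
  intro R
  rw [Filter.Eventually, hasBasis_coclosedCompact.mem_iff]
  refine ⟨{x | f x ≤ R}, ⟨isClosed_le hf continuous_const, h R⟩, fun x hx => ?_⟩
  have : ¬ f x ≤ R := hx
  exact (not_le.1 this).le

/-- homotopies given by proper families of finite points of Thom spaces -/
theorem homotopic_of_th {U : Type*} [TopologicalSpace U] {k : ℕ} {f g : PMap U (Th k ι)}
    (H : I × U → Th k ι) (hH : Continuous H)
    (hp : Tendsto (fun p => ‖(H p).1.2‖) (coclosedCompact (I × U)) atTop)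
    (h0 : ∀ x : U, f x = H (0, x)) (h1 : ∀ x : U, g x = H (1, x)) : f.Homotopic g :=
  PMap.Homotopic.of
    (fun p : I × OnePoint U => p.2.elim ∞ fun u => ((H (p.1, u) : Th k ι) : OnePoint (Th k ι)))
    (continuous_ext (fun p => ((H p : Th k ι) : OnePoint (Th k ι))) (continuous_coe.comp hH)
      (tendsto_infty hp)) (fun x => (h0 x).symm) (fun x => (h1 x).symm) (fun _ => rfl)

/-- pointed maps given by proper maps to Thom spaces -/
def ofTh {U : Type*} [TopologicalSpace U] {k : ℕ} (f : U → Th k ι) (hf : Continuous f)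
    (hp : Tendsto (fun p => ‖(f p).1.2‖) (coclosedCompact U) atTop) : PMap U (Th k ι) :=
  PMap.ofFun (fun u => (f u : OnePoint (Th k ι))) (continuous_coe.comp hf) (tendsto_infty hp)

@[simp] theorem ofTh_coe {U : Type*} [TopologicalSpace U] {k : ℕ} (f : U → Th k ι)
    (hf : Continuous f) (hp : Tendsto (fun p => ‖(f p).1.2‖) (coclosedCompact U) atTop) (u : U) :
    ofTh f hf hp (u : OnePoint U) = (f u : OnePoint (Th k ι)) := rfl

theorem continuous_th {X : Type*} [TopologicalSpace X] {k : ℕ} {f : X → Th k ι}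
    (h1 : Continuous fun x => (f x).1.1) (h2 : Continuous fun x => (f x).1.2) : Continuous f :=
  Continuous.subtype_mk (f := fun x => (f x).1) (h1.prodMk h2) (fun x => (f x).2)

@[ext] theorem Th.ext {k : ℕ} {x y : Th k ι} (h1 : x.1.1 = y.1.1) (h2 : x.1.2 = y.1.2) : x = y :=
  Subtype.ext (Prod.ext h1 h2)

/-- constructor -/
def Th.of {k : ℕ} (P : Matrix ι ι ℂ) (v : ι → ℂ) (h : IsPr k P) (hv : P *ᵥ v = v) : Th k ι :=
  ⟨(P, v), h, hv⟩

@[simp] theorem Th.of_fst {k : ℕ} (P : Matrix ι ι ℂ) (v : ι → ℂ) (h : IsPr k P)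
    (hv : P *ᵥ v = v) : (Th.of P v h hv).1.1 = P := rfl

@[simp] theorem Th.of_snd {k : ℕ} (P : Matrix ι ι ℂ) (v : ι → ℂ) (h : IsPr k P)
    (hv : P *ᵥ v = v) : (Th.of P v h hv).1.2 = v := rfl

/-! ## the amplitude homotopy -/

/-- the denominator -/
def den (t c : ℝ) : ℝ := (1 - t) + t * c


theorem den_eq_zero {t c : ℝ} (h0 : 0 ≤ t) (h1 : t ≤ 1) (hc : 0 ≤ c) :
    den t c = 0 ↔ t = 1 ∧ c = 0 := by
  constructor
  · intro h
    have h2 := mul_nonneg h0 hc
    rw [den] at h
    have h3 : t = 1 := by linarith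
    subst h3
    refine ⟨rfl, by linarith⟩
  · rintro ⟨rfl, rfl⟩
    simp [den]

/-- data of an amplitude homotopy -/
structure AmpData (X : Type*) [TopologicalSpace X] (J : Type*) (k : ℕ) (ι : Type*)
    [Fintype ι] [DecidableEq ι] where
  /-- projections -/
  Pi : X → Matrix ι ι ℂ
  hPi : Continuous Pi
  isPr : ∀ x, IsPr k (Pi x)
  /-- blocks -/
  blk : ι → J
  /-- section -/
  s : X → ι → ℂ
  hs : Continuous s
  /-- inverse amplitudes -/
  c : J → X → ℝ
  hc : ∀ i, Continuous (c i)
  c_nonneg : ∀ i x, 0 ≤ c i x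
  inv : ∀ x (μ : J → ℂ), Pi x *ᵥ (fun j => μ (blk j) * s x j) = fun j => μ (blk j) * s x j
  nz : ∀ x i, c i x = 0 → ∃ j, blk j = i ∧ s x j ≠ 0

namespace AmpData

variable {X J : Type*} [TopologicalSpace X] [Finite J] {k : ℕ} (A : AmpData X J k ι)

/-- the vector at time `t` -/
noncomputable def vec (t : ℝ) (x : X) : ι → ℂ :=
  fun j => ((t / den t (A.c (A.blk j) x) : ℝ) : ℂ) * A.s x j

/-- the point at time `t` -/
noncomputable def pt (t : ℝ) (x : X) : Th k ι :=
  ⟨(A.Pi x, A.vec t x), A.isPr x, A.inv x fun i => ((t / den t (A.c i x) : ℝ) : ℂ)⟩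

/-- the homotopy -/
noncomputable def F (p : I × X) : OnePoint (Th k ι) :=
  open Classical in
  if ∃ i, den p.1 (A.c i p.2) = 0 then ∞ else (A.pt p.1 p.2 : OnePoint (Th k ι))

theorem continuous_F : Continuous A.F := by
  have hden : ∀ i, Continuous fun p : I × X => den p.1 (A.c i p.2) := by
    intro i
    have h1 : Continuous fun p : I × X => (p.1 : ℝ) := continuous_subtype_val.comp continuous_fst
    exact (continuous_const.sub h1).add (h1.mul ((A.hc i).comp continuous_snd))
  have hD : IsOpen {p : I × X | ∀ i, den p.1 (A.c i p.2) ≠ 0} := by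
    have : {p : I × X | ∀ i, den p.1 (A.c i p.2) ≠ 0} =
        ⋂ i, {p : I × X | den p.1 (A.c i p.2) ≠ 0} := by ext; simp
    rw [this]
    exact isOpen_iInter_of_finite fun i => isOpen_ne_fun (hden i) continuous_const
  refine continuous_glue _ hD A.F (fun p => A.pt p.1.1 p.1.2) ?_ ?_ ?_ ?_
  · refine continuous_th (A.hPi.comp (continuous_snd.comp continuous_subtype_val)) ?_
    refine continuous_pi fun j => ?_
    refine Continuous.mul (Complex.continuous_ofReal.comp ?_)
      ((continuous_apply j).comp (A.hs.comp (continuous_snd.comp continuous_subtype_val)))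
    refine Continuous.div ?_ ((hden (A.blk j)).comp continuous_subtype_val) ?_
    · exact continuous_subtype_val.comp (continuous_fst.comp continuous_subtype_val)
    · intro p; exact p.2 _
  · intro p
    rw [F, if_neg]
    rintro ⟨i, hi⟩
    exact p.2 i hi
  · intro p hp
    rw [F, if_pos]
    by_contra hcon
    exact hp fun i hi => hcon ⟨i, hi⟩
  · intro p hp
    have hp' : ∃ i, den p.1 (A.c i p.2) = 0 := by
      by_contra hcon
      exact hp fun i hi => hcon ⟨i, hi⟩
    obtain ⟨i, hi⟩ := hp'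
    have h1 := (den_eq_zero p.1.2.1 p.1.2.2 (A.c_nonneg i p.2)).1 hi
    obtain ⟨j, hj, hsj⟩ := A.nz p.2 i h1.2
    refine tendsto_of_le (c := fun q : I × X => den q.1 (A.c i q.2))
      (n := fun q : I × X => (q.1 : ℝ) * ‖A.s q.2 j‖) (hden i).continuousAt ?_ hi ?_ ?_
    · have h2 : Continuous fun q : I × X => (q.1 : ℝ) * ‖A.s q.2 j‖ :=
        (continuous_subtype_val.comp continuous_fst).mul
          (continuous_norm.comp ((continuous_apply j).comp (A.hs.comp continuous_snd)))
      exact h2.continuousAt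
    · rw [h1.1, one_mul]
      exact norm_pos_iff.2 hsj
    · intro q
      have h3 : ‖A.vec q.1.1 q.1.2 j‖ ≤ ‖(A.pt q.1.1 q.1.2).1.2‖ :=
        norm_le_pi_norm (A.vec q.1.1 q.1.2) j
      have h4 : (q.1.1 : ℝ) * ‖A.s q.1.2 j‖ =
          ‖A.vec q.1.1 q.1.2 j‖ * |den q.1.1 (A.c i q.1.2)| := by
        rw [vec, hj, norm_mul, Complex.norm_real, Real.norm_eq_abs, abs_div,
          abs_of_nonneg q.1.1.2.1]
        have h5 : |den q.1.1 (A.c i q.1.2)| ≠ 0 := abs_ne_zero.2 (q.2 i)
        field_simp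
      rw [h4]
      exact mul_le_mul_of_nonneg_right h3 (abs_nonneg _)

/-- the end point of the homotopy -/
noncomputable def fin (x : X) : OnePoint (Th k ι) :=
  open Classical in
  if ∃ i, A.c i x = 0 then ∞ else (A.pt 1 x : OnePoint (Th k ι))

theorem F_one (x : X) : A.F (1, x) = A.fin x := by
  have h : ∀ i, den ((1 : I) : ℝ) (A.c i x) = A.c i x := fun i => by simp [den]
  by_cases hx : ∃ i, A.c i x = 0
  · rw [fin, if_pos hx, F, if_pos]
    obtain ⟨i, hi⟩ := hx
    exact ⟨i, (h i).trans hi⟩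
  · rw [fin, if_neg hx, F, if_neg]
    · rfl
    · rintro ⟨i, hi⟩
      exact hx ⟨i, (h i).symm.trans hi⟩

theorem pt_zero (x : X) : A.pt 0 x = Th.of (A.Pi x) 0 (A.isPr x) (by simp) := by
  refine Th.ext rfl ?_
  funext j
  change ((0 / den 0 (A.c (A.blk j) x) : ℝ) : ℂ) * A.s x j = 0
  simp

theorem F_zero (x : X) : A.F (0, x) = (A.pt 0 x : OnePoint (Th k ι)) := by
  have h : ∀ i, den ((0 : I) : ℝ) (A.c i x) = 1 := fun i => by simp [den]
  rw [F, if_neg]
  · rfl
  · rintro ⟨i, hi⟩
    exact one_ne_zero ((h i).symm.trans hi)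

theorem continuous_fin : Continuous A.fin := by
  have : A.fin = fun x => A.F (1, x) := funext fun x => (A.F_one x).symm
  rw [this]
  exact A.continuous_F.comp (by fun_prop)

/-- **the amplitude homotopy**: the zero section is homotopic to `s / c` -/
theorem homotopic [CompactSpace X] {f g : PMap X (Th k ι)}
    (hf : ∀ x : X, f x = (Th.of (A.Pi x) 0 (A.isPr x) (by simp) : Th k ι))
    (hg : ∀ x : X, g x = A.fin x) : f.Homotopic g :=
  homotopic_of_compact A.F A.continuous_F
    (fun x => by rw [A.F_zero, A.pt_zero]; exact (hf x).symm)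
    (fun x => by rw [A.F_one]; exact (hg x).symm)

end AmpData

end Crest.Agent.R090.I0core275
end

-- ▼ part R090/I0d_275
section

/-!
# Row 90, I0-CORE part d (owner helper275): algebra of the twisted projections
-/

set_option autoImplicit false
set_option linter.unusedSectionVars false

open Topology Filter Set Matrix

namespace Crest.Agent.R090.I0core275

open OnePoint Crest.Agent.R090.Sp962
open scoped unitInterval ComplexOrder Kronecker

variable {ι κ : Type*} [Fintype ι] [DecidableEq ι] [Fintype κ] [DecidableEq κ]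
variable {ι' κ' : Type*} [Fintype ι'] [DecidableEq ι'] [Fintype κ'] [DecidableEq κ']

theorem IsPr.one (ι : Type*) [Fintype ι] [DecidableEq ι] :
    IsPr (Fintype.card ι) (1 : Matrix ι ι ℂ) :=
  ⟨conjTranspose_one, Matrix.one_mul _, by rw [trace_one]⟩

theorem IsPr.zero (ι : Type*) [Fintype ι] [DecidableEq ι] : IsPr 0 (0 : Matrix ι ι ℂ) :=
  ⟨conjTranspose_zero, Matrix.mul_zero _, by simp⟩

theorem IsPr.fromBlocks {a b : ℕ} {P : Matrix ι ι ℂ} {Q : Matrix κ κ ℂ} (hP : IsPr a P)
    (hQ : IsPr b Q) : IsPr (a + b) (fromBlocks P 0 0 Q) := by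
  refine ⟨?_, ?_, ?_⟩
  · rw [fromBlocks_conjTranspose, hP.herm, hQ.herm, conjTranspose_zero, conjTranspose_zero]
  · rw [fromBlocks_multiply, hP.idem, hQ.idem]
    simp
  · have h1 := hP.tr
    have h2 := hQ.tr
    simp only [Matrix.trace, diag_apply] at h1 h2
    simp only [Matrix.trace, Fintype.sum_sum_type, diag_apply, fromBlocks_apply₁₁,
      fromBlocks_apply₂₂, h1, h2]
    push_cast
    rfl

theorem IsPr.cast {a b : ℕ} {P : Matrix ι ι ℂ} (hP : IsPr a P) (h : a = b) : IsPr b P := h ▸ hP

theorem IsPr.inl {a : ℕ} {P : Matrix ι ι ℂ} (hP : IsPr a P) (κ : Type*) [Fintype κ]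
    [DecidableEq κ] : IsPr a (Matrix.fromBlocks P 0 0 (0 : Matrix κ κ ℂ)) :=
  (hP.fromBlocks (IsPr.zero κ)).cast (add_zero a)

theorem IsPr.inr {a : ℕ} {P : Matrix κ κ ℂ} (hP : IsPr a P) (ι : Type*) [Fintype ι]
    [DecidableEq ι] : IsPr a (Matrix.fromBlocks (0 : Matrix ι ι ℂ) 0 0 P) :=
  ((IsPr.zero ι).fromBlocks hP).cast (zero_add a)

theorem IsPr.kronecker {a b : ℕ} {P : Matrix ι ι ℂ} {Q : Matrix κ κ ℂ} (hP : IsPr a P)
    (hQ : IsPr b Q) : IsPr (a * b) (P ⊗ₖ Q) := by
  refine ⟨?_, ?_, ?_⟩
  · rw [conjTranspose_kronecker, hP.herm, hQ.herm]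
  · rw [← mul_kronecker_mul, hP.idem, hQ.idem]
  · rw [trace_kronecker, hP.tr, hQ.tr]
    push_cast
    rfl

theorem IsPr.transpose {a : ℕ} {P : Matrix ι ι ℂ} (hP : IsPr a P) : IsPr a Pᵀ := by
  refine ⟨?_, ?_, ?_⟩
  · have : Pᵀᴴ = Pᴴᵀ := by ext; simp
    rw [this, hP.herm]
  · rw [← transpose_mul, hP.idem]
  · rw [trace_transpose, hP.tr]

theorem IsIso.kronecker {P : Matrix ι ι ℂ} {P' : Matrix κ κ ℂ} {X : Matrix κ ι ℂ}
    {Y : Matrix ι κ ℂ} (h : IsIso P P' X Y) {L : Matrix ι' ι' ℂ} (hL : L * L = L) :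
    IsIso (L ⊗ₖ P) (L ⊗ₖ P') (L ⊗ₖ X) (L ⊗ₖ Y) := by
  refine ⟨?_, ?_, ?_, ?_⟩ <;> rw [← mul_kronecker_mul, hL]
  · rw [h.XP]
  · rw [h.YX]
  · rw [h.P'X]
  · rw [h.XY]

theorem kron_mulVec (L : Matrix ι ι ℂ) (P : Matrix κ κ ℂ) (W : Matrix ι κ ℂ) :
    (L ⊗ₖ P) *ᵥ (fun p => W p.1 p.2) = fun p => (L * W * Pᵀ) p.1 p.2 := by
  funext ⟨a, b⟩
  simp only [mulVec, dotProduct, Fintype.sum_prod_type, kroneckerMap_apply, Matrix.mul_apply,
    transpose_apply, Finset.sum_mul]
  rw [Finset.sum_comm]
  refine Finset.sum_congr rfl fun y _ => Finset.sum_congr rfl fun x _ => ?_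
  ring

theorem fromBlocks_mulVec_inl (A : Matrix ι ι ℂ) (D : Matrix κ κ ℂ) (v : ι → ℂ) :
    Matrix.fromBlocks A 0 0 D *ᵥ Sum.elim v (0 : κ → ℂ) = Sum.elim (A *ᵥ v) (0 : κ → ℂ) := by
  rw [fromBlocks_mulVec]
  simp

theorem fromBlocks_mulVec_inr (A : Matrix ι ι ℂ) (D : Matrix κ κ ℂ) (v : κ → ℂ) :
    Matrix.fromBlocks A 0 0 D *ᵥ Sum.elim (0 : ι → ℂ) v = Sum.elim (0 : ι → ℂ) (D *ᵥ v) := by
  rw [fromBlocks_mulVec]
  simp

/-- columns only in the second block -/
def rcol {m : Type*} (h : Type*) (W : Matrix ι m ℂ) : Matrix ι (h ⊕ m) ℂ :=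
  Matrix.of fun α y => Sum.elim (fun _ => 0) (fun i => W α i) y

theorem rcol_mul {h m : Type*} [Fintype h] [DecidableEq h] [Fintype m] [DecidableEq m]
    (W : Matrix ι m ℂ) (P : Matrix h h ℂ) :
    rcol h W * (Matrix.fromBlocks P 0 0 (1 : Matrix m m ℂ))ᵀ = rcol h W := by
  ext α y
  rw [fromBlocks_transpose, Matrix.mul_apply, Fintype.sum_sum_type]
  rcases y with y | y
  · simp [rcol]
  · simp [rcol, Matrix.one_apply]

theorem mul_rcol {h m : Type*} (L : Matrix ι ι ℂ) (W : Matrix ι m ℂ) :
    L * rcol h W = rcol h (L * W) := by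
  ext α y
  rcases y with y | y
  · simp [rcol, Matrix.mul_apply]
  · simp [rcol, Matrix.mul_apply]

/-- the vector `W` of `ℂ^ι ⊗ ℂ^(h ⊕ m)` lies in the image of `L ⊗ (P ⊕ 1)` if `L W = W` -/
theorem twist_mulVec {h m : Type*} [Fintype h] [DecidableEq h] [Fintype m] [DecidableEq m]
    (L : Matrix ι ι ℂ) (W : Matrix ι m ℂ) (P : Matrix h h ℂ) (hW : L * W = W) :
    (L ⊗ₖ Matrix.fromBlocks P 0 0 (1 : Matrix m m ℂ)) *ᵥ (fun p => rcol h W p.1 p.2) =
      fun p => rcol h W p.1 p.2 := by
  rw [kron_mulVec, mul_rcol, rcol_mul, hW]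

end Crest.Agent.R090.I0core275
end

-- ▼ part R090/I0e_275
section

/-!
# Row 90, I0-CORE part e (owner helper275): the Euler class homotopy

`g ∘ (1_Z × pinch)` is null homotopic, where `g (z, a) = (e₀ ⊗ (P_z ⊕ 1), e₀ ⊗ (0, a))`.
-/

set_option autoImplicit false
set_option linter.unusedSectionVars false

open Topology Filter Set Matrix

namespace Crest.Agent.R090.I0core275

open OnePoint hiding some
open Crest.Agent.R090.Sp962
open scoped unitInterval ComplexOrder Kronecker

theorem Th.of_congr {ι : Type*} [Fintype ι] [DecidableEq ι] {k : ℕ} {P P' : Matrix ι ι ℂ}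
    {v v' : ι → ℂ} {a : IsPr k P} {b : P *ᵥ v = v} {a' : IsPr k P'} {b' : P' *ᵥ v' = v'}
    (h1 : P = P') (h2 : v = v') :
    ((Th.of P v a b : Th k ι) : OnePoint (Th k ι)) = (Th.of P' v' a' b' : Th k ι) := by
  subst h1; subst h2; rfl

/-- chart collapse `ℂP^M → (ℂ^M)⁺` -/
noncomputable def pinchL {m : Type*} (L : Matrix (Option m) (Option m) ℂ) : OnePoint (m → ℂ) :=
  open Classical in
  if L none none = 0 then ∞
  else ((fun i => L (some i) none / L none none : m → ℂ) : OnePoint (m → ℂ))

variable {h q m : Type*} [Fintype h] [DecidableEq h] [Fintype q] [DecidableEq q] [Fintype m]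
  [DecidableEq m]

/-- the big index type -/
abbrev Big (h q m : Type*) : Type _ := (Option m × (h ⊕ m)) ⊕ (Option m × (q ⊕ h))

/-- the data: an isomorphism `P ⊕ 1_m ≃ Q ⊕ 1_h` over `Z`, a family of lines over `B` -/
structure CoreData (Z B : Type*) [TopologicalSpace Z] [TopologicalSpace B]
    (N r : ℕ) (h q m : Type*) [Fintype h] [DecidableEq h] [Fintype q] [DecidableEq q]
    [Fintype m] [DecidableEq m] where
  P : Z → Matrix h h ℂ
  hPc : Continuous P
  hP : ∀ z, IsPr N (P z)
  Q : Z → Matrix q q ℂ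
  hQc : Continuous Q
  hQ : ∀ z, IsPr r (Q z)
  X : Z → Matrix (q ⊕ h) (h ⊕ m) ℂ
  hXc : Continuous X
  Y : Z → Matrix (h ⊕ m) (q ⊕ h) ℂ
  iso : ∀ z, IsIso (fromBlocks (P z) 0 0 (1 : Matrix m m ℂ)) (fromBlocks (Q z) 0 0 (1 : Matrix h h ℂ))
    (X z) (Y z)
  e : Option m ↪ h
  L : B → Matrix (Option m) (Option m) ℂ
  hLc : Continuous L
  hL : ∀ b, IsPr 1 (L b)
  rank_one : ∀ b α β, L b α β * L b none none = L b α none * L b none β

namespace CoreData

variable {Z B : Type*} [TopologicalSpace Z] [TopologicalSpace B] {N r : ℕ}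
  (C : CoreData Z B N r h q m)

/-- the twisted projection `L̄ ⊗ (P ⊕ 1)` -/
def PA (p : Z × B) : Matrix (Option m × (h ⊕ m)) (Option m × (h ⊕ m)) ℂ :=
  (C.L p.2)ᵀ ⊗ₖ fromBlocks (C.P p.1) 0 0 (1 : Matrix m m ℂ)

/-- the twisted projection `L̄ ⊗ (Q ⊕ 1)` -/
def PB (p : Z × B) : Matrix (Option m × (q ⊕ h)) (Option m × (q ⊕ h)) ℂ :=
  (C.L p.2)ᵀ ⊗ₖ fromBlocks (C.Q p.1) 0 0 (1 : Matrix h h ℂ)

theorem isPr_PA (p : Z × B) : IsPr (N + Fintype.card m) (C.PA p) :=
  ((C.hL p.2).transpose.kronecker ((C.hP p.1).fromBlocks (IsPr.one m))).cast (one_mul _)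

theorem iso_AB (p : Z × B) : IsIso (C.PA p) (C.PB p) ((C.L p.2)ᵀ ⊗ₖ C.X p.1)
    ((C.L p.2)ᵀ ⊗ₖ C.Y p.1) :=
  (C.iso p.1).kronecker (C.hL p.2).transpose.idem

theorem herm_PB (p : Z × B) : (C.PB p)ᴴ = C.PB p :=
  ((C.hL p.2).transpose.kronecker ((C.hQ p.1).fromBlocks (IsPr.one h))).herm

theorem continuous_LT : Continuous fun p : Z × B => (C.L p.2)ᵀ :=
  (C.hLc.comp continuous_snd).matrix_transpose

theorem _root_.Continuous.kron275 {X : Type*} [TopologicalSpace X] {a b c d : Type*}
    {F : X → Matrix a b ℂ} {G : X → Matrix c d ℂ} (hF : Continuous F) (hG : Continuous G) :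
    Continuous fun x => F x ⊗ₖ G x :=
  continuous_matrix fun i j => (hF.matrix_elem i.1 j.1).mul (hG.matrix_elem i.2 j.2)

theorem continuous_PA : Continuous C.PA :=
  C.continuous_LT.kron275 ((C.hPc.comp continuous_fst).matrix_fromBlocks continuous_const
    continuous_const continuous_const)

theorem continuous_PB : Continuous C.PB :=
  C.continuous_LT.kron275 ((C.hQc.comp continuous_fst).matrix_fromBlocks continuous_const
    continuous_const continuous_const)

/-! ### the A side -/

/-- the section of the A side -/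
def sA (p : Z × B) : Big h q m → ℂ :=
  Sum.elim (fun y => rcol h (Matrix.of fun (α : Option m) (i : m) => C.L p.2 (some i) α) y.1 y.2)
    (fun _ => 0)

theorem continuous_sA : Continuous C.sA := by
  refine continuous_pi fun j => ?_
  rcases j with ⟨α, y | i⟩ | j
  · exact continuous_const
  · exact (C.hLc.comp continuous_snd).matrix_elem _ _
  · exact continuous_const

theorem exists_diag_ne (b : B) (hb : C.L b none none = 0) : ∃ i, C.L b (some i) (some i) ≠ 0 := by
  by_contra hcon
  push Not at hcon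
  have h1 := (C.hL b).tr
  rw [Matrix.trace, Fintype.sum_option] at h1
  simp only [diag_apply, hb, hcon, Finset.sum_const_zero, add_zero, Nat.cast_one] at h1
  exact zero_ne_one h1

theorem diag_real (b : B) (α : Option m) : (((C.L b α α).re : ℝ) : ℂ) = C.L b α α := by
  rw [← (C.hL b).sum_sq α, Complex.ofReal_re]

theorem diag_nonneg (b : B) (α : Option m) : 0 ≤ (C.L b α α).re := by
  rw [← (C.hL b).sum_sq α, Complex.ofReal_re]
  exact Finset.sum_nonneg fun _ _ => by positivity

theorem sum_mu (μ : Unit → ℂ) (f : Big h q m → ℂ) :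
    (fun j => μ () * f j) = μ () • f := rfl

theorem PA_sA (p : Z × B) : fromBlocks (C.PA p) 0 0 0 *ᵥ C.sA p = C.sA p := by
  have h1 : C.sA p = Sum.elim
      (fun y => rcol h (Matrix.of fun (α : Option m) (i : m) => C.L p.2 (some i) α) y.1 y.2)
      (0 : Option m × (q ⊕ h) → ℂ) := rfl
  rw [h1, fromBlocks_mulVec_inl, PA, twist_mulVec]
  ext α i
  rw [Matrix.mul_apply]
  have h2 := congrFun (congrFun (C.hL p.2).idem (some i)) α
  rw [Matrix.mul_apply] at h2
  simp only [transpose_apply, of_apply]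
  rw [← h2]
  exact Finset.sum_congr rfl fun x _ => mul_comm _ _

/-- amplitude data of the A side -/
noncomputable def ampA : AmpData (Z × B) Unit (N + Fintype.card m) (Big h q m) where
  Pi p := fromBlocks (C.PA p) 0 0 0
  hPi := C.continuous_PA.matrix_fromBlocks continuous_const continuous_const continuous_const
  isPr p := (C.isPr_PA p).inl _
  blk _ := ()
  s := C.sA
  hs := C.continuous_sA
  c _ p := (C.L p.2 none none).re
  hc _ := Complex.continuous_re.comp ((C.hLc.comp continuous_snd).matrix_elem _ _)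
  c_nonneg _ p := C.diag_nonneg _ _
  inv p μ := by
    rw [sum_mu, mulVec_smul, C.PA_sA]
  nz p _ hp := by
    have h1 : C.L p.2 none none = 0 := by
      rw [← C.diag_real, hp, Complex.ofReal_zero]
    obtain ⟨i, hi⟩ := C.exists_diag_ne p.2 h1
    exact ⟨Sum.inl (some i, Sum.inr i), rfl, hi⟩

/-! ### the B side -/

/-- the matrix of the nowhere zero section -/
noncomputable def WB (b : B) : Matrix (Option m) h ℂ :=
  Matrix.of fun α j => ∑ β, if C.e β = j then C.L b β α else 0

theorem WB_e (b : B) (α β : Option m) : C.WB b α (C.e β) = C.L b β α := by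
  rw [WB, of_apply, Finset.sum_eq_single β]
  · simp
  · intro γ _ hγ
    rw [if_neg]
    exact fun hh => hγ (C.e.injective hh)
  · intro hh; exact absurd (Finset.mem_univ _) hh

/-- the section of the B side -/
noncomputable def sB (p : Z × B) : Big h q m → ℂ :=
  Sum.elim (fun _ => 0) (fun y => rcol q (C.WB p.2) y.1 y.2)

theorem continuous_sB : Continuous C.sB := by
  refine continuous_pi fun j => ?_
  rcases j with j | ⟨α, y | i⟩
  · exact continuous_const
  · exact continuous_const
  · change Continuous fun p : Z × B => ∑ β, if C.e β = i then C.L p.2 β α else 0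
    refine continuous_finsetSum _ fun β _ => ?_
    split_ifs
    · exact (C.hLc.comp continuous_snd).matrix_elem _ _
    · exact continuous_const

theorem PB_sB (p : Z × B) : fromBlocks 0 0 0 (C.PB p) *ᵥ C.sB p = C.sB p := by
  have h1 : C.sB p = Sum.elim (0 : Option m × (h ⊕ m) → ℂ)
      (fun y => rcol q (C.WB p.2) y.1 y.2) := rfl
  rw [h1, fromBlocks_mulVec_inr, PB, twist_mulVec]
  ext α i
  rw [Matrix.mul_apply]
  simp only [transpose_apply, WB, of_apply, Finset.mul_sum]
  rw [Finset.sum_comm]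
  refine Finset.sum_congr rfl fun β _ => ?_
  split_ifs
  · have h2 := congrFun (congrFun (C.hL p.2).idem β) α
    rw [Matrix.mul_apply] at h2
    rw [← h2]
    exact Finset.sum_congr rfl fun x _ => mul_comm _ _
  · simp

theorem exists_diag_ne' (b : B) : ∃ β, C.L b β β ≠ 0 := by
  by_contra hcon
  push Not at hcon
  have h1 := (C.hL b).tr
  rw [Matrix.trace] at h1
  simp only [diag_apply, hcon, Finset.sum_const_zero, Nat.cast_one] at h1
  exact zero_ne_one h1

/-- amplitude data of the B side -/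
noncomputable def ampB : AmpData (Z × B) Unit (N + Fintype.card m) (Big h q m) where
  Pi p := fromBlocks 0 0 0 (C.PB p)
  hPi := (continuous_const (y := (0 : Matrix _ _ ℂ))).matrix_fromBlocks continuous_const
    continuous_const C.continuous_PB
  isPr p := by
    have h1 := isPr_pathP (C.isPr_PA p) (C.iso_AB p) 1
    rwa [pathP_one (C.isPr_PA p) (C.herm_PB p) (C.iso_AB p)] at h1
  blk _ := ()
  s := C.sB
  hs := C.continuous_sB
  c _ _ := 0
  hc _ := continuous_const
  c_nonneg _ _ := le_rfl
  inv p μ := by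
    rw [sum_mu, mulVec_smul, C.PB_sB]
  nz p _ _ := by
    obtain ⟨β, hβ⟩ := C.exists_diag_ne' p.2
    refine ⟨Sum.inr (β, Sum.inr (C.e β)), rfl, ?_⟩
    change C.WB p.2 β (C.e β) ≠ 0
    rwa [C.WB_e]

/-! ### the chain of homotopies -/

variable [CompactSpace Z] [CompactSpace B]

/-- the end point of the A side -/
noncomputable def f0 : PMap (Z × B) (Th (N + Fintype.card m) (Big h q m)) :=
  ofCompact C.ampA.fin C.ampA.continuous_fin

theorem zeroA_cont : Continuous fun p : Z × B =>
    (Th.of (C.ampA.Pi p) 0 (C.ampA.isPr p) (by simp) : Th (N + Fintype.card m) (Big h q m)) :=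
  continuous_th C.ampA.hPi continuous_const

theorem zeroB_cont : Continuous fun p : Z × B =>
    (Th.of (C.ampB.Pi p) 0 (C.ampB.isPr p) (by simp) : Th (N + Fintype.card m) (Big h q m)) :=
  continuous_th C.ampB.hPi continuous_const

/-- zero section of the A side -/
noncomputable def f2 : PMap (Z × B) (Th (N + Fintype.card m) (Big h q m)) :=
  ofCompact (fun p => ((Th.of (C.ampA.Pi p) 0 (C.ampA.isPr p) (by simp) :
    Th (N + Fintype.card m) (Big h q m)) : OnePoint _)) (continuous_coe.comp C.zeroA_cont)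

/-- zero section of the B side -/
noncomputable def f3 : PMap (Z × B) (Th (N + Fintype.card m) (Big h q m)) :=
  ofCompact (fun p => ((Th.of (C.ampB.Pi p) 0 (C.ampB.isPr p) (by simp) :
    Th (N + Fintype.card m) (Big h q m)) : OnePoint _)) (continuous_coe.comp C.zeroB_cont)

theorem f20 : C.f2.Homotopic C.f0 := C.ampA.homotopic (fun _ => rfl) (fun _ => rfl)

theorem f3null : C.f3.Null := by
  refine C.ampB.homotopic (fun _ => rfl) (fun x => ?_)
  rw [AmpData.fin, if_pos ⟨(), rfl⟩]
  rfl

theorem f23 : C.f2.Homotopic C.f3 := by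
  refine homotopic_of_compact (fun p : I × (Z × B) =>
    ((Th.of (pathP (C.PA p.2) ((C.L p.2.2)ᵀ ⊗ₖ C.X p.2.1) p.1) 0
      (isPr_pathP (C.isPr_PA p.2) (C.iso_AB p.2) p.1) (by simp) :
      Th (N + Fintype.card m) (Big h q m)) : OnePoint _)) ?_ ?_ ?_
  · refine continuous_coe.comp (continuous_th ?_ continuous_const)
    refine continuous_pathP (P := fun p : I × (Z × B) => C.PA p.2)
      (P' := fun p : I × (Z × B) => C.PB p.2)
      (X := fun p : I × (Z × B) => (C.L p.2.2)ᵀ ⊗ₖ C.X p.2.1)
      (Y := fun p : I × (Z × B) => (C.L p.2.2)ᵀ ⊗ₖ C.Y p.2.1)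
      (s := fun p : I × (Z × B) => (p.1 : ℝ)) (C.continuous_PA.comp continuous_snd) ?_
      (continuous_subtype_val.comp continuous_fst) (fun p => C.isPr_PA p.2) (fun p => C.iso_AB p.2)
    exact (C.continuous_LT.comp continuous_snd).kron275
      (C.hXc.comp (continuous_fst.comp continuous_snd))
  · intro x
    exact Th.of_congr (pathP_zero (C.isPr_PA x)) rfl
  · intro x
    exact Th.of_congr (pathP_one (C.isPr_PA x) (C.herm_PB x) (C.iso_AB x)) rfl

theorem f0null : C.f0.Null := (C.f20.symm.trans C.f23).trans C.f3null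

end CoreData

end Crest.Agent.R090.I0core275
end

-- ▼ part R090/I0f_275
section

/-!
# Row 90, I0-CORE (owner helper275): the Euler class homotopy, short form (417's short cut)

`Z`, `B` compact, `R : Z → ` projections of `ℂ^h` of rank `N`, `Φ z : ℂ^h → ℂ^m` injective on
`ker (R z)`, `card m < card h`; `L` a continuous family of lines of `ℂ^{1+m}` over `B`.
Then `g ∘ (1_Z × pinch)` is null homotopic, where `g (z, a) = (e₀ ⊗ (R_z ⊕ 1), e₀ ⊗ (0, a))`.
-/

set_option autoImplicit false
set_option linter.unusedSectionVars false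

open Topology Filter Set Matrix

namespace Crest.Agent.R090.I0core275

open OnePoint hiding some
open Crest.Agent.R090.Sp962
open scoped unitInterval ComplexOrder Kronecker

variable {h m : Type*} [Fintype h] [DecidableEq h] [Fintype m] [DecidableEq m]

/-- the twisted index type -/
abbrev Tw (h m : Type*) : Type _ := Option m × (h ⊕ m)

/-- the data -/
structure EData (Z B : Type*) [TopologicalSpace Z] [TopologicalSpace B]
    (N : ℕ) (h m : Type*) [Fintype h] [DecidableEq h] [Fintype m] [DecidableEq m] where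
  R : Z → Matrix h h ℂ
  hRc : Continuous R
  hR : ∀ z, IsPr N (R z)
  Φ : Z → Matrix m h ℂ
  hΦc : Continuous Φ
  inj : ∀ z (v : h → ℂ), R z *ᵥ v = 0 → Φ z *ᵥ v = 0 → v = 0
  e : Option m ↪ h
  L : B → Matrix (Option m) (Option m) ℂ
  hLc : Continuous L
  hL : ∀ b, IsPr 1 (L b)
  rank_one : ∀ b α β, L b α β * L b none none = L b α none * L b none β

namespace EData

variable {Z B : Type*} [TopologicalSpace Z] [TopologicalSpace B] {N : ℕ}
  (C : EData Z B N h m)

/-- the twisted projection `L̄ ⊗ (R ⊕ 1)` -/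
def PA (p : Z × B) : Matrix (Tw h m) (Tw h m) ℂ :=
  (C.L p.2)ᵀ ⊗ₖ fromBlocks (C.R p.1) 0 0 (1 : Matrix m m ℂ)

theorem isPr_PA (p : Z × B) : IsPr (N + Fintype.card m) (C.PA p) :=
  ((C.hL p.2).transpose.kronecker ((C.hR p.1).fromBlocks (IsPr.one m))).cast (one_mul _)

theorem continuous_PA : Continuous C.PA :=
  (C.hLc.comp continuous_snd).matrix_transpose.kron275
    ((C.hRc.comp continuous_fst).matrix_fromBlocks continuous_const continuous_const
      continuous_const)

/-! ### the A side -/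

/-- the section of the A side -/
def sA (p : Z × B) : Tw h m → ℂ :=
  fun y => rcol h (Matrix.of fun (α : Option m) (i : m) => C.L p.2 (some i) α) y.1 y.2

theorem continuous_sA : Continuous C.sA := by
  refine continuous_pi fun j => ?_
  rcases j with ⟨α, y | i⟩
  · exact continuous_const
  · exact (C.hLc.comp continuous_snd).matrix_elem _ _

theorem exists_diag_ne (b : B) (hb : C.L b none none = 0) : ∃ i, C.L b (some i) (some i) ≠ 0 := by
  by_contra hcon
  push Not at hcon
  have h1 := (C.hL b).tr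
  rw [Matrix.trace, Fintype.sum_option] at h1
  simp only [diag_apply, hb, hcon, Finset.sum_const_zero, add_zero, Nat.cast_one] at h1
  exact zero_ne_one h1

theorem diag_real (b : B) (α : Option m) : (((C.L b α α).re : ℝ) : ℂ) = C.L b α α := by
  rw [← (C.hL b).sum_sq α, Complex.ofReal_re]

theorem diag_nonneg (b : B) (α : Option m) : 0 ≤ (C.L b α α).re := by
  rw [← (C.hL b).sum_sq α, Complex.ofReal_re]
  exact Finset.sum_nonneg fun _ _ => by positivity

theorem PA_sA (p : Z × B) : C.PA p *ᵥ C.sA p = C.sA p := by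
  have h1 : C.sA p =
      fun y => rcol h (Matrix.of fun (α : Option m) (i : m) => C.L p.2 (some i) α) y.1 y.2 := rfl
  rw [h1, PA, twist_mulVec]
  ext α i
  rw [Matrix.mul_apply]
  have h2 := congrFun (congrFun (C.hL p.2).idem (some i)) α
  rw [Matrix.mul_apply] at h2
  simp only [transpose_apply, of_apply]
  rw [← h2]
  exact Finset.sum_congr rfl fun x _ => mul_comm _ _

/-- amplitude data of the A side -/
noncomputable def ampA : AmpData (Z × B) Unit (N + Fintype.card m) (Tw h m) where
  Pi := C.PA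
  hPi := C.continuous_PA
  isPr := C.isPr_PA
  blk _ := ()
  s := C.sA
  hs := C.continuous_sA
  c _ p := (C.L p.2 none none).re
  hc _ := Complex.continuous_re.comp ((C.hLc.comp continuous_snd).matrix_elem _ _)
  c_nonneg _ p := C.diag_nonneg _ _
  inv p μ := by
    change C.PA p *ᵥ (μ () • C.sA p) = μ () • C.sA p
    rw [mulVec_smul, C.PA_sA]
  nz p _ hp := by
    have h1 : C.L p.2 none none = 0 := by
      rw [← C.diag_real, hp, Complex.ofReal_zero]
    obtain ⟨i, hi⟩ := C.exists_diag_ne p.2 h1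
    exact ⟨(some i, Sum.inr i), rfl, hi⟩

/-! ### the B side -/

/-- the injective map `ℂ^{1+m} → im R ⊕ ℂ^m` -/
def AZ (z : Z) : Matrix (h ⊕ m) (Option m) ℂ :=
  fromRows ((C.R z).submatrix id C.e) ((C.Φ z * (1 - C.R z)).submatrix id C.e)

theorem continuous_AZ : Continuous C.AZ := by
  refine continuous_matrix fun i j => ?_
  rcases i with i | i
  · exact C.hRc.matrix_elem _ _
  · exact (C.hΦc.matrix_mul (continuous_const.sub C.hRc)).matrix_elem _ _

theorem RAZ (z : Z) : fromBlocks (C.R z) 0 0 (1 : Matrix m m ℂ) * C.AZ z = C.AZ z := by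
  rw [AZ, fromBlocks_mul_fromRows, Matrix.zero_mul, Matrix.zero_mul, zero_add, add_zero,
    Matrix.one_mul]
  congr 1
  ext i j
  have := congrFun (congrFun (C.hR z).idem i) (C.e j)
  rw [Matrix.mul_apply] at this ⊢
  exact this

/-- extension by zero along `e` -/
def ext (x : Option m → ℂ) : h → ℂ := fun j => ∑ β, if C.e β = j then x β else 0

theorem ext_e (x : Option m → ℂ) (β : Option m) : C.ext x (C.e β) = x β := by
  rw [ext, Finset.sum_eq_single β]
  · simp
  · intro γ _ hγ
    rw [if_neg]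
    exact fun hh => hγ (C.e.injective hh)
  · intro hh; exact absurd (Finset.mem_univ _) hh

theorem submatrix_mulVec {a : Type*} (M : Matrix a h ℂ) (x : Option m → ℂ) :
    (M.submatrix id C.e) *ᵥ x = M *ᵥ C.ext x := by
  funext i
  simp only [mulVec, dotProduct, submatrix_apply, id, ext, Finset.mul_sum]
  rw [Finset.sum_comm]
  refine Finset.sum_congr rfl fun β _ => ?_
  rw [Finset.sum_eq_single (C.e β)]
  · simp
  · intro j _ hj
    rw [if_neg (fun hh => hj hh.symm), mul_zero]
  · intro hh; exact absurd (Finset.mem_univ _) hh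

theorem AZ_inj (z : Z) (x : Option m → ℂ) (hx : C.AZ z *ᵥ x = 0) : x = 0 := by
  rw [AZ, fromRows_mulVec, C.submatrix_mulVec, C.submatrix_mulVec] at hx
  have h1 : C.R z *ᵥ C.ext x = 0 := funext fun i => congrFun hx (Sum.inl i)
  have h2 : (C.Φ z * (1 - C.R z)) *ᵥ C.ext x = 0 := funext fun i => congrFun hx (Sum.inr i)
  have h3 : C.Φ z *ᵥ C.ext x = 0 := by
    rw [← mulVec_mulVec, sub_mulVec, one_mulVec, h1, sub_zero] at h2
    exact h2
  have h4 := C.inj z _ h1 h3
  funext β
  rw [← C.ext_e x β, h4]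
  rfl

/-- the section of the B side -/
noncomputable def sB (p : Z × B) : Tw h m → ℂ :=
  fun y => (C.AZ p.1 * C.L p.2)ᵀ y.1 y.2

theorem continuous_sB : Continuous C.sB := by
  refine continuous_pi fun j => ?_
  exact ((C.continuous_AZ.comp continuous_fst).matrix_mul
    (C.hLc.comp continuous_snd)).matrix_elem _ _

theorem PA_sB (p : Z × B) : C.PA p *ᵥ C.sB p = C.sB p := by
  have h1 : C.sB p = fun y => (C.AZ p.1 * C.L p.2)ᵀ y.1 y.2 := rfl
  rw [h1, PA, kron_mulVec]
  have : (C.L p.2)ᵀ * (C.AZ p.1 * C.L p.2)ᵀ *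
      (fromBlocks (C.R p.1) 0 0 (1 : Matrix m m ℂ))ᵀ = (C.AZ p.1 * C.L p.2)ᵀ := by
    rw [← transpose_mul, ← transpose_mul, Matrix.mul_assoc, (C.hL p.2).idem,
      ← Matrix.mul_assoc, C.RAZ]
  rw [this]

theorem exists_sB_ne (p : Z × B) : ∃ j, C.sB p j ≠ 0 := by
  by_contra hcon
  push Not at hcon
  have h1 : C.AZ p.1 * C.L p.2 = 0 := by
    ext i j
    exact hcon (j, i)
  have h2 : C.L p.2 = 0 := by
    ext α β
    have h3 : C.AZ p.1 *ᵥ (fun γ => C.L p.2 γ β) = 0 := by
      funext i
      exact congrFun (congrFun h1 i) β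
    exact congrFun (C.AZ_inj p.1 _ h3) α
  have h4 := (C.hL p.2).tr
  rw [h2] at h4
  simp at h4

/-- amplitude data of the B side -/
noncomputable def ampB : AmpData (Z × B) Unit (N + Fintype.card m) (Tw h m) where
  Pi := C.PA
  hPi := C.continuous_PA
  isPr := C.isPr_PA
  blk _ := ()
  s := C.sB
  hs := C.continuous_sB
  c _ _ := 0
  hc _ := continuous_const
  c_nonneg _ _ := le_rfl
  inv p μ := by
    change C.PA p *ᵥ (μ () • C.sB p) = μ () • C.sB p
    rw [mulVec_smul, C.PA_sB]
  nz p _ _ := by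
    obtain ⟨j, hj⟩ := C.exists_sB_ne p
    exact ⟨j, rfl, hj⟩

variable [CompactSpace Z] [CompactSpace B]

/-- the end point of the A side -/
noncomputable def f0 : PMap (Z × B) (Th (N + Fintype.card m) (Tw h m)) :=
  ofCompact C.ampA.fin C.ampA.continuous_fin

theorem zero_cont : Continuous fun p : Z × B =>
    (Th.of (C.PA p) 0 (C.isPr_PA p) (by simp) : Th (N + Fintype.card m) (Tw h m)) :=
  continuous_th C.continuous_PA continuous_const

/-- zero section -/
noncomputable def f2 : PMap (Z × B) (Th (N + Fintype.card m) (Tw h m)) :=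
  ofCompact (fun p => ((Th.of (C.PA p) 0 (C.isPr_PA p) (by simp) :
    Th (N + Fintype.card m) (Tw h m)) : OnePoint _)) (continuous_coe.comp C.zero_cont)

theorem f20 : C.f2.Homotopic C.f0 := C.ampA.homotopic (fun _ => rfl) (fun _ => rfl)

theorem f2null : C.f2.Null := by
  refine C.ampB.homotopic (fun _ => rfl) (fun x => ?_)
  rw [AmpData.fin, if_pos ⟨(), rfl⟩]
  rfl

theorem f0null : C.f0.Null := C.f20.symm.trans C.f2null

end EData

/-! ### the maps `g_t` -/

section gt

/-- the vector `w = (1, t ā)` -/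
noncomputable def wv (t : ℝ) (a : m → ℂ) : Option m → ℂ
  | none => 1
  | some i => (t : ℂ) * star (a i)

/-- its square norm -/
noncomputable def wn (t : ℝ) (a : m → ℂ) : ℝ := ∑ α, ‖wv t a α‖ ^ 2

theorem wn_pos (t : ℝ) (a : m → ℂ) : 0 < wn t a := by
  have h1 : ‖wv t a none‖ ^ 2 ≤ wn t a :=
    Finset.single_le_sum (f := fun α => ‖wv t a α‖ ^ 2) (fun _ _ => by positivity)
      (Finset.mem_univ none)
  have h2 : ‖wv t a none‖ ^ 2 = 1 := by simp [wv]
  linarith

theorem star_dot (t : ℝ) (a : m → ℂ) : star (wv t a) ⬝ᵥ wv t a = (wn t a : ℂ) := by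
  rw [dotProduct, wn]
  push_cast
  refine Finset.sum_congr rfl fun α _ => ?_
  rw [Pi.star_apply, Complex.star_def, mul_comm, Complex.mul_conj, Complex.normSq_eq_norm_sq]
  push_cast
  rfl

/-- the line spanned by `w` -/
noncomputable def wl (t : ℝ) (a : m → ℂ) : Matrix (Option m) (Option m) ℂ :=
  ((wn t a)⁻¹ : ℂ) • vecMulVec (wv t a) (star (wv t a))

theorem wl_mulVec (t : ℝ) (a : m → ℂ) : wl t a *ᵥ wv t a = wv t a := by
  have h := (wn_pos t a).ne'
  rw [wl, smul_mulVec, vecMulVec_mulVec, star_dot, op_smul_eq_smul, smul_smul,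
    inv_mul_cancel₀ (by exact_mod_cast h), one_smul]

theorem isPr_wl (t : ℝ) (a : m → ℂ) : IsPr 1 (wl t a) := by
  have h := (wn_pos t a).ne'
  have h' : (wn t a : ℂ) ≠ 0 := by exact_mod_cast h
  refine ⟨?_, ?_, ?_⟩
  · rw [wl, conjTranspose_smul, conjTranspose_vecMulVec, star_star]
    congr 1
    rw [star_inv₀, Complex.star_def, Complex.conj_ofReal]
  · rw [wl, Matrix.smul_mul, Matrix.mul_smul, vecMulVec_mul_vecMulVec, star_dot]
    ext i j
    simp only [Matrix.smul_apply, smul_eq_mul, vecMulVec_apply, Pi.smul_apply, Pi.star_apply]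
    field_simp
  · rw [wl, trace_smul, trace_vecMulVec, dotProduct_comm, star_dot, smul_eq_mul,
      inv_mul_cancel₀ h', Nat.cast_one]

theorem continuous_wv : Continuous fun p : ℝ × (m → ℂ) => wv p.1 p.2 := by
  refine continuous_pi fun α => ?_
  rcases α with _ | i
  · exact continuous_const
  · exact (Complex.continuous_ofReal.comp continuous_fst).mul
      (continuous_star.comp ((continuous_apply i).comp continuous_snd))

theorem continuous_wl : Continuous fun p : ℝ × (m → ℂ) => wl p.1 p.2 := by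
  have hn : Continuous fun p : ℝ × (m → ℂ) => wn p.1 p.2 :=
    continuous_finsetSum _ fun α _ =>
      (continuous_norm.comp ((continuous_apply α).comp continuous_wv)).pow 2
  refine continuous_matrix fun i j => ?_
  have h1 : Continuous fun p : ℝ × (m → ℂ) => ((wn p.1 p.2 : ℝ) : ℂ)⁻¹ := by
    refine Continuous.inv₀ (Complex.continuous_ofReal.comp hn) fun p => ?_
    exact_mod_cast (wn_pos p.1 p.2).ne'
  exact h1.mul (((continuous_apply i).comp continuous_wv).mul
      (continuous_star.comp ((continuous_apply j).comp continuous_wv)))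

/-- the vector part of `g_t` -/
noncomputable def gvec (h : Type*) (t : ℝ) (a : m → ℂ) : Tw h m → ℂ :=
  fun y => rcol h (vecMulVec (wv t a) a) y.1 y.2

/-- the plane of `g_t` -/
noncomputable def gpl (t : ℝ) (R : Matrix h h ℂ) (a : m → ℂ) : Matrix (Tw h m) (Tw h m) ℂ :=
  wl t a ⊗ₖ fromBlocks R 0 0 (1 : Matrix m m ℂ)

theorem isPr_gpl {N : ℕ} (t : ℝ) {R : Matrix h h ℂ} (hR : IsPr N R) (a : m → ℂ) :
    IsPr (N + Fintype.card m) (gpl t R a) :=
  ((isPr_wl t a).kronecker (hR.fromBlocks (IsPr.one m))).cast (one_mul _)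

theorem gpl_gvec (t : ℝ) (R : Matrix h h ℂ) (a : m → ℂ) :
    gpl t R a *ᵥ gvec h t a = gvec h t a := by
  have h1 : gvec h t a = fun y => rcol h (vecMulVec (wv t a) a) y.1 y.2 := rfl
  rw [h1, gpl, twist_mulVec]
  rw [mul_vecMulVec, wl_mulVec]

/-- the point of `g_t` -/
noncomputable def gpt {N : ℕ} (t : ℝ) (R : {R : Matrix h h ℂ // IsPr N R}) (a : m → ℂ) :
    Th (N + Fintype.card m) (Tw h m) :=
  Th.of (gpl t R.1 a) (gvec h t a) (isPr_gpl t R.2 a) (gpl_gvec t R.1 a)

theorem continuous_gpt {X : Type*} [TopologicalSpace X] {N : ℕ} {t : X → ℝ} {R : X → Matrix h h ℂ}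
    {hR : ∀ x, IsPr N (R x)} {a : X → m → ℂ} (ht : Continuous t) (hRc : Continuous R)
    (ha : Continuous a) : Continuous fun x => gpt (t x) ⟨R x, hR x⟩ (a x) := by
  have hta : Continuous fun x => (t x, a x) := ht.prodMk ha
  refine continuous_th ?_ ?_
  · exact (continuous_wl.comp hta).kron275
      (hRc.matrix_fromBlocks continuous_const continuous_const continuous_const)
  · refine continuous_pi fun j => ?_
    rcases j with ⟨α, y | i⟩
    · exact continuous_const
    · exact ((continuous_apply α).comp (continuous_wv.comp hta)).mul ((continuous_apply i).comp ha)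

theorem norm_gpt {N : ℕ} (t : ℝ) (R : {R : Matrix h h ℂ // IsPr N R}) (a : m → ℂ) :
    ‖a‖ ≤ ‖(gpt t R a).1.2‖ := by
  rw [pi_norm_le_iff_of_nonneg (norm_nonneg _)]
  intro i
  have h1 : ‖gvec h t a (none, Sum.inr i)‖ ≤ ‖(gpt t R a).1.2‖ :=
    norm_le_pi_norm (gvec h t a) _
  have h2 : gvec h t a (none, Sum.inr i) = a i := by
    change vecMulVec (wv t a) a none i = a i
    rw [vecMulVec_apply]
    simp [wv]
  rwa [h2] at h1

theorem tendsto_norm_snd (K : Type*) [TopologicalSpace K] [CompactSpace K] :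
    Tendsto (fun p : K × (m → ℂ) => ‖p.2‖) (coclosedCompact _) atTop := by
  refine tendsto_coclosedCompact_of (continuous_norm.comp continuous_snd) fun R => ?_
  have : {p : K × (m → ℂ) | ‖p.2‖ ≤ R} = univ ×ˢ Metric.closedBall 0 R := by
    ext p; simp
  rw [this]
  exact isCompact_univ.prod (isCompact_closedBall _ _)

theorem tendsto_norm_snd' (K : Type*) [TopologicalSpace K] [CompactSpace K] :
    Tendsto (fun p : I × (K × (m → ℂ)) => ‖p.2.2‖) (coclosedCompact _) atTop := by
  refine tendsto_coclosedCompact_of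
    (continuous_norm.comp (continuous_snd.comp continuous_snd)) fun R => ?_
  have : {p : I × (K × (m → ℂ)) | ‖p.2.2‖ ≤ R} = univ ×ˢ (univ ×ˢ Metric.closedBall 0 R) := by
    ext p; simp
  rw [this]
  exact isCompact_univ.prod (isCompact_univ.prod (isCompact_closedBall _ _))

variable {Z : Type*} [TopologicalSpace Z] [CompactSpace Z] {N : ℕ}

/-- the map `g_t : (Z × ℂ^m)⁺ → Th` -/
noncomputable def gmap (t : ℝ) (R : Z → Matrix h h ℂ) (hRc : Continuous R)
    (hR : ∀ z, IsPr N (R z)) : PMap (Z × (m → ℂ)) (Th (N + Fintype.card m) (Tw h m)) :=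
  ofTh (fun p => gpt t ⟨R p.1, hR p.1⟩ p.2)
    (continuous_gpt continuous_const (hRc.comp continuous_fst) continuous_snd)
    (tendsto_atTop_mono (fun p => norm_gpt t _ p.2) (tendsto_norm_snd Z))

theorem gmap_homotopic (R : Z → Matrix h h ℂ) (hRc : Continuous R)
    (hR : ∀ z, IsPr N (R z)) :
    (gmap (m := m) 0 R hRc hR).Homotopic (gmap (m := m) 1 R hRc hR) :=
  homotopic_of_th (fun p : I × (Z × (m → ℂ)) => gpt (p.1 : ℝ) ⟨R p.2.1, hR p.2.1⟩ p.2.2)
    (continuous_gpt (continuous_subtype_val.comp continuous_fst)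
      (hRc.comp (continuous_fst.comp continuous_snd)) (continuous_snd.comp continuous_snd))
    (tendsto_atTop_mono (fun p => norm_gpt _ _ p.2.2) (tendsto_norm_snd' Z))
    (fun _ => rfl) (fun _ => rfl)

end gt

end Crest.Agent.R090.I0core275
private theorem rz_07f12aa785 : type_of% @_root_.Crest.Agent.R090.I0core275.wv.eq_1 := @_root_.Crest.Agent.R090.I0core275.wv.eq_1 -- L257
end

-- ▼ part R090/I0g_275
section

/-!
# Row 90, I0-CORE (owner helper275): the Euler class homotopy, conclusion

`EData.core`: `gmap 0 ∘ (1_Z × pinch)` is null homotopic.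
-/

set_option autoImplicit false
set_option linter.unusedSectionVars false

open Topology Filter Set Matrix

namespace Crest.Agent.R090.I0core275

open OnePoint hiding some
open Crest.Agent.R090.Sp962
open scoped unitInterval ComplexOrder Kronecker

variable {h m : Type*} [Fintype h] [DecidableEq h] [Fintype m] [DecidableEq m]

namespace EData

variable {Z B : Type*} [TopologicalSpace Z] [TopologicalSpace B] {N : ℕ}
  (C : EData Z B N h m)

section chart

variable (b : B)

/-- the chart coordinate -/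
noncomputable def av : m → ℂ := fun i => C.L b (some i) none / C.L b none none

theorem star_entry (α β : Option m) : star (C.L b α β) = C.L b β α := by
  have := congrFun (congrFun (C.hL b).herm β) α
  rwa [conjTranspose_apply] at this

theorem wv_av (hb : C.L b none none ≠ 0) (α : Option m) :
    wv 1 (C.av b) α = C.L b none α / C.L b none none := by
  rcases α with _ | i
  · rw [div_self hb]; rfl
  · change ((1 : ℝ) : ℂ) * star (C.L b (some i) none / C.L b none none) = _
    rw [Complex.ofReal_one, one_mul, star_div₀, C.star_entry, C.star_entry]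

theorem norm_diag (α : Option m) : ‖C.L b α α‖ = (C.L b α α).re := by
  conv_lhs => rw [← C.diag_real b α]
  rw [Complex.norm_real, Real.norm_eq_abs, abs_of_nonneg (C.diag_nonneg b α)]

theorem wn_av (hb : C.L b none none ≠ 0) :
    ((wn 1 (C.av b) : ℝ) : ℂ)⁻¹ = C.L b none none := by
  have hl : (C.L b none none).re ≠ 0 := by
    intro h0
    apply hb
    rw [← C.diag_real, h0, Complex.ofReal_zero]
  have h1 : wn 1 (C.av b) = (∑ α, ‖C.L b none α‖ ^ 2) / ‖C.L b none none‖ ^ 2 := by
    rw [wn, Finset.sum_div]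
    refine Finset.sum_congr rfl fun α _ => ?_
    rw [C.wv_av b hb, norm_div, div_pow]
  have h2 : (∑ α, ‖C.L b none α‖ ^ 2 : ℝ) = (C.L b none none).re := by
    have := (C.hL b).sum_sq none
    rw [← C.diag_real b none] at this
    exact_mod_cast this
  rw [h1, h2, C.norm_diag]
  conv_rhs => rw [← C.diag_real b none]
  rw [← Complex.ofReal_inv]
  congr 1
  field_simp

theorem wl_av (hb : C.L b none none ≠ 0) : wl 1 (C.av b) = (C.L b)ᵀ := by
  ext α β
  change ((wn 1 (C.av b) : ℝ) : ℂ)⁻¹ * (wv 1 (C.av b) α * star (wv 1 (C.av b) β)) = C.L b β α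
  rw [C.wn_av b hb, C.wv_av b hb, C.wv_av b hb, star_div₀, C.star_entry, C.star_entry]
  have h1 := C.rank_one b β α
  field_simp
  linear_combination -h1

theorem gvec_av (hb : C.L b none none ≠ 0) (z : Z) :
    gvec h 1 (C.av b) = C.ampA.vec 1 (z, b) := by
  funext ⟨α, y⟩
  rcases y with y | i
  · change (0 : ℂ) = ((1 / den 1 (C.L b none none).re : ℝ) : ℂ) * 0
    rw [mul_zero]
  · change wv 1 (C.av b) α * (C.L b (some i) none / C.L b none none) =
      ((1 / den 1 (C.L b none none).re : ℝ) : ℂ) * C.L b (some i) α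
    have h1 := C.rank_one b (some i) α
    have h2 : den 1 (C.L b none none).re = (C.L b none none).re := by simp [den]
    rw [h2, C.wv_av b hb, Complex.ofReal_div, C.diag_real, Complex.ofReal_one]
    field_simp
    linear_combination -h1

end chart

variable [CompactSpace Z] [CompactSpace B] [T2Space Z] [T2Space B]

theorem gmap_comp (p : PMap B (m → ℂ)) (hp : ∀ b : B, p b = pinchL (C.L b)) :
    (gmap (m := m) 1 C.R C.hRc C.hR).comp ((PMap.id Z).smash p) = C.f0 := by
  refine PMap.ext fun x => ?_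
  obtain ⟨z, b⟩ := x
  rw [PMap.comp_apply, PMap.smash_coe, hp, PMap.id_apply]
  change _ = C.ampA.fin (z, b)
  by_cases hb : C.L b none none = 0
  · rw [pinchL, if_pos hb, sm_inf_right, PMap.map_inf, AmpData.fin, if_pos]
    refine ⟨(), ?_⟩
    change (C.L b none none).re = 0
    rw [hb, Complex.zero_re]
  · rw [pinchL, if_neg hb, sm_coe, AmpData.fin, if_neg]
    · refine Th.of_congr (a := isPr_gpl 1 (C.hR z) (C.av b)) (b := gpl_gvec 1 (C.R z) (C.av b))
        (a' := C.ampA.isPr (z, b)) (b' := (C.ampA.pt 1 (z, b)).2.2) ?_ ?_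
      · change wl 1 (C.av b) ⊗ₖ _ = (C.L b)ᵀ ⊗ₖ _
        rw [C.wl_av b hb]
      · exact C.gvec_av b hb z
    · rintro ⟨_, hi⟩
      apply hb
      rw [← C.diag_real]
      have : (C.L b none none).re = 0 := hi
      rw [this, Complex.ofReal_zero]

/-- **the Euler class homotopy** -/
theorem core (p : PMap B (m → ℂ)) (hp : ∀ b : B, p b = pinchL (C.L b)) :
    ((gmap (m := m) 0 C.R C.hRc C.hR).comp ((PMap.id Z).smash p)).Null :=
  ((gmap_homotopic C.R C.hRc C.hR).comp_right _).trans
    ((PMap.Homotopic.of_eq (C.gmap_comp p hp)).trans C.f0null)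

end EData

end Crest.Agent.R090.I0core275
end

-- ▼ part R090/I0Final_417
section

/-!
# Row 90, I0 (owner helper417): binding of all inputs to `Spine.I0Stmt`
-/

set_option autoImplicit false
set_option linter.unusedSectionVars false

open Topology Filter Set Matrix

namespace Crest.Agent.R090.I0Final417

open OnePoint Crest.Agent.R090.Sp962 Crest.Agent.R090.I0core275 Crest.Agent.R090.I0Defs417
  Crest.Agent.R090.Bott513 Crest.Agent.R090.Match513 Crest.Agent.R090.I0Glue417
open scoped unitInterval Kronecker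

/-! ## rank one projections -/

section rankone

variable {ι : Type*} [Fintype ι] [DecidableEq ι]

theorem eq_zero_of_isPr_zero {Q : Matrix ι ι ℂ} (hQ : IsPr 0 Q) : Q = 0 := by
  have h1 : ∑ i, (∑ j, ‖Q i j‖ ^ 2) = (0 : ℝ) := by
    have h2 : ((∑ i, (∑ j, ‖Q i j‖ ^ 2) : ℝ) : ℂ) = 0 := by
      rw [Complex.ofReal_sum]
      rw [Finset.sum_congr rfl fun i _ => hQ.sum_sq i]
      exact hQ.tr.trans (by norm_num)
    exact_mod_cast h2
  ext i j
  have h3 := (Finset.sum_eq_zero_iff_of_nonneg fun i _ =>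
    Finset.sum_nonneg fun j _ => sq_nonneg ‖Q i j‖).1 h1 i (Finset.mem_univ i)
  have h4 := (Finset.sum_eq_zero_iff_of_nonneg fun j _ => sq_nonneg ‖Q i j‖).1 h3 j
    (Finset.mem_univ j)
  simpa using h4

theorem star_entry {k : ℕ} {P : Matrix ι ι ℂ} (hP : IsPr k P) (i j : ι) :
    star (P i j) = P j i := congrFun (congrFun hP.herm j) i

/-- the two by two minors of a rank one projection vanish -/
theorem minor_eq {P : Matrix ι ι ℂ} (hP : IsPr 1 P) (i j c : ι) :
    P i j * P c c = P i c * P c j := by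
  have hs : ∀ i j, ∑ x, P i x * P x j = P i j := fun i j => by
    have := congrFun (congrFun hP.idem i) j
    rwa [Matrix.mul_apply] at this
  by_cases h0 : P c c = 0
  · have h1 := hP.sum_sq c
    rw [h0] at h1
    have h2 : ∑ j, ‖P c j‖ ^ 2 = (0 : ℝ) := by exact_mod_cast h1
    have h3 := (Finset.sum_eq_zero_iff_of_nonneg fun j _ => sq_nonneg ‖P c j‖).1 h2 j
      (Finset.mem_univ j)
    have h4 : P c j = 0 := by simpa using h3
    rw [h0, h4, mul_zero, mul_zero]
  · have hd : star (P c c) = P c c := star_entry hP c c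
    let Q : Matrix ι ι ℂ := P - Matrix.of fun i j => (P c c)⁻¹ * (P i c * P c j)
    have hQ : IsPr 0 Q := by
      refine ⟨?_, ?_, ?_⟩
      · ext i j
        change star (P j i - (P c c)⁻¹ * (P j c * P c i)) = P i j - (P c c)⁻¹ * (P i c * P c j)
        rw [star_sub, star_mul', star_mul', star_inv₀, hd, star_entry hP, star_entry hP,
          star_entry hP]
        ring
      · ext i j
        rw [Matrix.mul_apply]
        change ∑ x, (P i x - (P c c)⁻¹ * (P i c * P c x)) * (P x j - (P c c)⁻¹ * (P x c * P c j)) =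
          P i j - (P c c)⁻¹ * (P i c * P c j)
        have h1 : ∀ x, (P i x - (P c c)⁻¹ * (P i c * P c x)) *
            (P x j - (P c c)⁻¹ * (P x c * P c j)) =
            P i x * P x j - ((P c c)⁻¹ * P c j) * (P i x * P x c)
              - ((P c c)⁻¹ * P i c) * (P c x * P x j)
              + ((P c c)⁻¹ * P i c * ((P c c)⁻¹ * P c j)) * (P c x * P x c) := fun x => by ring
        rw [Finset.sum_congr rfl fun x _ => h1 x, Finset.sum_add_distrib, Finset.sum_sub_distrib,
          Finset.sum_sub_distrib, ← Finset.mul_sum, ← Finset.mul_sum, ← Finset.mul_sum, hs, hs, hs,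
          hs]
        field_simp
        ring
      · rw [Matrix.trace]
        change ∑ x, (P x x - (P c c)⁻¹ * (P x c * P c x)) = _
        rw [Finset.sum_sub_distrib, ← Finset.mul_sum]
        have h1 : ∑ x, P x c * P c x = P c c := by
          rw [← hs c c]; exact Finset.sum_congr rfl fun x _ => mul_comm _ _
        have h2 : ∑ x, P x x = 1 := by
          have := hP.tr
          rw [Matrix.trace] at this
          simpa using this
        rw [h1, h2, inv_mul_cancel₀ h0]
        norm_num
    have h1 := congrFun (congrFun (eq_zero_of_isPr_zero hQ) i) j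
    change P i j - (P c c)⁻¹ * (P i c * P c j) = 0 at h1
    rw [sub_eq_zero] at h1
    rw [h1]
    field_simp

end rankone

/-! ## the twisting map `E` -/

section twist

variable {h m : Type} [Fintype h] [DecidableEq h] [Fintype m] [DecidableEq m]

/-- the coordinate line `e_none` -/
noncomputable def Dn (m : Type) [Fintype m] [DecidableEq m] : Matrix (Option m) (Option m) ℂ :=
  Matrix.diagonal fun x => if x = none then 1 else 0

theorem isPr_Dn : IsPr 1 (Dn m) := by
  refine ⟨?_, ?_, ?_⟩
  · rw [Dn, Matrix.diagonal_conjTranspose]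
    congr 1
    funext k
    by_cases h : k = none
    · simp only [Pi.star_apply, if_pos h, star_one]
    · simp only [Pi.star_apply, if_neg h, star_zero]
  · rw [Dn, Matrix.diagonal_mul_diagonal]
    congr 1
    funext k
    by_cases h : k = none
    · simp only [if_pos h, mul_one]
    · simp only [if_neg h, mul_zero]
  · rw [Dn, Matrix.trace_diagonal, Fintype.sum_option]
    simp

/-- the twisted vector -/
noncomputable def tv (v : h → ℂ) (a : m → ℂ) : Tw h m → ℂ :=
  fun y => if y.1 = none then Sum.elim v a y.2 else 0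

/-- the twisted plane -/
noncomputable def tp (P : Matrix h h ℂ) : Matrix (Tw h m) (Tw h m) ℂ :=
  Dn m ⊗ₖ fromBlocks P 0 0 (1 : Matrix m m ℂ)

theorem isPr_tp {N : ℕ} {P : Matrix h h ℂ} (hP : IsPr N P) :
    IsPr (N + Fintype.card m) (tp (m := m) P) :=
  (isPr_Dn.kronecker (hP.fromBlocks (IsPr.one m))).cast (one_mul _)

theorem tp_tv {P : Matrix h h ℂ} {v : h → ℂ} (hv : P *ᵥ v = v) (a : m → ℂ) :
    tp P *ᵥ tv v a = tv v a := by
  have h1 : tv v a = fun p : Tw h m => (Matrix.of fun (x : Option m) (y : h ⊕ m) =>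
      if x = none then Sum.elim v a y else 0) p.1 p.2 := rfl
  rw [h1, tp, kron_mulVec]
  have h2 : Dn m * (Matrix.of fun (x : Option m) (y : h ⊕ m) =>
      if x = none then Sum.elim v a y else 0) = (Matrix.of fun (x : Option m) (y : h ⊕ m) =>
      if x = none then Sum.elim v a y else 0) := by
    ext x y
    rw [Dn, Matrix.diagonal_mul]
    by_cases hx : x = none
    · simp [hx]
    · simp [hx]
  rw [h2]
  have h3 : (Matrix.of fun (x : Option m) (y : h ⊕ m) => if x = none then Sum.elim v a y else 0) *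
      (fromBlocks P 0 0 (1 : Matrix m m ℂ))ᵀ = (Matrix.of fun (x : Option m) (y : h ⊕ m) =>
      if x = none then Sum.elim v a y else 0) := by
    ext x y
    rw [Matrix.mul_apply]
    by_cases hx : x = none
    · have h4 : (fromBlocks P 0 0 (1 : Matrix m m ℂ) *ᵥ Sum.elim v a) y = Sum.elim v a y := by
        rw [fromBlocks_diag_mulVec, hv, Matrix.one_mulVec]
      simp only [Matrix.of_apply, if_pos hx, Matrix.transpose_apply]
      rw [← h4, Matrix.mulVec, dotProduct]
      exact Finset.sum_congr rfl fun z _ => mul_comm _ _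
    · simp [hx]
  rw [h3]

/-- the twisting map on points -/
noncomputable def Efun {N : ℕ} (x : Th N h × (m → ℂ)) : Th (N + Fintype.card m) (Tw h m) :=
  Th.of (tp x.1.1.1) (tv x.1.1.2 x.2) (isPr_tp x.1.2.1) (tp_tv x.1.2.2 x.2)

theorem continuous_Efun {N : ℕ} :
    Continuous (Efun : Th N h × (m → ℂ) → Th (N + Fintype.card m) (Tw h m)) := by
  refine continuous_th ?_ ?_
  · have h1 : Continuous fun x : Th N h × (m → ℂ) =>
        fromBlocks x.1.1.1 0 0 (1 : Matrix m m ℂ) :=
      (continuous_fst.comp (continuous_subtype_val.comp continuous_fst)).matrix_fromBlocks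
        continuous_const continuous_const continuous_const
    exact continuous_const.kron275 h1
  · refine continuous_pi fun y => ?_
    change Continuous fun x : Th N h × (m → ℂ) =>
      if y.1 = none then Sum.elim x.1.1.2 x.2 y.2 else 0
    by_cases hy : y.1 = none
    · simp only [if_pos hy]
      exact (continuous_apply y.2).comp (continuous_sumElim
        (continuous_snd.comp (continuous_subtype_val.comp continuous_fst)) continuous_snd)
    · simp only [if_neg hy]
      exact continuous_const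

theorem norm_tv (v : h → ℂ) (a : m → ℂ) : max ‖v‖ ‖a‖ ≤ ‖tv v a‖ := by
  have h1 : ∀ y, ‖Sum.elim v a y‖ ≤ ‖tv v a‖ := fun y => by
    have := norm_le_pi_norm (tv v a) ((none, y) : Tw h m)
    simpa [tv] using this
  refine max_le ?_ ?_
  · exact (pi_norm_le_iff_of_nonneg (norm_nonneg _)).2 fun i => h1 (Sum.inl i)
  · exact (pi_norm_le_iff_of_nonneg (norm_nonneg _)).2 fun i => h1 (Sum.inr i)

theorem tendsto_Efun {N : ℕ} :
    Tendsto (fun x : Th N h × (m → ℂ) => ‖(Efun x).1.2‖) (coclosedCompact _) atTop := by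
  refine tendsto_of_compact_sublevel (n := fun x : Th N h × (m → ℂ) => max ‖x.1.1.2‖ ‖x.2‖)
    (fun x => norm_tv _ _) fun R => ⟨_, (isCompact_ball N R).prod
      (isCompact_closedBall (0 : m → ℂ) R), fun x hx => ⟨(le_max_left _ _).trans hx, ?_⟩⟩
  rw [mem_closedBall_zero_iff]
  exact (le_max_right _ _).trans hx

/-- the twisting map -/
noncomputable def Emap {N : ℕ} : PMap (Th N h × (m → ℂ)) (Th (N + Fintype.card m) (Tw h m)) :=
  I0Defs417.ofTh Efun continuous_Efun tendsto_Efun

theorem wl_zero (a : m → ℂ) : wl 0 a = Dn m := by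
  have h1 : wv 0 a = fun x => if x = none then 1 else 0 := by
    funext x
    rcases x with _ | i
    · simp [wv]
    · simp [wv]
  have h2 : wn 0 a = 1 := by
    rw [wn, h1, Fintype.sum_option]
    simp
  ext x y
  rw [wl, h2, h1, Dn, Matrix.smul_apply, vecMulVec_apply, Matrix.diagonal_apply]
  by_cases hx : x = none
  · by_cases hy : y = none
    · simp [hx, hy]
    · have : ¬ (none = y) := fun hh => hy hh.symm
      simp [hx, hy, this]
  · simp [hx]

theorem gvec_zero (a : m → ℂ) : gvec h 0 a = tv (0 : h → ℂ) a := by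
  funext ⟨x, y⟩
  change rcol h (vecMulVec (wv 0 a) a) x y = if x = none then Sum.elim (0 : h → ℂ) a y else 0
  rcases y with y | y
  · simp [rcol]
  · rcases x with _ | i
    · simp [rcol, vecMulVec_apply, wv]
    · simp [rcol, vecMulVec_apply, wv]

/-- the zero section of a family of projections -/
noncomputable def zsec {Z : Type} [TopologicalSpace Z] [CompactSpace Z] {N : ℕ}
    (R : Z → Matrix h h ℂ) (hRc : Continuous R) (hR : ∀ z, IsPr N (R z)) : PMap Z (Th N h) :=
  ofC ⟨fun z => ((Th.of (R z) 0 (hR z) (by simp) : Th N h) : OnePoint (Th N h)),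
    continuous_coe.comp (continuous_th hRc continuous_const)⟩

theorem Emap_zsec {Z : Type} [TopologicalSpace Z] [CompactSpace Z] [T2Space Z] {N : ℕ}
    (R : Z → Matrix h h ℂ) (hRc : Continuous R) (hR : ∀ z, IsPr N (R z)) :
    Emap.comp ((zsec R hRc hR).smash (PMap.id (m → ℂ))) = gmap (m := m) 0 R hRc hR := by
  refine PMap.ext fun x => ?_
  obtain ⟨z, a⟩ := x
  refine Th.of_congr ?_ ?_
  · change Dn m ⊗ₖ _ = wl 0 a ⊗ₖ _
    rw [wl_zero]; rfl
  · exact (gvec_zero a).symm

/-- the coordinates of the twisted fibre -/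
def s1 {γ : Type} (s0 : γ → h) : γ ⊕ m → Tw h m := fun x => (none, Sum.map s0 id x)

theorem s1_injective {γ : Type} {s0 : γ → h} (hs0 : Function.Injective s0) :
    Function.Injective (s1 s0 : γ ⊕ m → Tw h m) := fun x y hxy =>
  (hs0.sumMap Function.injective_id) (congrArg Prod.snd hxy)

theorem tp_pJ {γ : Type} [Fintype γ] (s0 : γ → h) :
    tp (pJ s0) = pJ (s1 s0 : γ ⊕ m → Tw h m) := by
  classical
  have h1 : (1 : Matrix m m ℂ) = pJ (id : m → m) := by
    rw [pJ, ← Matrix.diagonal_one]
    congr 1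
    funext k
    simp
  rw [tp, h1, pJ_sum, Dn, pJ, pJ, Matrix.diagonal_kronecker_diagonal]
  congr 1
  funext q
  obtain ⟨x, y⟩ := q
  by_cases hx : x = none
  · subst hx
    have : ((none, y) ∈ range (s1 s0 : γ ⊕ m → Tw h m)) ↔ y ∈ range (Sum.map s0 (id : m → m)) := by
      constructor
      · rintro ⟨z, hz⟩; exact ⟨z, congrArg Prod.snd hz⟩
      · rintro ⟨z, hz⟩; exact ⟨z, by rw [s1, hz]⟩
    by_cases hy : y ∈ range (Sum.map s0 (id : m → m))
    · rw [if_pos hy, if_pos (this.2 hy)]; simp
    · rw [if_neg hy, if_neg fun hh => hy (this.1 hh)]; simp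
  · rw [if_neg hx, zero_mul, if_neg]
    rintro ⟨z, hz⟩
    exact hx (congrArg Prod.fst hz).symm

theorem tv_extend {γ : Type} [Fintype γ] {s0 : γ → h} (hs0 : Function.Injective s0) (v : γ → ℂ) (a : m → ℂ) :
    tv (Function.extend s0 v 0) a =
      Function.extend (s1 s0 : γ ⊕ m → Tw h m) (Sum.elim v a) 0 := by
  have hid : Function.extend (id : m → m) a 0 = a := by
    funext k
    exact Function.injective_id.extend_apply a 0 k
  have h1 := extend_sum hs0 (Function.injective_id (α := m)) v a
  rw [hid] at h1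
  funext ⟨x, y⟩
  change (if x = none then Sum.elim (Function.extend s0 v 0) a y else 0) = _
  rw [h1]
  by_cases hx : x = none
  · subst hx
    rw [if_pos rfl]
    by_cases hy : ∃ z, Sum.map s0 (id : m → m) z = y
    · obtain ⟨z, rfl⟩ := hy
      rw [(hs0.sumMap Function.injective_id).extend_apply]
      exact ((s1_injective hs0).extend_apply (Sum.elim v a) 0 z).symm
    · rw [Function.extend_apply' _ _ _ hy, Function.extend_apply']
      · rfl
      · rintro ⟨z, hz⟩; exact hy ⟨z, congrArg Prod.snd hz⟩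
  · rw [if_neg hx, Function.extend_apply']
    · rfl
    · rintro ⟨z, hz⟩; exact hx (congrArg Prod.fst hz).symm

theorem Emap_fib {γ : Type} [Fintype γ] {N : ℕ} {s0 : γ → h} (hs0 : Function.Injective s0)
    (hN : Fintype.card γ = N) (hr : Fintype.card (γ ⊕ m) = N + Fintype.card m) :
    Emap.comp (((PMap.ofHomeo (castTh hN)).comp (fibJ s0 hs0)).smash (PMap.id (m → ℂ))) =
      (PMap.ofHomeo (castTh hr)).comp ((fibJ (s1 s0) (s1_injective hs0)).comp
        (PMap.ofHomeo (I0Glue417.sumH γ m))) := by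
  refine PMap.ext fun x => ?_
  obtain ⟨v, a⟩ := x
  refine congrArg (fun y : Th (N + Fintype.card m) (Tw h m) =>
    (y : OnePoint (Th (N + Fintype.card m) (Tw h m)))) (Subtype.ext ?_)
  refine Eq.trans ?_ (castTh_val hr _).symm
  have h0 := castTh_val hN (⟨(pJ s0, Function.extend s0 v 0), isPr_pJ hs0,
      pJ_mulVec_extLin s0 hs0 v⟩ : Th (Fintype.card γ) h)
  refine Prod.ext ?_ ?_
  · refine (congrArg (fun A => tp (m := m) A) (congrArg Prod.fst h0)).trans ?_
    exact tp_pJ s0
  · refine (congrArg (fun w => tv (m := m) w a) (congrArg Prod.snd h0)).trans ?_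
    exact tv_extend hs0 v a

end twist

/-! ## the fibre in the form of helper96 -/

section convert

variable {γ κ κ' : Type} [Fintype γ] [DecidableEq γ] [Fintype κ] [DecidableEq κ] [Fintype κ']
  [DecidableEq κ']

theorem reindex_pJ (s : γ → κ) (e : κ ≃ κ') : Matrix.reindex e e (pJ s) = pJ (e ∘ s) := by
  classical
  ext i j
  rw [Matrix.reindex_apply, Matrix.submatrix_apply, pJ, pJ, Matrix.diagonal_apply,
    Matrix.diagonal_apply]
  by_cases hij : i = j
  · subst hij
    rw [if_pos rfl, if_pos rfl]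
    have : (e.symm i ∈ range s) ↔ i ∈ range (e ∘ s) := by
      constructor
      · rintro ⟨x, hx⟩; exact ⟨x, by rw [Function.comp_apply, hx, Equiv.apply_symm_apply]⟩
      · rintro ⟨x, hx⟩; exact ⟨x, by rw [← hx, Function.comp_apply, Equiv.symm_apply_apply]⟩
    by_cases h : e.symm i ∈ range s
    · rw [if_pos h, if_pos (this.1 h)]
    · rw [if_neg h, if_neg fun hh => h (this.2 hh)]
  · rw [if_neg hij, if_neg fun h => hij (e.symm.injective h)]

theorem extend_comp_symm {s : γ → κ} (hs : Function.Injective s) (e : κ ≃ κ') (v : γ → ℂ) :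
    (Function.extend s v 0) ∘ e.symm = Function.extend (e ∘ s) v 0 := by
  have hs' : Function.Injective (e ∘ s) := e.injective.comp hs
  funext k
  by_cases h : ∃ a, s a = e.symm k
  · obtain ⟨a, ha⟩ := h
    have hk : k = (e ∘ s) a := by rw [Function.comp_apply, ha, Equiv.apply_symm_apply]
    rw [hk, hs'.extend_apply, Function.comp_apply, Function.comp_apply, Equiv.symm_apply_apply,
      hs.extend_apply]
  · rw [Function.comp_apply, Function.extend_apply' _ _ _ h, Function.extend_apply']
    · rfl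
    · rintro ⟨a, ha⟩
      exact h ⟨a, by rw [← ha, Function.comp_apply, Equiv.symm_apply_apply]⟩

theorem pJ_inl : pJ (Sum.inl : γ → γ ⊕ κ) = F0Mul96.pInl γ κ := by
  classical
  ext i j
  rw [pJ, F0Mul96.pInl, Matrix.diagonal_apply]
  rcases i with i | i <;> rcases j with j | j
  · by_cases h : i = j
    · subst h; simp
    · simp [h]
  · simp
  · simp
  · simp

theorem extend_inl (v : γ → ℂ) :
    Function.extend (Sum.inl : γ → γ ⊕ κ) v 0 = Sum.elim v 0 := by
  funext k
  rcases k with k | k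
  · exact Sum.inl_injective.extend_apply v 0 k
  · rw [Function.extend_apply']
    · rfl
    · rintro ⟨a, ha⟩; exact Sum.inl_ne_inr ha

/-- the splitting of the index set along an injection -/
noncomputable def splitE (s : γ → κ) (hs : Function.Injective s) :
    κ ≃ γ ⊕ {x : κ // x ∉ range s} := by
  classical
  exact ((Equiv.sumCompl (fun x : κ => x ∈ range s)).symm).trans
    ((Equiv.ofInjective s hs).symm.sumCongr (Equiv.refl _))

theorem splitE_comp (s : γ → κ) (hs : Function.Injective s) :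
    (splitE s hs) ∘ s = Sum.inl := by
  classical
  funext a
  change (splitE s hs) (s a) = Sum.inl a
  rw [← Equiv.eq_symm_apply]
  simp [splitE]

open Classical in
/-- a coordinate fibre is the standard fibre, after reindexing -/
theorem reidx_fibJ (s : γ → κ) (hs : Function.Injective s) :
    (PMap.ofHomeo (reidx (k := Fintype.card γ) (splitE s hs))).comp (fibJ s hs) =
      F0Mul96.fibM (F0Mul96.isPr_pInl γ {x : κ // x ∉ range s})
        (F0Mul96.eInl γ {x : κ // x ∉ range s}) := by
  refine PMap.ext fun v => ?_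
  refine congrArg (fun y : Th (Fintype.card γ) (γ ⊕ {x : κ // x ∉ range s}) =>
    (y : OnePoint (Th (Fintype.card γ) (γ ⊕ {x : κ // x ∉ range s})))) (Subtype.ext ?_)
  refine Prod.ext ?_ ?_
  · refine (reindex_pJ s (splitE s hs)).trans ?_
    rw [splitE_comp]
    exact pJ_inl
  · refine (extend_comp_symm hs (splitE s hs) v).trans ?_
    rw [splitE_comp]
    exact extend_inl v

end convert

/-- from the general coordinate form to helper96's form -/
theorem i0At_conv {Z : Type} [TopologicalSpace Z] [CompactSpace Z] [T2Space Z] {a : Type}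
    [Fintype a] [DecidableEq a] (κ : C(Z, OnePoint (a → ℂ))) (h : I0Glue417.I0At (ofC κ)) :
    F0Conv96.I0At a κ := by
  classical
  obtain ⟨m, k, _, _, s, hs, hn⟩ := h
  refine ⟨m, {x : k // x ∉ range s}, inferInstance, inferInstance, ?_⟩
  have h1 := hn.comp_left (PMap.ofHomeo (reidx (k := Fintype.card (a ⊕ Fin m)) (splitE s hs)))
  rw [← PMap.comp_assoc] at h1
  have h2 := reidx_fibJ s hs
  have h3 : (PMap.ofHomeo (I0Glue417.sumH a (Fin m))).comp
      ((ofC κ).smash (PMap.id (Fin m → ℂ))) = F0Conv96.twist a κ m := by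
    refine PMap.ext fun x => ?_
    obtain ⟨z, w⟩ := x
    change (PMap.ofHomeo (I0Glue417.sumH a (Fin m))) (sm (κ z) (w : OnePoint (Fin m → ℂ))) =
      (PMap.ofHomeo (F0Conv96.sumArrow a m)) (sm (κ z) (w : OnePoint (Fin m → ℂ)))
    generalize κ z = y
    induction y using OnePoint.rec with
    | infty => rfl
    | coe y => rfl
  rw [h3] at h1
  convert h1 using 2
  convert h2.symm

end Crest.Agent.R090.I0Final417
end

-- ▼ part R090/I0End_417

/-!
# Row 90, I0 (owner helper417): the final theorem, from the top cell and the START homotopy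
-/

set_option autoImplicit false
set_option linter.unusedSectionVars false

open Topology Filter Set Matrix

namespace Crest.Agent.R090.I0End417

open OnePoint Crest.OpAlg Crest.Agent.R090.Sp962 Crest.Agent.R090.I0core275
  Crest.Agent.R090.I0Defs417 Crest.Agent.R090.Bott513 Crest.Agent.R090.Match513
  Crest.Agent.R090.I0Glue417 Crest.Agent.R090.I0Final417 Crest.Agent.R090.T5
open scoped unitInterval Kronecker

/-! ## the projections -/

theorem isPr_lineProj (z w : Circle) : IsPr 1 (lineProj z w) := by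
  have hx := sphereVec_ne_zero z w
  have hpos := nr_pos hx
  set x := sphereVec z w with hxdef
  have hP : lineProj z w = !![((1 + x 2 / nr x : ℝ) : ℂ) / 2,
      (((x 0 / nr x : ℝ) : ℂ) - ((x 1 / nr x : ℝ) : ℂ) * Complex.I) / 2;
     (((x 0 / nr x : ℝ) : ℂ) + ((x 1 / nr x : ℝ) : ℂ) * Complex.I) / 2,
      ((1 - x 2 / nr x : ℝ) : ℂ) / 2] := rfl
  have hsq : ((x 0 / nr x) ^ 2 + (x 1 / nr x) ^ 2 + (x 2 / nr x) ^ 2 : ℝ) = 1 := by
    have h1 := sq_nr x
    rw [div_pow, div_pow, div_pow, ← add_div, ← add_div, ← h1]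
    exact div_self (pow_pos hpos 2).ne'
  generalize x 0 / nr x = a at hP hsq
  generalize x 1 / nr x = b at hP hsq
  generalize x 2 / nr x = c at hP hsq
  have hsq' : (a : ℂ) ^ 2 + (b : ℂ) ^ 2 + (c : ℂ) ^ 2 = 1 := by exact_mod_cast hsq
  have hI : Complex.I ^ 2 = -1 := Complex.I_sq
  refine ⟨?_, ?_, ?_⟩
  · rw [hP]
    ext i j
    fin_cases i <;> fin_cases j <;>
      simp [Matrix.conjTranspose_apply, Complex.ext_iff]
  · rw [hP]
    ext i j
    fin_cases i <;> fin_cases j
    · simp only [Matrix.mul_apply, Fin.sum_univ_two, Fin.zero_eta, Matrix.of_apply,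
        Matrix.cons_val', Matrix.cons_val_zero, Matrix.cons_val_one, Matrix.cons_val_fin_one]
      push_cast
      linear_combination (1/4 : ℂ) * hsq' - (b : ℂ)^2 / 4 * hI
    · simp only [Matrix.mul_apply, Fin.sum_univ_two, Fin.zero_eta, Fin.mk_one, Matrix.of_apply,
        Matrix.cons_val', Matrix.cons_val_zero, Matrix.cons_val_one, Matrix.cons_val_fin_one]
      push_cast
      ring
    · simp only [Matrix.mul_apply, Fin.sum_univ_two, Fin.zero_eta, Fin.mk_one, Matrix.of_apply,
        Matrix.cons_val', Matrix.cons_val_zero, Matrix.cons_val_one, Matrix.cons_val_fin_one]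
      push_cast
      ring
    · simp only [Matrix.mul_apply, Fin.sum_univ_two, Fin.mk_one, Matrix.of_apply,
        Matrix.cons_val', Matrix.cons_val_zero, Matrix.cons_val_one, Matrix.cons_val_fin_one]
      push_cast
      linear_combination (1/4 : ℂ) * hsq' - (b : ℂ)^2 / 4 * hI
  · rw [hP, Matrix.trace_fin_two]
    simp only [Matrix.of_apply, Matrix.cons_val', Matrix.cons_val_zero, Matrix.cons_val_one,
      Matrix.cons_val_fin_one]
    push_cast
    ring

theorem isPr_blockDiagonal {ι o : Type*} [Fintype ι] [DecidableEq ι] [Fintype o] [DecidableEq o]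
    {k : ℕ} {P : o → Matrix ι ι ℂ} (hP : ∀ i, IsPr k (P i)) :
    IsPr (Fintype.card o * k) (Matrix.blockDiagonal P) := by
  refine ⟨?_, ?_, ?_⟩
  · rw [Matrix.blockDiagonal_conjTranspose]
    congr 1
    funext i
    exact (hP i).herm
  · rw [← Matrix.blockDiagonal_mul]
    congr 1
    funext i
    exact (hP i).idem
  · rw [Matrix.trace_blockDiagonal, Finset.sum_congr rfl fun i _ => (hP i).tr]
    simp

theorem isPr_totalProj (p n : ℕ) (W : TT p n) : IsPr (n * p) (totalProj p n W) := by
  have h1 : ∀ j, IsPr p (slotProj p (W j)) := fun j => by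
    have := isPr_blockDiagonal (o := Fin p) (k := 1)
      (P := fun i : Fin p => lineProj ((W j) ⟨2 * i.val, by omega⟩)
        ((W j) ⟨2 * i.val + 1, by omega⟩)) fun i => isPr_lineProj _ _
    rw [Fintype.card_fin, mul_one] at this
    exact this
  have := isPr_blockDiagonal (o := Fin n) (k := p) h1
  rwa [Fintype.card_fin] at this

theorem isPr_compl (p n : ℕ) (W : TT p n) :
    IsPr (Fintype.card (Fin n × Fin p)) (1 - totalProj p n W) := by
  have h := isPr_totalProj p n W
  refine ⟨h.compl_herm, h.compl_idem, ?_⟩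
  rw [Matrix.trace_sub, Matrix.trace_one, h.tr]
  simp only [Fintype.card_prod, Fintype.card_fin]
  push_cast
  ring

theorem continuous_compl {Z : Type*} [TopologicalSpace Z] {p n : ℕ} (w : C(Z, TT p n)) :
    Continuous fun z => 1 - totalProj p n (w z) :=
  continuous_const.sub ((Nbhd264.continuous_totalProj p n).comp w.continuous)

/-! ## the final theorem -/

section final

variable {p n : ℕ} {Z : Type} [TopologicalSpace Z] [CompactSpace Z] [T2Space Z]

/-- the coordinates of the end of START -/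
def sq0 (p n : ℕ) (q : Fin n × Fin p) : (Fin 2 × Fin p) × Fin n := ((1, q.2), q.1)

theorem sq0_injective (p n : ℕ) : Function.Injective (sq0 p n) := by
  rintro ⟨a, b⟩ ⟨c, d⟩ h
  simp only [sq0, Prod.mk.injEq, true_and] at h
  exact Prod.ext h.2 h.1

/-- START -/
def StartStmt (w : C(Z, TT p n)) : Prop :=
  (zsec (fun z => 1 - totalProj p n (w z)) (continuous_compl w) (fun z => isPr_compl p n (w z))).Homotopic
    ((fibJ (sq0 p n) (sq0_injective p n)).comp (ofC ((nbottc p n).comp w)))

theorem i0_of_start (w : C(Z, TT p n)) (K : ℕ) (Φ : Z → Matrix (Fin K) ((Fin 2 × Fin p) × Fin n) ℂ)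
    (hK : K < 2 * p * n) (hΦ : Continuous Φ)
    (hmono : ∀ z (v : (Fin 2 × Fin p) × Fin n → ℂ), (totalProj p n (w z)) *ᵥ v = v →
      Φ z *ᵥ v = 0 → v = 0)
    (hTop : TopCellIn (Fin K)) (hStart : StartStmt w) :
    F0Conv96.I0At (Fin n × Fin p) ((kCc p n).comp w) := by
  have hne : Nonempty (Option (Fin K) ↪ (Fin 2 × Fin p) × Fin n) := by
    rw [Function.Embedding.nonempty_iff_card_le]
    simp only [Fintype.card_option, Fintype.card_fin, Fintype.card_prod]
    exact hK
  obtain ⟨e⟩ := hne
  have hcard : Fintype.card ((Fin n × Fin p) ⊕ Fin K) =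
      Fintype.card (Fin n × Fin p) + Fintype.card (Fin K) := Fintype.card_sum
  have hcast : ∀ (h : Fintype.card (Fin n × Fin p) = Fintype.card (Fin n × Fin p)),
      PMap.ofHomeo (castTh (ι := (Fin 2 × Fin p) × Fin n) h) = PMap.id _ := fun h =>
    (PMap.ofHomeo_refl (U := Th (Fintype.card (Fin n × Fin p)) ((Fin 2 × Fin p) × Fin n)))
  have h1 : I0Glue417.I0At (ofC ((nbottc p n).comp w)) := by
    refine i0At_of (ofC ((nbottc p n).comp w))
      (zsec (fun z => 1 - totalProj p n (w z)) (continuous_compl w) (fun z => isPr_compl p n (w z)))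
      Emap (sq0 p n) (sq0_injective p n) rfl (s1 (sq0 p n)) (s1_injective (sq0_injective p n))
      hcard (by rw [hcast, PMap.id_comp]; exact hStart)
      (Emap_fib (sq0_injective p n) rfl hcard) ?_ hTop
    intro B _ _ _ L hL hP
    rw [Emap_zsec]
    let C : EData Z B (Fintype.card (Fin n × Fin p)) ((Fin 2 × Fin p) × Fin n) (Fin K) :=
      { R := fun z => 1 - totalProj p n (w z)
        hRc := continuous_compl w
        hR := fun z => isPr_compl p n (w z)
        Φ := Φ
        hΦc := hΦ
        inj := fun z v h1 h2 => hmono z v (by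
          rw [Matrix.sub_mulVec, Matrix.one_mulVec, sub_eq_zero] at h1
          exact h1.symm) h2
        e := e
        L := L
        hLc := hL
        hL := hP
        rank_one := fun b i j => minor_eq (hP b) i j none }
    exact C.core (pinch L hL hP) fun b => rfl
  exact (i0At_conv _ h1).congr
    ((nbottc_homotopic p n).comp (ContinuousMap.Homotopic.refl w))

end final

end Crest.Agent.R090.I0End417
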