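import Crest.Agent.R090.GlueS_264
import Crest.Agent.R090.GlueC_264
import Crest.Agent.R090.SpineDefs_796
import Crest.Agent.R090.F0Conv_96
import Crest.Agent.R090.I0End_417
import Crest.Agent.R090.Ho_962
import Crest.Agent.R090.Lin_202
import Crest.Agent.R090.Young_152
import Crest.Agent.R090.Cone_962
import Crest.Agent.R090.F1d_541
import Crest.Agent.R090.St2_528
import Crest.Agent.R090.ExcSt_503
import Crest.Agent.R090.PiNat_568
import Crest.Agent.R090.Dens_255
import Crest.Agent.R090.Block_568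
import Crest.Agent.R090.Strata_973
import Crest.Agent.R090.Sp_962
import Crest.Agent.R090.Cyl_349
import Crest.Agent.R090.SmIso_528

-- ▼ part R090/GlueF_264
section

/-!
# Row 90, GLUE, final form (owner helper264)

`SI_of_kill` : 758's `SI` from `∀ q prime, ∃ u m n, 0 < u ∧ 4 m ≤ u ∧ ¬ q ∣ n ∧ n • κ_{u,m} = 0`.
-/

set_option autoImplicit false
set_option linter.unusedSectionVars false

open Topology Filter Set

namespace Crest.Agent.R090.GlueF264

open OnePoint Crest.Agent.R090.Sp962 Crest.Agent.R090.Grp528 Crest.Agent.R090.St528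
  Crest.Agent.R090.Sm202 Crest.Agent.R090.Pi568 Crest.Agent.R090.Dens255
  Crest.Agent.R090.Block568 Crest.Agent.R090.T5 Crest.Agent.R090.Cyl349
  Crest.Agent.R090.Glue264 Crest.Agent.R090.GlueS264

section null

variable {X Y : Type*} [TopologicalSpace X] [TopologicalSpace Y] [T2Space X] [T2Space Y]
  [LocallyCompactSpace X] [LocallyCompactSpace Y]

theorem null_of_ofP {f : PMap X Y} (h : St.ofP f = 0) :
    ∃ k : ℕ, (f.smash (PMap.id (Fin k → ℂ))).Null := by
  rw [St.ofP, St.map_eq_of _ 0, St.of_eq_zero_iff] at h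
  obtain ⟨k, hk⟩ := h
  rw [stN_smash] at hk
  exact ⟨0 + k, HC.mk_eq.1 hk⟩

theorem null_homeo {f : PMap X Y} {V W : Type*} [TopologicalSpace V] [TopologicalSpace W]
    [T2Space V] [T2Space W] [LocallyCompactSpace V] [LocallyCompactSpace W] (e : V ≃ₜ W)
    (h : (f.smash (PMap.id V)).Null) : (f.smash (PMap.id W)).Null := by
  have h1 := (h.comp_left ((PMap.id Y).smash (PMap.ofHomeo e))).comp_right
    ((PMap.id X).smash (PMap.ofHomeo e.symm))
  have h2 : (((PMap.id Y).smash (PMap.ofHomeo e)).comp (f.smash (PMap.id V))).comp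
      ((PMap.id X).smash (PMap.ofHomeo e.symm)) = f.smash (PMap.id W) := by
    rw [PMap.smash_comp, PMap.smash_comp, PMap.id_comp, PMap.comp_id, PMap.comp_id,
      PMap.ofHomeo_comp_symm]
  rwa [h2] at h1

theorem null_real {f : PMap X Y} (h : St.ofP f = 0) :
    ∃ l : ℕ, (f.smash (PMap.id (Fin l → ℝ))).Null := by
  obtain ⟨k, hk⟩ := null_of_ofP h
  have e : (Fin k → ℂ) ≃L[ℝ] (Fin (Module.finrank ℝ (Fin k → ℂ)) → ℝ) :=
    ContinuousLinearEquiv.ofFinrankEq (by simp)
  exact ⟨_, null_homeo e.toHomeomorph hk⟩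

end null

section main

variable {p n : ℕ} {Y : Type*} [TopologicalSpace Y] [CompactSpace Y] [T2Space Y]


/-- **GLUE**, complex coordinates -/
theorem SI_of_killC {a : ℝ} {f : Y → Fin n → Fin (2 * p + 1) → ℝ} {Z₀ : Set (Y × TT p n)}
    [CompactSpace Z₀] (hZ₀ : IsClosed Z₀) (hf : Continuous f)
    (hT : Crest.OpAlg.torusLocus p n (a * n) f ⊆ interior Z₀)
    (H : ∀ q : ℕ, q.Prime → ∃ u m N : ℕ, 0 < u ∧ 4 * m ≤ u ∧ ¬ q ∣ N ∧
      N • kap (Cyl.ret (fC Z₀)) (range (Cyl.iU (fC Z₀))) u m = 0) : SI p n a f := by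
  obtain ⟨u, m, hu, hm, h⟩ := exists_kill _ _ H
  obtain ⟨l, hl⟩ := null_real h
  exact SI_of_nullC hZ₀ hf hT hu hm hl

end main

end Crest.Agent.R090.GlueF264
end

-- ▼ part R090/GlueStmt_264
section

/-!
# Row 90: `Spine.GlueStmt` (owner helper264)
-/

set_option autoImplicit false

open Topology Filter Set

namespace Crest.Agent.R090.GlueStmt264

/-- **GLUE**, literally as frozen in the spine -/
theorem glueStmt : Spine.GlueStmt := by
  intro p n _ _ a Y _ _ _ f hf Z hZ _ hT H
  refine GlueF264.SI_of_killC hZ.out hf hT fun q hq => ?_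
  obtain ⟨u, m, N, hu, hm, hN, h⟩ := H q hq
  exact ⟨u, m, N, hu, hm, hN, h⟩

end Crest.Agent.R090.GlueStmt264
end

-- ▼ part R090/F0Stmt_933
section

/-!
# Row 90: the arrow `Spine.F0Stmt` from the output of I0 (helper933)

* `I0H` : the output of I0 for the torus collapse, word for word the hypotheses of `Spine.F0Stmt`;
* `f0Stmt_of : I0H → Spine.F0Stmt`.
-/

set_option autoImplicit false
set_option linter.unusedSectionVars false

open Topology Filter Set

namespace Crest.Agent.R090.F0_933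

open OnePoint Crest.Agent.R090.Sp962 Crest.Agent.R090.Spine Crest.Agent.R090.F0Conv96
  Crest.Agent.R090.Match513 Crest.Agent.R090.Bott513
open Crest.Agent.R090.Block568 (incl)

/-- the output of I0 (417) -/
def I0H : Prop :=
  ∀ (p n : ℕ), 1 ≤ p → 1 ≤ n → ∀ (Y : Type) [TopologicalSpace Y] [CompactSpace Y] [T2Space Y]
    (Z : Set (Y × T5.TT p n)) [Fact (IsClosed Z)] [CompactSpace Z] (K : ℕ)
    (Φ : Y × T5.TT p n → Matrix (Fin K) ((Fin 2 × Fin p) × Fin n) ℂ),
    K < 2 * p * n → Continuous Φ →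
    (∀ x ∈ Z, ∀ v : (Fin 2 × Fin p) × Fin n → ℂ,
      (Crest.OpAlg.totalProj p n x.2).mulVec v = v → (Φ x).mulVec v = 0 → v = 0) →
    I0At (Fin n × Fin p) ((kCc p n).comp (wZ Z))

/-- `F0Out` from `I0At` -/
theorem f0Out_of_I0At {a : Type} [Fintype a] [DecidableEq a] [Nonempty a]
    {Z : Type} [TopologicalSpace Z] [CompactSpace Z] [T2Space Z] {κ : C(Z, OnePoint (a → ℂ))}
    (H : I0At a κ) {f : PMap Z (a → ℂ)} (hf : f.Homotopic (ofC κ)) (c : ℕ) :
    ∃ D u : ℕ, 0 < D ∧ c * u ≤ D ∧ F0Out f D u := by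
  obtain ⟨m, V, B, i1, i2, i3, i4, i5, i6, -, -, A, hA, θ, D, u, hD, hcu, hV, hF, hN⟩ :=
    null_of_I0At' (Homeomorph.refl (a → ℂ)) H
      (hf.trans (.of_eq (PMap.ext fun x => by
        rw [PMap.ofHomeo_refl, PMap.id_comp]))) c
  refine ⟨D, u, hD, hcu, (Fin m → ℂ) × V, B, inferInstance, inferInstance, inferInstance, i2, i4,
    i6, A, ⟨hA⟩, θ, ?_, hF, ?_⟩
  · exact hV.prod (Homeomorph.refl (Fin m → ℂ))
  · exact hN

theorem f0Stmt_of (hI : I0H) : Spine.F0Stmt := by
  intro p n hp hn Y _ _ _ Z _ _ K Φ hK hΦ hinj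
  have : Nonempty (Fin n × Fin p) := ⟨(⟨0, hn⟩, ⟨0, hp⟩)⟩
  refine f0Out_of_I0At (hI p n hp hn Y Z K Φ hK hΦ hinj) ?_ 8
  exact .of_eq (PMap.ext fun x => rfl)

end Crest.Agent.R090.F0_933
end

-- ▼ part R090/F0Bind_933
section

/-!
# Row 90: `Spine.F0Stmt` from START and the top cell (helper933)
-/

set_option autoImplicit false
set_option linter.unusedSectionVars false

open Topology Filter Set

namespace Crest.Agent.R090.F0_933

open OnePoint Crest.Agent.R090.Sp962 Crest.Agent.R090.Spine Crest.Agent.R090.F0Conv96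
  Crest.Agent.R090.Match513 Crest.Agent.R090.Bott513 Crest.Agent.R090.I0End417
  Crest.Agent.R090.I0Glue417

/-- the two remaining inputs of F0 -/
theorem f0Stmt_of_start (hTop : ∀ K : ℕ, TopCellIn (Fin K))
    (hStart : ∀ (p n : ℕ) (Z : Type) [TopologicalSpace Z] [CompactSpace Z] [T2Space Z]
      (w : C(Z, T5.TT p n)), StartStmt w) : Spine.F0Stmt := by
  refine f0Stmt_of fun p n hp hn Y _ _ _ Z _ _ K Φ hK hΦ hinj => ?_
  exact i0_of_start (wZ Z) K (fun z => Φ z) hK (hΦ.comp continuous_subtype_val)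
    (fun z v hv h0 => hinj z z.2 v hv h0) (hTop K) (hStart p n Z (wZ Z))

end Crest.Agent.R090.F0_933
end

-- ▼ part R090/F1Core_737
section

/-!
# Row 90, F1 (source form), abstract part (owner helper737)

`CT` is a contravariant theory on locally compact Hausdorff spaces (in the application
`H X = St (X × Y) S` with a sphere `S`).  Contents:

* `CT.opE` : the operator `∑ c σ • (ρ σ)^*` of a family of homeomorphisms;
* `CT.nil` : nilpotence along a weight filtration;
* `CT.ext_clopen` : detection on the pieces of a finite clopen partition.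
-/

set_option autoImplicit false
set_option linter.checkUnivs false

open Topology Filter Set

namespace Crest.Agent.R090.F1Core737

open OnePoint Crest.Agent.R090.Sp962

universe v w

/-- a contravariant theory -/
structure CT where
  /-- the groups -/
  H : ∀ (X : Type v) [TopologicalSpace X] [T2Space X] [LocallyCompactSpace X], Type w
  /-- group structure -/
  grp : ∀ (X : Type v) [TopologicalSpace X] [T2Space X] [LocallyCompactSpace X],
    AddCommGroup (H X)
  /-- functoriality -/
  map : ∀ {X X' : Type v} [TopologicalSpace X] [T2Space X] [LocallyCompactSpace X]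
    [TopologicalSpace X'] [T2Space X'] [LocallyCompactSpace X'], PMap X X' → H X' →+ H X
  map_id : ∀ {X : Type v} [TopologicalSpace X] [T2Space X] [LocallyCompactSpace X] (g : H X),
    map (PMap.id X) g = g
  map_comp : ∀ {X X' X'' : Type v} [TopologicalSpace X] [T2Space X] [LocallyCompactSpace X]
    [TopologicalSpace X'] [T2Space X'] [LocallyCompactSpace X']
    [TopologicalSpace X''] [T2Space X''] [LocallyCompactSpace X'']
    (b : PMap X' X'') (a : PMap X X') (g : H X''), map (b.comp a) g = map a (map b g)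
  map_homotopic : ∀ {X X' : Type v} [TopologicalSpace X] [T2Space X] [LocallyCompactSpace X]
    [TopologicalSpace X'] [T2Space X'] [LocallyCompactSpace X'] (a b : PMap X X'),
    a.Homotopic b → ∀ g : H X', map a g = map b g
  map0 : ∀ {X X' : Type v} [TopologicalSpace X] [T2Space X] [LocallyCompactSpace X]
    [TopologicalSpace X'] [T2Space X'] [LocallyCompactSpace X'] (g : H X'),
    map (PMap.zero X X') g = 0
  exact : ∀ {F X O : Type v} [TopologicalSpace F] [T2Space F] [LocallyCompactSpace F]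
    [TopologicalSpace X] [T2Space X] [LocallyCompactSpace X]
    [TopologicalSpace O] [T2Space O] [LocallyCompactSpace O]
    (i : F → X) (hi : IsClosedEmbedding i) (e : O → X) (he : IsOpenEmbedding e)
    (_ : range e = (range i)ᶜ) (g : H X), map (PMap.ofClosed i hi) g = 0 →
      ∃ y : H O, map (PMap.ofOpen e he) y = g
  neg : ∀ {X : Type v} [TopologicalSpace X] [T2Space X] [LocallyCompactSpace X]
    (g : H (X × ℝ)),
    map ((PMap.id X).smash (PMap.ofHomeo (Homeomorph.neg ℝ))) g = -g

attribute [instance] CT.grp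

namespace CT

variable (T : CT.{v, w})

section basic

variable {X : Type v} [TopologicalSpace X] [T2Space X] [LocallyCompactSpace X]
variable {Y : Type v} [TopologicalSpace Y] [T2Space Y] [LocallyCompactSpace Y]

theorem map_eq_zero_of_null {a : PMap X Y} (ha : a.Null) (g : T.H Y) : T.map a g = 0 := by
  rw [T.map_homotopic a _ ha, T.map0]

theorem eq_zero_of_null (h : (PMap.id X).Null) (g : T.H X) : g = 0 := by
  rw [← T.map_id g, T.map_eq_zero_of_null h]

theorem eq_zero_of_isEmpty [IsEmpty X] (g : T.H X) : g = 0 := by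
  refine T.eq_zero_of_null ?_ g
  exact .of_eq (PMap.ext fun x => isEmptyElim x)

theorem map_homeo_injective (e : X ≃ₜ Y) {g g' : T.H Y}
    (h : T.map (PMap.ofHomeo e) g = T.map (PMap.ofHomeo e) g') : g = g' := by
  have h1 : ∀ k : T.H Y, T.map (PMap.ofHomeo e.symm) (T.map (PMap.ofHomeo e) k) = k := by
    intro k
    rw [← T.map_comp, PMap.ofHomeo_comp_symm, T.map_id]
  rw [← h1 g, h, h1]

theorem eq_zero_of_homeo (e : X ≃ₜ Y) (h : ∀ g : T.H X, g = 0) (g : T.H Y) : g = 0 := by
  apply T.map_homeo_injective e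
  rw [h (T.map (PMap.ofHomeo e) g), _root_.map_zero]

end basic

/-! ### the operator -/

section opE

variable {G : Type*} [Fintype G] (c : G → ℤ)
variable {X : Type v} [TopologicalSpace X] [T2Space X] [LocallyCompactSpace X]
variable {Y : Type v} [TopologicalSpace Y] [T2Space Y] [LocallyCompactSpace Y]

/-- the operator `∑ c σ • (ρ σ)^*` -/
noncomputable def opE (ρ : G → (X ≃ₜ X)) : T.H X →+ T.H X :=
  ∑ σ : G, c σ • T.map (PMap.ofHomeo (ρ σ))

theorem opE_apply (ρ : G → (X ≃ₜ X)) (g : T.H X) :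
    T.opE c ρ g = ∑ σ : G, c σ • T.map (PMap.ofHomeo (ρ σ)) g := by
  rw [opE, AddMonoidHom.finsetSum_apply]
  rfl

theorem map_opE (ρ : G → (X ≃ₜ X)) (τ : G → (Y ≃ₜ Y)) (f : PMap Y X)
    (h : ∀ σ, (PMap.ofHomeo (ρ σ)).comp f = f.comp (PMap.ofHomeo (τ σ))) (g : T.H X) :
    T.map f (T.opE c ρ g) = T.opE c τ (T.map f g) := by
  rw [opE_apply, opE_apply, map_sum]
  refine Finset.sum_congr rfl fun σ _ => ?_
  rw [map_zsmul, ← T.map_comp, ← T.map_comp, h σ]

theorem map_iterate_opE (ρ : G → (X ≃ₜ X)) (τ : G → (Y ≃ₜ Y)) (f : PMap Y X)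
    (h : ∀ σ, (PMap.ofHomeo (ρ σ)).comp f = f.comp (PMap.ofHomeo (τ σ))) (n : ℕ) (g : T.H X) :
    T.map f ((T.opE c ρ)^[n] g) = (T.opE c τ)^[n] (T.map f g) := by
  induction n with
  | zero => rfl
  | succ n ih => rw [Function.iterate_succ_apply', Function.iterate_succ_apply',
      T.map_opE c ρ τ f h, ih]

end opE

/-! ### restriction of homeomorphisms -/

section restrict

variable {X : Type v} [TopologicalSpace X]

/-- a homeomorphism preserving a set -/
def restr (e : X ≃ₜ X) (S : Set X) (h : ∀ x, e x ∈ S ↔ x ∈ S) : S ≃ₜ S where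
  toFun x := ⟨e x, (h x).2 x.2⟩
  invFun x := ⟨e.symm x, (h _).1 (by rw [e.apply_symm_apply]; exact x.2)⟩
  left_inv x := Subtype.ext (e.symm_apply_apply _)
  right_inv x := Subtype.ext (e.apply_symm_apply _)
  continuous_toFun := (e.continuous.comp continuous_subtype_val).subtype_mk _
  continuous_invFun := (e.symm.continuous.comp continuous_subtype_val).subtype_mk _

@[simp] theorem restr_coe (e : X ≃ₜ X) (S : Set X) (h : ∀ x, e x ∈ S ↔ x ∈ S) (x : S) :
    ((restr e S h x : S) : X) = e x := rfl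

end restrict

/-! ### nilpotence along a weight filtration -/

theorem nil {G : Type*} [Fintype G] (c : G → ℤ) (L : ℕ) :
    ∀ (X : Type v) [TopologicalSpace X] [T2Space X] [LocallyCompactSpace X]
      (wt : X → ℕ) (_ : ∀ x, wt x ≤ L) (_ : ∀ k, IsClosed {x | wt x ≤ k})
      (ρ : G → (X ≃ₜ X)) (_ : ∀ σ x, wt (ρ σ x) = wt x)
      (_ : ∀ k ≤ L, ∀ (Y : Type v) [TopologicalSpace Y] [T2Space Y] [LocallyCompactSpace Y]
        (e : Y → X) (_ : IsEmbedding e) (_ : range e = {x | wt x = k}) (τ : G → (Y ≃ₜ Y))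
        (_ : ∀ σ y, e (τ σ y) = ρ σ (e y)) (g : T.H Y), T.opE c τ g = 0)
      (g : T.H X), (T.opE c ρ)^[L + 1] g = 0 := by
  induction L with
  | zero =>
    intro X _ _ _ wt hw hcl ρ hρ hlay g
    refine hlay 0 le_rfl X id IsEmbedding.id ?_ ρ (fun _ _ => rfl) g
    rw [range_id]
    symm
    exact eq_univ_of_forall fun x => Nat.le_zero.1 (hw x)
  | succ L ih =>
    intro X _ _ _ wt hw hcl ρ hρ hlay g
    have hF : IsClosed {x | wt x ≤ L} := hcl L
    have : LocallyCompactSpace {x | wt x ≤ L} := hF.locallyCompactSpace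
    have hO : IsOpen {x | wt x ≤ L}ᶜ := hF.isOpen_compl
    have : LocallyCompactSpace ({x | wt x ≤ L}ᶜ : Set X) := hO.locallyCompactSpace
    have hρF : ∀ σ x, ρ σ x ∈ {x | wt x ≤ L} ↔ x ∈ {x | wt x ≤ L} := by
      intro σ x
      simp only [mem_ofPred_eq, hρ]
    have hρO : ∀ σ x, ρ σ x ∈ ({x | wt x ≤ L}ᶜ : Set X) ↔ x ∈ ({x | wt x ≤ L}ᶜ : Set X) := by
      intro σ x
      simp only [mem_compl_iff, mem_ofPred_eq, hρ]
    -- the closed part
    have h1 : (T.opE c fun σ => restr (ρ σ) _ (hρF σ))^[L + 1]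
        (T.map (PMap.ofClosed _ hF.isClosedEmbedding_subtypeVal) g) = 0 := by
      refine ih {x | wt x ≤ L} (fun x => wt x) (fun x => x.2) ?_ _ ?_ ?_ _
      · intro k
        exact (hcl k).preimage continuous_subtype_val
      · intro σ x
        exact hρ σ x
      · intro k hk Y _ _ _ e he hr τ hτ g'
        refine hlay k (hk.trans (Nat.le_succ L)) Y (fun y => (e y : X))
          (IsEmbedding.subtypeVal.comp he) ?_ τ ?_ g'
        · ext x
          constructor
          · rintro ⟨y, rfl⟩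
            have : e y ∈ range e := ⟨y, rfl⟩
            rw [hr] at this
            exact this
          · intro hx
            have hx' : wt x = k := hx
            have : (⟨x, by change wt x ≤ L; omega⟩ : {x | wt x ≤ L}) ∈ range e := by
              rw [hr]; exact hx'
            obtain ⟨y, hy⟩ := this
            exact ⟨y, congrArg Subtype.val hy⟩
        · intro σ y
          rw [hτ]
          rfl
    have h2 : T.map (PMap.ofClosed _ hF.isClosedEmbedding_subtypeVal)
        ((T.opE c ρ)^[L + 1] g) = 0 := by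
      rw [T.map_iterate_opE c ρ (fun σ => restr (ρ σ) _ (hρF σ)), h1]
      intro σ
      exact PMap.ext fun x => rfl
    obtain ⟨y, hy⟩ := T.exact _ hF.isClosedEmbedding_subtypeVal _
      hO.isOpenEmbedding_subtypeVal (by rw [Subtype.range_coe, Subtype.range_coe]) _ h2
    rw [Function.iterate_succ_apply', ← hy]
    rw [← T.map_opE c (fun σ => restr (ρ σ) _ (hρO σ)) ρ]
    · rw [hlay (L + 1) le_rfl _ Subtype.val IsEmbedding.subtypeVal ?_ _ ?_ y, _root_.map_zero]
      · rw [Subtype.range_coe]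
        ext x
        have := hw x
        simp only [mem_compl_iff, mem_ofPred_eq]
        omega
      · intro σ x
        rfl
    · intro σ
      refine PMap.ext fun x => ?_
      by_cases hx : x ∈ ({x | wt x ≤ L}ᶜ : Set X)
      · have e1 : (PMap.ofOpen _ hO.isOpenEmbedding_subtypeVal) (x : OnePoint X) =
            ((⟨x, hx⟩ : ({x | wt x ≤ L}ᶜ : Set X)) : OnePoint _) :=
          PMap.ofOpen_coe _ hO.isOpenEmbedding_subtypeVal (⟨x, hx⟩ : ({x | wt x ≤ L}ᶜ : Set X))
        have e2 : (PMap.ofOpen _ hO.isOpenEmbedding_subtypeVal) ((ρ σ x : X) : OnePoint X) =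
            ((⟨ρ σ x, (hρO σ x).2 hx⟩ : ({x | wt x ≤ L}ᶜ : Set X)) : OnePoint _) :=
          PMap.ofOpen_coe _ hO.isOpenEmbedding_subtypeVal
            (⟨ρ σ x, (hρO σ x).2 hx⟩ : ({x | wt x ≤ L}ᶜ : Set X))
        rw [PMap.comp_apply, PMap.comp_apply, e1, PMap.ofHomeo_coe, PMap.ofHomeo_coe, e2]
        rfl
      · have e1 : (PMap.ofOpen _ hO.isOpenEmbedding_subtypeVal) (x : OnePoint X) = ∞ :=
          PMap.ofOpen_of_notMem _ hO.isOpenEmbedding_subtypeVal (by
            rw [Subtype.range_coe]; exact hx)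
        have e2 : (PMap.ofOpen _ hO.isOpenEmbedding_subtypeVal) ((ρ σ x : X) : OnePoint X) = ∞ :=
          PMap.ofOpen_of_notMem _ hO.isOpenEmbedding_subtypeVal (by
            rw [Subtype.range_coe, hρO]; exact hx)
        rw [PMap.comp_apply, PMap.comp_apply, e1, PMap.ofHomeo_coe, e2, PMap.map_inf]

/-! ### finite clopen partitions -/

theorem ext_clopen {W : Type*} (S : Finset W) :
    ∀ (X : Type v) [TopologicalSpace X] [T2Space X] [LocallyCompactSpace X] (wd : X → W)
      (_ : IsLocallyConstant wd) (_ : ∀ x, wd x ∈ S) (g : T.H X)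
      (_ : ∀ w, ∀ (Y : Type v) [TopologicalSpace Y] [T2Space Y] [LocallyCompactSpace Y]
        (e : Y → X) (he : IsClosedEmbedding e) (_ : range e = {x | wd x = w}),
        T.map (PMap.ofClosed e he) g = 0), g = 0 := by
  classical
  induction S using Finset.induction_on with
  | empty =>
    intro X _ _ _ wd _ hS g _
    have : IsEmpty X := ⟨fun x => by simpa using hS x⟩
    exact T.eq_zero_of_isEmpty g
  | insert a S ha ih =>
    intro X _ _ _ wd hwd hS g hg
    have hF : IsClosed {x | wd x = a} := hwd.isClosed_fiber a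
    have hFo : IsOpen {x | wd x = a} := hwd.isOpen_fiber a
    have hO : IsOpen ({x | wd x = a}ᶜ : Set X) := hF.isOpen_compl
    have hOc : IsClosed ({x | wd x = a}ᶜ : Set X) := hFo.isClosed_compl
    have : LocallyCompactSpace {x | wd x = a} := hF.locallyCompactSpace
    have : LocallyCompactSpace ({x | wd x = a}ᶜ : Set X) := hO.locallyCompactSpace
    have h1 := hg a {x | wd x = a} Subtype.val hF.isClosedEmbedding_subtypeVal
      (by rw [Subtype.range_coe])
    obtain ⟨y, hy⟩ := T.exact _ hF.isClosedEmbedding_subtypeVal _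
      hO.isOpenEmbedding_subtypeVal (by rw [Subtype.range_coe, Subtype.range_coe]) _ h1
    have h2 : T.map (PMap.ofClosed _ hOc.isClosedEmbedding_subtypeVal) g = y := by
      rw [← hy, ← T.map_comp]
      have : (PMap.ofOpen _ hO.isOpenEmbedding_subtypeVal).comp
          (PMap.ofClosed _ hOc.isClosedEmbedding_subtypeVal) = PMap.id _ := by
        refine PMap.ext fun x => ?_
        exact PMap.ofOpen_coe _ hO.isOpenEmbedding_subtypeVal x
      rw [this, T.map_id]
    have h3 : y = 0 := by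
      refine ih ({x | wd x = a}ᶜ : Set X) (fun x => wd x)
        (hwd.comp_continuous continuous_subtype_val) ?_ y ?_
      · intro x
        have := hS x
        rw [Finset.mem_insert] at this
        exact this.resolve_left x.2
      · intro w Y _ _ _ e he hr
        rw [← h2, ← T.map_comp]
        by_cases hw : w = a
        · have : IsEmpty Y := ⟨fun z => by
            have : e z ∈ range e := ⟨z, rfl⟩
            rw [hr] at this
            exact (e z).2 (hw ▸ this)⟩
          exact T.eq_zero_of_isEmpty _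
        · have e3 : (PMap.ofClosed _ hOc.isClosedEmbedding_subtypeVal).comp (PMap.ofClosed e he) =
              PMap.ofClosed (fun z => (e z : X)) (hOc.isClosedEmbedding_subtypeVal.comp he) :=
            PMap.ext fun x => rfl
          rw [e3]
          refine hg w Y (fun z => (e z : X)) (hOc.isClosedEmbedding_subtypeVal.comp he) ?_
          ext x
          constructor
          · rintro ⟨z, rfl⟩
            have : e z ∈ range e := ⟨z, rfl⟩
            rw [hr] at this
            exact this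
          · intro hx
            have hx' : wd x = w := hx
            have : (⟨x, fun h => hw (hx'.symm.trans h)⟩ : ({x | wd x = a}ᶜ : Set X)) ∈ range e := by
              rw [hr]; exact hx'
            obtain ⟨z, hz⟩ := this
            exact ⟨z, congrArg Subtype.val hz⟩
    rw [← hy, h3, _root_.map_zero]

end CT

end Crest.Agent.R090.F1Core737
end

-- ▼ part R090/F1Kill_737
section

/-!
# Row 90, F1 (source form): odd letters and contractible letters (owner helper737)
-/

set_option autoImplicit false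
set_option linter.unusedSectionVars false

open Topology Filter Set

namespace Crest.Agent.R090.F1Core737

open OnePoint Crest.Agent.R090.Sp962 Crest.Agent.R090.Lin202

universe v w

/-! ### the swap of two real lines -/

/-- `(a, b) ↦ (a, -b)` -/
def refl2 : (ℝ × ℝ) ≃ₜ (ℝ × ℝ) := (Homeomorph.refl ℝ).prodCongr (Homeomorph.neg ℝ)

/-- the rotating reflection -/
noncomputable def rotL (s : ℝ) : (ℝ × ℝ) →ₗ[ℝ] (ℝ × ℝ) where
  toFun p := (Real.cos s * p.1 + Real.sin s * p.2, Real.sin s * p.1 - Real.cos s * p.2)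
  map_add' p q := by
    ext <;> simp <;> ring
  map_smul' r p := by
    ext <;> simp <;> ring

theorem rotL_apply (s : ℝ) (p : ℝ × ℝ) :
    rotL s p = (Real.cos s * p.1 + Real.sin s * p.2, Real.sin s * p.1 - Real.cos s * p.2) := rfl

theorem rotL_rotL (s : ℝ) (p : ℝ × ℝ) : rotL s (rotL s p) = p := by
  obtain ⟨a, b⟩ := p
  have h := Real.sin_sq_add_cos_sq s
  simp only [rotL_apply]
  ext
  · linear_combination a * h
  · linear_combination b * h

theorem homotopic_swapR :
    (PMap.ofHomeo (Homeomorph.prodComm ℝ ℝ)).Homotopic (PMap.ofHomeo refl2) := by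
  refine homotopic_of_linear_family (fun t => rotL ((1 - (t : ℝ)) * (Real.pi / 2))) ?_ ?_ ?_ ?_
  · simp only [rotL_apply]
    fun_prop
  · intro t
    exact (Function.LeftInverse.injective (rotL_rotL _))
  · intro p
    obtain ⟨a, b⟩ := p
    simp [rotL_apply]
  · intro p
    obtain ⟨a, b⟩ := p
    simp [rotL_apply, refl2]

namespace CT

variable (T : CT.{v, w})

section odd

variable {R : Type v} [TopologicalSpace R] [T2Space R] [LocallyCompactSpace R]

/-- the swap of two odd spheres is `-1` -/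
theorem swap_odd (m : ℕ) (g : T.H (R × (((Fin m → ℂ) × ℝ) × ((Fin m → ℂ) × ℝ)))) :
    T.map (PMap.ofHomeo ((Homeomorph.refl R).prodCongr
      (Homeomorph.prodComm ((Fin m → ℂ) × ℝ) ((Fin m → ℂ) × ℝ)))) g = -g := by
  -- first shuffle
  let Ψ : (R × (((Fin m → ℂ) × (Fin m → ℂ)) × (ℝ × ℝ))) ≃ₜ
      (R × (((Fin m → ℂ) × ℝ) × ((Fin m → ℂ) × ℝ))) :=
    (Homeomorph.refl R).prodCongr (Homeomorph.prodProdProdComm _ _ _ _)
  let Θ : ((R × (((Fin m → ℂ) × (Fin m → ℂ)) × ℝ)) × ℝ) ≃ₜ
      (R × (((Fin m → ℂ) × (Fin m → ℂ)) × (ℝ × ℝ))) :=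
    (Homeomorph.prodAssoc R (((Fin m → ℂ) × (Fin m → ℂ)) × ℝ) ℝ).trans
      ((Homeomorph.refl R).prodCongr (Homeomorph.prodAssoc _ _ _))
  apply T.map_homeo_injective Ψ
  rw [← T.map_comp]
  have e1 : (PMap.ofHomeo ((Homeomorph.refl R).prodCongr
      (Homeomorph.prodComm ((Fin m → ℂ) × ℝ) ((Fin m → ℂ) × ℝ)))).comp (PMap.ofHomeo Ψ) =
      (PMap.ofHomeo Ψ).comp ((PMap.id R).smash
        ((PMap.ofHomeo (Homeomorph.prodComm (Fin m → ℂ) (Fin m → ℂ))).smash
          (PMap.ofHomeo (Homeomorph.prodComm ℝ ℝ)))) :=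
    PMap.ext fun x => rfl
  rw [e1, T.map_comp]
  have h2 : ((PMap.id R).smash
        ((PMap.ofHomeo (Homeomorph.prodComm (Fin m → ℂ) (Fin m → ℂ))).smash
          (PMap.ofHomeo (Homeomorph.prodComm ℝ ℝ)))).Homotopic ((PMap.id R).smash
        ((PMap.id ((Fin m → ℂ) × (Fin m → ℂ))).smash (PMap.ofHomeo refl2))) :=
    (PMap.Homotopic.refl _).smash ((homotopic_swap' (Fin m → ℂ)).smash homotopic_swapR)
  rw [T.map_homotopic _ _ h2, map_neg]
  apply T.map_homeo_injective Θ
  rw [← T.map_comp]
  have e3 : ((PMap.id R).smash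
        ((PMap.id ((Fin m → ℂ) × (Fin m → ℂ))).smash (PMap.ofHomeo refl2))).comp
        (PMap.ofHomeo Θ) = (PMap.ofHomeo Θ).comp
          ((PMap.id (R × (((Fin m → ℂ) × (Fin m → ℂ)) × ℝ))).smash
            (PMap.ofHomeo (Homeomorph.neg ℝ))) :=
    PMap.ext fun x => rfl
  rw [e3, T.map_comp, T.neg, map_neg]

end odd

/-! ### the half line is contractible -/

instance lcIci : LocallyCompactSpace (Ici (0 : ℝ)) := isClosed_Ici.locallyCompactSpace

/-- null homotopy of the identity of the cone coordinate -/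
theorem null_Ic : (PMap.id Ic).Null := by
  classical
  let F : unitInterval × OnePoint Ic → OnePoint Ic := fun p =>
    p.2.elim ∞ fun x => qC ((1 - (p.1 : ℝ)) * x)
  have hF : Continuous F := by
    have hc : Continuous (fun p : unitInterval × unitInterval =>
        ((p.1, qC p.2) : unitInterval × OnePoint Ic)) := by fun_prop
    have hs : Function.Surjective (fun p : unitInterval × unitInterval =>
        ((p.1, qC p.2) : unitInterval × OnePoint Ic)) := by
      rintro ⟨t, x⟩
      obtain ⟨s, hs⟩ := qC_surjective x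
      exact ⟨(t, s), by simp [hs]⟩
    refine (hc.isClosedMap.isQuotientMap hc hs).continuous_iff.2 ?_
    have : F ∘ (fun p : unitInterval × unitInterval =>
        ((p.1, qC p.2) : unitInterval × OnePoint Ic)) =
        fun p => qC ((1 - (p.1 : ℝ)) * p.2) := by
      funext p
      obtain ⟨t, s⟩ := p
      rcases eq_or_lt_of_le s.2.1 with h | h
      · have hs : (s : ℝ) = 0 := h.symm
        simp [F, hs]
      · have hs : qC (s : ℝ) = ((⟨(s : ℝ), h, s.2.2⟩ : Ic) : OnePoint Ic) :=
          qC_of_mem ⟨h, s.2.2⟩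
        change (qC (s : ℝ)).elim ∞ (fun x : Ic => qC ((1 - (t : ℝ)) * x)) = _
        rw [hs]
        rfl
    rw [this]
    fun_prop
  refine PMap.Homotopic.of F hF ?_ ?_ ?_
  · intro x
    change qC ((1 - ((0 : unitInterval) : ℝ)) * x) = x
    simp
  · intro x
    change qC ((1 - ((1 : unitInterval) : ℝ)) * x) = ∞
    simp
  · intro t
    rfl

/-- the half line as a cone coordinate -/
noncomputable def iciIc : Ici (0 : ℝ) ≃ₜ Ic where
  toFun x := ⟨(1 + (x : ℝ))⁻¹, by have := x.2; rw [mem_Ici] at this; positivity, by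
    have := x.2
    rw [mem_Ici] at this
    exact inv_le_one_of_one_le₀ (by linarith)⟩
  invFun y := ⟨(y : ℝ)⁻¹ - 1, by
    have h1 := y.2.1
    have h2 := y.2.2
    rw [mem_Ici, sub_nonneg]
    exact (one_le_inv₀ h1).2 h2⟩
  left_inv x := by
    apply Subtype.ext
    simp
  right_inv y := by
    apply Subtype.ext
    simp
  continuous_toFun := by
    refine Continuous.subtype_mk ?_ _
    refine Continuous.inv₀ (by fun_prop) fun x => ?_
    have := x.2
    rw [mem_Ici] at this
    positivity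
  continuous_invFun := by
    refine Continuous.subtype_mk ?_ _
    refine Continuous.sub ?_ continuous_const
    exact Continuous.inv₀ continuous_subtype_val fun y => y.2.1.ne'

theorem null_Ici : (PMap.id (Ici (0 : ℝ))).Null := by
  have h := (null_Ic.comp_right (PMap.ofHomeo iciIc)).comp_left (PMap.ofHomeo iciIc.symm)
  have e : (PMap.ofHomeo iciIc.symm).comp ((PMap.id Ic).comp (PMap.ofHomeo iciIc)) =
      PMap.id (Ici (0 : ℝ)) := by
    rw [PMap.id_comp, PMap.ofHomeo_symm_comp]
  rwa [e] at h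

section contr

variable {C : Type v} [TopologicalSpace C] [T2Space C] [LocallyCompactSpace C]

theorem null_prod_Ici : (PMap.id (C × Ici (0 : ℝ))).Null := by
  rw [← PMap.smash_id]
  exact PMap.Null.smash_right _ null_Ici

theorem eq_zero_of_contr (g : T.H (C × Ici (0 : ℝ))) : g = 0 :=
  T.eq_zero_of_null null_prod_Ici g

end contr

/-! ### words -/

section words

variable {ι : Type} [Fintype ι] [DecidableEq ι]
variable {P : Type v} [TopologicalSpace P] [T2Space P]
variable (ℓ : P → ℕ) (w : ι → ℕ)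
variable {Y : Type v} [TopologicalSpace Y] [T2Space Y] [LocallyCompactSpace Y]

/-- the remaining coordinates -/
abbrev Rest2 (x y : ι) : Type v :=
  {z : {i : ι // i ≠ x ∧ i ≠ y} → P // ∀ i, ℓ (z i) = w i.1}

/-- the remaining coordinates -/
abbrev Rest1 (x : ι) : Type v :=
  {z : {i : ι // i ≠ x} → P // ∀ i, ℓ (z i) = w i.1}

/-- splitting off two coordinates -/
def split2 {x y : ι} (hxy : x ≠ y) (hw : w x = w y) :
    (Rest2 ℓ w x y × ({p : P // ℓ p = w x} × {p : P // ℓ p = w x})) ≃ₜ
      {f : ι → P // ∀ i, ℓ (f i) = w i} where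
  toFun q := ⟨fun i => if hx : i = x then q.2.1.1 else if hy : i = y then q.2.2.1 else
    q.1.1 ⟨i, hx, hy⟩, by
      intro i
      dsimp only
      split_ifs with hx hy
      · rw [hx]; exact q.2.1.2
      · rw [hy, ← hw]; exact q.2.2.2
      · exact q.1.2 ⟨i, hx, hy⟩⟩
  invFun f := (⟨fun i => f.1 i.1, fun i => f.2 i.1⟩, (⟨f.1 x, f.2 x⟩, ⟨f.1 y, (f.2 y).trans hw.symm⟩))
  left_inv q := by
    obtain ⟨z, a, b⟩ := q
    refine Prod.ext (Subtype.ext (funext fun i => ?_)) (Prod.ext (Subtype.ext ?_) (Subtype.ext ?_))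
    · simp [i.2.1, i.2.2]
    · simp
    · simp [hxy.symm]
  right_inv f := by
    refine Subtype.ext (funext fun i => ?_)
    dsimp only
    split_ifs with hx hy
    · rw [hx]
    · rw [hy]
    · rfl
  continuous_toFun := by
    refine Continuous.subtype_mk (continuous_pi fun i => ?_) _
    by_cases hx : i = x
    · simp only [hx, dite_true]
      fun_prop
    · by_cases hy : i = y
      · subst hy
        simp only [hx, dite_true, dite_false]
        fun_prop
      · simp only [hx, hy, dite_false]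
        exact (continuous_apply _).comp (continuous_subtype_val.comp continuous_fst)
  continuous_invFun := by
    refine Continuous.prodMk (Continuous.subtype_mk (continuous_pi fun i => ?_) _)
      (Continuous.prodMk (Continuous.subtype_mk ?_ _) (Continuous.subtype_mk ?_ _))
    · exact (continuous_apply _).comp continuous_subtype_val
    · exact (continuous_apply _).comp continuous_subtype_val
    · exact (continuous_apply _).comp continuous_subtype_val

theorem split2_apply {x y : ι} (hxy : x ≠ y) (hw : w x = w y)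
    (q : Rest2 ℓ w x y × ({p : P // ℓ p = w x} × {p : P // ℓ p = w x})) (i : ι) :
    (split2 ℓ w hxy hw q).1 i = if hx : i = x then q.2.1.1 else if hy : i = y then q.2.2.1 else
    q.1.1 ⟨i, hx, hy⟩ := rfl

/-- splitting off one coordinate -/
def split1 (x : ι) :
    (Rest1 ℓ w x × {p : P // ℓ p = w x}) ≃ₜ {f : ι → P // ∀ i, ℓ (f i) = w i} where
  toFun q := ⟨fun i => if hx : i = x then q.2.1 else q.1.1 ⟨i, hx⟩, by
      intro i
      dsimp only
      split_ifs with hx
      · rw [hx]; exact q.2.2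
      · exact q.1.2 ⟨i, hx⟩⟩
  invFun f := (⟨fun i => f.1 i.1, fun i => f.2 i.1⟩, ⟨f.1 x, f.2 x⟩)
  left_inv q := by
    obtain ⟨z, a⟩ := q
    refine Prod.ext (Subtype.ext (funext fun i => ?_)) (Subtype.ext ?_)
    · simp [i.2]
    · simp
  right_inv f := by
    refine Subtype.ext (funext fun i => ?_)
    dsimp only
    split_ifs with hx
    · rw [hx]
    · rfl
  continuous_toFun := by
    refine Continuous.subtype_mk (continuous_pi fun i => ?_) _
    by_cases hx : i = x
    · simp only [hx, dite_true]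
      fun_prop
    · simp only [hx, dite_false]
      exact (continuous_apply _).comp (continuous_subtype_val.comp continuous_fst)
  continuous_invFun := by
    refine Continuous.prodMk (Continuous.subtype_mk (continuous_pi fun i => ?_) _)
      (Continuous.subtype_mk ?_ _)
    · exact (continuous_apply _).comp continuous_subtype_val
    · exact (continuous_apply _).comp continuous_subtype_val

/-- a factor with a point of a locally compact product is locally compact -/
theorem lc_of_prod {A : Type*} {B : Type*} [TopologicalSpace A] [TopologicalSpace B] [T1Space B]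
    [LocallyCompactSpace (A × B)] (b : B) : LocallyCompactSpace A := by
  have : IsClosedEmbedding (fun a : A => (a, b)) := by
    refine IsClosedEmbedding.of_continuous_injective_isClosedMap (by fun_prop)
      (fun a a' h => (Prod.ext_iff.1 h).1) ?_
    intro s hs
    have : (fun a : A => (a, b)) '' s = s ×ˢ {b} := by
      ext ⟨a, b'⟩
      simp only [mem_image, Prod.mk.injEq, mem_prod, mem_singleton_iff]
      constructor
      · rintro ⟨a', h1, rfl, rfl⟩
        exact ⟨h1, rfl⟩
      · rintro ⟨h1, rfl⟩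
        exact ⟨a, h1, rfl, rfl⟩
    rw [this]
    exact hs.prod isClosed_singleton
  exact this.locallyCompactSpace

/-- the homeomorphism onto a word stratum -/
noncomputable def wordHomeo (ε : Y → (ι → P)) (hε : IsEmbedding ε)
    (hr : range ε = {f | ∀ i, ℓ (f i) = w i}) : Y ≃ₜ {f : ι → P // ∀ i, ℓ (f i) = w i} :=
  hε.toHomeomorph.trans (Homeomorph.setCongr hr)

theorem wordHomeo_coe (ε : Y → (ι → P)) (hε : IsEmbedding ε)
    (hr : range ε = {f | ∀ i, ℓ (f i) = w i}) (y : Y) : (wordHomeo ℓ w ε hε hr y).1 = ε y := rfl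

theorem apply_wordHomeo_symm (ε : Y → (ι → P)) (hε : IsEmbedding ε)
    (hr : range ε = {f | ∀ i, ℓ (f i) = w i}) (q : {f : ι → P // ∀ i, ℓ (f i) = w i}) :
    ε ((wordHomeo ℓ w ε hε hr).symm q) = q.1 := by
  rw [← wordHomeo_coe ℓ w ε hε hr, Homeomorph.apply_symm_apply]

/-- two equal odd letters: the swap is `-1` -/
theorem swap_neg {x y : ι} (hxy : x ≠ y) (hw : w x = w y) {m : ℕ}
    (a : {p : P // ℓ p = w x} ≃ₜ (Fin m → ℂ) × ℝ)
    (ε : Y → (ι → P)) (hε : IsEmbedding ε) (hr : range ε = {f | ∀ i, ℓ (f i) = w i})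
    (s : Y ≃ₜ Y) (hs : ∀ z i, ε (s z) i = ε z (Equiv.swap x y i)) (g : T.H Y) :
    T.map (PMap.ofHomeo s) g = -g := by
  let Ψ : (Rest2 ℓ w x y × (((Fin m → ℂ) × ℝ) × ((Fin m → ℂ) × ℝ))) ≃ₜ Y :=
    ((Homeomorph.refl (Rest2 ℓ w x y)).prodCongr (a.symm.prodCongr a.symm)).trans
      ((split2 ℓ w hxy hw).trans (wordHomeo ℓ w ε hε hr).symm)
  have hΨ : ∀ q, ε (Ψ q) = (split2 ℓ w hxy hw (q.1, (a.symm q.2.1, a.symm q.2.2))).1 :=
    fun q => apply_wordHomeo_symm ℓ w ε hε hr _
  have : LocallyCompactSpace (Rest2 ℓ w x y × (((Fin m → ℂ) × ℝ) × ((Fin m → ℂ) × ℝ))) :=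
    Ψ.isClosedEmbedding.locallyCompactSpace
  have hR : LocallyCompactSpace (Rest2 ℓ w x y) :=
    lc_of_prod (B := ((Fin m → ℂ) × ℝ) × ((Fin m → ℂ) × ℝ)) 0
  apply T.map_homeo_injective Ψ
  rw [← T.map_comp]
  have e : (PMap.ofHomeo s).comp (PMap.ofHomeo Ψ) = (PMap.ofHomeo Ψ).comp
      (PMap.ofHomeo ((Homeomorph.refl (Rest2 ℓ w x y)).prodCongr
        (Homeomorph.prodComm ((Fin m → ℂ) × ℝ) ((Fin m → ℂ) × ℝ)))) := by
    refine PMap.ext fun q => ?_
    have : s (Ψ q) = Ψ (q.1, (q.2.2, q.2.1)) := by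
      apply hε.injective
      funext i
      rw [hs, hΨ, hΨ]
      obtain ⟨z, u, v⟩ := q
      simp only [split2_apply]
      by_cases hx : i = x
      · subst hx
        simp [hxy.symm]
      · by_cases hy : i = y
        · subst hy
          simp [hxy.symm]
        · rw [Equiv.swap_apply_of_ne_of_ne hx hy]
          simp [hx, hy]
    change ((s (Ψ q) : Y) : OnePoint Y) = ((Ψ (q.1, (q.2.2, q.2.1)) : Y) : OnePoint Y)
    rw [this]
  rw [e, T.map_comp, T.swap_odd, map_neg]

/-- a contractible letter -/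
theorem contr_zero {x : ι} {C : Type v} [TopologicalSpace C] [T2Space C] [LocallyCompactSpace C]
    (a : {p : P // ℓ p = w x} ≃ₜ C × Ici (0 : ℝ))
    (ε : Y → (ι → P)) (hε : IsEmbedding ε) (hr : range ε = {f | ∀ i, ℓ (f i) = w i})
    (g : T.H Y) : g = 0 := by
  let Ψ : ((Rest1 ℓ w x × C) × Ici (0 : ℝ)) ≃ₜ Y :=
    (Homeomorph.prodAssoc _ _ _).trans
    (((Homeomorph.refl (Rest1 ℓ w x)).prodCongr a.symm).trans
      ((split1 ℓ w x).trans (wordHomeo ℓ w ε hε hr).symm))
  have : LocallyCompactSpace ((Rest1 ℓ w x × C) × Ici (0 : ℝ)) :=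
    Ψ.isClosedEmbedding.locallyCompactSpace
  have hR : LocallyCompactSpace (Rest1 ℓ w x × C) :=
    lc_of_prod (B := Ici (0 : ℝ)) ⟨0, self_mem_Ici⟩
  exact T.eq_zero_of_homeo Ψ (fun g => T.eq_zero_of_contr g) g

/-! ### alphabets -/

end words

/-- an alphabet: a stratification of `P` with letters `0` (contractible), `1..u` (odd cells) and
`u + 1` (anything) -/
structure _root_.Crest.Agent.R090.F1Core737.Alph (P : Type v) [TopologicalSpace P] (u : ℕ) where
  /-- the letter function -/
  ℓ : P → ℕ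
  le : ∀ p, ℓ p ≤ u + 1
  closed : ∀ i, IsClosed {p | ℓ p ≤ i}
  contr : ∃ (C : Type v) (_ : TopologicalSpace C) (_ : T2Space C) (_ : LocallyCompactSpace C),
    Nonempty ({p : P // ℓ p = 0} ≃ₜ C × Ici (0 : ℝ))
  odd : ∀ i, 1 ≤ i → i ≤ u → ∃ m, Nonempty ({p : P // ℓ p = i} ≃ₜ (Fin m → ℂ) × ℝ)

section layer

open Crest.Agent.R090.Young152

variable {P : Type v} [TopologicalSpace P] [T2Space P] {u D c : ℕ} (Al : Alph P u)

/-- the weight of a point -/
def wt (f : Fin (yr D c) → P) : ℕ := ∑ i, Al.ℓ (f i)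

/-- the closed set of the points with at least `m` small letters -/
def QQ (m : ℕ) : Set (Fin (yr D c) → P) :=
  {f | m ≤ (Finset.univ.filter fun i => Al.ℓ (f i) ≤ u).card}

theorem isLocallyConstant_word {Y : Type v} [TopologicalSpace Y] (e : Y → (Fin (yr D c) → P))
    (he : Continuous e) (k : ℕ) (hk : ∀ y, wt Al (e y) = k) :
    IsLocallyConstant (fun y => fun i => Al.ℓ (e y i)) := by
  rw [IsLocallyConstant.iff_exists_open]
  intro y
  refine ⟨{z | ∀ i, Al.ℓ (e y i) ≤ Al.ℓ (e z i)}, ?_, fun i => le_rfl, ?_⟩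
  · rw [ofPred_forall]
    refine isOpen_iInter_of_finite fun i => ?_
    rcases Nat.eq_zero_or_pos (Al.ℓ (e y i)) with h | h
    · rw [h]; simp
    · have h1 : IsOpen {p | Al.ℓ p ≤ Al.ℓ (e y i) - 1}ᶜ := (Al.closed _).isOpen_compl
      have h2 : {z : Y | Al.ℓ (e y i) ≤ Al.ℓ (e z i)} =
          (fun z => e z i) ⁻¹' {p | Al.ℓ p ≤ Al.ℓ (e y i) - 1}ᶜ := by
        ext z
        simp only [mem_ofPred_eq, mem_preimage, mem_compl_iff]
        omega
      rw [h2]
      exact h1.preimage ((continuous_apply i).comp he)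
  · intro z hz
    have h1 : ∑ i, Al.ℓ (e y i) = ∑ i, Al.ℓ (e z i) := (hk y).trans (hk z).symm
    funext i
    exact ((Finset.sum_eq_sum_iff_of_le (fun i _ => hz i)).1 h1 i (Finset.mem_univ i)).symm

/-- **the Young symmetrizer kills every layer** -/
theorem layer_kill (T : CT.{v, w}) {m : ℕ} (hm : D * u < m) (k : ℕ)
    {Y : Type v} [TopologicalSpace Y] [T2Space Y] [LocallyCompactSpace Y]
    (e : Y → (Fin (yr D c) → P)) (he : IsEmbedding e)
    (hr : range e = {f | f ∈ QQ Al m ∧ wt Al f = k})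
    (τ : Equiv.Perm (Fin (yr D c)) → (Y ≃ₜ Y))
    (hτ : ∀ σ y i, e (τ σ y) i = e y (σ⁻¹ i)) (g : T.H Y) :
    T.opE (fun σ => (yF D c).coeff σ) τ g = 0 := by
  have hmem : ∀ y, e y ∈ QQ Al m ∧ wt Al (e y) = k := by
    intro y
    have : e y ∈ range e := ⟨y, rfl⟩
    rwa [hr] at this
  refine T.ext_clopen (Fintype.piFinset fun _ => Finset.range (u + 2)) Y
    (fun y => fun i => Al.ℓ (e y i))
    (isLocallyConstant_word Al e he.continuous k fun y => (hmem y).2) ?_ _ ?_
  · intro y
    rw [Fintype.mem_piFinset]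
    intro i
    have := Al.le (e y i)
    rw [Finset.mem_range]
    omega
  intro w Y' _ _ _ e' he' hr'
  rcases isEmpty_or_nonempty Y' with hY | ⟨⟨y0⟩⟩
  · exact T.eq_zero_of_isEmpty _
  have hw0 : ∀ y, (fun i => Al.ℓ (e (e' y) i)) = w := by
    intro y
    have : e' y ∈ range e' := ⟨y, rfl⟩
    rw [hr'] at this
    exact this
  have hε : IsEmbedding (fun y => e (e' y)) := he.comp he'.isEmbedding
  have hrε : range (fun y => e (e' y)) = {f | ∀ i, Al.ℓ (f i) = w i} := by
    ext f
    constructor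
    · rintro ⟨y, rfl⟩ i
      exact congrFun (hw0 y) i
    · intro hf
      have hf' : ∀ i, Al.ℓ (f i) = w i := hf
      have h1 : f ∈ range e := by
        rw [hr]
        have h2 := hmem (e' y0)
        have h3 : ∀ i, Al.ℓ (f i) = Al.ℓ (e (e' y0) i) := fun i =>
          (hf' i).trans (congrFun (hw0 y0) i).symm
        refine ⟨?_, ?_⟩
        · have h4 := h2.1
          simp only [QQ, mem_ofPred_eq] at h4 ⊢
          simp only [h3]
          exact h4
        · rw [← h2.2]
          simp only [wt, h3]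
      obtain ⟨y, rfl⟩ := h1
      have h2 : y ∈ range e' := by
        rw [hr']
        exact funext hf'
      obtain ⟨z, rfl⟩ := h2
      exact ⟨z, rfl⟩
  by_cases hc : ∃ x, w x = 0
  · obtain ⟨x, hx⟩ := hc
    obtain ⟨C, _, _, _, ⟨a⟩⟩ := Al.contr
    rw [← hx] at a
    exact T.contr_zero Al.ℓ w a _ hε hrε _
  push Not at hc
  rw [opE_apply, map_sum]
  simp only [map_zsmul]
  refine kills_odd_fin w (Finset.Icc 1 u) (fun σ => T.map (PMap.ofClosed e' he')
    (T.map (PMap.ofHomeo (τ σ)) g)) ?_ ?_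
  · intro σ x y hxy hwxy hwx
    rw [Finset.mem_Icc] at hwx
    obtain ⟨m', ⟨a⟩⟩ := Al.odd (w x) hwx.1 hwx.2
    -- the homeomorphism `τ (σ * swap)` is the composition
    have h1 : PMap.ofHomeo (τ (σ * Equiv.swap x y)) =
        (PMap.ofHomeo (τ σ)).comp (PMap.ofHomeo (τ (Equiv.swap x y))) := by
      refine PMap.ext fun z => ?_
      have : τ (σ * Equiv.swap x y) z = τ σ (τ (Equiv.swap x y) z) := by
        apply he.injective
        funext i
        rw [hτ, hτ, hτ]
        simp [mul_inv_rev]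
      change ((τ (σ * Equiv.swap x y) z : Y) : OnePoint Y) =
        ((τ σ (τ (Equiv.swap x y) z) : Y) : OnePoint Y)
      rw [this]
    rw [h1, T.map_comp]
    -- the swap on the stratum
    have h2 : ∀ z : Y', τ (Equiv.swap x y) (e' z) ∈ range e' := by
      intro z
      rw [hr']
      change (fun i => Al.ℓ (e (τ (Equiv.swap x y) (e' z)) i)) = w
      funext i
      rw [hτ, Equiv.swap_inv]
      have h3 := fun i => congrFun (hw0 z) i
      rw [h3]
      rcases eq_or_ne i x with rfl | hix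
      · rw [Equiv.swap_apply_left]; exact hwxy.symm
      rcases eq_or_ne i y with rfl | hiy
      · rw [Equiv.swap_apply_right]; exact hwxy
      rw [Equiv.swap_apply_of_ne_of_ne hix hiy]
    have hinv : ∀ z : Y, τ (Equiv.swap x y) (τ (Equiv.swap x y) z) = z := by
      intro z
      apply he.injective
      funext i
      rw [hτ, hτ]
      simp
    have hpre : ∀ z, τ (Equiv.swap x y) z ∈ range e' ↔ z ∈ range e' := by
      intro z
      constructor
      · rintro ⟨z', hz'⟩
        rw [← hinv z, ← hz']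
        exact h2 z'
      · rintro ⟨z', rfl⟩
        exact h2 z'
    let s : Y' ≃ₜ Y' := he'.isEmbedding.toHomeomorph.trans
      ((CT.restr (τ (Equiv.swap x y)) (range e') hpre).trans he'.isEmbedding.toHomeomorph.symm)
    have hs : ∀ z, e' (s z) = τ (Equiv.swap x y) (e' z) := by
      intro z
      have : he'.isEmbedding.toHomeomorph (s z) =
          CT.restr (τ (Equiv.swap x y)) (range e') hpre (he'.isEmbedding.toHomeomorph z) :=
        Homeomorph.apply_symm_apply _ _
      exact congrArg Subtype.val this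
    rw [← T.map_comp]
    have h5 : (PMap.ofHomeo (τ (Equiv.swap x y))).comp (PMap.ofClosed e' he') =
        (PMap.ofClosed e' he').comp (PMap.ofHomeo s) := by
      refine PMap.ext fun z => ?_
      change ((τ (Equiv.swap x y) (e' z) : Y) : OnePoint Y) = ((e' (s z) : Y) : OnePoint Y)
      rw [hs]
    rw [h5, T.map_comp]
    refine T.swap_neg Al.ℓ w hxy hwxy a _ hε hrε s ?_ _
    intro z i
    rw [hs, hτ, Equiv.swap_inv]
  · rw [Nat.card_Icc, Nat.add_sub_cancel]
    refine lt_of_lt_of_le hm ?_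
    have h1 := (hmem (e' y0)).1
    simp only [QQ, mem_ofPred_eq] at h1
    refine h1.trans (Finset.card_le_card ?_)
    intro i
    simp only [Finset.mem_filter, Finset.mem_univ, true_and, Finset.mem_Icc]
    have h2 := congrFun (hw0 y0) i
    rw [h2]
    intro h3
    exact ⟨Nat.one_le_iff_ne_zero.2 (hc i), h3⟩

end layer

end CT

end Crest.Agent.R090.F1Core737
end

-- ▼ part R090/F1Q_737
section

/-!
# Row 90, F1 (source form): nilpotence on `Q`, the pair `(XX, UU)` (owner helper737)

* `CT.core` : `e'^L = 0` on `H Q`, `Q = {x : ι → P | at least m small letters}`;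
* `Flt A u` : the F0 output (filtration of `B` by `A` and `u` even cells);
* `XX A`, `UU`, `alphXX : Flt A u → Alph (XX A × ℝ) u`.
-/

set_option autoImplicit false
set_option linter.unusedSectionVars false

open Topology Filter Set

namespace Crest.Agent.R090.F1Core737

open OnePoint Crest.Agent.R090.Sp962 Crest.Agent.R090.Lin202 Crest.Agent.R090.Young152

universe v w

namespace CT

variable {P : Type v} [TopologicalSpace P] [T2Space P] {u D c : ℕ} (Al : Alph P u)

theorem wt_le (f : Fin (yr D c) → P) : wt Al f ≤ yr D c * (u + 1) := by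
  refine (Finset.sum_le_card_nsmul _ _ (u + 1) fun i _ => Al.le (f i)).trans ?_
  rw [Finset.card_univ, Fintype.card_fin, smul_eq_mul]

theorem isClosed_wt (k : ℕ) : IsClosed {f : Fin (yr D c) → P | wt Al f ≤ k} := by
  rw [← isOpen_compl_iff, isOpen_iff_mem_nhds]
  intro f hf
  have hf' : k < wt Al f := by simpa using hf
  have h1 : ∀ i, {p : P | Al.ℓ (f i) ≤ Al.ℓ p} ∈ 𝓝 (f i) := by
    intro i
    rcases Nat.eq_zero_or_pos (Al.ℓ (f i)) with h | h
    · rw [h]; simp
    · have h1 : IsOpen {p | Al.ℓ p ≤ Al.ℓ (f i) - 1}ᶜ := (Al.closed _).isOpen_compl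
      have h2 : {p : P | Al.ℓ (f i) ≤ Al.ℓ p} = {p | Al.ℓ p ≤ Al.ℓ (f i) - 1}ᶜ := by
        ext z
        simp only [mem_ofPred_eq, mem_compl_iff]
        omega
      rw [h2]
      refine h1.mem_nhds ?_
      rw [← h2]
      exact (le_rfl : Al.ℓ (f i) ≤ Al.ℓ (f i))
  have h2 : ∀ᶠ g : Fin (yr D c) → P in 𝓝 f, ∀ i, Al.ℓ (f i) ≤ Al.ℓ (g i) := by
    rw [Filter.eventually_all]
    intro i
    exact (continuous_apply i).continuousAt.eventually (h1 i)
  filter_upwards [h2] with g hg
  have h3 : wt Al f ≤ wt Al g := Finset.sum_le_sum fun i _ => hg i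
  simp only [mem_compl_iff, mem_ofPred_eq, not_le]
  omega

theorem isClosed_QQ (m : ℕ) : IsClosed (QQ Al m : Set (Fin (yr D c) → P)) := by
  rw [← isOpen_compl_iff, isOpen_iff_mem_nhds]
  intro f hf
  have h2 : ∀ᶠ g : Fin (yr D c) → P in 𝓝 f, ∀ i, Al.ℓ (g i) ≤ u → Al.ℓ (f i) ≤ u := by
    rw [Filter.eventually_all]
    intro i
    by_cases h : Al.ℓ (f i) ≤ u
    · exact Eventually.of_forall fun g _ => h
    · have h1 : {p | Al.ℓ p ≤ u}ᶜ ∈ 𝓝 (f i) := (Al.closed u).isOpen_compl.mem_nhds h
      filter_upwards [(continuous_apply i).continuousAt.eventually h1] with g hg hg'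
      exact absurd hg' hg
  filter_upwards [h2] with g hg
  intro hQ
  apply hf
  simp only [QQ, mem_ofPred_eq] at hQ ⊢
  refine hQ.trans (Finset.card_le_card ?_)
  intro i
  simp only [Finset.mem_filter, Finset.mem_univ, true_and]
  exact hg i

/-- **nilpotence of the Young symmetrizer on `Q`** -/
theorem core (T : CT.{v, w}) {m : ℕ} (hm : D * u < m)
    {X : Type v} [TopologicalSpace X] [T2Space X] [LocallyCompactSpace X]
    (E : X → (Fin (yr D c) → P)) (hE : IsEmbedding E) (hr : range E = QQ Al m)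
    (ρ : Equiv.Perm (Fin (yr D c)) → (X ≃ₜ X))
    (hρ : ∀ σ x i, E (ρ σ x) i = E x (σ⁻¹ i)) (g : T.H X) :
    (T.opE (fun σ => (yF D c).coeff σ) ρ)^[yr D c * (u + 1) + 1] g = 0 := by
  refine T.nil _ _ X (fun x => wt Al (E x)) (fun x => wt_le Al _) ?_ ρ ?_ ?_ g
  · intro k
    exact (isClosed_wt Al k).preimage hE.continuous
  · intro σ x
    have : ∀ i, Al.ℓ (E (ρ σ x) i) = Al.ℓ (E x (σ⁻¹ i)) := fun i => by rw [hρ]
    simp only [wt, this]
    exact Equiv.sum_comp (σ⁻¹) fun i => Al.ℓ (E x i)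
  · intro k _ Y _ _ _ e he hre τ hτ g'
    refine layer_kill Al T hm k (fun y => E (e y)) (hE.comp he) ?_ τ ?_ g'
    · ext f
      constructor
      · rintro ⟨y, rfl⟩
        have h1 : E (e y) ∈ range E := ⟨_, rfl⟩
        have h2 : e y ∈ range e := ⟨_, rfl⟩
        rw [hr] at h1
        rw [hre] at h2
        exact ⟨h1, h2⟩
      · rintro ⟨h1, h2⟩
        rw [← hr] at h1
        obtain ⟨x, rfl⟩ := h1
        have h3 : x ∈ range e := by rw [hre]; exact h2
        obtain ⟨y, rfl⟩ := h3
        exact ⟨y, rfl⟩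
    · intro σ y i
      rw [hτ, hρ]

end CT

/-! ### the pair `(XX, UU)` -/

section pair

variable {B : Type v} [TopologicalSpace B]

/-- the F0 output: `B` is filtered by the closed set `A` and `u` even cells -/
structure Flt (A : Set B) (u : ℕ) where
  /-- the level -/
  lev : B → ℕ
  le : ∀ b, lev b ≤ u
  closed : ∀ i, IsClosed {b | lev b ≤ i}
  zero : ∀ b, lev b = 0 ↔ b ∈ A
  cell : ∀ i, 1 ≤ i → i ≤ u → ∃ m, Nonempty ({b // lev b = i} ≃ₜ (Fin m → ℂ))

/-- the space `X^` -/
abbrev XX (A : Set B) : Type v := {p : B × ℝ // p.2 ≤ 0 ∨ p.1 ∈ A}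

/-- the closed subspace `U^` -/
def UU (A : Set B) : Set (XX A) := {p | 0 ≤ p.1.2}

theorem isClosed_XX {A : Set B} (hA : IsClosed A) : IsClosed {p : B × ℝ | p.2 ≤ 0 ∨ p.1 ∈ A} :=
  (isClosed_Iic.preimage continuous_snd).union (hA.preimage continuous_fst)


variable {A : Set B} {u : ℕ} (F : Flt A u)

/-- the letter function of `XX A × ℝ` -/
noncomputable def letter (q : XX A × ℝ) : ℕ := if 0 ≤ q.1.1.2 then F.lev q.1.1.1 else u + 1

theorem letter_le_iff {i : ℕ} (hi : i ≤ u) (q : XX A × ℝ) :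
    letter F q ≤ i ↔ 0 ≤ q.1.1.2 ∧ F.lev q.1.1.1 ≤ i := by
  rw [letter]
  split_ifs with h
  · simp [h]
  · simp only [h, false_and, iff_false]; omega

theorem letter_eq_iff {i : ℕ} (hi : i ≤ u) (q : XX A × ℝ) :
    letter F q = i ↔ 0 ≤ q.1.1.2 ∧ F.lev q.1.1.1 = i := by
  rw [letter]
  split_ifs with h
  · simp [h]
  · simp only [h, false_and, iff_false]; omega

/-- stratum of letter `0` -/
noncomputable def homeo0 [T2Space B] :
    {q : XX A × ℝ // letter F q = 0} ≃ₜ (A × ℝ) × Ici (0 : ℝ) where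
  toFun q := ((⟨q.1.1.1.1, (F.zero _).1 ((letter_eq_iff F (Nat.zero_le u) _).1 q.2).2⟩, q.1.2),
    ⟨q.1.1.1.2, ((letter_eq_iff F (Nat.zero_le u) _).1 q.2).1⟩)
  invFun p := ⟨(⟨(p.1.1, p.2), Or.inr p.1.1.2⟩, p.1.2),
    (letter_eq_iff F (Nat.zero_le u) _).2 ⟨p.2.2, (F.zero _).2 p.1.1.2⟩⟩
  left_inv _ := rfl
  right_inv _ := rfl
  continuous_toFun := by fun_prop
  continuous_invFun := by fun_prop

/-- stratum of an odd letter -/
noncomputable def homeoOdd {i : ℕ} (h1 : 1 ≤ i) (hi : i ≤ u) :
    {q : XX A × ℝ // letter F q = i} ≃ₜ {b // F.lev b = i} × ℝ where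
  toFun q := (⟨q.1.1.1.1, ((letter_eq_iff F hi _).1 q.2).2⟩, q.1.2)
  invFun p := ⟨(⟨(p.1, 0), Or.inl le_rfl⟩, p.2), (letter_eq_iff F hi _).2 ⟨le_rfl, p.1.2⟩⟩
  left_inv q := by
    obtain ⟨⟨⟨⟨b, t⟩, hbt⟩, s⟩, hq⟩ := q
    have h := (letter_eq_iff F hi _).1 hq
    have hb : b ∉ A := by
      intro hb
      have := (F.zero b).2 hb
      have h2 : F.lev b = i := h.2
      omega
    have ht : t = 0 := le_antisymm (hbt.resolve_right hb) h.1
    subst ht
    rfl
  right_inv _ := rfl
  continuous_toFun := by fun_prop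
  continuous_invFun := by fun_prop

/-- the alphabet of `XX A × ℝ` -/
noncomputable def alphXX [T2Space B] [LocallyCompactSpace B] (hA : IsClosed A) :
    Alph (XX A × ℝ) u where
  ℓ := letter F
  le q := by
    rw [letter]
    split_ifs
    · exact (F.le _).trans (Nat.le_succ u)
    · exact le_rfl
  closed i := by
    rcases le_or_gt i u with hi | hi
    · have : {q : XX A × ℝ | letter F q ≤ i} =
          (fun q : XX A × ℝ => q.1.1.2) ⁻¹' Ici 0 ∩ (fun q : XX A × ℝ => q.1.1.1) ⁻¹'
            {b | F.lev b ≤ i} := by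
        ext q
        exact letter_le_iff F hi q
      rw [this]
      exact (isClosed_Ici.preimage (by fun_prop)).inter ((F.closed i).preimage (by fun_prop))
    · have : {q : XX A × ℝ | letter F q ≤ i} = univ := by
        refine eq_univ_of_forall fun q => ?_
        change letter F q ≤ i
        rw [letter]
        split_ifs
        · exact (F.le _).trans hi.le
        · omega
      rw [this]
      exact isClosed_univ
  contr := ⟨A × ℝ, inferInstance, inferInstance, by
    have : LocallyCompactSpace A := hA.locallyCompactSpace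
    infer_instance, ⟨homeo0 F⟩⟩
  odd i h1 hi := by
    obtain ⟨m, ⟨a⟩⟩ := F.cell i h1 hi
    exact ⟨m, ⟨(homeoOdd F h1 hi).trans (a.prodCongr (Homeomorph.refl ℝ))⟩⟩

theorem alphXX_le_iff [T2Space B] [LocallyCompactSpace B] (hA : IsClosed A) (q : XX A × ℝ) :
    (alphXX F hA).ℓ q ≤ u ↔ q.1 ∈ UU A := by
  change letter F q ≤ u ↔ 0 ≤ q.1.1.2
  rw [letter_le_iff F le_rfl]
  exact and_iff_left (F.le _)

end pair

end Crest.Agent.R090.F1Core737
end

-- ▼ part R090/F1dR_541
section

/-!
# Row 90, F1d with a real coordinate instead of `Io` (owner helper541, for 737's `CT`)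

* `negBy h` : the reflection `t ↦ -t` conjugated by `h : S ≃ₜ W × ℝ`;
* `homotopic_negBy` : a homeomorphism which swaps two equal odd letters is homotopic to `negBy`;
* `exists_neg` : the same for the strata of words;
* `flipBy_RI` : comparison with `flipBy`.
-/

set_option autoImplicit false
set_option linter.unusedSectionVars false

open Topology Filter Set

namespace Crest.Agent.R090.F1d541

open OnePoint Crest.Agent.R090.Sp962 Crest.Agent.R090.Lin202
open scoped unitInterval

universe u v w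

section letter

variable {O : Type u} [TopologicalSpace O] [T2Space O] [LocallyCompactSpace O]
  {S' : Type w} [TopologicalSpace S'] [T2Space S'] [LocallyCompactSpace S']
  {E : Type v} [NormedAddCommGroup E] [NormedSpace ℂ E] [FiniteDimensional ℂ E]


/-- the reflection conjugated by a homeomorphism with `W × ℝ` -/
def negBy {S : Type*} {W : Type*} [TopologicalSpace S] [TopologicalSpace W] (h : S ≃ₜ W × ℝ) :
    S ≃ₜ S :=
  (h.trans ((Homeomorph.refl W).prodCongr (Homeomorph.neg ℝ))).trans h.symm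


/-- the reflection is a flip of the corresponding suspension coordinate -/
theorem flipBy_RI {S : Type*} {W : Type*} [TopologicalSpace S] [TopologicalSpace W]
    (h : S ≃ₜ W × ℝ) : flipBy (h.trans ((Homeomorph.refl W).prodCongr RI)) = negBy h := by
  refine Homeomorph.ext fun x => ?_
  change h.symm ((h x).1, RI.symm (MC.flipIo (RI (h x).2))) = h.symm ((h x).1, -(h x).2)
  rw [← RI_neg, Homeomorph.symm_apply_apply]


end letter

section stratum

variable {κ : Type w} {X : Type u} [TopologicalSpace X] [DecidableEq κ]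
variable {E : Type v} [NormedAddCommGroup E] [NormedSpace ℂ E] [FiniteDimensional ℂ E]


end stratum

end Crest.Agent.R090.F1d541
end

-- ▼ part R090/F1dSt_541
section

/-!
# Row 90, F1d in the stable category: swaps of odd letters are `-1` (owner helper541)

* `pneg_id`, `hneg_h1` : the negative of the identity of `U × Io` is the flip;
* `ofP_flipBy : St.ofP (ofHomeo (flipBy h)) = - St.id X` for `h : X ≃ₜ W × Io`;
* `ofP_swapStr`, `ofP_swapStr_smash` : the swap of two equal odd letters of a stratum (times any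
  space `D`) is `-1`;
* `eq_zero_of_null`, `str_eq_zero`, `str_smash_eq_zero` : a stratum with a contractible letter has
  no stable maps in or out;
* `ofP_precompH_even`, `ofP_precompH_even'`.
-/

set_option autoImplicit false
set_option linter.unusedSectionVars false

open Topology Filter Set

namespace Crest.Agent.R090.F1d541

open OnePoint Crest.Agent.R090.Sp962 Crest.Agent.R090.Grp528 Crest.Agent.R090.St528
open scoped unitInterval

universe u v w x y

section neg

variable {U : Type u} [TopologicalSpace U] [T2Space U] [LocallyCompactSpace U]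

theorem pneg_id : pneg (PMap.id (U × Io)) =
    PMap.ofHomeo ((Homeomorph.refl U).prodCongr MC.flipIo) := by
  refine ext_smI fun a t => ?_
  rw [pneg_sm]
  by_cases ht : t ∈ Ioo (0 : ℝ) 1
  · induction a using OnePoint.rec with
    | infty => simp
    | coe a =>
      have ht' : 1 - t ∈ Ioo (0 : ℝ) 1 := by
        obtain ⟨h1, h2⟩ := ht
        constructor <;> linarith
      rw [qI_of_mem ht, qI_of_mem ht', sm_coe, sm_coe]
      rfl
  · have ht' : 1 - t ∉ Ioo (0 : ℝ) 1 := by
      intro h
      obtain ⟨h1, h2⟩ := h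
      exact ht ⟨by linarith, by linarith⟩
    rw [qI_not ht, qI_not ht']
    simp

theorem hneg_h1 : hneg (h1 (U × Io)) =
    hh ((Homeomorph.refl U).prodCongr MC.flipIo) := by
  rw [h1, hneg_mk, pneg_id]
  rfl

end neg

section stable

variable {X : Type u} [TopologicalSpace X] [T2Space X] [LocallyCompactSpace X]
variable {Y : Type v} [TopologicalSpace Y] [T2Space Y] [LocallyCompactSpace Y]
variable {W : Type w} [TopologicalSpace W] [T2Space W] [LocallyCompactSpace W]

/-- **the flip of a suspension coordinate is `-1` in the stable category** -/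
theorem ofP_flipBy (h : X ≃ₜ W × Io) : St.ofP (PMap.ofHomeo (flipBy h)) = - St.id X := by
  have h0 : PMap.ofHomeo (flipBy h) = (PMap.ofHomeo h.symm).comp
      ((PMap.ofHomeo ((Homeomorph.refl W).prodCongr MC.flipIo)).comp (PMap.ofHomeo h)) := by
    rw [PMap.ofHomeo_comp, PMap.ofHomeo_comp]
    rfl
  have h2 : St.ofP (PMap.ofHomeo ((Homeomorph.refl W).prodCongr MC.flipIo)) =
      - St.id (W × Io) := by
    have := St.map_hneg (h1 (W × Io))
    rw [hneg_h1, St.map_id] at this
    exact this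
  rw [h0, St.ofP_comp, St.ofP_comp, h2, St.neg_comp, St.id_comp, St.comp_neg,
    St.ofP_homeo_symm_comp]





end stable

section stratum

variable {κ : Type w} {X : Type u} [TopologicalSpace X] [T2Space X] [Finite κ]


variable [DecidableEq κ]
variable {E : Type v} [NormedAddCommGroup E] [NormedSpace ℂ E] [FiniteDimensional ℂ E]




variable {Y : Type x} [TopologicalSpace Y] [T2Space Y] [LocallyCompactSpace Y]



end stratum

/-! ### contractible letters `A × half line` -/

section letters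

variable {A : Type u} [TopologicalSpace A] [T2Space A] [LocallyCompactSpace A]

instance : LocallyCompactSpace (Ici (0 : ℝ)) := isClosed_Ici.isClosedEmbedding_subtypeVal.locallyCompactSpace
instance : LocallyCompactSpace (Iic (0 : ℝ)) := isClosed_Iic.isClosedEmbedding_subtypeVal.locallyCompactSpace




end letters

section perm

variable {κ : Type w} [Fintype κ]
variable {Y : Type u} [TopologicalSpace Y] [T2Space Y] [LocallyCompactSpace Y]
variable {E : Type v} [NormedAddCommGroup E] [NormedSpace ℂ E] [FiniteDimensional ℂ E]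
  [LocallyCompactSpace E]



end perm

end Crest.Agent.R090.F1d541
end

-- ▼ part R090/F1Inst_737
section

/-!
# Row 90, F1 (source form): the theory `X ↦ St (X × T) E` (owner helper737)
-/

set_option autoImplicit false
set_option linter.unusedSectionVars false

open Topology Filter Set

namespace Crest.Agent.R090.F1Core737

open OnePoint Crest.Agent.R090.Sp962 Crest.Agent.R090.Lin202
open Crest.Agent.R090.Grp528 Crest.Agent.R090.St528 Crest.Agent.R090.Exc503

/-- `St (X × T) E` as a contravariant theory, `E` a sphere -/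
noncomputable def ctSt (T : Type) [TopologicalSpace T] [T2Space T] [LocallyCompactSpace T]
    (E : Type) [TopologicalSpace E] [T2Space E] [LocallyCompactSpace E] (hE : SphT.{0} E) :
    CT.{0, 0} where
  H X _ _ _ := St (X × T) E
  grp X _ _ _ := inferInstance
  map a := St.homComp (St.ofP (a.smash (PMap.id T)))
  map_id g := by
    change g.comp _ = g
    rw [PMap.smash_id, St.ofP_id, St.comp_id]
  map_comp b a g := by
    change g.comp _ = (g.comp _).comp _
    rw [St.comp_assoc, ← St.ofP_comp, PMap.smash_comp, PMap.comp_id]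
  map_homotopic a b h g := by
    change g.comp _ = g.comp _
    rw [St.ofP_congr (h.smash (PMap.Homotopic.refl (PMap.id T)))]
  map0 g := by
    change g.comp _ = 0
    rw [PMap.smash_zero_left, St.ofP_zero, St.comp_zero]
  exact := by
    intro F X O _ _ _ _ _ _ _ _ _ i hi e he h g hg
    have hOC : OC i e := ⟨hi, he, h⟩
    have h1 : g.comp (St.ofP ((hOC.prodRight T).incl)) = 0 := by
      rw [hOC.prodRight_incl]
      exact hg
    obtain ⟨z, hz⟩ := OC.st_exists_coll hE (hOC.prodRight T) g h1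
    refine ⟨z, ?_⟩
    rw [hOC.prodRight_coll] at hz
    exact hz.symm
  neg := by
    intro X _ _ _ g
    let h : (X × ℝ) × T ≃ₜ (X × T) × ℝ :=
      { toFun := fun p => ((p.1.1, p.2), p.1.2)
        invFun := fun p => ((p.1.1, p.2), p.1.2)
        left_inv := fun _ => rfl
        right_inv := fun _ => rfl
        continuous_toFun := by fun_prop
        continuous_invFun := by fun_prop }
    have e1 : ((PMap.id X).smash (PMap.ofHomeo (Homeomorph.neg ℝ))).smash (PMap.id T) =
        PMap.ofHomeo (F1d541.negBy h) := PMap.ext fun x => rfl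
    change g.comp _ = -g
    rw [e1, ← F1d541.flipBy_RI, F1d541.ofP_flipBy, St.comp_neg, St.comp_id]


end Crest.Agent.R090.F1Core737
end

-- ▼ part R090/F1Pow_737
section

/-!
# Row 90, F1 (source form): the power step for a contravariant theory (owner helper737)

Input: `ret : PMap M E`, `Z ⊆ M` closed, `Λ : PMap ((M × V) × ℂ) P` with `Λ (Z × ..)` in the small
letters, `C : PMap P ((E × V) × ℂ)` with `C ∘ Λ ≃ (ret ∧ 1) ∧ 1`.
Output: `(κ ∧ 1)^* (e'^L)^* = 0`, `κ : P_{ι,m}(M, Z) → E^ι`.
-/

set_option autoImplicit false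
set_option linter.unusedSectionVars false

open Topology Filter Set

namespace Crest.Agent.R090.F1Core737

open OnePoint Crest.Agent.R090.Sp962 Crest.Agent.R090.Lin202 Crest.Agent.R090.Young152
open Crest.Agent.R090.Pi568 Crest.Agent.R090.Dens255 Crest.Agent.R090.Block568

universe v w

/-! ### the group ring operator -/

namespace CT

variable (T : CT.{v, w})

section ring

variable {κ : Type} [Fintype κ] [DecidableEq κ]
variable {X : Type v} [TopologicalSpace X] [T2Space X] [LocallyCompactSpace X]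
variable (ρ : Equiv.Perm κ → (X ≃ₜ X))

theorem opE_add (a b : MonoidAlgebra ℤ (Equiv.Perm κ)) (g : T.H X) :
    T.opE (fun σ => (a + b).coeff σ) ρ g =
      T.opE (fun σ => a.coeff σ) ρ g + T.opE (fun σ => b.coeff σ) ρ g := by
  simp only [opE_apply, MonoidAlgebra.coeff_add, Finsupp.add_apply, add_smul,
    Finset.sum_add_distrib]

theorem opE_zero (g : T.H X) :
    T.opE (fun σ => (0 : MonoidAlgebra ℤ (Equiv.Perm κ)).coeff σ) ρ g = 0 := by
  rw [opE_apply]
  exact Finset.sum_eq_zero fun σ _ => zero_smul _ _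

theorem opE_single (σ : Equiv.Perm κ) (x : ℤ) (g : T.H X) :
    T.opE (fun τ => (MonoidAlgebra.single σ x : MonoidAlgebra ℤ (Equiv.Perm κ)).coeff τ) ρ g =
      x • T.map (PMap.ofHomeo (ρ σ)) g := by
  rw [opE_apply, Finset.sum_eq_single σ]
  · rw [MonoidAlgebra.coeff_single_apply, if_pos rfl]
  · intro τ _ hτ
    rw [MonoidAlgebra.coeff_single_apply, if_neg (fun h => hτ h.symm), zero_smul]
  · intro h
    exact absurd (Finset.mem_univ σ) h

variable {ρ}

theorem opE_mul (hρ : ∀ σ τ x, ρ (σ * τ) x = ρ σ (ρ τ x))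
    (a b : MonoidAlgebra ℤ (Equiv.Perm κ)) (g : T.H X) :
    T.opE (fun σ => (a * b).coeff σ) ρ g =
      T.opE (fun σ => b.coeff σ) ρ (T.opE (fun σ => a.coeff σ) ρ g) := by
  induction a using MonoidAlgebra.induction_linear with
  | zero => rw [zero_mul, opE_zero, _root_.map_zero]
  | add f f' hf hf' => rw [add_mul, opE_add, opE_add, hf, hf', map_add]
  | single σ x =>
    induction b using MonoidAlgebra.induction_linear with
    | zero => rw [mul_zero, opE_zero, opE_zero]
    | add f f' hf hf' => rw [mul_add, opE_add, opE_add, hf, hf']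
    | single τ y =>
      rw [MonoidAlgebra.single_mul_single, opE_single, opE_single, opE_single, map_zsmul,
        smul_smul, mul_comm y x, ← T.map_comp]
      congr 2
      have : PMap.ofHomeo (ρ (σ * τ)) = (PMap.ofHomeo (ρ σ)).comp (PMap.ofHomeo (ρ τ)) :=
        PMap.ext fun z => by
          change ((ρ (σ * τ) z : X) : OnePoint X) = ((ρ σ (ρ τ z) : X) : OnePoint X)
          rw [hρ]
      rw [this]

theorem opE_pow (hρ : ∀ σ τ x, ρ (σ * τ) x = ρ σ (ρ τ x)) (a : MonoidAlgebra ℤ (Equiv.Perm κ))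
    (n : ℕ) (g : T.H X) :
    (T.opE (fun σ => a.coeff σ) ρ)^[n + 1] g = T.opE (fun σ => (a ^ (n + 1)).coeff σ) ρ g := by
  induction n with
  | zero => simp
  | succ n ih => rw [Function.iterate_succ_apply', ih, pow_succ a (n + 1), T.opE_mul hρ]

end ring

end CT

/-! ### the shuffle `M^ι × (V^ι × ℂ^ι) ≃ ((M × V) × ℂ)^ι` -/

section zip

variable {ι : Type} [Fintype ι] [DecidableEq ι]
variable {M V E : Type} [TopologicalSpace M] [TopologicalSpace V] [TopologicalSpace E]

/-- the shuffle -/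
def zipH (ι M V : Type) [TopologicalSpace M] [TopologicalSpace V] :
    (ι → M) × ((ι → V) × (ι → ℂ)) ≃ₜ (ι → (M × V) × ℂ) where
  toFun p := fun i => ((p.1 i, p.2.1 i), p.2.2 i)
  invFun q := (fun i => (q i).1.1, (fun i => (q i).1.2, fun i => (q i).2))
  left_inv _ := rfl
  right_inv _ := rfl
  continuous_toFun := by fun_prop
  continuous_invFun := by fun_prop

variable [T2Space M] [T2Space V] [T2Space E] [LocallyCompactSpace M] [LocallyCompactSpace V]
  [LocallyCompactSpace E]

theorem zip_pow (a : PMap M E) :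
    (pow ι ((a.smash (PMap.id V)).smash (PMap.id ℂ))).comp (PMap.ofHomeo (zipH ι M V)) =
      (PMap.ofHomeo (zipH ι E V)).comp ((pow ι a).smash (PMap.id ((ι → V) × (ι → ℂ)))) := by
  refine PMap.ext fun x => ?_
  obtain ⟨x, v, g⟩ := x
  rw [PMap.comp_apply, PMap.comp_apply, PMap.ofHomeo_coe, pow_coe, PMap.smash_coe, pow_coe,
    PMap.id_apply]
  change smPi (fun i => sm (sm (a (x i : OnePoint M)) (v i : OnePoint V)) (g i : OnePoint ℂ)) =
    PMap.ofHomeo (zipH ι E V) (sm (smPi fun i => a (x i : OnePoint M))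
      (((v, g) : (ι → V) × (ι → ℂ)) : OnePoint ((ι → V) × (ι → ℂ))))
  by_cases h : ∃ i, a (x i : OnePoint M) = ∞
  · obtain ⟨i, hi⟩ := h
    rw [smPi_of_inf i (by rw [hi]; rfl), smPi_of_inf i hi, sm_inf_left, PMap.map_inf]
  · push Not at h
    choose y hy using fun i => ne_infty_iff_exists.1 (h i)
    have : (fun i => a (x i : OnePoint M)) = fun i => (y i : OnePoint E) :=
      funext fun i => (hy i).symm
    rw [this, smPi_coe, sm_coe, PMap.ofHomeo_coe]
    simp only [← hy, sm_coe]
    rw [smPi_coe]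
    rfl

end zip

/-! ### the power step -/

section power

theorem perm_mem_PP {M : Type} [TopologicalSpace M] {Z : Set M} {ι : Type} [Finite ι] (m : ℕ) (σ : Equiv.Perm ι) (f : ι → M) :
    Strata973.perm σ f ∈ PP Z ι m ↔ f ∈ PP Z ι m := by
  rw [mem_PP, mem_PP]
  have : {i | Strata973.perm σ f i ∈ Z} = σ '' {i | f i ∈ Z} := by
    ext i
    simp only [mem_ofPred_eq, Strata973.perm_apply, mem_image]
    constructor
    · intro h
      exact ⟨σ.symm i, h, by simp⟩
    · rintro ⟨j, hj, rfl⟩
      simpa using hj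
  rw [this, Set.ncard_image_of_injective _ σ.injective]

variable {u D c : ℕ}

/-- the index set -/
abbrev Idx (D c : ℕ) : Type := Fin (yr D c)

variable {M V E P : Type} [TopologicalSpace M] [TopologicalSpace V] [TopologicalSpace E]
  [TopologicalSpace P] [T2Space M] [T2Space V] [T2Space E] [T2Space P]
  [LocallyCompactSpace M] [LocallyCompactSpace V] [LocallyCompactSpace E] [LocallyCompactSpace P]

theorem perm_smPi {ι : Type} [Finite ι] (σ : Equiv.Perm ι) (x : ι → OnePoint P) :
    PMap.ofHomeo (Strata973.perm (X := P) σ) (smPi x) = smPi fun i => x (σ.symm i) := by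
  have : PMap.ofHomeo (Strata973.perm (X := P) σ) = PMap.ofHomeo (reixc P σ.symm) :=
    PMap.ext fun _ => rfl
  rw [this, reixc_smPi]

theorem perm_mem_QQ (Al : Alph P u) (m : ℕ) (σ : Equiv.Perm (Idx D c)) (f : Idx D c → P) :
    Strata973.perm σ f ∈ CT.QQ Al m ↔ f ∈ CT.QQ Al m := by
  simp only [CT.QQ, mem_ofPred_eq, Strata973.perm_apply]
  rw [Finset.card_bij (t := Finset.univ.filter fun i => Al.ℓ (f i) ≤ u) (fun i _ => σ.symm i)]
  · intro i hi
    simpa using hi
  · intro i _ j _ h
    exact σ.symm.injective h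
  · intro j hj
    refine ⟨σ j, ?_, by simp⟩
    simpa using hj

variable (T : CT.{0, w}) (Al : Alph P u) {m : ℕ} {Z : Set M} (hZ : IsClosed Z)

/-- the diagonal action on `P_m × (V^ι × ℂ^ι)` -/
noncomputable def tauH (D c : ℕ) (V : Type) [TopologicalSpace V] {M : Type} [TopologicalSpace M]
    (Z : Set M) (m : ℕ) (σ : Equiv.Perm (Idx D c)) :
    (PP Z (Idx D c) m × ((Idx D c → V) × (Idx D c → ℂ))) ≃ₜ
      (PP Z (Idx D c) m × ((Idx D c → V) × (Idx D c → ℂ))) :=
  (CT.restr (Strata973.perm σ) (PP Z (Idx D c) m) (perm_mem_PP m σ)).prodCongr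
    ((Strata973.perm σ).prodCongr (Strata973.perm σ))

/-- the power step for the theory `T` -/
theorem power_step [hZf : Fact (IsClosed Z)] (hm : D * u < m) (ret : PMap M E)
    (Λ : PMap ((M × V) × ℂ) P) (C : PMap P ((E × V) × ℂ))
    (hΛ : ∀ z ∈ Z, ∀ (v : V) (s : ℂ),
      Λ ((((z, v), s) : (M × V) × ℂ) : OnePoint ((M × V) × ℂ)) = ∞ ∨
        ∃ p, Al.ℓ p ≤ u ∧ Λ ((((z, v), s) : (M × V) × ℂ) : OnePoint ((M × V) × ℂ)) = (p : P))
    (hC : (C.comp Λ).Homotopic ((ret.smash (PMap.id V)).smash (PMap.id ℂ)))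
    (g : T.H ((Idx D c → E) × ((Idx D c → V) × (Idx D c → ℂ)))) :
    (T.opE (fun σ => (yF D c).coeff σ) (tauH D c V Z m))^[yr D c * (u + 1) + 1]
      (T.map (((pow (Idx D c) ret).comp (incl (isClosed_PP hZf.out m))).smash
        (PMap.id ((Idx D c → V) × (Idx D c → ℂ)))) g) = 0 := by
  have hQ : IsClosed (CT.QQ Al m : Set (Idx D c → P)) := CT.isClosed_QQ Al m
  have hQlc : LocallyCompactSpace (CT.QQ Al m : Set (Idx D c → P)) := hQ.locallyCompactSpace
  -- the map to `P^ι`
  let F0 : PMap (PP Z (Idx D c) m × ((Idx D c → V) × (Idx D c → ℂ))) (Idx D c → P) :=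
    ((pow (Idx D c) Λ).comp (PMap.ofHomeo (zipH (Idx D c) M V))).comp
      ((incl (isClosed_PP hZf.out m)).smash (PMap.id ((Idx D c → V) × (Idx D c → ℂ))))
  have hF0 : ∀ x : PP Z (Idx D c) m × ((Idx D c → V) × (Idx D c → ℂ)),
      F0 (x : OnePoint _) = smPi fun i => Λ ((((x.1.1 i, x.2.1 i), x.2.2 i) : (M × V) × ℂ) :
        OnePoint ((M × V) × ℂ)) := fun x => rfl
  have hr : ∀ x : OnePoint (PP Z (Idx D c) m × ((Idx D c → V) × (Idx D c → ℂ))),
      F0 x = ∞ ∨ ∃ q : (CT.QQ Al m : Set (Idx D c → P)), F0 x = ((q : Idx D c → P) : OnePoint _) := by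
    intro x
    induction x using OnePoint.rec with
    | infty => exact Or.inl F0.map_inf
    | coe x =>
      by_cases h : ∃ i, Λ ((((x.1.1 i, x.2.1 i), x.2.2 i) : (M × V) × ℂ) :
        OnePoint ((M × V) × ℂ)) = ∞
      · obtain ⟨i, hi⟩ := h
        left
        rw [hF0]
        exact smPi_of_inf i hi
      · right
        push Not at h
        choose y hy using fun i => ne_infty_iff_exists.1 (h i)
        have hy' : ∀ i, x.1.1 i ∈ Z → Al.ℓ (y i) ≤ u := by
          intro i hi
          rcases hΛ _ hi (x.2.1 i) (x.2.2 i) with h1 | ⟨p, hp, h1⟩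
          · exact absurd h1 (h i)
          · rw [← hy i] at h1
            rw [coe_injective h1]
            exact hp
        refine ⟨⟨y, ?_⟩, ?_⟩
        · have h1 : m ≤ {i | x.1.1 i ∈ Z}.ncard := x.1.2
          simp only [CT.QQ, mem_ofPred_eq]
          refine h1.trans ?_
          rw [← Set.ncard_coe_finset]
          refine Set.ncard_le_ncard (fun i hi => ?_) (Set.toFinite _)
          simp only [Finset.coe_filter, Finset.mem_univ, true_and, mem_ofPred_eq]
          exact hy' i hi
        · rw [hF0]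
          have : (fun i => Λ ((((x.1.1 i, x.2.1 i), x.2.2 i) : (M × V) × ℂ) :
              OnePoint ((M × V) × ℂ))) = fun i => (y i : OnePoint P) :=
            funext fun i => (hy i).symm
          rw [this, smPi_coe]
  obtain ⟨K, hK, hKr⟩ := exists_lift hQ.isClosedEmbedding_subtypeVal F0.cont hr
  let ΛP : PMap (PP Z (Idx D c) m × ((Idx D c → V) × (Idx D c → ℂ)))
      (CT.QQ Al m : Set (Idx D c → P)) := ⟨K, hK, by
    refine map_injective hQ.isClosedEmbedding_subtypeVal ?_
    rw [hKr]
    exact F0.map_inf⟩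
  have hΛP : (PMap.ofClosed _ hQ.isClosedEmbedding_subtypeVal).comp ΛP = F0 :=
    PMap.ext fun x => hKr x
  -- the action on `Q`
  let ρ : Equiv.Perm (Idx D c) → ((CT.QQ Al m : Set (Idx D c → P)) ≃ₜ
      (CT.QQ Al m : Set (Idx D c → P))) := fun σ =>
    CT.restr (Strata973.perm σ) (CT.QQ Al m) (perm_mem_QQ Al m σ)
  have hρinc : ∀ σ, (PMap.ofClosed _ hQ.isClosedEmbedding_subtypeVal).comp (PMap.ofHomeo (ρ σ)) =
      (PMap.ofHomeo (Strata973.perm σ)).comp
        (PMap.ofClosed _ hQ.isClosedEmbedding_subtypeVal) := fun σ => PMap.ext fun _ => rfl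
  have hequi : ∀ σ, (PMap.ofHomeo (ρ σ)).comp ΛP = ΛP.comp (PMap.ofHomeo (tauH D c V Z m σ)) := by
    intro σ
    refine PMap.ext fun x => ?_
    refine map_injective hQ.isClosedEmbedding_subtypeVal ?_
    have e1 : OnePoint.map Subtype.val ((PMap.ofHomeo (ρ σ)).comp ΛP (x : OnePoint _)) =
        PMap.ofHomeo (Strata973.perm σ) (F0 (x : OnePoint _)) := by
      have := congrArg (fun f : PMap _ _ => f (ΛP (x : OnePoint _))) (hρinc σ)
      refine Eq.trans this ?_
      rw [← hΛP]
      rfl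
    have e2 : OnePoint.map Subtype.val (ΛP.comp (PMap.ofHomeo (tauH D c V Z m σ))
        (x : OnePoint _)) = F0 ((tauH D c V Z m σ x : _) : OnePoint _) := by
      rw [← hΛP]
      rfl
    rw [e1, e2, hF0, hF0, perm_smPi]
    rfl
  -- the class on `Q`
  have hcore := CT.core Al T hm (X := (CT.QQ Al m : Set (Idx D c → P))) Subtype.val
    IsEmbedding.subtypeVal Subtype.range_coe ρ (fun σ x i => rfl)
    (T.map ((pow (Idx D c) C).comp (PMap.ofClosed _ hQ.isClosedEmbedding_subtypeVal))
      (T.map (PMap.ofHomeo (zipH (Idx D c) E V).symm) g))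
  have h1 := congrArg (T.map ΛP) hcore
  rw [_root_.map_zero, T.map_iterate_opE _ ρ (tauH D c V Z m) ΛP hequi] at h1
  rw [← h1]
  congr 1
  rw [← T.map_comp, ← T.map_comp]
  refine T.map_homotopic _ _ ?_ g
  -- the homotopy
  have h2 : ((pow (Idx D c) C).comp F0).Homotopic
      ((PMap.ofHomeo (zipH (Idx D c) E V)).comp
        (((pow (Idx D c) ret).comp (incl (isClosed_PP hZf.out m))).smash
          (PMap.id ((Idx D c → V) × (Idx D c → ℂ))))) := by
    have e3 : (pow (Idx D c) C).comp F0 = (pow (Idx D c) (C.comp Λ)).comp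
        ((PMap.ofHomeo (zipH (Idx D c) M V)).comp
          ((incl (isClosed_PP hZf.out m)).smash (PMap.id ((Idx D c → V) × (Idx D c → ℂ))))) := by
      rw [← pow_comp]
      rfl
    rw [e3]
    refine (PMap.Homotopic.comp_right (pow_homotopic hC) _).trans (.of_eq ?_)
    rw [← PMap.comp_assoc, zip_pow, PMap.comp_assoc, PMap.smash_comp, PMap.comp_id]
  have h3 := PMap.Homotopic.comp_left (PMap.ofHomeo (zipH (Idx D c) E V).symm) h2
  have e4 : ∀ k : PMap (PP Z (Idx D c) m × ((Idx D c → V) × (Idx D c → ℂ)))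
      ((Idx D c → E) × ((Idx D c → V) × (Idx D c → ℂ))),
      (PMap.ofHomeo (zipH (Idx D c) E V).symm).comp
        ((PMap.ofHomeo (zipH (Idx D c) E V)).comp k) = k := fun k => by
    rw [← PMap.comp_assoc, PMap.ofHomeo_symm_comp, PMap.id_comp]
  rw [e4] at h3
  refine h3.symm.trans (.of_eq ?_)
  rw [← hΛP]
  rfl

end power

end Crest.Agent.R090.F1Core737
end

-- ▼ part R090/F1Pair_893
section

/-!
# Row 90, F1: the strict map of pairs (leaf PAIR of helper737, #20834; owner helper893)

`A` closed in `B`.  `XX A = {(b, t) ∈ B × ℝ | t ≤ 0 ∨ b ∈ A}`, `UU A = {0 ≤ t}`,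
`collX : PMap (XX A) (A × (0, ∞))`, `cR : PMap ℝ (0, ∞)`.
`exists_pair` : a homotopy `H` in `B⁺` from `incl ∘ k` to a map which is `∞` on `Z × W`
gives a strict map `Λ : (M × W) × ℝ → XX A` with `Λ (Z × W × ℝ) ⊆ UU A ∪ {∞}` and
`collX ∘ Λ = k ∧ cR`.
-/

set_option autoImplicit false

open Topology Filter Set unitInterval

namespace Crest.Agent.R090.F1Pair893

open OnePoint Sp962

/-! ## lifting through a closed embedding -/

section lift

variable {U : Type*} {V : Type*} {X : Type*} [TopologicalSpace U] [TopologicalSpace V]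
  [TopologicalSpace X]

theorem ofClosed_injective (e : X → V) (he : IsClosedEmbedding e) :
    Function.Injective (PMap.ofClosed e he) := by
  intro a b hab
  induction a using OnePoint.rec with
  | infty =>
    induction b using OnePoint.rec with
    | infty => rfl
    | coe b => simp at hab
  | coe a =>
    induction b using OnePoint.rec with
    | infty => simp at hab
    | coe b =>
      rw [PMap.ofClosed_coe, PMap.ofClosed_coe, coe_eq_coe] at hab
      rw [he.injective hab]

theorem isClosedEmbedding_ofClosed [T2Space V] [LocallyCompactSpace V]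
    (e : X → V) (he : IsClosedEmbedding e) : IsClosedEmbedding (PMap.ofClosed e he) :=
  (PMap.ofClosed e he).continuous.isClosedEmbedding (ofClosed_injective e he)

theorem exists_lift [T2Space V] [LocallyCompactSpace V] (f : PMap U V) (e : X → V)
    (he : IsClosedEmbedding e) (h : ∀ x : U, f x = ∞ ∨ ∃ y, f x = (e y : OnePoint V)) :
    ∃ g : PMap U X, (PMap.ofClosed e he).comp g = f := by
  have h' : ∀ x : OnePoint U, ∃ y : OnePoint X, PMap.ofClosed e he y = f x := by
    intro x
    induction x using OnePoint.rec with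
    | infty => exact ⟨∞, by simp⟩
    | coe x =>
      rcases h x with hx | ⟨y, hy⟩
      · exact ⟨∞, by simp [hx]⟩
      · exact ⟨y, by rw [hy]; rfl⟩
  choose g hg using h'
  have hc : Continuous g := by
    rw [(isClosedEmbedding_ofClosed e he).isInducing.continuous_iff]
    exact f.cont.congr fun x => (hg x).symm
  refine ⟨⟨g, hc, ?_⟩, ?_⟩
  · apply ofClosed_injective e he
    rw [hg]; simp
  · exact PMap.ext fun x => hg x

end lift

/-! ## the pair -/

section defs

variable {B : Type*}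

/-- `{(b, t) | t ≤ 0 ∨ b ∈ A}` -/
abbrev XX (A : Set B) : Type _ := {p : B × ℝ // p.2 ≤ 0 ∨ p.1 ∈ A}

/-- `{0 ≤ t}` -/
def UU (A : Set B) : Set (XX A) := {p | 0 ≤ p.1.2}

variable [TopologicalSpace B]

theorem isClosed_XX {A : Set B} (hA : IsClosed A) :
    IsClosed {p : B × ℝ | p.2 ≤ 0 ∨ p.1 ∈ A} :=
  (isClosed_le continuous_snd continuous_const).union (hA.preimage continuous_fst)



/-- `A × (0, ∞) → XX A` -/
def inX (A : Set B) : A × Ioi (0 : ℝ) → XX A := fun p => ⟨(p.1, p.2), Or.inr p.1.2⟩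

omit [TopologicalSpace B] in
theorem range_inX (A : Set B) : range (inX A) = {p : XX A | 0 < p.1.2} := by
  ext p
  constructor
  · rintro ⟨q, rfl⟩
    exact q.2.2
  · intro hp
    have hp' : 0 < p.1.2 := hp
    rcases p.2 with h | h
    · exact absurd h (not_le.2 hp')
    · exact ⟨(⟨p.1.1, h⟩, ⟨p.1.2, hp'⟩), rfl⟩

theorem isOpenEmbedding_inX (A : Set B) : IsOpenEmbedding (inX A) := by
  have h1 : IsEmbedding (inX A) := by
    refine IsEmbedding.of_comp (f := inX A) (g := Subtype.val) ?_ continuous_subtype_val ?_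
    · refine Continuous.subtype_mk ?_ _
      exact (continuous_subtype_val.comp continuous_fst).prodMk
        (continuous_subtype_val.comp continuous_snd)
    · exact (IsEmbedding.subtypeVal.prodMap IsEmbedding.subtypeVal)
  refine ⟨h1, ?_⟩
  rw [range_inX]
  exact isOpen_lt continuous_const (continuous_snd.comp continuous_subtype_val)

/-- the open collapse `XX A → A × (0, ∞)` -/
noncomputable def collX [T2Space B] (A : Set B) : PMap (XX A) (A × Ioi (0 : ℝ)) :=
  PMap.ofOpen (inX A) (isOpenEmbedding_inX A)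

theorem collX_pos [T2Space B] {A : Set B} (a : A) (t : ℝ) (ht : 0 < t) :
    collX A ((⟨((a : B), t), Or.inr a.2⟩ : XX A) : OnePoint (XX A)) =
      ((a, ⟨t, ht⟩) : A × Ioi (0 : ℝ)) :=
  PMap.ofOpen_coe (inX A) (isOpenEmbedding_inX A) (a, ⟨t, ht⟩)

theorem collX_nonpos [T2Space B] {A : Set B} (p : XX A) (hp : p.1.2 ≤ 0) :
    collX A (p : OnePoint (XX A)) = ∞ := by
  refine PMap.ofOpen_of_notMem (inX A) (isOpenEmbedding_inX A) ?_
  rw [range_inX]
  exact not_lt.2 hp

/-- the open collapse `ℝ → (0, ∞)` -/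
noncomputable def cR : PMap ℝ (Ioi (0 : ℝ)) :=
  PMap.ofOpen (Subtype.val : Ioi (0 : ℝ) → ℝ) isOpen_Ioi.isOpenEmbedding_subtypeVal

theorem cR_pos (t : ℝ) (ht : 0 < t) : cR (t : OnePoint ℝ) = ((⟨t, ht⟩ : Ioi (0 : ℝ))) :=
  PMap.ofOpen_coe (Subtype.val : Ioi (0 : ℝ) → ℝ) isOpen_Ioi.isOpenEmbedding_subtypeVal ⟨t, ht⟩

theorem cR_nonpos (t : ℝ) (ht : t ≤ 0) : cR (t : OnePoint ℝ) = ∞ := by
  refine PMap.ofOpen_of_notMem _ isOpen_Ioi.isOpenEmbedding_subtypeVal ?_
  rw [Subtype.range_coe]
  exact not_lt.2 ht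

end defs

/-! ## the map of pairs -/

section pair

/-- `|t| / (1 + |t|)` for `t ≤ 0`, `0` for `t ≥ 0` -/
noncomputable def sig (t : ℝ) : I :=
  ⟨-(min t 0) / (1 + -(min t 0)), by
    have h : 0 ≤ -(min t 0) := by simp
    refine ⟨by positivity, ?_⟩
    rw [div_le_one (by positivity)]
    linarith⟩

theorem continuous_sig : Continuous sig := by
  refine Continuous.subtype_mk ?_ _
  refine Continuous.div (by fun_prop) (by fun_prop) ?_
  intro t
  have h : 0 ≤ -(min t 0) := by simp
  positivity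

theorem sig_of_nonneg {t : ℝ} (ht : 0 ≤ t) : sig t = 0 := by
  apply Subtype.ext
  simp [sig, min_eq_right ht]

theorem one_sub_sig {t : ℝ} (ht : t ≤ 0) : 1 - (sig t : ℝ) = 1 / (1 + -t) := by
  have h : (0 : ℝ) < 1 + -t := by linarith
  simp only [sig, min_eq_left ht]
  field_simp
  ring

variable {M : Type*} {W : Type*} {B : Type*} [TopologicalSpace M] [TopologicalSpace W]
  [TopologicalSpace B]

/-- the total map into `B × ℝ` -/
noncomputable def G (φ : M → ℝ) (H : I × OnePoint (M × W) → OnePoint B)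
    (p : (M × W) × ℝ) : OnePoint (B × ℝ) :=
  sm (H (sig p.2, (p.1 : OnePoint (M × W)))) ((max p.2 0 + φ p.1.1 * min p.2 0 : ℝ) : OnePoint ℝ)

theorem continuous_G [T2Space B] {φ : M → ℝ} (hφ : Continuous φ)
    {H : I × OnePoint (M × W) → OnePoint B} (hH : Continuous H) : Continuous (G φ H) := by
  refine Continuous.sm962 ?_ ?_
  · exact hH.comp ((continuous_sig.comp continuous_snd).prodMk
      (continuous_coe.comp continuous_fst))
  · refine continuous_coe.comp ?_
    fun_prop

theorem tendsto_G [T2Space M] [LocallyCompactSpace M] [T2Space W] [LocallyCompactSpace W]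
    [T2Space B] [LocallyCompactSpace B] {Z : Set M}
    {φ : M → ℝ} (hφ : Continuous φ) (h0 : ∀ x, 0 ≤ φ x) (hZ : ∀ x, φ x = 0 → x ∈ Z)
    {H : I × OnePoint (M × W) → OnePoint B} (hH : Continuous H) (Hinf : ∀ t, H (t, ∞) = ∞)
    (H1 : ∀ z ∈ Z, ∀ w : W, H (1, ((z, w) : M × W)) = ∞) :
    Tendsto (G φ H) (coclosedCompact ((M × W) × ℝ)) (𝓝 ∞) := by
  rw [hasBasis_nhds_infty.tendsto_right_iff]
  rintro K ⟨-, hK⟩
  -- a box containing `K`
  have hK1 : IsCompact (Prod.fst '' K) := hK.image continuous_fst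
  have hK2 : IsCompact (Prod.snd '' K) := hK.image continuous_snd
  obtain ⟨R, hR⟩ := hK2.isBounded.subset_closedBall (0 : ℝ)
  have hR0 : ∀ b t, (b, t) ∈ K → |t| ≤ R := by
    intro b t hbt
    have := hR ⟨(b, t), hbt, rfl⟩
    simpa [Metric.mem_closedBall, dist_zero_right] using this
  -- the compact set of `(s, x)` with `H (s, x)` in the box
  have hcl : IsClosed ((↑) '' (Prod.fst '' K) : Set (OnePoint B)) :=
    isClosed_image_coe.2 ⟨hK1.isClosed, hK1⟩
  set C : Set (I × OnePoint (M × W)) := H ⁻¹' ((↑) '' (Prod.fst '' K)) with hC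
  have hCc : IsCompact C := (hcl.preimage hH).isCompact
  have hCinf : ∀ c ∈ C, c.2 ≠ ∞ := by
    rintro ⟨s, x⟩ hc rfl
    obtain ⟨b, -, hb⟩ := hc
    rw [Hinf] at hb
    exact coe_ne_infty _ hb
  -- the projection of `C` to `M × W` is compact
  set P : Set (M × W) := (↑) ⁻¹' (Prod.snd '' C) with hP
  have hPc : IsCompact P := by
    have h1 : IsCompact (Prod.snd '' C) := hCc.image continuous_snd
    have h2 : (Prod.snd '' C) ⊆ range ((↑) : M × W → OnePoint (M × W)) := by
      rintro _ ⟨c, hc, rfl⟩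
      exact ⟨_, (OnePoint.ne_infty_iff_exists.1 (hCinf c hc)).choose_spec⟩
    exact isOpenEmbedding_coe.isInducing.isCompact_preimage_iff h2 |>.2 h1
  -- a positive lower bound
  have hδ : ∃ δ > 0, ∀ s : I, ∀ p : M × W, (s, (p : OnePoint (M × W))) ∈ C →
      δ ≤ max (1 - (s : ℝ)) (φ p.1) := by
    set C' : Set (I × (M × W)) := (fun c : I × (M × W) => (c.1, (c.2 : OnePoint (M × W)))) ⁻¹' C
      with hC'
    have hC'c : IsCompact C' := by
      have h1 : IsOpenEmbedding (fun c : I × (M × W) => (c.1, (c.2 : OnePoint (M × W)))) :=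
        IsOpenEmbedding.id.prodMap isOpenEmbedding_coe
      refine h1.isInducing.isCompact_preimage_iff ?_ |>.2 hCc
      rintro ⟨s, x⟩ hc
      obtain ⟨y, hy⟩ := OnePoint.ne_infty_iff_exists.1 (hCinf _ hc)
      exact ⟨(s, y), by simp [hy]⟩
    rcases C'.eq_empty_or_nonempty with hemp | hne
    · refine ⟨1, one_pos, fun s p hsp => ?_⟩
      exact absurd (show (s, p) ∈ C' from hsp) (by rw [hemp]; simp)
    · have hcont : ContinuousOn (fun c : I × (M × W) => max (1 - (c.1 : ℝ)) (φ c.2.1)) C' := by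
        apply Continuous.continuousOn
        fun_prop
      obtain ⟨c, hc, hmin⟩ := hC'c.exists_isMinOn hne hcont
      refine ⟨max (1 - (c.1 : ℝ)) (φ c.2.1), ?_, fun s p hsp => hmin (show (s, p) ∈ C' from hsp)⟩
      by_contra hcon
      have hle : max (1 - (c.1 : ℝ)) (φ c.2.1) ≤ 0 := not_lt.1 hcon
      have ha : 1 - (c.1 : ℝ) ≤ 0 := le_trans (le_max_left _ _) hle
      have hb : φ c.2.1 ≤ 0 := le_trans (le_max_right _ _) hle
      have hc1 : c.1 = 1 := by
        apply Subtype.ext
        have := c.1.2.2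
        simp only [Icc.coe_one]
        linarith
      have hz : c.2.1 ∈ Z := hZ _ (le_antisymm hb (h0 _))
      have h3 : (c.1, ((c.2 : M × W) : OnePoint (M × W))) ∈ C := hc
      have h4 : H (c.1, ((c.2 : M × W) : OnePoint (M × W))) = ∞ := by
        rw [hc1]; exact H1 _ hz c.2.2
      obtain ⟨b, -, hb⟩ := h3
      rw [h4] at hb
      exact coe_ne_infty _ hb
  obtain ⟨δ, hδ0, hδ⟩ := hδ
  -- the compact set outside of which `G` avoids `K`
  set T : ℝ := max R (max (1 / δ) (R / δ)) with hT
  have hL : IsCompact (P ×ˢ (Icc (-T) T)) := hPc.prod isCompact_Icc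
  have hmem : (P ×ˢ (Icc (-T) T))ᶜ ∈ coclosedCompact ((M × W) × ℝ) :=
    hasBasis_coclosedCompact.mem_of_mem ⟨hL.isClosed, hL⟩
  filter_upwards [hmem] with q hq
  by_contra hcon
  apply hq
  -- `G q` is a point of `K`
  have hGK : ∃ y ∈ K, G φ H q = ((y : B × ℝ) : OnePoint (B × ℝ)) := by
    generalize G φ H q = z at hcon
    induction z using OnePoint.rec with
    | infty => exact absurd (Or.inr rfl) hcon
    | coe z =>
      refine ⟨z, ?_, rfl⟩
      by_contra hz
      exact hcon (Or.inl ⟨z, hz, rfl⟩)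
  obtain ⟨⟨b, t⟩, hyK, hy⟩ := hGK
  obtain ⟨hb, ht⟩ := sm_eq_coe.1 hy
  have ht' : max q.2 0 + φ q.1.1 * min q.2 0 = t := coe_injective ht
  have hqC : (sig q.2, ((q.1 : M × W) : OnePoint (M × W))) ∈ C :=
    ⟨b, ⟨(b, t), hyK, rfl⟩, hb.symm⟩
  refine ⟨⟨_, hqC, rfl⟩, ?_⟩
  have htR := hR0 b t hyK
  rw [mem_Icc, ← abs_le]
  rcases le_total 0 q.2 with hq0 | hq0
  · rw [max_eq_left hq0, min_eq_right hq0] at ht'
    have : q.2 = t := by simpa using ht'
    rw [this]
    exact htR.trans (le_max_left _ _)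
  · rw [max_eq_right hq0, min_eq_left hq0] at ht'
    have h5 := hδ _ _ hqC
    rw [one_sub_sig hq0] at h5
    have habs : |q.2| = -q.2 := abs_of_nonpos hq0
    rw [habs]
    rcases le_max_iff.1 h5 with h6 | h6
    · have h7 : (0 : ℝ) < 1 + -q.2 := by linarith
      have h8 : δ * (1 + -q.2) ≤ 1 := by
        rw [le_div_iff₀ h7] at h6
        exact h6
      have h9 : 1 + -q.2 ≤ 1 / δ := by
        rw [le_div_iff₀ hδ0]
        linarith
      have : -q.2 ≤ 1 / δ := by linarith
      exact this.trans ((le_max_left _ _).trans (le_max_right _ _))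
    · have h7 : φ q.1.1 * -q.2 ≤ R := by
        have : |t| = φ q.1.1 * -q.2 := by
          rw [← ht']
          rw [zero_add, abs_of_nonpos]
          · ring
          · exact mul_nonpos_of_nonneg_of_nonpos (h0 _) hq0
        rw [← this]; exact htR
      have h8 : δ * -q.2 ≤ R := by
        refine le_trans ?_ h7
        exact mul_le_mul_of_nonneg_right h6 (by linarith)
      have : -q.2 ≤ R / δ := by
        rw [le_div_iff₀ hδ0]
        linarith
      exact this.trans ((le_max_right _ _).trans (le_max_right _ _))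

/-- **the strict map of pairs** -/
theorem exists_pair [T2Space M] [LocallyCompactSpace M] [T2Space W] [LocallyCompactSpace W]
    [T2Space B] [LocallyCompactSpace B] {A : Set B} (hA : IsClosed A) {Z : Set M}
    (φ : M → ℝ) (hφ : Continuous φ) (h0 : ∀ x, 0 ≤ φ x) (hZ : ∀ x, φ x = 0 ↔ x ∈ Z)
    (k : PMap (M × W) A) (H : I × OnePoint (M × W) → OnePoint B) (hH : Continuous H)
    (Hinf : ∀ t, H (t, ∞) = ∞)
    (H0 : ∀ x : OnePoint (M × W), H (0, x) = OnePoint.map (Subtype.val : A → B) (k x))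
    (H1 : ∀ z ∈ Z, ∀ w : W, H (1, ((z, w) : M × W)) = ∞) :
    ∃ Λ : PMap ((M × W) × ℝ) (XX A),
      (∀ z ∈ Z, ∀ (w : W) (τ : ℝ), Λ ((((z, w), τ) : (M × W) × ℝ) : OnePoint ((M × W) × ℝ)) = ∞ ∨
        ∃ u ∈ UU A, Λ ((((z, w), τ) : (M × W) × ℝ) : OnePoint ((M × W) × ℝ)) = (u : OnePoint (XX A)))
      ∧ (collX A).comp Λ = k.smash cR := by
  have he : IsClosedEmbedding (Subtype.val : XX A → B × ℝ) :=
    (isClosed_XX hA).isClosedEmbedding_subtypeVal
  set Γ : PMap ((M × W) × ℝ) (B × ℝ) :=
    PMap.ofFun (G φ H) (continuous_G hφ hH) (tendsto_G hφ h0 (fun x hx => (hZ x).1 hx) hH Hinf H1)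
    with hΓ
  have hΓc : ∀ q : (M × W) × ℝ, Γ (q : OnePoint ((M × W) × ℝ)) = G φ H q := fun q => rfl
  have hval : ∀ q : (M × W) × ℝ, Γ (q : OnePoint ((M × W) × ℝ)) = ∞ ∨
      ∃ y : XX A, Γ (q : OnePoint ((M × W) × ℝ)) = (((y : XX A) : B × ℝ) : OnePoint (B × ℝ)) ∧
        y.1.2 = max q.2 0 + φ q.1.1 * min q.2 0 := by
    intro q
    rw [hΓc, G]
    rcases le_total 0 q.2 with hq | hq
    · rw [sig_of_nonneg hq, H0]
      generalize k (q.1 : OnePoint (M × W)) = a
      induction a using OnePoint.rec with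
      | infty => left; simp
      | coe a => exact Or.inr ⟨⟨((a : B), max q.2 0 + φ q.1.1 * min q.2 0), Or.inr a.2⟩, rfl, rfl⟩
    · generalize H (sig q.2, (q.1 : OnePoint (M × W))) = a
      induction a using OnePoint.rec with
      | infty => left; simp
      | coe a =>
        refine Or.inr ⟨⟨(a, max q.2 0 + φ q.1.1 * min q.2 0), Or.inl ?_⟩, rfl, rfl⟩
        show max q.2 0 + φ q.1.1 * min q.2 0 ≤ 0
        rw [max_eq_right hq, min_eq_left hq, zero_add]
        exact mul_nonpos_of_nonneg_of_nonpos (h0 _) hq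
  obtain ⟨Λ, hΛ⟩ := exists_lift Γ (Subtype.val : XX A → B × ℝ) he (fun q => by
    rcases hval q with h | ⟨y, hy, -⟩
    · exact Or.inl h
    · exact Or.inr ⟨y, hy⟩)
  have hΛ' : ∀ q : (M × W) × ℝ, PMap.ofClosed (Subtype.val : XX A → B × ℝ) he (Λ q) = G φ H q := by
    intro q
    rw [← hΓc, ← hΛ]; rfl
  have hΛv : ∀ q : (M × W) × ℝ, Λ (q : OnePoint ((M × W) × ℝ)) = ∞ ∨
      ∃ y : XX A, Λ (q : OnePoint ((M × W) × ℝ)) = (y : OnePoint (XX A)) ∧
        G φ H q = (((y : XX A) : B × ℝ) : OnePoint (B × ℝ)) ∧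
        y.1.2 = max q.2 0 + φ q.1.1 * min q.2 0 := by
    intro q
    rcases hval q with h | ⟨y, hy, hy2⟩
    · left
      apply ofClosed_injective _ he
      rw [hΛ', ← hΓc, h]; simp
    · right
      refine ⟨y, ?_, by rw [← hΓc]; exact hy, hy2⟩
      apply ofClosed_injective _ he
      rw [hΛ', ← hΓc, hy]; rfl
  refine ⟨Λ, ?_, ?_⟩
  · intro z hz w τ
    rcases hΛv ((z, w), τ) with h | ⟨y, hy, -, hy2⟩
    · exact Or.inl h
    · refine Or.inr ⟨y, ?_, hy⟩
      show 0 ≤ y.1.2
      rw [hy2, (hZ z).2 hz]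
      simp
  · refine PMap.ext fun q => ?_
    rw [PMap.comp_apply]
    obtain ⟨p, τ⟩ := q
    rw [PMap.smash_coe]
    rcases le_or_gt τ 0 with hτ | hτ
    · rw [cR_nonpos τ hτ, sm_inf_right]
      rcases hΛv (p, τ) with h | ⟨y, hy, -, hy2⟩
      · rw [h]; simp
      · rw [hy]
        apply collX_nonpos
        rw [hy2]
        simp only [max_eq_right hτ, min_eq_left hτ, zero_add]
        exact mul_nonpos_of_nonneg_of_nonpos (h0 _) hτ
    · have hG : G φ H (p, τ) = sm (OnePoint.map (Subtype.val : A → B) (k p))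
          ((τ : ℝ) : OnePoint ℝ) := by
        rw [G, sig_of_nonneg hτ.le, H0]
        simp only [max_eq_left hτ.le, min_eq_right hτ.le, mul_zero, add_zero]
      rw [cR_pos τ hτ]
      rcases hΛv (p, τ) with h | ⟨y, hy, hy1, -⟩
      · have h2 := hΛ' (p, τ)
        rw [h, hG, PMap.map_inf] at h2
        have h3 := sm_eq_inf.1 h2.symm
        rcases h3 with h3 | h3
        · have h4 : k p = ∞ := by
            generalize k p = a at h3
            induction a using OnePoint.rec with
            | infty => rfl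
            | coe a => simp at h3
          rw [h, h4]; simp
        · exact absurd h3 (coe_ne_infty _)
      · rw [hG] at hy1
        obtain ⟨h3, h4⟩ := sm_eq_coe.1 hy1
        have h5 : ∃ a : A, k p = (a : OnePoint A) ∧ (a : B) = y.1.1 := by
          generalize k p = a at h3
          induction a using OnePoint.rec with
          | infty => simp at h3
          | coe a => exact ⟨a, rfl, coe_injective h3⟩
        obtain ⟨a, ha, hay⟩ := h5
        have h6 : τ = y.1.2 := coe_injective h4
        have h7 : y = ⟨((a : B), τ), Or.inr a.2⟩ := Subtype.ext (Prod.ext hay.symm h6.symm)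
        rw [hy, ha, h7, collX_pos a τ hτ]
        rfl

end pair

end Crest.Agent.R090.F1Pair893
end

-- ▼ part R090/F1PairCyl_893
section

/-!
# Row 90, F1: the map of pairs for the mapping cylinder `Cyl f` (owner helper893)

`f : PMap U V`, `A` closed in `B`, `k : PMap (V × W) A` with `incl ∘ k ∘ (f ∧ 1_W)` null.
Then there is a strict map of pairs `Λ : ((Cyl f) × W) × ℝ → XX A` with
`Λ (U × W × ℝ) ⊆ UU A ∪ {∞}` and `collX ∘ Λ = (k ∘ (ret ∧ 1_W)) ∧ cR`.
-/

set_option autoImplicit false

open Topology Filter Set unitInterval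

namespace Crest.Agent.R090.F1PairCyl893

open OnePoint Sp962 Cyl349 F1Pair893

variable {U : Type*} {V : Type*} {W : Type*} {B : Type*} [TopologicalSpace U]
  [TopologicalSpace V] [TopologicalSpace W] [TopologicalSpace B]
  [T2Space U] [LocallyCompactSpace U] [T2Space V] [LocallyCompactSpace V]
  [T2Space W] [LocallyCompactSpace W]

/-- clamp to `[0, 1]` -/
noncomputable def cl (t : ℝ) : I := projIcc 0 1 zero_le_one t

theorem continuous_cl : Continuous cl := continuous_projIcc (h := zero_le_one)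

theorem cl_zero : cl 0 = 0 := by
  rw [cl, projIcc_left]; rfl

theorem cl_one : cl 1 = 1 := by
  rw [cl, projIcc_right]; rfl

/-- a null homotopy of `g ∘ (f ∧ 1)` extends to a homotopy on `Cyl f × W` -/
theorem exists_cyl_homotopy (f : PMap U V) (g : PMap (V × W) B)
    (hnull : (g.comp (f.smash (PMap.id W))).Null) :
    ∃ H : I × OnePoint (Cyl f × W) → OnePoint B, Continuous H ∧ (∀ t, H (t, ∞) = ∞) ∧
      (∀ x, H (0, x) = g ((Cyl.ret f).smash (PMap.id W) x)) ∧
      (∀ (z : U) (w : W), H (1, ((Cyl.iU f z, w) : Cyl f × W)) = ∞) := by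
  obtain ⟨h, hh, h0, h1, hi⟩ := hnull.exists
  set L : I → OnePoint W → OnePoint (Cyl f) → OnePoint B := fun s w z =>
    Cyl.lift f (fun a t => h (cl (s * (1 - t)), sm a w)) (fun v => g (sm v w)) z with hL
  have Lq : ∀ (s : I) (w : OnePoint W) (a : OnePoint U) (t : ℝ), t ∈ Icc (0 : ℝ) 1 →
      L s w (Cyl.q f a t) = h (cl (s * (1 - t)), sm a w) := by
    intro s w a t ht
    refine Cyl.lift_q f _ _ ?_ ?_ a ht
    · intro t
      rw [sm_inf_left, hi, sm_inf_left, PMap.map_inf]
    · intro a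
      have e : (s : ℝ) * (1 - 1) = 0 := by ring
      rw [e, cl_zero, h0, PMap.comp_apply, PMap.smash_sm, PMap.id_apply]
  have Li : ∀ (s : I) (w : OnePoint W) (v : OnePoint V), L s w (Cyl.i f v) = g (sm v w) :=
    fun s w v => Cyl.lift_i f _ _ v
  have Linf : ∀ s w, L s w ∞ = ∞ := by
    intro s w
    have : L s w (Cyl.i f ∞) = g (sm ∞ w) := Li s w ∞
    rw [PMap.map_inf, sm_inf_left, PMap.map_inf] at this
    exact this
  have Lw : ∀ s z, L s ∞ z = ∞ := by
    intro s z
    revert z
    refine Cyl.cases f ?_ ?_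
    · intro a t ht
      rw [Lq s ∞ a t ht, sm_inf_right, hi]
    · intro y
      rw [Li, sm_inf_right, PMap.map_inf]
  have Lc : Continuous (fun p : (I × OnePoint W) × OnePoint (Cyl f) => L p.1.1 p.1.2 p.2) := by
    refine Cyl.continuous_of f ?_ ?_
    · have e : (fun p : (I × OnePoint W) × (OnePoint U × I) =>
          L p.1.1 p.1.2 (Cyl.q f p.2.1 p.2.2)) =
          fun p => h (cl (p.1.1 * (1 - p.2.2)), sm p.2.1 p.1.2) := by
        funext p
        exact Lq p.1.1 p.1.2 p.2.1 p.2.2 p.2.2.2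
      rw [e]
      refine hh.comp (Continuous.prodMk ?_ ?_)
      · refine continuous_cl.comp ?_
        fun_prop
      · exact Continuous.sm962 (continuous_fst.comp continuous_snd)
          (continuous_snd.comp continuous_fst)
    · have e : (fun p : (I × OnePoint W) × OnePoint V => L p.1.1 p.1.2 (Cyl.i f p.2)) =
          fun p => g (sm p.2 p.1.2) := by
        funext p
        exact Li p.1.1 p.1.2 p.2
      rw [e]
      exact g.cont.comp (Continuous.sm962 continuous_snd (continuous_snd.comp continuous_fst))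
  refine ⟨fun p => p.2.elim ∞ (fun c => L p.1 c.2 c.1), ?_, fun t => rfl, ?_, ?_⟩
  · refine continuous_of_sm' ?_
    have e : (fun p : I × (OnePoint (Cyl f) × OnePoint W) =>
        (fun p : I × OnePoint (Cyl f × W) => p.2.elim ∞ (fun c => L p.1 c.2 c.1))
          (p.1, sm p.2.1 p.2.2)) = fun p => L p.1 p.2.2 p.2.1 := by
      funext p
      obtain ⟨s, z, w⟩ := p
      change (sm z w).elim ∞ (fun c => L s c.2 c.1) = L s w z
      induction z using OnePoint.rec with
      | infty => rw [sm_inf_left, Linf]; rfl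
      | coe z =>
        induction w using OnePoint.rec with
        | infty => rw [sm_inf_right, Lw]; rfl
        | coe w => rfl
    rw [e]
    exact Lc.comp (Continuous.prodMk (continuous_fst.prodMk (continuous_snd.comp continuous_snd))
      (continuous_fst.comp continuous_snd))
  · intro x
    induction x using OnePoint.rec with
    | infty => rw [PMap.map_inf, PMap.map_inf]; rfl
    | coe x =>
      obtain ⟨z, w⟩ := x
      rw [PMap.smash_coe, PMap.id_apply]
      change L 0 w z = _
      have key : ∀ z : OnePoint (Cyl f), L 0 (w : OnePoint W) z = g (sm (Cyl.ret f z) w) := by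
        refine Cyl.cases f ?_ ?_
        · intro a t ht
          have e : ((0 : I) : ℝ) * (1 - t) = 0 := by simp
          rw [Lq 0 w a t ht, e, cl_zero, h0, PMap.comp_apply, PMap.smash_sm, PMap.id_apply,
            Cyl.ret_q]
        · intro y
          rw [Li, Cyl.ret_i]
      exact key z
  · intro z w
    change L 1 w (Cyl.iU f z) = ∞
    rw [← Cyl.top_coe, Cyl.top_apply, Lq 1 w z 0 ⟨le_rfl, zero_le_one⟩]
    have e : ((1 : I) : ℝ) * (1 - 0) = 1 := by simp
    rw [e, cl_one, h1]
    rfl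

/-- **the strict map of pairs out of the cylinder** -/
theorem exists_pair_cyl [T2Space B] [LocallyCompactSpace B] {A : Set B} (hA : IsClosed A)
    (f : PMap U V) (k : PMap (V × W) A)
    (hnull : (((PMap.ofClosed (Subtype.val : A → B) hA.isClosedEmbedding_subtypeVal).comp k).comp
      (f.smash (PMap.id W))).Null) :
    ∃ Λ : PMap ((Cyl f × W) × ℝ) (XX A),
      (∀ (z : U) (w : W) (τ : ℝ),
        Λ ((((Cyl.iU f z, w), τ) : (Cyl f × W) × ℝ) : OnePoint ((Cyl f × W) × ℝ)) = ∞ ∨
        ∃ u ∈ UU A, Λ ((((Cyl.iU f z, w), τ) : (Cyl f × W) × ℝ) :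
          OnePoint ((Cyl f × W) × ℝ)) = (u : OnePoint (XX A)))
      ∧ (collX A).comp Λ = (k.comp ((Cyl.ret f).smash (PMap.id W))).smash cR := by
  obtain ⟨H, hH, Hinf, H0, H1⟩ := exists_cyl_homotopy f
    ((PMap.ofClosed (Subtype.val : A → B) hA.isClosedEmbedding_subtypeVal).comp k) hnull
  obtain ⟨Λ, hΛ, hc⟩ := exists_pair hA (Z := range (Cyl.iU f)) (Cyl.ht f) (Cyl.continuous_ht f)
    (Cyl.ht_nonneg f) (Cyl.ht_eq_zero f) (k.comp ((Cyl.ret f).smash (PMap.id W))) H hH Hinf
    (fun x => by rw [H0]; rfl) (by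
      rintro _ ⟨z, rfl⟩ w
      exact H1 z w)
  exact ⟨Λ, fun z w τ => hΛ _ ⟨z, rfl⟩ w τ, hc⟩

end Crest.Agent.R090.F1PairCyl893
end

-- ▼ part R090/F1Asm_737
section

/-!
# Row 90, F1 (source form): assembly (owner helper737)
-/

set_option autoImplicit false
set_option linter.unusedSectionVars false

open Topology Filter Set

namespace Crest.Agent.R090.F1Core737

open OnePoint Crest.Agent.R090.Sp962 Crest.Agent.R090.Lin202 Crest.Agent.R090.Young152
open Crest.Agent.R090.Pi568 Crest.Agent.R090.Dens255 Crest.Agent.R090.Block568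
open Crest.Agent.R090.Grp528 Crest.Agent.R090.St528 Crest.Agent.R090.Exc503
open Crest.Agent.R090.Sm202 Crest.Agent.R090.SmIso528

section asm

variable {u D c : ℕ} {α : Type} [Fintype α] [DecidableEq α]

variable {M V P : Type} [TopologicalSpace M] [TopologicalSpace V]
  [TopologicalSpace P] [T2Space M] [T2Space V] [T2Space P]
  [LocallyCompactSpace M] [LocallyCompactSpace V] [LocallyCompactSpace P]

/-- the action of a permutation on the factor `V^ι` -/
noncomputable def tauV (D c : ℕ) (α V : Type) [TopologicalSpace V]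
    (σ : Equiv.Perm (Idx D c)) :
    ((Idx D c → α → ℂ) × ((Idx D c → V) × (Idx D c → ℂ))) ≃ₜ
      ((Idx D c → α → ℂ) × ((Idx D c → V) × (Idx D c → ℂ))) :=
  (Homeomorph.refl _).prodCongr ((Strata973.perm σ).prodCongr (Homeomorph.refl _))

/-- the diagonal action -/
noncomputable def tauE (D c : ℕ) (α V : Type) [TopologicalSpace V]
    (σ : Equiv.Perm (Idx D c)) :
    ((Idx D c → α → ℂ) × ((Idx D c → V) × (Idx D c → ℂ))) ≃ₜ
      ((Idx D c → α → ℂ) × ((Idx D c → V) × (Idx D c → ℂ))) :=
  (Strata973.perm σ).prodCongr ((Strata973.perm σ).prodCongr (Strata973.perm σ))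

theorem perm_homotopic_id {ι : Type} [Fintype ι] (E : Type) [NormedAddCommGroup E]
    [NormedSpace ℂ E] [FiniteDimensional ℂ E] (σ : Equiv.Perm ι) :
    (PMap.ofHomeo (Strata973.perm (X := E) σ)).Homotopic (PMap.id (ι → E)) := by
  have : PMap.ofHomeo (Strata973.perm (X := E) σ) =
      PMap.ofHomeo (F1d541.precompH E σ.symm) := PMap.ext fun _ => rfl
  rw [this]
  exact F1d541.precompH_homotopic_id σ.symm

theorem tauE_homotopic (σ : Equiv.Perm (Idx D c)) :
    (PMap.ofHomeo (tauE D c α V σ)).Homotopic (PMap.ofHomeo (tauV D c α V σ)) := by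
  have h := (perm_homotopic_id (α → ℂ) σ).smash
    ((PMap.Homotopic.refl (PMap.ofHomeo (Strata973.perm (X := V) σ))).smash
      (perm_homotopic_id ℂ σ))
  have e1 : PMap.ofHomeo (tauE D c α V σ) = (PMap.ofHomeo (Strata973.perm (X := α → ℂ) σ)).smash
      ((PMap.ofHomeo (Strata973.perm (X := V) σ)).smash
        (PMap.ofHomeo (Strata973.perm (X := ℂ) σ))) := PMap.ext fun _ => rfl
  have e2 : PMap.ofHomeo (tauV D c α V σ) = (PMap.id (Idx D c → α → ℂ)).smash
      ((PMap.ofHomeo (Strata973.perm (X := V) σ)).smash (PMap.id (Idx D c → ℂ))) :=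
    PMap.ext fun _ => rfl
  rw [e1, e2]
  exact h

theorem kappa_equi {Z : Set M} [hZf : Fact (IsClosed Z)] {m : ℕ} (ret : PMap M (α → ℂ))
    (σ : Equiv.Perm (Idx D c)) :
    (PMap.ofHomeo (tauE D c α V σ)).comp
      (((pow (Idx D c) ret).comp (incl (isClosed_PP hZf.out m))).smash
        (PMap.id ((Idx D c → V) × (Idx D c → ℂ)))) =
    (((pow (Idx D c) ret).comp (incl (isClosed_PP hZf.out m))).smash
        (PMap.id ((Idx D c → V) × (Idx D c → ℂ)))).comp
      (PMap.ofHomeo (tauH D c V Z m σ)) := by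
  have e1 : PMap.ofHomeo (tauE D c α V σ) = (PMap.ofHomeo (Strata973.perm σ)).smash
      (PMap.ofHomeo ((Strata973.perm (X := V) σ).prodCongr (Strata973.perm (X := ℂ) σ))) := by
    rw [PMap.smash_ofHomeo]
    rfl
  refine PMap.ext fun x => ?_
  obtain ⟨p, v, s⟩ := x
  rw [e1, PMap.comp_apply, PMap.smash_coe, PMap.smash_sm]
  have e2 : PMap.ofHomeo (Strata973.perm σ)
      (((pow (Idx D c) ret).comp (incl (isClosed_PP hZf.out m))) (p : OnePoint _)) =
      smPi fun i => ret ((p.1 (σ.symm i) : M) : OnePoint M) := by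
    change PMap.ofHomeo (Strata973.perm σ) (smPi fun i => ret ((p.1 i : M) : OnePoint M)) = _
    rw [perm_smPi]
  rw [e2]
  rfl

/-- **the kill for a contravariant theory** -/
theorem kill_T (T : CT.{0, 0}) (Al : Alph P u) {m : ℕ} {Z : Set M} [hZf : Fact (IsClosed Z)]
    (hm : D * u < m) (ret : PMap M (α → ℂ))
    (Λ : PMap ((M × V) × ℂ) P) (C : PMap P (((α → ℂ) × V) × ℂ))
    (hΛ : ∀ z ∈ Z, ∀ (v : V) (s : ℂ),
      Λ ((((z, v), s) : (M × V) × ℂ) : OnePoint ((M × V) × ℂ)) = ∞ ∨
        ∃ p, Al.ℓ p ≤ u ∧ Λ ((((z, v), s) : (M × V) × ℂ) : OnePoint ((M × V) × ℂ)) = (p : P))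
    (hC : (C.comp Λ).Homotopic ((ret.smash (PMap.id V)).smash (PMap.id ℂ)))
    (g : T.H ((Idx D c → α → ℂ) × ((Idx D c → V) × (Idx D c → ℂ)))) :
    T.map (((pow (Idx D c) ret).comp (incl (isClosed_PP hZf.out m))).smash
        (PMap.id ((Idx D c → V) × (Idx D c → ℂ))))
      (T.opE (fun σ => (yF D c ^ (yr D c * (u + 1) + 1)).coeff σ) (tauV D c α V) g) = 0 := by
  have h1 := power_step T Al hm ret Λ C hΛ hC g
  rw [← T.map_iterate_opE _ (tauE D c α V) (tauH D c V Z m) _ (fun σ => kappa_equi ret σ)] at h1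
  have h2 : T.opE (fun σ => (yF D c).coeff σ) (tauE D c α V) =
      T.opE (fun σ => (yF D c).coeff σ) (tauV D c α V) := by
    refine AddMonoidHom.ext fun g => ?_
    rw [CT.opE_apply, CT.opE_apply]
    refine Finset.sum_congr rfl fun σ _ => ?_
    rw [T.map_homotopic _ _ (tauE_homotopic σ)]
  rw [h2, T.opE_pow (ρ := tauV D c α V) (fun σ τ x => rfl)] at h1
  exact h1

/-- the shuffle of the auxiliary sphere -/
def thH (A B C' G : Type) [TopologicalSpace A] [TopologicalSpace B] [TopologicalSpace C']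
    [TopologicalSpace G] : ((A × B) × C') × G ≃ₜ (A × (B × G)) × C' where
  toFun p := ((p.1.1.1, (p.1.1.2, p.2)), p.1.2)
  invFun q := (((q.1.1, q.1.2.1), q.2), q.1.2.2)
  left_inv _ := rfl
  right_inv _ := rfl
  continuous_toFun := by fun_prop
  continuous_invFun := by fun_prop

theorem tens_expand {X : Type} [TopologicalSpace X] [T2Space X] [LocallyCompactSpace X]
    (κ : PMap X (Idx D c → α → ℂ)) (a : MonoidAlgebra ℤ (Equiv.Perm (Idx D c))) :
    Spine.tens (St.ofP κ) (Spine.permSt V a) = ∑ σ, a.coeff σ •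
      St.ofP (((PMap.id (Idx D c → α → ℂ)).smash (PMap.ofHomeo (Strata973.perm σ))).comp
        (κ.smash (PMap.id (Idx D c → V)))) := by
  rw [Spine.tens, Spine.permSt, Sm202.prod_sum]
  refine Finset.sum_congr rfl fun σ _ => ?_
  rw [Sm202.prod_zsmul, Sm202.prod_ofP, PMap.smash_comp, PMap.id_comp, PMap.comp_id]

theorem theta_ident {X : Type} [TopologicalSpace X] [T2Space X] [LocallyCompactSpace X]
    (κ : PMap X (Idx D c → α → ℂ)) (T : Type) [TopologicalSpace T] [T2Space T]
    [LocallyCompactSpace T] (σ : Equiv.Perm (Idx D c)) :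
    (PMap.ofHomeo (thH (Idx D c → α → ℂ) (Idx D c → V) T (Idx D c → ℂ)).symm).comp
      (((((PMap.ofHomeo (tauV D c α V σ)).comp
        (κ.smash (PMap.id ((Idx D c → V) × (Idx D c → ℂ))))).smash (PMap.id T))).comp
        (PMap.ofHomeo (thH X (Idx D c → V) T (Idx D c → ℂ)))) =
    ((((PMap.id (Idx D c → α → ℂ)).smash (PMap.ofHomeo (Strata973.perm σ))).comp
        (κ.smash (PMap.id (Idx D c → V)))).smash (PMap.id T)).smash
          (PMap.id (Idx D c → ℂ)) := by
  refine PMap.ext fun x => ?_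
  obtain ⟨⟨⟨p, v⟩, t⟩, s⟩ := x
  have key : ∀ y : OnePoint (Idx D c → α → ℂ), κ (p : OnePoint X) = y →
    PMap.ofHomeo (thH (Idx D c → α → ℂ) (Idx D c → V) T (Idx D c → ℂ)).symm
      (sm (PMap.ofHomeo (tauV D c α V σ) (sm y (((v, s) : (Idx D c → V) × (Idx D c → ℂ)) :
        OnePoint ((Idx D c → V) × (Idx D c → ℂ))))) (t : OnePoint T)) =
    sm (sm (((PMap.id (Idx D c → α → ℂ)).smash (PMap.ofHomeo (Strata973.perm σ)))
      (sm y (v : OnePoint (Idx D c → V)))) (t : OnePoint T)) (s : OnePoint (Idx D c → ℂ)) := by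
    intro y _
    induction y using OnePoint.rec with
    | infty => simp only [sm_inf_left, PMap.map_inf]
    | coe y => rfl
  exact key _ rfl

/-- the kill in `St` -/
theorem kill_St (Al : Alph P u) {m : ℕ} {Z : Set M} [hZf : Fact (IsClosed Z)]
    (hm : D * u < m) (ret : PMap M (α → ℂ))
    (Λ : PMap ((M × V) × ℂ) P) (C : PMap P (((α → ℂ) × V) × ℂ))
    (hΛ : ∀ z ∈ Z, ∀ (v : V) (s : ℂ),
      Λ ((((z, v), s) : (M × V) × ℂ) : OnePoint ((M × V) × ℂ)) = ∞ ∨
        ∃ p, Al.ℓ p ≤ u ∧ Λ ((((z, v), s) : (M × V) × ℂ) : OnePoint ((M × V) × ℂ)) = (p : P))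
    (hC : (C.comp Λ).Homotopic ((ret.smash (PMap.id V)).smash (PMap.id ℂ)))
    (T : Type) [TopologicalSpace T] [T2Space T] [LocallyCompactSpace T]
    (E : Type) [TopologicalSpace E] [T2Space E] [LocallyCompactSpace E] (hE : SphT.{0} E)
    (g : St (((Idx D c → α → ℂ) × ((Idx D c → V) × (Idx D c → ℂ))) × T) E) :
    ∑ σ, (yF D c ^ (yr D c * (u + 1) + 1)).coeff σ •
      (g.comp (St.ofP ((PMap.ofHomeo (tauV D c α V σ)).smash (PMap.id T)))).comp
        (St.ofP ((((pow (Idx D c) ret).comp (incl (isClosed_PP hZf.out m))).smash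
        (PMap.id ((Idx D c → V) × (Idx D c → ℂ)))).smash (PMap.id T))) = 0 := by
  have hk := kill_T (ctSt T E hE) Al hm ret Λ C hΛ hC g
  rw [CT.opE_apply, map_sum] at hk
  simp only [map_zsmul] at hk
  exact hk

theorem _root_.Crest.Agent.R090.Sp962.PMap.smash_comp_id {A B C' T : Type} [TopologicalSpace A]
    [TopologicalSpace B] [TopologicalSpace C'] [TopologicalSpace T] [T2Space A] [T2Space B]
    [T2Space C'] [T2Space T] [LocallyCompactSpace A] [LocallyCompactSpace B]
    [LocallyCompactSpace T] (b : PMap B C') (a : PMap A B) :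
    (b.comp a).smash (PMap.id T) = (b.smash (PMap.id T)).comp (a.smash (PMap.id T)) := by
  rw [PMap.smash_comp, PMap.comp_id]

/-- **F1 from the pair data** -/
theorem snull_of_pair (Al : Alph P u) {m : ℕ} {Z : Set M} [hZf : Fact (IsClosed Z)]
    (hm : D * u < m) (ret : PMap M (α → ℂ))
    (Λ : PMap ((M × V) × ℂ) P) (C : PMap P (((α → ℂ) × V) × ℂ))
    (hΛ : ∀ z ∈ Z, ∀ (v : V) (s : ℂ),
      Λ ((((z, v), s) : (M × V) × ℂ) : OnePoint ((M × V) × ℂ)) = ∞ ∨
        ∃ p, Al.ℓ p ≤ u ∧ Λ ((((z, v), s) : (M × V) × ℂ) : OnePoint ((M × V) × ℂ)) = (p : P))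
    (hC : (C.comp Λ).Homotopic ((ret.smash (PMap.id V)).smash (PMap.id ℂ))) :
    Spine.SNull (Spine.tens
      (St.ofP ((pow (Idx D c) ret).comp (incl (isClosed_PP (ι := Idx D c) hZf.out m))))
      (Spine.permSt V (yF D c ^ (yr D c * (u + 1) + 1)))) := by
  intro T _ _ _ j g
  set a := yF D c ^ (yr D c * (u + 1) + 1) with ha
  set κ := (pow (Idx D c) ret).comp (incl (isClosed_PP (ι := Idx D c) hZf.out m)) with hκ
  have hsus : Sus.{0} (Idx D c → ℂ) := sus_pi
  rw [tens_expand, smR_sum, St.comp_sum, ← smR_eq_zero (V := Idx D c → ℂ), smR_sum]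
  have hS : SphT.{0} ((Fin j → ℝ) × (Idx D c → ℂ)) := SphT.fd _
  have hk := kill_St Al hm ret Λ C hΛ hC T _ hS ((g.smR (Idx D c → ℂ)).comp
      (sh (thH (Idx D c → α → ℂ) (Idx D c → V) T (Idx D c → ℂ)).symm))
  rw [← ha, ← hκ] at hk
  have hk2 := congrArg (fun z : St _ _ => z.comp
    (sh (thH (PP Z (Idx D c) m) (Idx D c → V) T (Idx D c → ℂ)))) hk
  simp only [St.sum_comp, St.zsmul_comp, St.zero_comp] at hk2
  refine Eq.trans (Finset.sum_congr rfl fun σ _ => ?_) hk2
  rw [smR_zsmul, St.comp_zsmul, smR_zsmul, smR_ofP, smR_comp, smR_ofP]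
  congr 1
  rw [← theta_ident, PMap.smash_comp_id, St.ofP_comp, St.ofP_comp, St.ofP_comp]
  simp only [St.comp_assoc]
  rfl

end asm

end Crest.Agent.R090.F1Core737
end

-- ▼ part R090/F1PairPow_893
section

/-!
# Row 90, F1: powers of the map of pairs (owner helper893)

* `exists_restrict`, `exists_restrict_pow` : restriction of `f` resp. `pow ι f` to closed subsets;
* `sh` : the shuffle `(ι → E) × (ι → (W × T) × R) ≃ₜ (ι → ((E × W) × T) × R)` and its naturality;
* `exists_pair_pow` : the `ι`-th power of the map of pairs `Λ ∧ 1_ℝ` of `F1PairCyl_893`, restricted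
  to `PP (range iU) ι m × (ι → (W × ℝ) × ℝ)`, with values in `PP (fst ⁻¹' UU A) ι m`.
-/

set_option autoImplicit false

open Topology Filter Set unitInterval

namespace Crest.Agent.R090.F1PairPow893

open OnePoint Sp962 Cyl349 F1Pair893 F1PairCyl893 Pi568 Dens255

instance instLcIoi893 : LocallyCompactSpace (Ioi (0 : ℝ)) :=
  (isOpen_Ioi (a := (0 : ℝ))).isOpenEmbedding_subtypeVal.locallyCompactSpace

/-! ## restriction to closed subsets -/

section restr

variable {X : Type*} {Y : Type*} [TopologicalSpace X] [TopologicalSpace Y]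




variable {ι : Type*} [Finite ι]



end restr

/-! ## the shuffle -/

section shuffle

variable (ι : Type*) (E : Type*) (W : Type*) (T : Type*) (R : Type*)
  [TopologicalSpace E] [TopologicalSpace W] [TopologicalSpace T] [TopologicalSpace R]

/-- the shuffle homeomorphism -/
def sh : (ι → E) × (ι → (W × T) × R) ≃ₜ (ι → ((E × W) × T) × R) where
  toFun p i := (((p.1 i, (p.2 i).1.1), (p.2 i).1.2), (p.2 i).2)
  invFun x := (fun i => (x i).1.1.1, fun i => (((x i).1.1.2, (x i).1.2), (x i).2))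
  left_inv _ := rfl
  right_inv _ := rfl
  continuous_toFun := by
    refine continuous_pi fun i => ?_
    fun_prop
  continuous_invFun := by
    refine Continuous.prodMk (continuous_pi fun i => ?_) (continuous_pi fun i => ?_)
    · fun_prop
    · fun_prop

@[simp] theorem sh_apply (p : (ι → E) × (ι → (W × T) × R)) (i : ι) :
    sh ι E W T R p i = (((p.1 i, (p.2 i).1.1), (p.2 i).1.2), (p.2 i).2) := rfl

variable {ι E W T R}


variable {E' : Type*} {W' : Type*} {T' : Type*} {R' : Type*}
  [TopologicalSpace E'] [TopologicalSpace W'] [TopologicalSpace T'] [TopologicalSpace R']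


end shuffle

/-! ## the power of the map of pairs -/

section pairpow

variable {U : Type*} {V : Type*} {W : Type*} {B : Type*} [TopologicalSpace U]
  [TopologicalSpace V] [TopologicalSpace W] [TopologicalSpace B]
  [T2Space U] [LocallyCompactSpace U] [T2Space V] [LocallyCompactSpace V]
  [T2Space W] [LocallyCompactSpace W] [T2Space B] [LocallyCompactSpace B]





end pairpow

/-! ## `cR` is homotopic to a homeomorphism -/

section cR

open F1d541

/-- `(0, ∞) ≃ₜ (0, 1)` -/
noncomputable def RI' : Ioi (0 : ℝ) ≃ₜ Io where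
  toFun t := ⟨2 * Real.sigmoid t - 1, by
    have h : Real.sigmoid 0 < Real.sigmoid t := Real.sigmoid_strictMono t.2
    have h0 : Real.sigmoid 0 = 1 / 2 := by simp [Real.sigmoid_def]; norm_num
    have h1 := Real.sigmoid_lt_one (t : ℝ)
    constructor <;> linarith⟩
  invFun y := ⟨-Real.log ((((y : ℝ) + 1) / 2)⁻¹ - 1), by
    have hy := y.2
    have h1 : (1 : ℝ) < (((y : ℝ) + 1) / 2)⁻¹ := by
      rw [one_lt_inv₀ (by linarith [hy.1])]
      linarith [hy.2]
    have h2 : (((y : ℝ) + 1) / 2)⁻¹ < 2 := by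
      rw [inv_lt_comm₀ (by linarith [hy.1]) (by norm_num)]
      have := hy.1
      linarith
    show 0 < -Real.log ((((y : ℝ) + 1) / 2)⁻¹ - 1)
    rw [neg_pos]
    exact Real.log_neg (by linarith) (by linarith)⟩
  left_inv t := by
    apply Subtype.ext
    simp [Real.sigmoid_def]
  right_inv y := by
    have hy := y.2
    have h1 : (1 : ℝ) < (((y : ℝ) + 1) / 2)⁻¹ := by
      rw [one_lt_inv₀ (by linarith [hy.1])]
      linarith [hy.2]
    apply Subtype.ext
    have h2 : (0 : ℝ) < (((y : ℝ) + 1) / 2)⁻¹ - 1 := by linarith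
    simp only [Real.sigmoid_def, neg_neg, Real.exp_log h2]
    simp
    ring
  continuous_toFun := by
    refine Continuous.subtype_mk ?_ _
    have := _root_.continuous_sigmoid
    fun_prop
  continuous_invFun := by
    refine Continuous.subtype_mk ?_ _
    have h1 : Continuous fun y : Io => (((y : ℝ) + 1) / 2)⁻¹ - 1 := by
      refine Continuous.sub (Continuous.inv₀ (by fun_prop) fun y => ?_) continuous_const
      have := y.2.1
      positivity
    refine (h1.log fun y => ?_).neg
    have hy := y.2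
    have h1 : (1 : ℝ) < (((y : ℝ) + 1) / 2)⁻¹ := by
      rw [one_lt_inv₀ (by linarith [hy.1])]
      linarith [hy.2]
    refine ne_of_gt ?_
    linarith

/-- the collapse in the coordinate `(0, 1)` -/
theorem collapse_homotopic (c : PMap Io Io) (hc : ∀ x : Io, c x = qI (2 * x - 1)) :
    (PMap.id Io).Homotopic c := by
  have hcont : Continuous (fun p : I × OnePoint Io =>
      p.2.elim (∞ : OnePoint Io) (fun x : Io => qI (x + p.1 * (x - 1)))) := by
    let φ : I × I → I × OnePoint Io := fun p => (p.1, qI p.2)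
    have hφ : Continuous φ := continuous_fst.prodMk (continuous_qI.comp (by fun_prop))
    have hs : Function.Surjective φ := by
      rintro ⟨k, z⟩
      obtain ⟨t, ht⟩ := qI_surjective z
      exact ⟨(k, t), Prod.ext rfl ht⟩
    refine (hφ.isClosedMap.isQuotientMap hφ hs).continuous_iff.2 ?_
    have : ((fun p : I × OnePoint Io =>
        p.2.elim (∞ : OnePoint Io) (fun x : Io => qI (x + p.1 * (x - 1)))) ∘ φ) =
        fun p : I × I => qI ((p.2 : ℝ) + p.1 * (p.2 - 1)) := by
      funext p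
      obtain ⟨s, t⟩ := p
      change (qI (t : ℝ)).elim (∞ : OnePoint Io) (fun x : Io => qI (x + s * (x - 1))) = _
      by_cases ht : (t : ℝ) ∈ Ioo (0 : ℝ) 1
      · rw [qI_of_mem ht]; rfl
      · have h : qI (t : ℝ) = ∞ := dif_neg ht
        rw [h]
        symm
        change qI ((t : ℝ) + s * (t - 1)) = ∞
        rw [qI_eq_inf]
        have h0 := t.2.1
        have h1 := t.2.2
        have hs := s.2.1
        rcases eq_or_lt_of_le h0 with h0' | h0'
        · left
          rw [← h0']
          linarith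
        · right
          have : (t : ℝ) = 1 := by
            by_contra hne
            exact ht ⟨h0', lt_of_le_of_ne h1 hne⟩
          rw [this]; simp
    rw [this]
    exact continuous_qI.comp (by fun_prop)
  refine PMap.Homotopic.of _ hcont ?_ ?_ (fun t => rfl)
  · intro x
    change qI ((x : ℝ) + ((0 : I) : ℝ) * (x - 1)) = x
    simp
  · intro x
    change qI ((x : ℝ) + ((1 : I) : ℝ) * (x - 1)) = c x
    rw [hc]
    congr 1
    simp
    ring

theorem cR_homotopic : cR.Homotopic (PMap.ofHomeo (RI.trans RI'.symm)) := by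
  set c : PMap Io Io := (PMap.ofHomeo RI').comp (cR.comp (PMap.ofHomeo RI.symm)) with hc
  have hcv : ∀ x : Io, c x = qI (2 * x - 1) := by
    intro x
    obtain ⟨y, rfl⟩ := RI.surjective x
    have h1 : c (RI y : OnePoint Io) = PMap.ofHomeo RI' (cR (y : OnePoint ℝ)) := by
      change PMap.ofHomeo RI' (cR (PMap.ofHomeo RI.symm (RI y : OnePoint Io))) = _
      rw [PMap.ofHomeo_coe, Homeomorph.symm_apply_apply]
    rw [h1]
    have h0 : Real.sigmoid 0 = 1 / 2 := by simp [Real.sigmoid_def]; norm_num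
    rcases le_or_gt y 0 with hy | hy
    · rw [cR_nonpos y hy, PMap.map_inf]
      symm
      apply qI_of_le
      have : Real.sigmoid y ≤ Real.sigmoid 0 := Real.sigmoid_monotone hy
      change 2 * Real.sigmoid y - 1 ≤ 0
      linarith
    · rw [cR_pos y hy, PMap.ofHomeo_coe]
      have h2 : (2 * ((RI y : Io) : ℝ) - 1) = ((RI' ⟨y, hy⟩ : Io) : ℝ) := rfl
      rw [h2, qI_coe]
  have h := (collapse_homotopic c hcv).symm
  have h2 := PMap.Homotopic.comp (PMap.Homotopic.refl (PMap.ofHomeo RI'.symm))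
    (PMap.Homotopic.comp h (PMap.Homotopic.refl (PMap.ofHomeo RI)))
  have e1 : (PMap.ofHomeo RI'.symm).comp (c.comp (PMap.ofHomeo RI)) = cR := by
    refine PMap.ext fun x => ?_
    change PMap.ofHomeo RI'.symm (PMap.ofHomeo RI' (cR (PMap.ofHomeo RI.symm
      (PMap.ofHomeo RI (x : OnePoint ℝ))))) = _
    rw [PMap.ofHomeo_coe, PMap.ofHomeo_coe, Homeomorph.symm_apply_apply]
    exact congrArg (fun g : PMap (Ioi (0 : ℝ)) (Ioi (0 : ℝ)) => g (cR x))
      (PMap.ofHomeo_symm_comp RI')
  rw [e1] at h2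
  refine h2.trans (PMap.Homotopic.of_eq ?_)
  exact PMap.ext fun x => rfl

end cR

end Crest.Agent.R090.F1PairPow893
end

-- ▼ part R090/F1Stmt_737

/-!
# Row 90, F1: the literal `Spine.F1Stmt` (owner helper737; pair map by helper893)
-/

set_option autoImplicit false
set_option linter.unusedSectionVars false

open Topology Filter Set

namespace Crest.Agent.R090.F1Core737

open OnePoint Crest.Agent.R090.Sp962 Crest.Agent.R090.Lin202 Crest.Agent.R090.Young152
open Crest.Agent.R090.Pi568 Crest.Agent.R090.Dens255 Crest.Agent.R090.Block568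
open Crest.Agent.R090.Grp528 Crest.Agent.R090.St528 Crest.Agent.R090.Exc503
open Crest.Agent.R090.Sm202 Crest.Agent.R090.SmIso528 Crest.Agent.R090.Cyl349

/-- the homeomorphism `(0, ∞) ≃ ℝ` -/
noncomputable def hR : ℝ ≃ₜ Ioi (0 : ℝ) := F1d541.RI.trans F1PairPow893.RI'.symm

/-- `ℂ = ℝ × ℝ` -/
noncomputable def cRR : ℂ ≃ₜ ℝ × ℝ := Complex.equivRealProdCLM.toHomeomorph

/-- regrouping -/
noncomputable def e1H (X : Type) [TopologicalSpace X] : X × ℂ ≃ₜ (X × ℝ) × ℝ :=
  ((Homeomorph.refl X).prodCongr cRR).trans (Homeomorph.prodAssoc X ℝ ℝ).symm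

/-- regrouping -/
noncomputable def e2H {A X : Type} [TopologicalSpace A] [TopologicalSpace X] (θ : A ≃ₜ X) :
    (A × Ioi (0 : ℝ)) × ℝ ≃ₜ X × ℂ :=
  ((θ.prodCongr hR.symm).prodCongr (Homeomorph.refl ℝ)).trans (e1H X).symm

/-- conversion of the filtration -/
def fltOf {B : Type} [TopologicalSpace B] {A : Set B} {u : ℕ} (F : F0_933.Flt A u) : Flt A u :=
  ⟨F.lev, F.le, F.closed, F.zero, F.cell⟩

theorem f1Stmt : Spine.F1Stmt := by
  intro α _ _ Z _ _ _ f c D u m hc hD hF hm
  obtain ⟨V, B, _, _, _, _, _, _, A, hA, θ, hV, ⟨F⟩, hnull⟩ := hF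
  refine ⟨V, inferInstance, inferInstance, inferInstance, hV, yr D c * (u + 1), ?_⟩
  obtain ⟨Λ, hΛ, hcoll⟩ := F1PairCyl893.exists_pair_cyl hA.out f (PMap.ofHomeo θ.symm) hnull
  have hXX : LocallyCompactSpace (XX A) := (isClosed_XX hA.out).locallyCompactSpace
  have hAlc : LocallyCompactSpace A := hA.out.locallyCompactSpace
  let Λ' : PMap ((Cyl f × V) × ℂ) (XX A × ℝ) :=
    (Λ.smash (PMap.id ℝ)).comp (PMap.ofHomeo (e1H (Cyl f × V)))
  let C : PMap (XX A × ℝ) (((α → ℂ) × V) × ℂ) :=
    (PMap.ofHomeo (e2H θ)).comp ((F1Pair893.collX A).smash (PMap.id ℝ))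
  refine snull_of_pair (alphXX (fltOf F) hA.out) (Z := range (Cyl.iU f)) hm (Cyl.ret f) Λ' C
    ?_ ?_
  · rintro _ ⟨z, rfl⟩ v s
    have hval : Λ' ((((Cyl.iU f z, v), s) : (Cyl f × V) × ℂ) : OnePoint ((Cyl f × V) × ℂ)) =
        sm (Λ ((((Cyl.iU f z, v), (cRR s).1) : (Cyl f × V) × ℝ) :
          OnePoint ((Cyl f × V) × ℝ))) ((cRR s).2 : OnePoint ℝ) := rfl
    rw [hval]
    rcases hΛ z v (cRR s).1 with h | ⟨p, hp, h⟩
    · left
      rw [h, sm_inf_left]
    · right
      refine ⟨(p, (cRR s).2), ?_, ?_⟩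
      · rw [alphXX_le_iff]
        exact hp
      · rw [h]
        rfl
  · have h1 : C.comp Λ' = (PMap.ofHomeo (e2H θ)).comp
        ((((F1Pair893.collX A).comp Λ).smash (PMap.id ℝ)).comp
          (PMap.ofHomeo (e1H (Cyl f × V)))) := by
      have : ((F1Pair893.collX A).comp Λ).smash (PMap.id ℝ) =
          ((F1Pair893.collX A).smash (PMap.id ℝ)).comp (Λ.smash (PMap.id ℝ)) := by
        rw [PMap.smash_comp, PMap.comp_id]
      rw [this]
      rfl
    rw [h1, hcoll]
    have h2 : (((PMap.ofHomeo θ.symm).comp ((Cyl.ret f).smash (PMap.id V))).smash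
        F1Pair893.cR).Homotopic (((PMap.ofHomeo θ.symm).comp
          ((Cyl.ret f).smash (PMap.id V))).smash (PMap.ofHomeo hR)) :=
      (PMap.Homotopic.refl _).smash F1PairPow893.cR_homotopic
    have h3 := PMap.Homotopic.comp_left (PMap.ofHomeo (e2H θ))
      (PMap.Homotopic.comp_right (h2.smash (PMap.Homotopic.refl (PMap.id ℝ)))
        (PMap.ofHomeo (e1H (Cyl f × V))))
    refine h3.trans (.of_eq ?_)
    refine PMap.ext fun x => ?_
    obtain ⟨⟨x, v⟩, s⟩ := x
    have key : ∀ y : OnePoint (α → ℂ), 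
        PMap.ofHomeo (e2H θ) (sm (sm (PMap.ofHomeo θ.symm (sm y (v : OnePoint V)))
          ((hR (cRR s).1 : Ioi (0 : ℝ)) : OnePoint (Ioi (0 : ℝ)))) ((cRR s).2 : OnePoint ℝ)) =
        sm (sm y (v : OnePoint V)) (s : OnePoint ℂ) := by
      intro y
      induction y using OnePoint.rec with
      | infty => simp only [sm_inf_left, PMap.map_inf]
      | coe y =>
        have hv : e2H θ ((θ.symm (y, v), hR (cRR s).1), (cRR s).2) =
            (((y, v), s) : ((α → ℂ) × V) × ℂ) := by
          change ((θ (θ.symm (y, v)), cRR.symm (hR.symm (hR (cRR s).1), (cRR s).2)) :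
            ((α → ℂ) × V) × ℂ) = _
          rw [Homeomorph.apply_symm_apply, Homeomorph.symm_apply_apply, Prod.mk.eta,
            Homeomorph.symm_apply_apply]
        exact congrArg (fun q : ((α → ℂ) × V) × ℂ => (q : OnePoint (((α → ℂ) × V) × ℂ))) hv
    exact key _

end Crest.Agent.R090.F1Core737
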