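import Mathlib
import Crest.Agent.R090.Sm_202
import Crest.Agent.R090.St3_528
import Crest.Agent.R090.Exc_503
import Crest.Agent.R090.Block_568

-- ▼ part R090/GlueN_264
section

/-!
# Row 90, GLUE part N (owner helper264): the arithmetic of the prime gluing
-/

set_option autoImplicit false

namespace Crest.Agent.R090.GlueN264

/-- the arithmetic of the gluing over the primes (`d u m` = additive order of `κ_{u,m}`) -/
theorem exists_one (d : ℕ → ℕ → ℕ)
    (K1 : ∀ u m j m', 1 ≤ m → m ≤ u + 1 → j * (m - 1) < m' → d (j * u) m' ∣ (d u m) ^ j)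
    (K3 : ∀ u m m', m ≤ m' → d u m' ∣ d u m)
    (H : ∀ q : ℕ, q.Prime → ∃ u m, 0 < u ∧ 4 * m ≤ u ∧ ¬ q ∣ d u m) :
    ∃ u m, 0 < u ∧ 2 * m ≤ u ∧ d u m = 1 := by
  choose! U m hU hm hd using H
  -- finitely many primes
  set F : Finset ℕ := insert 2 (d (U 2) (m 2)).primeFactors with hF
  have hFp : ∀ q ∈ F, q.Prime := by
    intro q hq
    rcases Finset.mem_insert.1 hq with rfl | h
    · exact Nat.prime_two
    · exact Nat.prime_of_mem_primeFactors h
  set P : ℕ := ∏ q ∈ F, U q with hP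
  have hPpos : 0 < P := Finset.prod_pos fun q hq => hU q (hFp q hq)
  have hdvd : ∀ q ∈ F, U q ∣ P := fun q hq => Finset.dvd_prod_of_mem U hq
  -- all of them kill `κ_{4P, P+1}`
  have key : ∀ q ∈ F, ∃ j, d (4 * P) (P + 1) ∣ (d (U q) (m q)) ^ j := by
    intro q hq
    obtain ⟨c, hc⟩ := hdvd q hq
    have hqp := hFp q hq
    have h1 := hm q hqp
    have h2 := hU q hqp
    have e : (4 * c) * U q = 4 * P := by rw [hc]; ring
    have h3 : max (m q) 1 ≤ U q + 1 := by omega
    have h4 : (4 * c) * (max (m q) 1 - 1) < P + 1 := by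
      have : (4 * c) * (max (m q) 1 - 1) ≤ (4 * c) * (m q) :=
        Nat.mul_le_mul_left _ (by omega)
      have h5 : 4 * c * m q = c * (4 * m q) := by ring
      have h6 : c * (4 * m q) ≤ c * U q := Nat.mul_le_mul_left _ h1
      have h7 : c * U q = P := by rw [hc]; ring
      omega
    have h5 := K1 (U q) (max (m q) 1) (4 * c) (P + 1) (le_max_right _ _) h3 h4
    rw [e] at h5
    exact ⟨4 * c, h5.trans (pow_dvd_pow_of_dvd (K3 _ _ _ (le_max_left _ _)) _)⟩
  refine ⟨4 * P, P + 1, by omega, by omega, ?_⟩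
  by_contra hne
  obtain ⟨q, hq, hqd⟩ := Nat.exists_prime_and_dvd hne
  obtain ⟨j, hj⟩ := key 2 (Finset.mem_insert_self _ _)
  have h1 : q ∣ d (U 2) (m 2) := hq.dvd_of_dvd_pow (hqd.trans hj)
  have h0 : d (U 2) (m 2) ≠ 0 := by
    intro h
    exact hd 2 Nat.prime_two (h ▸ dvd_zero 2)
  have hqF : q ∈ F := Finset.mem_insert_of_mem (Nat.mem_primeFactors.2 ⟨hq, h1, h0⟩)
  obtain ⟨j', hj'⟩ := key q hqF
  exact hd q hq (hq.dvd_of_dvd_pow (hqd.trans hj'))

end Crest.Agent.R090.GlueN264
end

-- ▼ part R090/GlueS_264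

/-!
# Row 90, GLUE part S (owner helper264): the stable union lemma

* `ex_st`   : stable middle exactness, target a f.d. real vector space;
* `inter`   : interchange with a strict map;
* `union`   : `n x|A = 0`, `n' x'|A' = 0` give `n n' (x ∧ x')|(A × B' ∪ B × A') = 0`;
* `pow_union` : powers;
* `kill`    : the class of `P_{u,m} → (E^u)⁺` under blocks;
* `exists_kill` : gluing over the primes.
-/

set_option autoImplicit false
set_option linter.unusedSectionVars false

open Topology Filter Set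

namespace Crest.Agent.R090.GlueS264

open OnePoint Crest.Agent.R090.Sp962 Crest.Agent.R090.Grp528 Crest.Agent.R090.St528
  Crest.Agent.R090.Sm202 Crest.Agent.R090.Exc503 Crest.Agent.R090.Pi568 Crest.Agent.R090.Dens255
  Crest.Agent.R090.Block568
open Crest.R090.Hep865

/-! ## middle exactness -/

section ex

variable {F : Type*} {U : Type*} {O : Type*} {V : Type*}
variable [TopologicalSpace F] [TopologicalSpace U] [TopologicalSpace O]
variable [T2Space F] [T2Space U] [T2Space O] [LocallyCompactSpace F] [LocallyCompactSpace U]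
  [LocallyCompactSpace O]
variable [TopologicalSpace V] [T2Space V] [LocallyCompactSpace V] [AddCommGroup V] [Module ℝ V]
  [FiniteDimensional ℝ V] [IsTopologicalAddGroup V] [ContinuousSMul ℝ V]
variable {i : F → U} {e : O → U}

theorem ex_st (h : OC i e) (x : St U V) (hx : x.comp (St.ofP h.incl) = 0) :
    ∃ y : St O V, x = y.comp (St.ofP h.coll) := by
  obtain ⟨n, -, a, rfl⟩ := x.exists_of_ge 0
  rw [St.ofP, St.map_eq_of _ n, St.of_comp_of, St.of_eq_zero_iff] at hx
  obtain ⟨k, hk⟩ := hx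
  rw [stN_comp, stN_smash] at hk
  rw [← St.of_stN a k]
  obtain ⟨g, hg⟩ := HC.mk_surj (stN a k)
  rw [← hg] at hk ⊢
  have hn : (g.comp (h.prodRight (Fin (n + k) → ℂ)).incl).Null := by
    rw [h.prodRight_incl]
    exact HC.mk_eq.1 hk
  obtain ⟨g', hg'⟩ := (h.prodRight (Fin (n + k) → ℂ)).exists_coll (NE.onePoint _) g hn
  refine ⟨St.of (n + k) (HC.mk g'), ?_⟩
  rw [St.ofP, St.map_eq_of _ (n + k), St.of_comp_of]
  refine congrArg _ ?_
  rw [HC.sound hg', h.prodRight_coll]
  rfl

end ex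

/-! ## interchange with a strict map -/

section inter

variable {X X' Y Y' : Type*} [TopologicalSpace X] [TopologicalSpace X'] [TopologicalSpace Y]
  [TopologicalSpace Y'] [T2Space X] [T2Space X'] [T2Space Y] [T2Space Y']
  [LocallyCompactSpace X] [LocallyCompactSpace X'] [LocallyCompactSpace Y]
  [LocallyCompactSpace Y']

theorem smash_asC (f : PMap X X') (Z : Type*) [TopologicalSpace Z] [T2Space Z]
    [LocallyCompactSpace Z] (n : ℕ) :
    (HC.mk (f.smash (PMap.id Z))).smash (h1 (Fin n → ℂ)) =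
      ((HC.mk f).smash (h1 (S Z n))).conj (asC X Z (Fin n → ℂ)).symm
        (asC X' Z (Fin n → ℂ)).symm := by
  have h2 := conj_asC (HC.mk f) (h1 Z) (h1 (Fin n → ℂ))
  rw [h1_smash_h1] at h2
  rw [← h2, conj_conj]
  exact (conj_refl _).symm

theorem inter (f : PMap X X') (b : St Y Y') :
    ((St.ofP f).smR Y').comp (b.smL X) = (b.smL X').comp ((St.ofP f).smR Y) := by
  obtain ⟨n, -, b, rfl⟩ := b.exists_of_ge 0
  rw [smL_of, smL_of, smR_ofP, smR_ofP, St.ofP, St.ofP, St.map_eq_of _ n, St.map_eq_of _ n,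
    St.of_comp_of, St.of_comp_of]
  refine congrArg _ ?_
  rw [smash_asC, smash_asC, levL, levL, conj_comp_conj, conj_comp_conj, HC.smash_comp,
    HC.smash_comp, comp_h1, comp_h1, h1_comp, h1_comp]

end inter

/-! ## the union lemma -/

section union

variable {B B' E E' : Type*} [TopologicalSpace B] [TopologicalSpace B'] [TopologicalSpace E]
  [TopologicalSpace E'] [T2Space B] [T2Space B'] [T2Space E] [T2Space E']
  [LocallyCompactSpace B] [LocallyCompactSpace B'] [LocallyCompactSpace E]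
  [LocallyCompactSpace E']
variable [AddCommGroup E] [Module ℝ E] [FiniteDimensional ℝ E] [IsTopologicalAddGroup E]
  [ContinuousSMul ℝ E]
variable [AddCommGroup E'] [Module ℝ E'] [FiniteDimensional ℝ E'] [IsTopologicalAddGroup E']
  [ContinuousSMul ℝ E']

omit [AddCommGroup E] [Module ℝ E] [FiniteDimensional ℝ E] [IsTopologicalAddGroup E]
  [ContinuousSMul ℝ E] [AddCommGroup E'] [Module ℝ E'] [FiniteDimensional ℝ E']
  [IsTopologicalAddGroup E'] [ContinuousSMul ℝ E'] in
theorem smash_eq (f : PMap B E) (g : PMap B' E') :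
    St.ofP (f.smash g) = ((St.ofP f).smR E').comp ((St.ofP g).smL B) := by
  rw [smR_ofP, smL_ofP, ← St.ofP_comp, PMap.smash_comp, PMap.comp_id, PMap.id_comp]

theorem union {f : PMap B E} {g : PMap B' E'} {A : Set B} {A' : Set B'} (hA : IsClosed A)
    (hA' : IsClosed A') {C : Set (B × B')} (hC : IsClosed C)
    (hCA : ∀ p ∈ C, p.1 ∈ A ∨ p.2 ∈ A') [LocallyCompactSpace A] [LocallyCompactSpace A']
    [LocallyCompactSpace C] {n n' : ℕ}
    (hf : n • St.ofP (f.comp (incl hA)) = 0) (hg : n' • St.ofP (g.comp (incl hA')) = 0) :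
    (n * n') • St.ofP ((f.smash g).comp (incl hC)) = 0 := by
  have : LocallyCompactSpace (Aᶜ : Set B) :=
    hA.isOpen_compl.isOpenEmbedding_subtypeVal.locallyCompactSpace
  have : LocallyCompactSpace (A'ᶜ : Set B') :=
    hA'.isOpen_compl.isOpenEmbedding_subtypeVal.locallyCompactSpace
  have o := OC.of_isClosed hA
  have o' := OC.of_isClosed hA'
  obtain ⟨y, hy⟩ := ex_st o (n • St.ofP f) (by
    rw [St.nsmul_comp, ← St.ofP_comp]; exact hf)
  obtain ⟨y', hy'⟩ := ex_st o' (n' • St.ofP g) (by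
    rw [St.nsmul_comp, ← St.ofP_comp]; exact hg)
  have key : (n * n') • St.ofP (f.smash g) =
      ((y.smR E').comp (y'.smL (Aᶜ : Set B))).comp (St.ofP (o.coll.smash o'.coll)) := by
    rw [smash_eq]
    calc (n * n') • ((St.ofP f).smR E').comp ((St.ofP g).smL B)
        = ((n • St.ofP f).smR E').comp ((n' • St.ofP g).smL B) := by
          rw [smR_nsmul, smL_nsmul, St.comp_nsmul, St.nsmul_comp, ← mul_nsmul', mul_comm]
      _ = _ := by
          rw [hy, hy', smR_comp, smL_comp, St.comp_assoc, ← St.comp_assoc ((St.ofP o.coll).smR E'),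
            inter, smash_eq o.coll o'.coll]
          simp only [St.comp_assoc]
  have h0 : (o.coll.smash o'.coll).comp (incl hC) = PMap.zero _ _ := by
    refine PMap.ext fun c => ?_
    obtain ⟨⟨b, b'⟩, hc⟩ := c
    rw [PMap.comp_apply, incl_coe]
    change sm (o.coll (b : OnePoint B)) (o'.coll (b' : OnePoint B')) = ∞
    rcases hCA _ hc with h | h
    · have : o.coll (b : OnePoint B) = ∞ := o.coll_i ⟨b, h⟩
      rw [this, sm_inf_left]
    · have : o'.coll (b' : OnePoint B') = ∞ := o'.coll_i ⟨b', h⟩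
      rw [this, sm_inf_right]
  rw [St.ofP_comp, ← St.nsmul_comp, key, St.comp_assoc, ← St.ofP_comp, h0, St.ofP_zero,
    St.comp_zero]

end union

/-! ## powers -/

theorem ce_cod {P X : Type*} [TopologicalSpace P] [TopologicalSpace X] {g : P → X}
    (hg : IsClosedEmbedding g) {C : Set X} (h : ∀ p, g p ∈ C) :
    IsClosedEmbedding (C.codRestrict g h) :=
  .of_isEmbedding_isClosedMap (hg.isEmbedding.codRestrict C h) (hg.isClosedMap.codRestrict h)

section pow

variable {B E : Type*} [TopologicalSpace B] [TopologicalSpace E] [T2Space B] [T2Space E]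
  [LocallyCompactSpace B] [LocallyCompactSpace E]
variable [AddCommGroup E] [Module ℝ E] [FiniteDimensional ℝ E] [IsTopologicalAddGroup E]
  [ContinuousSMul ℝ E]

theorem mem_PP_one {ι M : Type*} [Finite ι] {Z : Set M} {x : ι → M} :
    x ∈ PP Z ι 1 ↔ ∃ i, x i ∈ Z := by
  rw [mem_PP, Nat.one_le_iff_ne_zero, ne_eq, Set.ncard_eq_zero (Set.toFinite _)]
  constructor
  · intro h
    obtain ⟨i, hi⟩ := Set.nonempty_iff_ne_empty.2 h
    exact ⟨i, hi⟩
  · rintro ⟨i, hi⟩ h
    have : i ∈ ({i | x i ∈ Z} : Set ι) := hi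
    rw [h] at this
    exact this

/-- powers of a map which is `n`-torsion on `A` are `n^j`-torsion on the families which meet `A` -/
theorem pow_union {f : PMap B E} {A : Set B} [hA : Fact (IsClosed A)] [LocallyCompactSpace A]
    {n : ℕ} (hf : n • St.ofP (f.comp (incl hA.out)) = 0) (j : ℕ) :
    (n ^ j) • St.ofP ((pow (Fin j) f).comp (incl (isClosed_PP (ι := Fin j) hA.out 1))) = 0 := by
  induction j with
  | zero =>
    have : (pow (Fin 0) f).comp (incl (isClosed_PP (ι := Fin 0) hA.out 1)) = PMap.zero _ _ := by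
      refine PMap.ext ?_
      rintro ⟨x, hx⟩
      obtain ⟨i, -⟩ := mem_PP_one.1 hx
      exact i.elim0
    rw [this, St.ofP_zero, smul_zero]
  | succ j ih =>
    set C : Set (B × (Fin j → B)) := {p | p.1 ∈ A ∨ p.2 ∈ PP A (Fin j) 1} with hCdef
    have hC : IsClosed C := by
      have : C = Prod.fst ⁻¹' A ∪ Prod.snd ⁻¹' (PP A (Fin j) 1) := rfl
      rw [this]
      exact (hA.out.preimage continuous_fst).union
        ((isClosed_PP (ι := Fin j) hA.out 1).preimage continuous_snd)
    have : LocallyCompactSpace C := hC.isClosedEmbedding_subtypeVal.locallyCompactSpace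
    have h1 := union (f := f) (g := pow (Fin j) f) hA.out (isClosed_PP (ι := Fin j) hA.out 1) hC
      (fun p hp => hp) hf ih
    -- the restricted homeomorphism
    have hm : ∀ x : PP A (Fin (j + 1)) 1, finSucc (fun _ => B) (x : Fin (j + 1) → B) ∈ C := by
      rintro ⟨x, hx⟩
      obtain ⟨i, hi⟩ := mem_PP_one.1 hx
      revert hi
      refine Fin.cases ?_ (fun i => ?_) i
      · intro hi; exact Or.inl hi
      · intro hi; exact Or.inr (mem_PP_one.2 ⟨i, hi⟩)
    have he : IsClosedEmbedding (fun x : PP A (Fin (j + 1)) 1 =>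
        finSucc (fun _ => B) (x : Fin (j + 1) → B)) :=
      (finSucc (fun _ => B)).isClosedEmbedding.comp
        (isClosed_PP (ι := Fin (j + 1)) hA.out 1).isClosedEmbedding_subtypeVal
    have h2 : (pow (Fin (j + 1)) f).comp (incl (isClosed_PP (ι := Fin (j + 1)) hA.out 1)) =
        (PMap.ofHomeo (finSucc (fun _ => E)).symm).comp
          (((f.smash (pow (Fin j) f)).comp (incl hC)).comp
            (PMap.ofClosed (C.codRestrict _ hm) (ce_cod he hm))) := by
      have h3 : ((f.smash (pow (Fin j) f)).comp (incl hC)).comp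
            (PMap.ofClosed (C.codRestrict _ hm) (ce_cod he hm)) =
          ((f.smash (pow (Fin j) f)).comp (PMap.ofHomeo (finSucc (fun _ => B)))).comp
            (incl (isClosed_PP (ι := Fin (j + 1)) hA.out 1)) := PMap.ext fun _ => rfl
      have h4 : (f.smash (pow (Fin j) f)).comp (PMap.ofHomeo (finSucc (fun _ => B))) =
          (PMap.ofHomeo (finSucc (fun _ => E))).comp (pow (Fin (j + 1)) f) :=
        (finSucc_pi (fun _ : Fin (j + 1) => f)).symm
      rw [h3, h4, PMap.comp_assoc, ← PMap.comp_assoc, PMap.ofHomeo_symm_comp, PMap.id_comp]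
    rw [h2, St.ofP_comp, St.ofP_comp, pow_succ, mul_comm, ← St.comp_nsmul, ← St.nsmul_comp, h1,
      St.zero_comp, St.comp_zero]

end pow

/-! ## blocks and primes -/

section kill

variable {M E : Type*} [TopologicalSpace M] [TopologicalSpace E] [T2Space M] [T2Space E]
  [LocallyCompactSpace M] [LocallyCompactSpace E]
variable [AddCommGroup E] [Module ℝ E] [FiniteDimensional ℝ E] [IsTopologicalAddGroup E]
  [ContinuousSMul ℝ E]

/-- the class of `P_{u,m}(M, Z) → (E^u)⁺` -/
noncomputable def kap (r : PMap M E) (Z : Set M) [hZ : Fact (IsClosed Z)] (u m : ℕ) :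
    St (PP Z (Fin u) m) (Fin u → E) :=
  St.ofP ((pow (Fin u) r).comp (incl (isClosed_PP (ι := Fin u) hZ.out m)))

theorem kap_anti (r : PMap M E) (Z : Set M) [hZ : Fact (IsClosed Z)] {u m m' : ℕ} (h : m ≤ m')
    {n : ℕ} (hn : n • kap r Z u m = 0) : n • kap r Z u m' = 0 := by
  have h1 : kap r Z u m' = (kap r Z u m).comp
      (St.ofP (inclS (isClosed_PP (ι := Fin u) hZ.out m') (PP_antitone Z h))) := by
    rw [kap, kap, ← St.ofP_comp]
    exact congrArg _ (PMap.ext fun _ => rfl)
  rw [h1, ← St.nsmul_comp, hn, St.zero_comp]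

theorem kap_mul (r : PMap M E) (Z : Set M) [hZ : Fact (IsClosed Z)] {u m j m' : ℕ}
    (h1 : 1 ≤ m) (h2 : m ≤ u + 1) (h3 : j * (m - 1) < m') {n : ℕ} (hn : n • kap r Z u m = 0) :
    (n ^ j) • kap r Z (j * u) m' = 0 := by
  have : Fact (IsClosed (PP Z (Fin u) m)) := ⟨isClosed_PP hZ.out m⟩
  have h4 := pow_union (f := pow (Fin u) r) (A := PP Z (Fin u) m) hn j
  rw [kap, pow_incl_factor hZ.out (l := 1) h1 h2 (by simpa using h3) r, St.ofP_comp,
    ← PMap.comp_assoc, St.ofP_comp, ← St.comp_nsmul, ← St.nsmul_comp, h4, St.zero_comp,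
    St.comp_zero]

/-- **gluing over the primes** -/
theorem exists_kill (r : PMap M E) (Z : Set M) [hZ : Fact (IsClosed Z)]
    (H : ∀ q : ℕ, q.Prime → ∃ u m n : ℕ, 0 < u ∧ 4 * m ≤ u ∧ ¬ q ∣ n ∧ n • kap r Z u m = 0) :
    ∃ u m : ℕ, 0 < u ∧ 2 * m ≤ u ∧ kap r Z u m = 0 := by
  obtain ⟨u, m, hu, hm, h⟩ := GlueN264.exists_one (fun u m => addOrderOf (kap r Z u m))
    (fun u m j m' h1 h2 h3 => by
      rw [addOrderOf_dvd_iff_nsmul_eq_zero]
      exact kap_mul r Z h1 h2 h3 (addOrderOf_nsmul_eq_zero _))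
    (fun u m m' h => by
      rw [addOrderOf_dvd_iff_nsmul_eq_zero]
      exact kap_anti r Z h (addOrderOf_nsmul_eq_zero _))
    (fun q hq => by
      obtain ⟨u, m, n, hu, hm, hn, h⟩ := H q hq
      refine ⟨u, m, hu, hm, fun hd => hn (hd.trans ?_)⟩
      rwa [addOrderOf_dvd_iff_nsmul_eq_zero])
  exact ⟨u, m, hu, hm, AddMonoid.addOrderOf_eq_one_iff.1 h⟩

end kill

end Crest.Agent.R090.GlueS264
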