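import Crest.Agent.R090.HSt_285
import Crest.Agent.R090.Sm_202

-- ▼ part R090/HStX_285
section

/-!
# Row 90, leaf AS6 (helper285): cross products on the stable category and `deg θ = L(φ)`

* `hst_smR`, `hst_smL` : naturality of the cross product for stable maps;
* `hst_theta` : `θ^* σ = L(φ) σ` for `θ = u ∘ (φ ∧ 1) ∘ swap ∘ g`, from one triangle identity
  (spheres of any parity) and Künneth for the one class `u^* σ`;
* `Lst_eq_of_theta` : if moreover `θ = m • 1` then `L(φ) = m`.
-/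

set_option autoImplicit false
set_option linter.unusedSectionVars false
set_option linter.style.haveILetI false

namespace Crest.Agent.R090.HSt285

open Topology Set Crest.Agent.R090.Sp962 Crest.Agent.R090.Grp528 Crest.Agent.R090.St528
open Crest.Agent.R090.CohT253 Crest.Agent.R090.Sm202

namespace CohX

variable {F : Type} [Field F] (H : CohX F)

variable {X Y Z W : Type} [TopologicalSpace X] [TopologicalSpace Y] [TopologicalSpace Z]
  [TopologicalSpace W] [T2Space X] [LocallyCompactSpace X] [T2Space Y] [LocallyCompactSpace Y]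
  [T2Space Z] [LocallyCompactSpace Z] [T2Space W] [LocallyCompactSpace W]

theorem cr_assoc' (x : H.h X) (y : H.h Y) (z : H.h Z) :
    H.hc (hh (Homeomorph.prodAssoc X Y Z)) (H.cr X (Y × Z) x (H.cr Y Z y z)) =
      H.cr (X × Y) Z (H.cr X Y x y) z := H.cr_assoc x y z

theorem cr_assoc_symm (x : H.h X) (y : H.h Y) (z : H.h Z) :
    H.hc (hh (Homeomorph.prodAssoc X Y Z).symm) (H.cr (X × Y) Z (H.cr X Y x y) z) =
      H.cr X (Y × Z) x (H.cr Y Z y z) := by
  rw [← cr_assoc', hc_symm_hh]

theorem hc_h1_smash (b : HC Z W) (y : H.h Y) (w : H.h W) :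
    H.hc ((h1 Y).smash b) (H.cr Y W y w) = H.cr Y Z y (H.hc b w) := by
  rw [hc_smash, hc_h1]

theorem hc_smash_h1 (a : HC X Y) (y : H.h Y) (w : H.h W) :
    H.hc (a.smash (h1 W)) (H.cr Y W y w) = H.cr X W (H.hc a y) w := by
  rw [hc_smash, hc_h1]

/-- equal composites of homeomorphisms act equally -/
theorem hc_congr {a b : HC X Y} (h : a = b) (y : H.h Y) : H.hc a y = H.hc b y := by rw [h]

/-- exchange of the last two factors when the middle one is the suspension class -/
theorem cr_exchange (y : H.h Y) (w : H.h W) :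
    H.hc (hh (swR Y W ℂ)) (H.cr (Y × ℂ) W (H.cr Y ℂ y H.sg) w) =
      H.cr (Y × W) ℂ (H.cr Y W y w) H.sg := by
  have h1' : H.hc (hh (Homeomorph.prodComm W ℂ)) (H.cr ℂ W H.sg w) = H.cr W ℂ w H.sg :=
    H.cr_comm_even H.sg w H.eps_sg
  rw [← cr_assoc', ← cr_assoc', ← h1', ← hc_h1_smash, ← hc_comp, ← hc_comp]
  refine H.hc_congr ?_ _
  rw [← hh_refl, hh_smash, ← hh_trans, ← hh_trans]
  exact hh_ext fun _ => rfl

/-! ## suspension of cross products -/

theorem sus_crL (n : ℕ) (w : H.h W) (x : H.h X) :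
    H.sus (W × X) n (H.cr W X w x) =
      H.hc (hh (asC W X (Fin n → ℂ))) (H.cr W (S X n) w (H.sus X n x)) := by
  induction n with
  | zero =>
    rw [sus_zero, sus_zero, ← hc_h1_smash, ← hc_comp]
    refine H.hc_congr ?_ _
    rw [← hh_refl, hh_smash, ← hh_trans]
    exact hh_ext fun _ => rfl
  | succ n ih =>
    rw [sus_succ, ih, ← hc_smash_h1, ← cr_assoc', sus_succ, ← hc_h1_smash, ← hc_comp, ← hc_comp,
      ← hc_comp]
    refine H.hc_congr ?_ _
    rw [← hh_refl, ← hh_refl, hh_smash, hh_smash, ← hh_trans, ← hh_trans, ← hh_trans]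
    exact hh_ext fun _ => rfl

theorem sus_crR (n : ℕ) (x : H.h X) (w : H.h W) :
    H.sus (X × W) n (H.cr X W x w) =
      H.hc (hh (swR X (Fin n → ℂ) W).symm) (H.cr (S X n) W (H.sus X n x) w) := by
  induction n with
  | zero =>
    rw [sus_zero, sus_zero, ← hc_smash_h1, ← hc_comp]
    refine H.hc_congr ?_ _
    rw [hh_smash_h1, ← hh_trans]
    exact hh_ext fun _ => rfl
  | succ n ih =>
    rw [sus_succ, ih, ← hc_smash_h1, ← cr_exchange, sus_succ, ← hc_smash_h1, ← hc_comp, ← hc_comp,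
      ← hc_comp]
    refine H.hc_congr ?_ _
    rw [hh_smash_h1, hh_smash_h1, ← hh_trans, ← hh_trans, ← hh_trans]
    exact hh_ext fun _ => rfl

/-! ## naturality for stable maps -/

theorem hn_levR {n : ℕ} (a : HC (S X n) (S Y n)) (y : H.h Y) (w : H.h W) :
    H.hn (levR W a) (H.cr Y W y w) = H.cr X W (H.hn a y) w := by
  refine H.hn_eq ?_
  rw [sus_crR, sus_crR, sus_hn, ← hc_smash_h1, levR, conj_def, hc_comp, hc_comp, hc_hh_symm]

theorem hn_levL {n : ℕ} (a : HC (S X n) (S Y n)) (w : H.h W) (y : H.h Y) :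
    H.hn (levL W a) (H.cr W Y w y) = H.cr W X w (H.hn a y) := by
  refine H.hn_eq ?_
  rw [sus_crL, sus_crL, sus_hn, ← hc_h1_smash, levL, conj_def, hc_comp, hc_comp, hc_symm_hh]
  rfl

theorem hst_smR (a : St X Y) (y : H.h Y) (w : H.h W) :
    H.hst (a.smR W) (H.cr Y W y w) = H.cr X W (H.hst a y) w := by
  obtain ⟨n, -, a, rfl⟩ := a.exists_of_ge 0
  rw [smR_of, hst_of, hst_of, hn_levR]

theorem hst_smL (a : St X Y) (w : H.h W) (y : H.h Y) :
    H.hst (a.smL W) (H.cr W Y w y) = H.cr W X w (H.hst a y) := by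
  obtain ⟨n, -, a, rfl⟩ := a.exists_of_ge 0
  rw [smL_of, hst_of, hst_of, hn_levL]

theorem hst_sh (e : X ≃ₜ Y) (y : H.h Y) : H.hst (sh e) y = H.hc (hh e) y := by
  rw [sh_eq, hst_map]


/-! ## duality computes the Lefschetz number -/

section theta

variable {M B S0 : Type} [TopologicalSpace M] [TopologicalSpace B] [TopologicalSpace S0]
  [T2Space M] [LocallyCompactSpace M] [T2Space B] [LocallyCompactSpace B] [T2Space S0]
  [LocallyCompactSpace S0]

/-- **`θ^* σ = L(φ) σ`** (helper698's form of the duality datum) -/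
theorem hst_theta (h2 : (2 : F) ≠ 0) (σ : H.h S0) (hσ0 : σ ≠ 0)
    (hσ : ∀ s : H.h S0, ∃ c : F, s = c • σ) (hpar : H.eps S0 σ = σ ∨ H.eps S0 σ = -σ)
    (hinj : ∀ x : H.h M, H.cr M S0 x σ = 0 → x = 0)
    (g : St S0 (B × M)) (u : St (M × B) S0)
    (tri : (u.smR M).comp ((sh (Homeomorph.prodAssoc M B M).symm).comp (g.smL M)) =
      sh (Homeomorph.prodComm M S0))
    {ι : Type*} [Fintype ι] (a : ι → H.h M) (b : ι → H.h B)
    (hK : H.hst u σ = ∑ i, H.cr M B (a i) (b i)) (φ : St M M) :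
    H.hst (u.comp ((φ.smR B).comp ((sh (Homeomorph.prodComm B M)).comp g))) σ =
      H.Lst φ • σ := by
  obtain ⟨lam, hlam, -⟩ := AS6285.exists_coord hσ0 hσ
  -- the dual family before the sign
  set c : ι → H.h M →ₗ[F] F := fun i => lam ∘ₗ H.hst g ∘ₗ H.cr B M (b i) with hc
  have hcσ : ∀ (bb : H.h B) (x : H.h M), H.hst g (H.cr B M bb x) =
      lam (H.hst g (H.cr B M bb x)) • σ := fun bb x => hlam _
  -- the triangle identity on `σ × x`
  have key : ∀ x : H.h M, H.cr M S0 (∑ i, c i x • a i) σ =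
      H.hc (hh (Homeomorph.prodComm M S0)) (H.cr S0 M σ x) := by
    intro x
    rw [← hst_sh, ← tri, hst_comp, hst_comp, hst_smR, hK]
    simp only [map_sum, LinearMap.sum_apply, map_smul, LinearMap.smul_apply]
    refine Finset.sum_congr rfl fun i _ => ?_
    rw [hst_sh, cr_assoc_symm, hst_smL, hcσ, map_smul]
    rfl
  -- the one term identity
  have gpar : ∀ (bb : H.h B) (x : H.h M), H.hst g (H.cr B M (H.eps B bb) (H.eps M x)) =
      H.eps S0 (H.hst g (H.cr B M bb x)) := by
    intro bb x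
    rw [eps_hst, eps_cr]
  have hL : H.hst (u.comp ((φ.smR B).comp ((sh (Homeomorph.prodComm B M)).comp g))) σ =
      ∑ i, H.hst g (H.hc (hh (Homeomorph.prodComm B M)) (H.cr M B (H.hst φ (a i)) (b i))) := by
    rw [hst_comp, hst_comp, hst_comp, hK]
    simp only [map_sum]
    refine Finset.sum_congr rfl fun i _ => ?_
    rw [hst_smR, hst_sh]
  have split : ∀ (P : H.h M →ₗ[F] H.h S0) (Q : H.h M →ₗ[F] H.h S0),
      (∀ x, H.eps M x = x → P x = Q x) → (∀ x, H.eps M x = -x → P x = Q x) → ∀ x, P x = Q x := by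
    intro P Q h0 h1 x
    have e : x = (2 : F)⁻¹ • (x + H.eps M x) + (2 : F)⁻¹ • (x - H.eps M x) := by
      rw [← smul_add, add_add_sub_cancel, ← two_smul F x, smul_smul, inv_mul_cancel₀ h2, one_smul]
    have e0 := h0 (x + H.eps M x) (by rw [map_add, H.eps_eps, add_comm])
    have e1 := h1 (x - H.eps M x) (by rw [map_sub, H.eps_eps, neg_sub])
    rw [e, P.map_add, Q.map_add, P.map_smul, P.map_smul, Q.map_smul, Q.map_smul, e0, e1]
  have comm0 : ∀ (bb : H.h B) (x : H.h M), H.eps M x = x →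
      H.hc (hh (Homeomorph.prodComm B M)) (H.cr M B x bb) = H.cr B M bb x :=
    fun bb x hx => H.cr_comm_even x bb hx
  have comm1 : ∀ (bb : H.h B) (x : H.h M), H.eps M x = -x →
      H.hc (hh (Homeomorph.prodComm B M)) (H.cr M B x bb) = H.cr B M (H.eps B bb) x :=
    fun bb x hx => H.cr_comm_odd x bb hx
  rcases hpar with hp | hp
  · -- even sphere
    have hdual : ∀ x, x = ∑ i, c i x • a i := by
      intro x
      have h3 := key x
      have h4 : H.hc (hh (Homeomorph.prodComm M S0)) (H.cr S0 M σ x) = H.cr M S0 x σ :=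
        H.cr_comm_even σ x hp
      rw [h4] at h3
      refine sub_eq_zero.1 (hinj _ ?_)
      rw [map_sub, LinearMap.sub_apply, h3, sub_self]
    rw [Lst, AS6285.trace_of_dual a c hdual, hL, Finset.sum_smul]
    refine Finset.sum_congr rfl fun i _ => ?_
    have hterm := split
      (H.hst g ∘ₗ H.hc (hh (Homeomorph.prodComm B M)) ∘ₗ
        (LinearMap.flip (H.cr M B) (b i)) ∘ₗ H.hst φ)
      (H.hst g ∘ₗ H.cr B M (b i) ∘ₗ H.eps M ∘ₗ H.hst φ)
      (fun x hx => by
        have h5 : H.eps M (H.hst φ x) = H.hst φ x := by rw [eps_hst, hx]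
        simp only [LinearMap.comp_apply, LinearMap.flip_apply]
        rw [comm0 _ _ h5, h5])
      (fun x hx => by
        have h5 : H.eps M (H.hst φ x) = -H.hst φ x := by rw [eps_hst, hx, map_neg]
        simp only [LinearMap.comp_apply, LinearMap.flip_apply]
        rw [comm1 _ _ h5]
        have h6 := gpar (b i) (H.hst φ x)
        rw [h5, map_neg, map_neg] at h6
        have h7 : H.eps S0 (H.hst g (H.cr B M (b i) (H.hst φ x))) =
            H.hst g (H.cr B M (b i) (H.hst φ x)) := by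
          rw [hcσ, map_smul, hp]
        rw [h7] at h6
        rw [h5, map_neg, map_neg, ← h6, neg_neg]) (a i)
    simp only [LinearMap.comp_apply, LinearMap.flip_apply] at hterm
    rw [hterm, hcσ]
    rfl
  · -- odd sphere
    have hdual : ∀ x, x = ∑ i, (c i ∘ₗ H.eps M) x • a i := by
      intro x
      have h3 := key (H.eps M x)
      have h4 : H.hc (hh (Homeomorph.prodComm M S0)) (H.cr S0 M σ (H.eps M x)) =
          H.cr M S0 (H.eps M (H.eps M x)) σ :=
        H.cr_comm_odd σ (H.eps M x) hp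
      rw [h4, H.eps_eps] at h3
      refine sub_eq_zero.1 (hinj _ ?_)
      simp only [LinearMap.comp_apply]
      rw [map_sub, LinearMap.sub_apply, h3, sub_self]
    rw [Lst, AS6285.trace_of_dual a (fun i => c i ∘ₗ H.eps M) hdual, hL, Finset.sum_smul]
    refine Finset.sum_congr rfl fun i _ => ?_
    have hterm := split
      (H.hst g ∘ₗ H.hc (hh (Homeomorph.prodComm B M)) ∘ₗ
        (LinearMap.flip (H.cr M B) (b i)) ∘ₗ H.hst φ)
      (H.hst g ∘ₗ H.cr B M (b i) ∘ₗ H.hst φ)
      (fun x hx => by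
        have h5 : H.eps M (H.hst φ x) = H.hst φ x := by rw [eps_hst, hx]
        simp only [LinearMap.comp_apply, LinearMap.flip_apply]
        rw [comm0 _ _ h5])
      (fun x hx => by
        have h5 : H.eps M (H.hst φ x) = -H.hst φ x := by rw [eps_hst, hx, map_neg]
        simp only [LinearMap.comp_apply, LinearMap.flip_apply]
        rw [comm1 _ _ h5]
        have h6 := gpar (b i) (H.hst φ x)
        rw [h5, map_neg, map_neg] at h6
        have h7 : H.eps S0 (H.hst g (H.cr B M (b i) (H.hst φ x))) =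
            -H.hst g (H.cr B M (b i) (H.hst φ x)) := by
          rw [hcσ, map_smul, hp, smul_neg]
        rw [h7] at h6
        exact neg_injective h6) (a i)
    simp only [LinearMap.comp_apply, LinearMap.flip_apply] at hterm
    rw [hterm, hcσ]
    simp only [LinearMap.comp_apply, H.eps_eps]
    rfl

/-- **AS6**: if `θ = m • 1` then `L(φ) = m` -/
theorem Lst_eq_of_theta (h2 : (2 : F) ≠ 0) (σ : H.h S0) (hσ0 : σ ≠ 0)
    (hσ : ∀ s : H.h S0, ∃ c : F, s = c • σ) (hpar : H.eps S0 σ = σ ∨ H.eps S0 σ = -σ)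
    (hinj : ∀ x : H.h M, H.cr M S0 x σ = 0 → x = 0)
    (g : St S0 (B × M)) (u : St (M × B) S0)
    (tri : (u.smR M).comp ((sh (Homeomorph.prodAssoc M B M).symm).comp (g.smL M)) =
      sh (Homeomorph.prodComm M S0))
    (hK : ∃ (n : ℕ) (a : Fin n → H.h M) (b : Fin n → H.h B),
      H.hst u σ = ∑ i, H.cr M B (a i) (b i)) (φ : St M M) (m : ℤ)
    (hm : u.comp ((φ.smR B).comp ((sh (Homeomorph.prodComm B M)).comp g)) = m • St.id S0) :
    H.Lst φ = (m : F) := by
  obtain ⟨n, a, b, hK⟩ := hK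
  have h := H.hst_theta h2 σ hσ0 hσ hpar hinj g u tri a b hK φ
  refine AS6285.trace_eq_of_degree hσ0 (θσ := H.Lst φ • σ) rfl ?_
  rw [← h, hm, hst_zsmul, hst_id]

end theta

end CohX

end Crest.Agent.R090.HSt285
end

-- ▼ part R090/Sph_285

/-!
# Row 90, leaf AS6 (helper285): cohomology of spheres from the unit and one real suspension class

`RSusp H` = unit class `one : h Unit` and real suspension class `sr : h ℝ` for `H : CohX F`;
`RSusp.sph n : h (Fin n → ℝ)`, one dimensional, of parity `(-1)^n`, `x ↦ x × sph n` bijective.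
-/

set_option autoImplicit false
set_option linter.unusedSectionVars false
set_option linter.style.haveILetI false

namespace Crest.Agent.R090.HSt285

open Topology Set Crest.Agent.R090.Sp962 Crest.Agent.R090.Grp528 Crest.Agent.R090.St528
open Crest.Agent.R090.CohT253 Crest.Agent.R090.Sm202

/-- unit and real suspension class -/
structure RSusp {F : Type} [Field F] (H : CohX F) where
  one : H.h Unit
  one_ne : one ≠ 0
  one_span : ∀ s : H.h Unit, ∃ c : F, s = c • one
  eps_one : H.eps Unit one = one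
  cr_one : ∀ (U : Type) [TopologicalSpace U] [T2Space U] [LocallyCompactSpace U] (x : H.h U),
    H.cr U Unit x one = H.map (PMap.ofHomeo (Homeomorph.prodPUnit U)) x
  sr : H.h ℝ
  eps_sr : H.eps ℝ sr = -sr
  suspR : ∀ (U : Type) [TopologicalSpace U] [T2Space U] [LocallyCompactSpace U],
    Function.Bijective (fun x : H.h U => H.cr U ℝ x sr)

namespace RSusp

variable {F : Type} [Field F] {H : CohX F} (R : RSusp H)

variable {X : Type} [TopologicalSpace X] [T2Space X] [LocallyCompactSpace X]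

/-- `(Fin 0 → ℝ) ≃ Unit` -/
def f0 : (Fin 0 → ℝ) ≃ₜ Unit where
  toFun _ := ()
  invFun _ := fun i => i.elim0
  left_inv _ := Subsingleton.elim _ _
  right_inv _ := rfl
  continuous_toFun := continuous_const
  continuous_invFun := continuous_const

/-- `(Fin (n+1) → ℝ) ≃ (Fin n → ℝ) × ℝ` -/
def fS (n : ℕ) : (Fin (n + 1) → ℝ) ≃ₜ (Fin n → ℝ) × ℝ where
  toFun v := (fun i => v i.castSucc, v (Fin.last n))
  invFun q := Fin.snoc (α := fun _ => ℝ) q.1 q.2
  left_inv v := Fin.snoc_init_self v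
  right_inv q := by
    obtain ⟨v, c⟩ := q
    simp
  continuous_toFun := by fun_prop
  continuous_invFun := Continuous.finSnoc (A := fun _ => ℝ) continuous_fst continuous_snd

/-- the class of the sphere `ℝ^n` -/
noncomputable def sph (R : RSusp H) : ∀ n : ℕ, H.h (Fin n → ℝ)
  | 0 => H.hc (hh f0) R.one
  | n + 1 => H.hc (hh (fS n)) (H.cr (Fin n → ℝ) ℝ (sph R n) R.sr)

theorem sph_succ (n : ℕ) :
    R.sph (n + 1) = H.hc (hh (fS n)) (H.cr (Fin n → ℝ) ℝ (R.sph n) R.sr) := rfl

theorem sph_ne (n : ℕ) : R.sph n ≠ 0 := by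
  induction n with
  | zero =>
    intro h
    refine R.one_ne ((H.hc_hh_bijective f0).1 ?_)
    rw [map_zero]; exact h
  | succ n ih =>
    intro h
    have h1 : H.cr (Fin n → ℝ) ℝ (R.sph n) R.sr = 0 := by
      refine (H.hc_hh_bijective (fS n)).1 ?_
      rw [map_zero]; exact h
    refine ih ((R.suspR (Fin n → ℝ)).1 ?_)
    change H.cr _ _ _ _ = H.cr _ _ _ _
    rw [h1, map_zero, LinearMap.zero_apply]

theorem sph_span (n : ℕ) (s : H.h (Fin n → ℝ)) : ∃ c : F, s = c • R.sph n := by
  induction n with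
  | zero =>
    obtain ⟨t, rfl⟩ := (H.hc_hh_bijective f0).2 s
    obtain ⟨c, rfl⟩ := R.one_span t
    exact ⟨c, map_smul _ _ _⟩
  | succ n ih =>
    obtain ⟨t, rfl⟩ := (H.hc_hh_bijective (fS n)).2 s
    obtain ⟨r, rfl⟩ := (R.suspR (Fin n → ℝ)).2 t
    obtain ⟨c, rfl⟩ := ih r
    refine ⟨c, ?_⟩
    change H.hc (hh (fS n)) (H.cr _ _ (c • R.sph n) R.sr) = _
    rw [map_smul, LinearMap.smul_apply, map_smul, sph_succ]

theorem eps_sph (n : ℕ) : H.eps _ (R.sph n) = (-1 : F) ^ n • R.sph n := by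
  induction n with
  | zero => rw [pow_zero, one_smul, sph, H.eps_hc, R.eps_one]
  | succ n ih =>
    rw [sph_succ, H.eps_hc, H.eps_cr, ih, R.eps_sr, map_neg, map_smul, LinearMap.smul_apply,
      map_neg, map_smul, pow_succ, mul_neg_one, neg_smul]

theorem eps_sph_or (n : ℕ) : H.eps _ (R.sph n) = R.sph n ∨ H.eps _ (R.sph n) = -R.sph n := by
  rw [eps_sph]
  rcases neg_one_pow_eq_or F n with h | h
  · left; rw [h, one_smul]
  · right; rw [h, neg_one_smul]

/-- `x ↦ x × sph n` is bijective -/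
theorem cr_sph_bijective (n : ℕ) :
    Function.Bijective (fun x : H.h X => H.cr X (Fin n → ℝ) x (R.sph n)) := by
  induction n with
  | zero =>
    have e : (fun x : H.h X => H.cr X (Fin 0 → ℝ) x (R.sph 0)) =
        H.hc (hh (((Homeomorph.refl X).prodCongr f0).trans (Homeomorph.prodPUnit X))) := by
      funext x
      have h1' : H.cr X Unit x R.one = H.hc (hh (Homeomorph.prodPUnit X)) x := R.cr_one X x
      change H.cr X (Fin 0 → ℝ) x (H.hc (hh f0) R.one) = _
      rw [← H.hc_h1_smash, h1', hh_trans, H.hc_comp, ← hh_smash, hh_refl]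
    rw [e]
    exact H.hc_hh_bijective _
  | succ n ih =>
    have e : (fun x : H.h X => H.cr X (Fin (n + 1) → ℝ) x (R.sph (n + 1))) =
        (H.hc (hh (((Homeomorph.refl X).prodCongr (fS n)).trans
          (Homeomorph.prodAssoc X (Fin n → ℝ) ℝ).symm))) ∘
        (fun y : H.h (X × (Fin n → ℝ)) => H.cr _ ℝ y R.sr) ∘
        (fun x : H.h X => H.cr X (Fin n → ℝ) x (R.sph n)) := by
      funext x
      simp only [Function.comp_apply]
      rw [sph_succ, ← H.hc_h1_smash, ← H.cr_assoc_symm, hh_trans, H.hc_comp, ← hh_smash, hh_refl]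
    rw [e]
    exact (H.hc_hh_bijective _).comp ((R.suspR _).comp ih)

theorem cr_sph_inj (n : ℕ) (x : H.h X) (h : H.cr X (Fin n → ℝ) x (R.sph n) = 0) : x = 0 := by
  refine (R.cr_sph_bijective n).1 ?_
  change H.cr _ _ _ _ = H.cr _ _ _ _
  rw [h, map_zero, LinearMap.zero_apply]


/-- **AS6 for real spheres**: the duality datum computes `L(φ)` -/
theorem Lst_eq {M B : Type} [TopologicalSpace M] [TopologicalSpace B]
    [T2Space M] [LocallyCompactSpace M] [T2Space B] [LocallyCompactSpace B]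
    (h2 : (2 : F) ≠ 0) (k : ℕ) (g : St (Fin k → ℝ) (B × M)) (u : St (M × B) (Fin k → ℝ))
    (tri : (u.smR M).comp ((sh (Homeomorph.prodAssoc M B M).symm).comp (g.smL M)) =
      sh (Homeomorph.prodComm M (Fin k → ℝ)))
    (hK : ∃ (n : ℕ) (a : Fin n → H.h M) (b : Fin n → H.h B),
      H.hst u (R.sph k) = ∑ i, H.cr M B (a i) (b i)) (φ : St M M) (m : ℤ)
    (hm : u.comp ((φ.smR B).comp ((sh (Homeomorph.prodComm B M)).comp g)) =
      m • St.id (Fin k → ℝ)) :
    H.Lst φ = (m : F) :=
  H.Lst_eq_of_theta h2 (R.sph k) (R.sph_ne k) (R.sph_span k) (R.eps_sph_or k)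
    (fun x hx => R.cr_sph_inj k x hx) g u tri hK φ m hm

/-- Künneth surjectivity supplies the class `u^* σ` -/
theorem exists_sum {M B : Type} [TopologicalSpace M] [TopologicalSpace B]
    [T2Space M] [LocallyCompactSpace M] [T2Space B] [LocallyCompactSpace B]
    (hs : Function.Surjective (TensorProduct.lift (H.cr M B))) (z : H.h (M × B)) :
    ∃ (n : ℕ) (a : Fin n → H.h M) (b : Fin n → H.h B), z = ∑ i, H.cr M B (a i) (b i) := by
  obtain ⟨t, rfl⟩ := hs z
  induction t using TensorProduct.induction_on with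
  | zero => exact ⟨0, fun i => i.elim0, fun i => i.elim0, by simp⟩
  | tmul x y => exact ⟨1, fun _ => x, fun _ => y, by simp⟩
  | add s t hs' ht' =>
    obtain ⟨n, a, b, h⟩ := hs'
    obtain ⟨n', a', b', h'⟩ := ht'
    refine ⟨n + n', Fin.append a a', Fin.append b b', ?_⟩
    rw [map_add, h, h', Fin.sum_univ_add]
    simp

end RSusp

end Crest.Agent.R090.HSt285
private theorem rz_4f3e407772 : type_of% @_root_.Crest.Agent.R090.HSt285.RSusp.sph.eq_def := @_root_.Crest.Agent.R090.HSt285.RSusp.sph.eq_def -- L59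
private theorem rz_417d66a4b9 : type_of% @_root_.Crest.Agent.R090.HSt285.RSusp.sph.eq_1 := @_root_.Crest.Agent.R090.HSt285.RSusp.sph.eq_1 -- L59
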