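import Crest.Agent.R090.Prod_202
import Crest.Agent.R090.St3_528

/-!
# Row 90: the stable category as a symmetric monoidal preadditive category (helper865)

* `LC` : bundled locally compact Hausdorff spaces in `Type`;
* `Hom X Y = St X Y`, `Category`, `Preadditive`, `MonoidalCategory`, `SymmetricCategory`,
  `MonoidalPreadditive`;
* unfolding lemmas `comp_eq`, `whiskerLeft_eq`, `whiskerRight_eq`, `associator_hom_eq`, ...
-/

set_option autoImplicit false
set_option linter.unusedSectionVars false

open Topology Filter Set CategoryTheory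

noncomputable section

namespace Crest.Agent.R090.StCat865

open OnePoint Crest.Agent.R090.Sp962 Crest.Agent.R090.Grp528 Crest.Agent.R090.St528
  Crest.Agent.R090.Sm202

/-- locally compact Hausdorff spaces -/
structure LC where
  /-- the space -/
  carrier : Type
  [top : TopologicalSpace carrier]
  [t2 : T2Space carrier]
  [lc : LocallyCompactSpace carrier]

instance : CoeSort LC Type := ⟨LC.carrier⟩

attribute [instance] LC.top LC.t2 LC.lc

/-- bundling -/
abbrev LC.of (X : Type) [TopologicalSpace X] [T2Space X] [LocallyCompactSpace X] : LC := ⟨X⟩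

instance : Category LC where
  Hom X Y := St X Y
  id X := St.id X
  comp f g := St.comp g f
  id_comp f := St.comp_id f
  comp_id f := St.id_comp f
  assoc f g h := (St.comp_assoc h g f).symm

instance : Preadditive LC where
  homGroup X Y := inferInstanceAs (AddCommGroup (St X Y))
  add_comp _ _ _ f f' g := St.comp_add g f f'
  comp_add _ _ _ f g g' := St.add_comp g g' f



/-- the isomorphism of a homeomorphism -/
def isoSh {X Y : LC} (e : X ≃ₜ Y) : X ≅ Y where
  hom := sh e
  inv := sh e.symm
  hom_inv_id := sh_symm_comp e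
  inv_hom_id := sh_comp_symm e

/-- `Unit × X ≃ X` -/
def unitL (X : Type) [TopologicalSpace X] : Unit × X ≃ₜ X where
  toFun p := p.2
  invFun x := ((), x)
  left_inv _ := rfl
  right_inv _ := rfl
  continuous_toFun := by fun_prop
  continuous_invFun := by fun_prop

/-- `X × Unit ≃ X` -/
def unitR (X : Type) [TopologicalSpace X] : X × Unit ≃ₜ X where
  toFun p := p.1
  invFun x := (x, ())
  left_inv _ := rfl
  right_inv _ := rfl
  continuous_toFun := by fun_prop
  continuous_invFun := by fun_prop

instance : MonoidalCategoryStruct LC where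
  tensorObj X Y := ⟨X × Y⟩
  whiskerLeft X _ _ f := St.smL X f
  whiskerRight f Y := St.smR Y f
  tensorHom f g := St.prod f g
  tensorUnit := ⟨Unit⟩
  associator X Y Z := isoSh (X := ⟨(X × Y) × Z⟩) (Y := ⟨X × (Y × Z)⟩) (asC X Y Z)
  leftUnitor X := isoSh (X := ⟨Unit × X⟩) (Y := X) (unitL X)
  rightUnitor X := isoSh (X := ⟨X × Unit⟩) (Y := X) (unitR X)

open MonoidalCategory


section unit

variable {X Y : Type} [TopologicalSpace X] [TopologicalSpace Y] [T2Space X] [T2Space Y]
  [LocallyCompactSpace X] [LocallyCompactSpace Y]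

theorem unitR_nat_level (a : HC X Y) :
    (hh (unitR Y)).comp (a.smash (h1 Unit)) = a.comp (hh (unitR X)) := by
  obtain ⟨a, rfl⟩ := HC.mk_surj a
  refine congrArg HC.mk (PMap.ext fun p => ?_)
  obtain ⟨x, u⟩ := p
  change PMap.ofHomeo (unitR Y) (sm (a x) (u : OnePoint Unit)) = a (x : OnePoint X)
  generalize a (x : OnePoint X) = y
  induction y using OnePoint.rec with
  | infty => simp
  | coe y => rfl

theorem unitR_nat (a : St X Y) :
    (sh (unitR Y)).comp (a.smR Unit) = a.comp (sh (unitR X)) := by
  obtain ⟨n, -, a, rfl⟩ := a.exists_of_ge 0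
  rw [smR_of, sh_eq, sh_eq, St.map_eq_of _ n, St.map_eq_of _ n, St.of_comp_of, St.of_comp_of]
  congr 1
  have e : ∀ (Z : Type) [TopologicalSpace Z] [T2Space Z] [LocallyCompactSpace Z],
      (hh (unitR Z)).smash (h1 (Fin n → ℂ)) =
      (hh (unitR (S Z n))).comp (hh (swR Z (Fin n → ℂ) Unit).symm) := by
    intro Z _ _ _
    rw [hh_smash_h1, ← hh_trans]
    exact hh_ext fun _ => rfl
  rw [e, e, levR, conj_def, HC.comp_assoc, hh_symm_comp_assoc, ← HC.comp_assoc, unitR_nat_level,
    HC.comp_assoc]

theorem unitL_nat (a : St X Y) :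
    (sh (unitL Y)).comp (a.smL Unit) = a.comp (sh (unitL X)) := by
  have h : ∀ (Z : Type) [TopologicalSpace Z] [T2Space Z] [LocallyCompactSpace Z],
      (sh (unitL Z)).comp (sh (Homeomorph.prodComm Z Unit)) = sh (unitR Z) := by
    intro Z _ _ _
    rw [← sh_trans]
    exact sh_ext fun _ => rfl
  rw [smL_eq_smR, ← St.comp_assoc, h, ← St.comp_assoc, unitR_nat, St.comp_assoc, ← h,
    St.comp_assoc, sh_comp_symm, St.comp_id]

end unit

instance : MonoidalCategory LC :=
  MonoidalCategory.ofTensorHom
    (id_tensorHom_id := fun X Y => prod_id_id)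
    (id_tensorHom := fun X Y₁ Y₂ f => prod_id_left f X)
    (tensorHom_id := fun f Y => prod_id_right f Y)
    (tensorHom_comp_tensorHom := fun f₁ f₂ g₁ g₂ => (prod_comp g₁ f₁ g₂ f₂).symm)
    (associator_naturality := fun {X₁ X₂ X₃ Y₁ Y₂ Y₃} f₁ f₂ f₃ => by
      change (sh (asC Y₁ Y₂ Y₃)).comp ((St.prod f₁ f₂).prod f₃) =
        (St.prod f₁ (St.prod f₂ f₃)).comp (sh (asC X₁ X₂ X₃))
      rw [← Sm202.prod_assoc]
      simp only [St.comp_assoc, sh_symm_comp, St.comp_id])
    (leftUnitor_naturality := fun {X Y} f => by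
      change (sh (unitL Y)).comp ((St.id Unit).prod f) = St.comp f (sh (unitL X))
      rw [prod_id_left, unitL_nat])
    (rightUnitor_naturality := fun {X Y} f => by
      change (sh (unitR Y)).comp (St.prod f (St.id Unit)) = St.comp f (sh (unitR X))
      rw [prod_id_right, unitR_nat])
    (pentagon := fun W X Y Z => by
      change (((St.id W).prod (sh (asC X Y Z))).comp (sh (asC W (X × Y) Z))).comp
        ((sh (asC W X Y)).prod (St.id Z)) = (sh (asC W X (Y × Z))).comp (sh (asC (W × X) Y Z))
      rw [prod_id_left, prod_id_right, smL_sh, smR_sh, ← sh_trans, ← sh_trans, ← sh_trans]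
      exact sh_ext fun _ => rfl)
    (triangle := fun X Y => by
      change ((St.id X).prod (sh (unitL Y))).comp (sh (asC X Unit Y)) =
        (sh (unitR X)).prod (St.id Y)
      rw [prod_id_left, prod_id_right, smL_sh, smR_sh, ← sh_trans]
      exact sh_ext fun _ => rfl)

instance : MonoidalPreadditive LC where
  whiskerLeft_zero {X Y Z} := smL_zero (X := Y) (Y := Z) (W := X)
  zero_whiskerRight {X Y Z} := smR_zero (X := Y) (Y := Z) (W := X)
  whiskerLeft_add {X Y Z} f g := smL_add (X := Y) (Y := Z) (W := X) f g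
  add_whiskerRight {X Y Z} f g := smR_add (X := Y) (Y := Z) (W := X) f g

instance : BraidedCategory LC where
  braiding X Y := isoSh (X := ⟨X × Y⟩) (Y := ⟨Y × X⟩) (Homeomorph.prodComm X Y)
  braiding_naturality_right X Y Z f := by
    change (sh (Homeomorph.prodComm X Z)).comp (St.smL X f) =
      (St.smR X f).comp (sh (Homeomorph.prodComm X Y))
    rw [smR_eq_smL]
    simp only [St.comp_assoc]
    have h : ∀ (A B : Type) [TopologicalSpace A] [TopologicalSpace B] [T2Space A] [T2Space B]
        [LocallyCompactSpace A] [LocallyCompactSpace B],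
        sh (Homeomorph.prodComm A B).symm = sh (Homeomorph.prodComm B A) := fun A B => by
      intros; rfl
    rw [h, ← h X Y, sh_symm_comp, St.comp_id]
  braiding_naturality_left {X Y} f Z := by
    change (sh (Homeomorph.prodComm Y Z)).comp (St.smR Z f) =
      (St.smL Z f).comp (sh (Homeomorph.prodComm X Z))
    rw [smL_eq_smR]
    simp only [St.comp_assoc, sh_symm_comp, St.comp_id]
  hexagon_forward X Y Z := by
    change ((sh (asC Y Z X)).comp (sh (Homeomorph.prodComm X (Y × Z)))).comp (sh (asC X Y Z)) =
      ((St.smL Y (sh (Homeomorph.prodComm X Z))).comp (sh (asC Y X Z))).comp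
        (St.smR Z (sh (Homeomorph.prodComm X Y)))
    rw [smL_sh, smR_sh, ← sh_trans, ← sh_trans, ← sh_trans, ← sh_trans]
    exact sh_ext fun _ => rfl
  hexagon_reverse X Y Z := by
    change ((sh (asC Z X Y).symm).comp (sh (Homeomorph.prodComm (X × Y) Z))).comp
        (sh (asC X Y Z).symm) =
      ((St.smR Y (sh (Homeomorph.prodComm X Z))).comp (sh (asC X Z Y).symm)).comp
        (St.smL X (sh (Homeomorph.prodComm Y Z)))
    rw [smL_sh, smR_sh, ← sh_trans, ← sh_trans, ← sh_trans, ← sh_trans]
    exact sh_ext fun _ => rfl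

instance : SymmetricCategory LC where
  symmetry X Y := by
    change (sh (Homeomorph.prodComm Y X)).comp (sh (Homeomorph.prodComm X Y)) = St.id (X × Y)
    rw [← sh_trans, ← sh_refl]
    exact sh_ext fun _ => rfl


end Crest.Agent.R090.StCat865
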