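import Crest.Agent.R090.SpineDefs_796
import Crest.Agent.R090.Match_513_Mg
import Crest.Agent.R090.I0End_417
import Crest.Agent.R090.Ho_962
import Crest.Agent.R090.I0a_275
import Crest.Agent.R090.I0Glue_417

-- ▼ part R090/SpineMain_796
section

/-!
# Row 90, the spine: S0119 from the literal block statements
-/

set_option autoImplicit false
set_option linter.unusedSectionVars false

open Topology Filter Set

namespace Crest.Agent.R090.Spine

open OnePoint Crest.Agent.R090.Sp962 Crest.Agent.R090.St528 Crest.Agent.R090.Dens255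
open Crest.Agent.R090.Young152

/-- the number of cells of the staircase -/
theorem two_mul_yr (D c : ℕ) : 2 * yr D c = c * (D * (D + 1)) := by
  have h1 : yr D c = (∑ i : Fin D, (D - (i : ℕ))) * c := by
    rw [yr, Fintype.card_prod, Fintype.card_fin]
    congr 1
    rw [Fintype.card_subtype]
    have h2 : (Finset.univ.filter fun p : Fin D × Fin D => (p.1 : ℕ) + (p.2 : ℕ) < D).card =
        ∑ i : Fin D, (Finset.univ.filter fun j : Fin D => (i : ℕ) + (j : ℕ) < D).card := by
      rw [Finset.card_filter, Fintype.sum_prod_type]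
      simp only [Finset.card_filter]
    rw [h2]
    refine Finset.sum_congr rfl fun i _ => ?_
    have h3 : (Finset.univ.filter fun j : Fin D => (i : ℕ) + (j : ℕ) < D).card =
        ((Finset.range (D - i))).card := by
      refine Finset.card_bij (fun j _ => (j : ℕ)) ?_ ?_ ?_
      · intro j hj
        simp only [Finset.mem_filter, Finset.mem_univ, true_and] at hj
        simp only [Finset.mem_range]; omega
      · intro j _ j' _ h
        exact Fin.ext h
      · intro b hb
        simp only [Finset.mem_range] at hb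
        exact ⟨⟨b, by omega⟩, by simp only [Finset.mem_filter, Finset.mem_univ, true_and]; omega, rfl⟩
    rw [h3, Finset.card_range]
  have h4 : 2 * (∑ i : Fin D, (D - (i : ℕ))) = D * (D + 1) := by
    rw [Fin.sum_univ_eq_sum_range (fun i => D - i) D]
    have h5 := Finset.sum_range_reflect (fun i => i + 1) D
    have h6 : ∑ i ∈ Finset.range D, (D - i) = ∑ i ∈ Finset.range D, (i + 1) := by
      rw [← h5]
      refine Finset.sum_congr rfl fun i hi => ?_
      have := Finset.mem_range.1 hi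
      omega
    rw [h6]
    clear h6 h5 h1
    induction D with
    | zero => simp
    | succ D ih => rw [Finset.sum_range_succ, mul_add, ih]; ring
  rw [h1]
  calc 2 * ((∑ i : Fin D, (D - (i : ℕ))) * c) = (2 * (∑ i : Fin D, (D - (i : ℕ)))) * c := by ring
    _ = _ := by rw [h4]; ring

theorem ratio {D u c : ℕ} (hc : 1 ≤ c) (hD : 0 < D) (h : 8 * u ≤ D) :
    4 * (D * u + 1 - 1) < yr D c := by
  have h1 := two_mul_yr D c
  have h2 : 8 * (D * u) ≤ D * D := by
    calc 8 * (D * u) = D * (8 * u) := by ring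
      _ ≤ D * D := Nat.mul_le_mul_left _ h
  have h3 : 1 * (D * (D + 1)) ≤ c * (D * (D + 1)) := Nat.mul_le_mul_right _ hc
  have h4 : D * (D + 1) = D * D + D := by ring
  have h5 : D * u + 1 - 1 = D * u := by omega
  rw [h5]
  omega

/-- **for one map**: the blocks F1, E-IN-I, A, KILL give `PrimeKill` for every prime -/
theorem primeKill_of_blocks (hF1 : F1Stmt) (hE : EInIStmt) (hA : AStmt)
    (hK : KillStmt) {α : Type} [Fintype α] [DecidableEq α] {Z : Type} [TopologicalSpace Z]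
    [T2Space Z] [LocallyCompactSpace Z] (f : PMap Z (α → ℂ)) {D u : ℕ} (hD : 0 < D)
    (hu : 8 * u ≤ D) (h0 : F0Out f D u) (q : ℕ) (hq : q.Prime) : PrimeKill q f := by
  obtain ⟨c, rfl⟩ : ∃ c, q = c + 1 := ⟨q - 1, by have := hq.one_lt; omega⟩
  have hc : 1 ≤ c := by have := hq.one_lt; omega
  have h1 := hF1 α Z f c D u (D * u + 1) hc hD h0 (Nat.lt_succ_self _)
  obtain ⟨V, iV1, iV2, iV3, hV, hI⟩ := hE Z (α → ℂ) f c D (D * u + 1) hq hD h1
  have h2 := @hA c D hq hD V iV1 iV2 iV3 hV (Fin (yr D c) → Cyl349.Cyl f) _ _ _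
    (PP (range (Cyl349.Cyl.iU f)) (Fin (yr D c)) (D * u + 1)) _ hI
  exact hK α Z f (c + 1) (yr D c) (D * u + 1) (by omega) (ratio hc hD hu) h2

/-- **`SI` from the blocks** -/
theorem si_of_blocks (hF0 : F0Stmt) (hF1 : F1Stmt) (hE : EInIStmt) (hA : AStmt)
    (hK : KillStmt) (hG : GlueStmt) (p n : ℕ) (hp : 1 ≤ p) (hn : 1 ≤ n) (a : ℝ)
    (Y : Type) [TopologicalSpace Y] [CompactSpace Y] [TopologicalSpace.MetrizableSpace Y]
    (f : Y → Fin n → Fin (2 * p + 1) → ℝ) (K : ℕ)
    (Φ : Y × (Fin n → Fin (2 * p) → Circle) → Matrix (Fin K) ((Fin 2 × Fin p) × Fin n) ℂ)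
    (h : Univ639.Hyp p n a f K Φ) : T5.SI p n a f := by
  obtain ⟨Z, Φ₀, hZ, hTZ, hΦ₀, -, hmono⟩ := Nbhd264.exists_nbhd h.cont h.contΦ h.mono
  have : Fact (IsClosed Z) := ⟨hZ⟩
  have : CompactSpace Z := isCompact_iff_compactSpace.1 hZ.isCompact
  obtain ⟨D, u, hD, hu, h0⟩ := hF0 p n hp hn Y Z K Φ₀ h.lt hΦ₀ hmono
  exact hG p n hp hn a Y f h.cont Z hTZ
    fun q hq => primeKill_of_blocks hF1 hE hA hK (Glue264.fC Z) hD hu h0 q hq

/-- **S0119 from the blocks** -/
theorem result_of_blocks (hF0 : F0Stmt) (hF1 : F1Stmt) (hE : EInIStmt)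
    (hA : AStmt) (hK : KillStmt) (hG : GlueStmt)
    (p n : ℕ) (hp : 1 ≤ p) (hn : 1 ≤ n) (a : ℝ) (ha : 0 < a) (ha' : a < 1 / 16)
    (Y : Type*) [TopologicalSpace Y] [CompactSpace Y] [TopologicalSpace.MetrizableSpace Y]
    (f : Y → Fin n → Fin (2 * p + 1) → ℝ) (hf : Continuous f)
    (hfC : ∀ y, f y ∈ Crest.OpAlg.cube (2 * p + 1) n)
    (K : ℕ) (hK' : K < 2 * p * n)
    (Φ : Y × (Fin n → Fin (2 * p) → Circle) → Matrix (Fin K) ((Fin 2 × Fin p) × Fin n) ℂ)
    (hΦ : ContinuousOn Φ (Crest.OpAlg.torusLocus p n (a * n) f))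
    (hmono : ∀ q ∈ Crest.OpAlg.torusLocus p n (a * n) f, ∀ v : (Fin 2 × Fin p) × Fin n → ℂ,
      (Crest.OpAlg.totalProj p n q.2).mulVec v = v → (Φ q).mulVec v = 0 → v = 0)
    (U : ℕ) (_hU : 1 ≤ U) :
    ∃ u : ℕ, U ≤ u ∧ ∃ G : (Fin u → Y) → (Fin u × Fin n → Fin (2 * p + 1) → ℝ),
      Continuous G ∧ (∀ y s k, |G y s k| ≤ 1) ∧
      (∀ y, a / 8 * (u * n : ℝ) ≤
        (({s | Crest.OpAlg.IsBoundarySlot (G y s)} : Set (Fin u × Fin n)).ncard : ℝ)) ∧
      ∀ y (b : Fin u) (j : Fin n), Crest.OpAlg.IsBoundarySlot (f (y b) j) →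
        G y (b, j) = f (y b) j :=
  Univ639.result_of_SI_small (fun p n hp hn a _ _ Y _ _ _ f K Φ h =>
      si_of_blocks hF0 hF1 hE hA hK hG p n hp hn a Y f K Φ h)
    p n hp hn a ha ha' Y f hf hfC K hK' Φ hΦ hmono U

end Crest.Agent.R090.Spine
end

-- ▼ part R090/Kill_649
section

/-!
# Row 90, KILL: `1_S ∈ I_q(M_J, Z_J)` kills a sparse power by an integer prime to `q`
(owner helper649)
-/

set_option autoImplicit false
set_option linter.unusedSectionVars false

open Topology Filter Set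

namespace Crest.Agent.R090.Kill649

open OnePoint Crest.Agent.R090.Sp962 Crest.Agent.R090.St528 Crest.Agent.R090.Sm202
open Crest.Agent.R090.Dens255 Crest.Agent.R090.Pi568 Crest.Agent.R090.Block568
open Crest.Agent.R090.Cyl349 Crest.Agent.R090.Spine

section basic

variable {X X' E : Type} [TopologicalSpace X] [TopologicalSpace X'] [TopologicalSpace E]
  [T2Space X] [T2Space X'] [T2Space E] [LocallyCompactSpace X] [LocallyCompactSpace X']
  [LocallyCompactSpace E]

/-- `(X × 1) × 1 ≃ X` -/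
def uu (X : Type) [TopologicalSpace X] : (X × Unit) × Unit ≃ₜ X :=
  (Homeomorph.prodPUnit (X × Unit)).trans (Homeomorph.prodPUnit X)

theorem uu_nat (a : PMap X X') :
    (PMap.ofHomeo (uu X')).comp ((a.smash (PMap.id Unit)).smash (PMap.id Unit)) =
      a.comp (PMap.ofHomeo (uu X)) := by
  refine PMap.ext fun p => ?_
  obtain ⟨⟨x, u⟩, v⟩ := p
  rw [PMap.comp_apply, PMap.comp_apply, PMap.smash_coe, PMap.smash_coe]
  change _ = a (x : OnePoint X)
  cases h : a (x : OnePoint X) using OnePoint.rec with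
  | infty => rfl
  | coe y => rfl

theorem tens_id_unit (a : PMap X X') :
    tens (St.ofP a) (St.id Unit) = St.ofP (a.smash (PMap.id Unit)) := by
  rw [tens, prod_id_right, smR_ofP]

/-- an `SNull` multiple of `a ∧ 1_S` kills every map `b ∘ a` into a sphere -/
theorem nsmul_ofP_eq_zero {n : ℕ} {a : PMap X X'}
    (h : SNull (n • tens (St.ofP a) (St.id Unit))) {j : ℕ} (e : E ≃ₜ (Fin j → ℝ))
    (b : PMap X' E) : n • St.ofP (b.comp a) = 0 := by
  have h1 := h Unit j (St.ofP ((PMap.ofHomeo e).comp (b.comp (PMap.ofHomeo (uu X')))))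
  rw [smR_nsmul, tens_id_unit, smR_ofP, St.comp_nsmul, ← St.ofP_comp] at h1
  have h2 : ((PMap.ofHomeo e).comp (b.comp (PMap.ofHomeo (uu X')))).comp
      ((a.smash (PMap.id Unit)).smash (PMap.id Unit)) =
        (PMap.ofHomeo e).comp ((b.comp a).comp (PMap.ofHomeo (uu X))) := by
    rw [PMap.comp_assoc, PMap.comp_assoc, uu_nat]
    rfl
  rw [h2] at h1
  have h3 : b.comp a = (PMap.ofHomeo e.symm).comp
      (((PMap.ofHomeo e).comp ((b.comp a).comp (PMap.ofHomeo (uu X)))).comp
        (PMap.ofHomeo (uu X).symm)) := by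
    rw [PMap.comp_assoc, PMap.comp_assoc, PMap.ofHomeo_comp_symm, PMap.comp_id,
      ← PMap.comp_assoc, PMap.ofHomeo_symm_comp, PMap.id_comp]
  rw [h3, St.ofP_comp, St.ofP_comp, ← St.comp_nsmul, ← St.nsmul_comp, h1, St.zero_comp,
    St.comp_zero]

end basic

/-- the choice of the number of blocks -/
theorem exists_blocks4 {r m l : ℕ} (hr : 4 * (m - 1) < r) :
    ∃ K m' : ℕ, 0 < K ∧ 4 * m' ≤ K * r ∧ K * (m - 1) + (l - 1) * (r + 1 - m) < m' := by
  refine ⟨4 * (l * (r + 1) + 1), 4 * (l * (r + 1) + 1) * (m - 1) + (l * (r + 1) + 1), by omega,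
    ?_, ?_⟩
  · obtain ⟨d, hd⟩ : ∃ d, r = 4 * (m - 1) + 1 + d := ⟨r - (4 * (m - 1) + 1), by omega⟩
    generalize l * (r + 1) + 1 = N
    rw [hd]
    have : 4 * N * (4 * (m - 1) + 1 + d) = 4 * (4 * N * (m - 1) + N) + 4 * N * d := by ring
    omega
  · have : (l - 1) * (r + 1 - m) ≤ l * (r + 1) := Nat.mul_le_mul (by omega) (by omega)
    omega

/-- **(KILL)** -/
theorem killStmt : KillStmt := by
  intro α _ _ Z _ _ _ f q r m hm hr hI
  obtain ⟨l, hl⟩ := hI
  obtain ⟨K, m', hK, h4, hlt⟩ := exists_blocks4 (l := 0 + l) hr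
  obtain ⟨n, hn, hnull⟩ := hl K 0
  have hZ : IsClosed (range (Cyl.iU f)) := (Cyl.isClosedEmbedding_iU f).isClosed_range
  have hr' : m ≤ r + 1 := by omega
  refine ⟨K * r, m', n, Nat.mul_pos hK (by omega), h4, hn, ?_⟩
  -- real coordinates on the target
  obtain ⟨j, ⟨e⟩⟩ : ∃ j : ℕ, Nonempty ((Fin K → Fin r → α → ℂ) ≃ₜ (Fin j → ℝ)) :=
    ⟨_, ⟨(Module.finBasis ℝ (Fin K → Fin r → α → ℂ)).equivFunL.toHomeomorph⟩⟩
  let b : PMap (PP (PP (range (Cyl.iU f)) (Fin r) m) (Fin K) 0) (Fin K → Fin r → α → ℂ) :=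
    (pow (Fin K) (pow (Fin r) (Cyl.ret f))).comp (incl (isClosed_PP (isClosed_PP hZ m) 0))
  have h1 : n • St.ofP (b.comp (iotaP (PP (range (Cyl.iU f)) (Fin r) m) K 0 l)) = 0 :=
    nsmul_ofP_eq_zero hnull e b
  have h2 : kappa f (Fin (K * r)) m' = (PMap.ofHomeo (blk (α → ℂ) K r).symm).comp
      ((b.comp (iotaP (PP (range (Cyl.iU f)) (Fin r) m) K 0 l)).comp (blkP hZ hm hr' hlt)) := by
    have h3 := pow_incl_factor hZ hm hr' hlt (Cyl.ret f)
    have h4 : (incl (isClosed_PP (isClosed_PP hZ m) (0 + l))) =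
        (incl (isClosed_PP (ι := Fin K) (isClosed_PP (ι := Fin r) hZ m) 0)).comp
          (iotaP (PP (range (Cyl.iU f)) (Fin r) m) K 0 l) := PMap.ext fun _ => rfl
    rw [kappa, h3, h4]
    rfl
  rw [h2, St.ofP_comp, St.ofP_comp _ (blkP hZ hm hr' hlt), ← St.comp_nsmul, ← St.nsmul_comp, h1,
    St.zero_comp, St.comp_zero]

end Crest.Agent.R090.Kill649
end

-- ▼ part R090/I0Start_417
section

/-!
# Row 90, I0 (owner helper417): START, the zero section of the complement of the slot bundle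
is homotopic to the Bott coordinates in a constant plane
-/

set_option autoImplicit false
set_option linter.unusedSectionVars false

open Topology Filter Set Matrix

namespace Crest.Agent.R090.I0Start417

open OnePoint Crest.OpAlg Crest.Agent.R090.Sp962 Crest.Agent.R090.I0core275
  Crest.Agent.R090.I0Defs417 Crest.Agent.R090.Bott513 Crest.Agent.R090.Match513
  Crest.Agent.R090.I0Glue417 Crest.Agent.R090.I0Final417 Crest.Agent.R090.T5
  Crest.Agent.R090.I0End417 Crest.Agent.R090.Pi568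
open scoped unitInterval

/-- the index type -/
abbrev HH (p n : ℕ) : Type := (Fin 2 × Fin p) × Fin n

variable {p n : ℕ}

/-- block diagonal matrices -/
def bd (M : Fin n × Fin p → Matrix (Fin 2) (Fin 2) ℂ) : Matrix (HH p n) (HH p n) ℂ :=
  Matrix.blockDiagonal fun j : Fin n => Matrix.blockDiagonal fun i : Fin p => M (j, i)

theorem bd_apply (M : Fin n × Fin p → Matrix (Fin 2) (Fin 2) ℂ) (x y : HH p n) :
    bd M x y = if x.2 = y.2 then (if x.1.2 = y.1.2 then M (x.2, x.1.2) x.1.1 y.1.1 else 0)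
      else 0 := by
  rw [bd, Matrix.blockDiagonal_apply]
  split_ifs with h1 h2
  · rw [Matrix.blockDiagonal_apply, if_pos h2]
  · rw [Matrix.blockDiagonal_apply, if_neg h2]
  · rfl

theorem bd_mulVec (M : Fin n × Fin p → Matrix (Fin 2) (Fin 2) ℂ) (v : HH p n → ℂ) :
    bd M *ᵥ v = fun x => (M (x.2, x.1.2) *ᵥ fun c => v ((c, x.1.2), x.2)) x.1.1 := by
  funext x
  obtain ⟨⟨c, i⟩, j⟩ := x
  simp only [Matrix.mulVec, dotProduct, Fintype.sum_prod_type, bd_apply, ite_mul, zero_mul,
    Finset.sum_ite_eq, Finset.mem_univ, if_true]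

theorem isPr_bd {M : Fin n × Fin p → Matrix (Fin 2) (Fin 2) ℂ} (hM : ∀ q, IsPr 1 (M q)) :
    IsPr (Fintype.card (Fin n × Fin p)) (bd M) := by
  have h1 : ∀ j, IsPr p (Matrix.blockDiagonal fun i : Fin p => M (j, i)) := fun j => by
    have := isPr_blockDiagonal (o := Fin p) (k := 1) (P := fun i : Fin p => M (j, i))
      fun i => hM _
    rwa [Fintype.card_fin, mul_one] at this
  have := isPr_blockDiagonal (o := Fin n) (k := p) h1
  rw [Fintype.card_fin] at this
  rw [Fintype.card_prod, Fintype.card_fin, Fintype.card_fin]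
  exact this

/-- the line of the slot `q` -/
noncomputable def LL (W : TT p n) (q : Fin n × Fin p) : Matrix (Fin 2) (Fin 2) ℂ :=
  lineProj (W q.1 ⟨2 * q.2.val, two_mul_lt q.2⟩) (W q.1 ⟨2 * q.2.val + 1, two_mul_add_lt q.2⟩)

theorem isPr_LL (W : TT p n) (q : Fin n × Fin p) : IsPr 1 (LL W q) := isPr_lineProj _ _

theorem compl_eq (W : TT p n) : 1 - totalProj p n W = bd fun q => 1 - LL W q := by
  ext x y
  rw [bd_apply, Matrix.sub_apply, Matrix.one_apply, totalProj, Matrix.blockDiagonal_apply]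
  obtain ⟨⟨c, i⟩, j⟩ := x
  obtain ⟨⟨c', i'⟩, j'⟩ := y
  by_cases h1 : j = j'
  · subst h1
    by_cases h2 : i = i'
    · subst h2
      simp only [if_true, slotProj, Matrix.blockDiagonal_apply, Matrix.sub_apply,
        Matrix.one_apply, Prod.mk.injEq, and_true, LL]
    · simp [slotProj, Matrix.blockDiagonal_apply, h2]
  · simp [h1]


/-! ## the amplitude homotopy -/

section amp

variable {Z : Type} [TopologicalSpace Z] (w : C(Z, TT p n))

theorem continuous_LL (q : Fin n × Fin p) : Continuous fun z => LL (w z) q := by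
  have h1 : Continuous fun z => totalProj p n (w z) :=
    (Nbhd264.continuous_totalProj p n).comp w.continuous
  refine continuous_matrix fun c c' => ?_
  have h2 : ∀ z, LL (w z) q c c' = totalProj p n (w z) ((c, q.2), q.1) ((c', q.2), q.1) := by
    intro z
    simp [totalProj, slotProj, Matrix.blockDiagonal_apply, LL]
  simp only [h2]
  exact h1.matrix_elem _ _

theorem LL_diag (W : TT p n) (q : Fin n × Fin p) : (((LL W q 0 0).re : ℝ) : ℂ) = LL W q 0 0 := by
  rw [← (isPr_LL W q).sum_sq 0, Complex.ofReal_re]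

noncomputable def ampS : AmpData Z (Fin n × Fin p) (Fintype.card (Fin n × Fin p)) (HH p n) where
  Pi z := 1 - totalProj p n (w z)
  hPi := continuous_compl w
  isPr z := isPr_compl p n (w z)
  blk x := (x.2, x.1.2)
  s z x := (1 - LL (w z) (x.2, x.1.2)) x.1.1 0
  hs := continuous_pi fun x =>
    (continuous_const.sub (continuous_LL w (x.2, x.1.2))).matrix_elem x.1.1 0
  c q z := (LL (w z) q 0 0).re
  hc q := Complex.continuous_re.comp ((continuous_LL w q).matrix_elem 0 0)
  c_nonneg q z := by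
    rw [← (isPr_LL (w z) q).sum_sq 0, Complex.ofReal_re]
    exact Finset.sum_nonneg fun _ _ => by positivity
  inv z μ := by
    rw [compl_eq, bd_mulVec]
    funext x
    have h1 := congrFun (congrFun (isPr_LL (w z) (x.2, x.1.2)).compl_idem x.1.1) 0
    rw [Matrix.mul_apply] at h1
    rw [← h1, Matrix.mulVec, dotProduct, Finset.mul_sum]
    refine Finset.sum_congr rfl fun c _ => ?_
    ring
  nz z q h := by
    refine ⟨((0, q.2), q.1), rfl, ?_⟩
    have h1 : LL (w z) q 0 0 = 0 := by rw [← LL_diag, h, Complex.ofReal_zero]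
    change (1 - LL (w z) q) 0 0 ≠ 0
    rw [Matrix.sub_apply, h1, Matrix.one_apply_eq, sub_zero]
    exact one_ne_zero

end amp

/-! ## the standard family -/

/-- complement of the line of slope `t a` -/
noncomputable def cpl (t : ℝ) (a : ℂ) : Matrix (Fin 2) (Fin 2) ℂ :=
  ((1 + t ^ 2 * ‖a‖ ^ 2 : ℝ) : ℂ)⁻¹ •
    !![((t ^ 2 * ‖a‖ ^ 2 : ℝ) : ℂ), -((t : ℂ) * star a); -((t : ℂ) * a), 1]

/-- the vector -/
noncomputable def vc (t : ℝ) (a : ℂ) : Fin 2 → ℂ := ![((t * ‖a‖ ^ 2 : ℝ) : ℂ), -a]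

theorem den_pos (t : ℝ) (a : ℂ) : (0 : ℝ) < 1 + t ^ 2 * ‖a‖ ^ 2 := by positivity

theorem mul_star_eq (a : ℂ) : a * star a = ((‖a‖ ^ 2 : ℝ) : ℂ) := by
  rw [Complex.star_def, Complex.mul_conj, Complex.normSq_eq_norm_sq]

theorem exists_k (t : ℝ) (a : ℂ) : ∃ k : ℂ, ((1 + t ^ 2 * ‖a‖ ^ 2 : ℝ) : ℂ)⁻¹ = k ∧
    star k = k ∧ k * (1 + (t : ℂ) ^ 2 * (a * star a)) = 1 := by
  have h0 : ((1 + t ^ 2 * ‖a‖ ^ 2 : ℝ) : ℂ) ≠ 0 := by exact_mod_cast (den_pos t a).ne'
  refine ⟨_, rfl, ?_, ?_⟩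
  · rw [star_inv₀, Complex.star_def, Complex.conj_ofReal]
  · have hd : 1 + (t : ℂ) ^ 2 * (a * star a) = ((1 + t ^ 2 * ‖a‖ ^ 2 : ℝ) : ℂ) := by
      rw [mul_star_eq]; push_cast; ring
    rw [hd, inv_mul_cancel₀ h0]

theorem isPr_cpl (t : ℝ) (a : ℂ) : IsPr 1 (cpl t a) := by
  obtain ⟨k, hk, hs, hk1⟩ := exists_k t a
  have hd2 : ((t ^ 2 * ‖a‖ ^ 2 : ℝ) : ℂ) = (t : ℂ) ^ 2 * (a * star a) := by
    rw [mul_star_eq]; push_cast; ring
  refine ⟨?_, ?_, ?_⟩
  · rw [cpl, hk, conjTranspose_smul, hs]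
    congr 1
    ext i j
    fin_cases i <;> fin_cases j <;> simp [Matrix.conjTranspose_apply]
  · rw [cpl, hk, Matrix.smul_mul, Matrix.mul_smul, smul_smul, hd2]
    ext i j
    fin_cases i <;> fin_cases j <;>
      simp only [Matrix.smul_apply, Matrix.mul_apply, Fin.sum_univ_two, Fin.zero_eta, Fin.mk_one,
        Matrix.of_apply, Matrix.cons_val', Matrix.cons_val_zero, Matrix.cons_val_one,
        Matrix.cons_val_fin_one, smul_eq_mul]
    · linear_combination (k * (t : ℂ) ^ 2 * (a * star a)) * hk1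
    · linear_combination (-(k * (t : ℂ) * star a)) * hk1
    · linear_combination (-(k * (t : ℂ) * a)) * hk1
    · linear_combination k * hk1
  · rw [cpl, hk, trace_smul, Matrix.trace_fin_two, hd2]
    simp only [Matrix.of_apply, Matrix.cons_val', Matrix.cons_val_zero, Matrix.cons_val_one,
        Matrix.cons_val_fin_one, smul_eq_mul]
    push_cast
    linear_combination hk1

theorem cpl_vc (t : ℝ) (a : ℂ) : cpl t a *ᵥ vc t a = vc t a := by
  obtain ⟨k, hk, hs, hk1⟩ := exists_k t a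
  have hd2 : ((t ^ 2 * ‖a‖ ^ 2 : ℝ) : ℂ) = (t : ℂ) ^ 2 * (a * star a) := by
    rw [mul_star_eq]; push_cast; ring
  have hd3 : ((t * ‖a‖ ^ 2 : ℝ) : ℂ) = (t : ℂ) * (a * star a) := by
    rw [mul_star_eq]; push_cast; ring
  rw [cpl, hk, vc, hd2, hd3, Matrix.smul_mulVec]
  funext i
  fin_cases i <;>
    simp only [Matrix.mulVec, dotProduct, Fin.sum_univ_two, Fin.zero_eta, Fin.mk_one,
      Matrix.of_apply, Matrix.cons_val', Matrix.cons_val_zero, Matrix.cons_val_one,
      Matrix.cons_val_fin_one, Pi.smul_apply, smul_eq_mul]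
  · linear_combination ((t : ℂ) * (a * star a)) * hk1
  · linear_combination (-a) * hk1

theorem cpl_one {L : Matrix (Fin 2) (Fin 2) ℂ} (hL : IsPr 1 L) (h0 : L 0 0 ≠ 0) :
    cpl 1 (L 1 0 / L 0 0) = 1 - L ∧
      ∀ c, vc 1 (L 1 0 / L 0 0) c = (L 0 0)⁻¹ * (1 - L) c 0 := by
  have htr : L 0 0 + L 1 1 = 1 := by
    have := hL.tr
    rw [Matrix.trace_fin_two] at this
    simpa using this
  have h01 : star (L 1 0) = L 0 1 := star_entry hL 1 0
  have h00 : star (L 0 0) = L 0 0 := star_entry hL 0 0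
  have hid : L 0 0 * L 0 0 + L 0 1 * L 1 0 = L 0 0 := by
    have := congrFun (congrFun hL.idem 0) 0
    rw [Matrix.mul_apply, Fin.sum_univ_two] at this
    exact this
  have ha : ((‖L 1 0 / L 0 0‖ ^ 2 : ℝ) : ℂ) = (L 0 0)⁻¹ - 1 := by
    rw [← mul_star_eq, star_div₀, h01, h00]
    field_simp
    linear_combination hid
  have h1 : ((1 + 1 ^ 2 * ‖L 1 0 / L 0 0‖ ^ 2 : ℝ) : ℂ) = (L 0 0)⁻¹ := by
    have : ((1 + 1 ^ 2 * ‖L 1 0 / L 0 0‖ ^ 2 : ℝ) : ℂ) =
      1 + ((‖L 1 0 / L 0 0‖ ^ 2 : ℝ) : ℂ) := by push_cast; ring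
    rw [this, ha]; ring
  have h2 : ((1 ^ 2 * ‖L 1 0 / L 0 0‖ ^ 2 : ℝ) : ℂ) = (L 0 0)⁻¹ - 1 := by
    rw [one_pow, one_mul]; exact ha
  have h3 : ((1 * ‖L 1 0 / L 0 0‖ ^ 2 : ℝ) : ℂ) = (L 0 0)⁻¹ - 1 := by
    rw [one_mul]; exact ha
  refine ⟨?_, ?_⟩
  · rw [cpl, h1, inv_inv, h2]
    ext i j
    fin_cases i <;> fin_cases j
    · simp only [Matrix.smul_apply, Fin.zero_eta, Matrix.of_apply, Matrix.cons_val',
        Matrix.cons_val_zero, Matrix.cons_val_fin_one, smul_eq_mul, Matrix.sub_apply,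
        Matrix.one_apply_eq]
      field_simp
    · simp only [Matrix.smul_apply, Fin.zero_eta, Fin.mk_one, Matrix.of_apply, Matrix.cons_val',
        Matrix.cons_val_zero, Matrix.cons_val_one, Matrix.cons_val_fin_one, smul_eq_mul,
        Matrix.sub_apply, star_div₀, h01, h00]
      rw [Matrix.one_apply_ne (by decide)]
      push_cast
      field_simp
      ring
    · simp only [Matrix.smul_apply, Fin.zero_eta, Fin.mk_one, Matrix.of_apply, Matrix.cons_val',
        Matrix.cons_val_zero, Matrix.cons_val_one, Matrix.cons_val_fin_one, smul_eq_mul,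
        Matrix.sub_apply]
      rw [Matrix.one_apply_ne (by decide)]
      push_cast
      field_simp
      ring
    · simp only [Matrix.smul_apply, Fin.mk_one, Matrix.of_apply, Matrix.cons_val',
        Matrix.cons_val_one, Matrix.cons_val_fin_one, smul_eq_mul,
        Matrix.sub_apply, Matrix.one_apply_eq]
      linear_combination htr
  · intro c
    rw [vc, h3]
    fin_cases c
    · simp only [Fin.zero_eta, Matrix.cons_val_zero, Matrix.sub_apply, Matrix.one_apply_eq]
      field_simp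
    · simp only [Fin.mk_one, Matrix.cons_val_one, Matrix.cons_val_fin_one, Matrix.sub_apply]
      rw [Matrix.one_apply_ne (by decide)]
      field_simp
      ring

/-! ## the maps `G_t` -/

section G

/-- the point of `G_t` -/
noncomputable def Gpt (t : ℝ) (a : Fin n × Fin p → ℂ) :
    Th (Fintype.card (Fin n × Fin p)) (HH p n) :=
  Th.of (bd fun q => cpl t (a q)) (fun x => vc t (a (x.2, x.1.2)) x.1.1)
    (isPr_bd fun q => isPr_cpl t (a q)) (by
      rw [bd_mulVec]
      funext x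
      have h := congrFun (cpl_vc t (a (x.2, x.1.2))) x.1.1
      exact h)

theorem continuous_cpl {X : Type*} [TopologicalSpace X] {t : X → ℝ} {a : X → ℂ}
    (ht : Continuous t) (ha : Continuous a) : Continuous fun x => cpl (t x) (a x) := by
  have h1 : Continuous fun x => (((1 + t x ^ 2 * ‖a x‖ ^ 2 : ℝ) : ℂ))⁻¹ := by
    refine Continuous.inv₀ (Complex.continuous_ofReal.comp
      (continuous_const.add ((ht.pow 2).mul (ha.norm.pow 2)))) fun x => ?_
    exact_mod_cast (den_pos (t x) (a x)).ne'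
  refine continuous_matrix fun i j => ?_
  have h2 : Continuous fun x => (t x : ℂ) := Complex.continuous_ofReal.comp ht
  have h3 : Continuous fun x => ((t x ^ 2 * ‖a x‖ ^ 2 : ℝ) : ℂ) :=
    Complex.continuous_ofReal.comp ((ht.pow 2).mul (ha.norm.pow 2))
  fin_cases i <;> fin_cases j
  · exact h1.mul h3
  · exact h1.mul (h2.mul (continuous_star.comp ha)).neg
  · exact h1.mul (h2.mul ha).neg
  · exact h1.mul continuous_const

theorem continuous_vc {X : Type*} [TopologicalSpace X] {t : X → ℝ} {a : X → ℂ}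
    (ht : Continuous t) (ha : Continuous a) : Continuous fun x => vc (t x) (a x) := by
  refine continuous_pi fun i => ?_
  fin_cases i
  · exact Complex.continuous_ofReal.comp (ht.mul (ha.norm.pow 2))
  · exact ha.neg

theorem continuous_Gpt {X : Type*} [TopologicalSpace X] {t : X → ℝ}
    {a : X → Fin n × Fin p → ℂ} (ht : Continuous t) (ha : Continuous a) :
    Continuous fun x => (Gpt (t x) (a x) : Th _ (HH p n)) := by
  refine continuous_th ?_ ?_
  · refine continuous_matrix fun x y => ?_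
    change Continuous fun z => bd (fun q => cpl (t z) (a z q)) x y
    simp only [bd_apply]
    by_cases h1 : x.2 = y.2
    · by_cases h2 : x.1.2 = y.1.2
      · simp only [if_pos h1, if_pos h2]
        exact (continuous_cpl ht ((continuous_apply _).comp ha)).matrix_elem _ _
      · simp only [if_neg h2, ite_self]
        exact continuous_const
    · simp only [if_neg h1]
      exact continuous_const
  · refine continuous_pi fun x => ?_
    exact (continuous_apply x.1.1).comp (continuous_vc ht ((continuous_apply _).comp ha))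

theorem norm_Gpt (t : ℝ) (a : Fin n × Fin p → ℂ) : ‖a‖ ≤ ‖(Gpt t a : Th _ (HH p n)).1.2‖ := by
  rw [pi_norm_le_iff_of_nonneg (norm_nonneg _)]
  intro q
  have h1 : ‖vc t (a q) 1‖ ≤ ‖(Gpt t a : Th _ (HH p n)).1.2‖ :=
    norm_le_pi_norm (fun x : HH p n => vc t (a (x.2, x.1.2)) x.1.1) ((1, q.2), q.1)
  have h2 : vc t (a q) 1 = -(a q) := rfl
  rwa [h2, norm_neg] at h1

theorem tendsto_norm_pi {ι : Type*} [Fintype ι] :
    Tendsto (fun a : ι → ℂ => ‖a‖) (coclosedCompact _) atTop := by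
  refine tendsto_coclosedCompact_of continuous_norm fun R => ?_
  have : {a : ι → ℂ | ‖a‖ ≤ R} = Metric.closedBall 0 R := by ext a; simp
  rw [this]
  exact isCompact_closedBall _ _

theorem tendsto_norm_pi' {ι : Type*} [Fintype ι] :
    Tendsto (fun p : I × (ι → ℂ) => ‖p.2‖) (coclosedCompact _) atTop := by
  refine tendsto_coclosedCompact_of (continuous_norm.comp continuous_snd) fun R => ?_
  have : {p : I × (ι → ℂ) | ‖p.2‖ ≤ R} = univ ×ˢ Metric.closedBall 0 R := by ext a; simp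
  rw [this]
  exact isCompact_univ.prod (isCompact_closedBall _ _)

/-- the map `G_t` -/
noncomputable def Gmap (p n : ℕ) (t : ℝ) :
    PMap (Fin n × Fin p → ℂ) (Th (Fintype.card (Fin n × Fin p)) (HH p n)) :=
  I0core275.ofTh (fun a => Gpt t a) (continuous_Gpt continuous_const continuous_id)
    (tendsto_atTop_mono (fun a => norm_Gpt t a) tendsto_norm_pi)

theorem Gmap_homotopic (p n : ℕ) : (Gmap p n 0).Homotopic (Gmap p n 1) :=
  homotopic_of_th (fun x : I × (Fin n × Fin p → ℂ) => Gpt (x.1 : ℝ) x.2)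
    (continuous_Gpt (continuous_subtype_val.comp continuous_fst) continuous_snd)
    (tendsto_atTop_mono (fun x => norm_Gpt _ x.2) tendsto_norm_pi')
    (fun _ => rfl) (fun _ => rfl)

/-- the end of the scaling is a coordinate fibre -/
theorem Gmap_zero (p n : ℕ) : Gmap p n 0 = (fibJ (sq0 p n) (sq0_injective p n)).comp
    (PMap.ofHomeo (Homeomorph.neg (Fin n × Fin p → ℂ))) := by
  classical
  refine PMap.ext fun a => ?_
  refine Th.of_congr (a' := isPr_pJ (sq0_injective p n))
    (b' := pJ_mulVec_extLin (sq0 p n) (sq0_injective p n) (-a)) ?_ ?_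
  · ext x y
    rw [bd_apply, pJ, Matrix.diagonal_apply]
    obtain ⟨⟨c, i⟩, j⟩ := x
    obtain ⟨⟨c', i'⟩, j'⟩ := y
    have hc : ∀ q : Fin n × Fin p, cpl 0 (a q) = !![0, 0; 0, 1] := fun q => by
      ext i j
      fin_cases i <;> fin_cases j <;> simp [cpl]
    rw [hc]
    have hr : (((c, i), j) ∈ range (sq0 p n)) ↔ c = 1 := by
      constructor
      · rintro ⟨q, hq⟩
        exact (congrArg (fun z : HH p n => z.1.1) hq).symm
      · rintro rfl
        exact ⟨(j, i), rfl⟩
    by_cases h1 : j = j'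
    · subst h1
      by_cases h2 : i = i'
      · subst h2
        rw [if_pos rfl, if_pos rfl]
        by_cases h3 : c = c'
        · subst h3
          rw [if_pos rfl]
          fin_cases c
          · rw [if_neg (by rw [hr]; decide)]; rfl
          · rw [if_pos (by rw [hr]; rfl)]; rfl
        · rw [if_neg (by simp [h3])]
          fin_cases c <;> fin_cases c' <;> first | rfl | exact absurd rfl h3
      · rw [if_pos rfl, if_neg h2, if_neg (by simp [h2])]
    · rw [if_neg h1, if_neg (by simp [h1])]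
  · funext x
    obtain ⟨⟨c, i⟩, j⟩ := x
    change vc 0 (a (j, i)) c = Function.extend (sq0 p n) (-a) 0 ((c, i), j)
    by_cases hc : c = 1
    · subst hc
      have := (sq0_injective p n).extend_apply (-a) (0 : HH p n → ℂ) (j, i)
      exact this.symm
    · rw [Function.extend_apply']
      · have : c = 0 := by
          fin_cases c
          · rfl
          · exact absurd rfl hc
        subst this
        simp [vc]
      · rintro ⟨q, hq⟩
        exact hc (congrArg (fun z : HH p n => z.1.1) hq).symm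

end G

/-! ## START -/

section start

variable {Z : Type} [TopologicalSpace Z] [CompactSpace Z] [T2Space Z] (w : C(Z, TT p n))

theorem bottB_eq_coe {W : TT p n} (h : ∀ q, LL W q 0 0 ≠ 0) :
    bottB W = ((fun q => LL W q 1 0 / LL W q 0 0 : Fin n × Fin p → ℂ) :
      OnePoint (Fin n × Fin p → ℂ)) := by
  refine smPi_eq_coe.2 fun q => ?_
  exact (stz_sphereVec _ _).trans (if_neg (h q))

theorem bottB_eq_inf {W : TT p n} (q : Fin n × Fin p) (h : LL W q 0 0 = 0) : bottB W = ∞ := by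
  refine smPi_of_inf q ?_
  exact (stz_sphereVec _ _).trans (if_pos h)

theorem Gmap_one_bott : (Gmap p n 1).comp (ofC ((bottc p n).comp w)) =
    ofCompact (ampS w).fin (ampS w).continuous_fin := by
  refine PMap.ext fun z => ?_
  change (Gmap p n 1) (bottB (w z)) = (ampS w).fin z
  by_cases h : ∃ q, LL (w z) q 0 0 = 0
  · obtain ⟨q, hq⟩ := h
    rw [bottB_eq_inf q hq, PMap.map_inf, AmpData.fin, if_pos]
    refine ⟨q, ?_⟩
    change (LL (w z) q 0 0).re = 0
    rw [hq, Complex.zero_re]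
  · push Not at h
    rw [bottB_eq_coe h, AmpData.fin, if_neg]
    · refine Th.of_congr (a' := (ampS w).isPr z) (b' := ((ampS w).pt 1 z).2.2) ?_ ?_
      · change _ = 1 - totalProj p n (w z)
        rw [compl_eq]
        congr 1
        funext q
        exact (cpl_one (isPr_LL (w z) q) (h q)).1
      · funext x
        have h1 := (cpl_one (isPr_LL (w z) (x.2, x.1.2)) (h (x.2, x.1.2))).2 x.1.1
        refine h1.trans ?_
        change _ = ((1 / den 1 (LL (w z) (x.2, x.1.2) 0 0).re : ℝ) : ℂ) *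
          (1 - LL (w z) (x.2, x.1.2)) x.1.1 0
        have h2 : den 1 (LL (w z) (x.2, x.1.2) 0 0).re = (LL (w z) (x.2, x.1.2) 0 0).re := by
          simp [den]
        rw [h2, Complex.ofReal_div, LL_diag, Complex.ofReal_one, one_div]
    · rintro ⟨q, hq⟩
      apply h q
      rw [← LL_diag]
      have : (LL (w z) q 0 0).re = 0 := hq
      rw [this, Complex.ofReal_zero]

/-- **START** -/
theorem start : StartStmt w := by
  have h1 : (zsec (fun z => 1 - totalProj p n (w z)) (continuous_compl w)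
      (fun z => isPr_compl p n (w z))).Homotopic
      (ofCompact (ampS w).fin (ampS w).continuous_fin) :=
    (ampS w).homotopic (fun _ => rfl) (fun _ => rfl)
  rw [← Gmap_one_bott] at h1
  refine h1.trans (((Gmap_homotopic p n).symm.comp_right _).trans (.of_eq ?_))
  rw [Gmap_zero, PMap.comp_assoc]
  congr 1
  exact PMap.ext fun _ => rfl

end start

end Crest.Agent.R090.I0Start417
end

-- ▼ part R090/TopA_491
section

/-!
# Row 90, TOPCELL (helper491), part A: tools on pointed maps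

* `isOpenEmbedding_of_inv` : explicit inverse on an open set;
* `ofProper` : pointed map of a proper map;
* `homotopic_of_param` : `f : PMap (I × U) V` is a homotopy from `f (0,·)` to `f (1,·)`.
-/

set_option autoImplicit false
set_option linter.unusedSectionVars false

open Topology Filter Set
open Crest.Agent.R090.Sp962
open scoped unitInterval

namespace Crest.Agent.R090.TopA491

universe u v w

variable {U : Type u} {V : Type v} {W : Type w}
  [TopologicalSpace U] [TopologicalSpace V] [TopologicalSpace W]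

/-- An explicit continuous inverse on an open set. -/
theorem isOpenEmbedding_of_inv {e : U → V} {O : Set V} (hO : IsOpen O) (he : Continuous e)
    (h1 : ∀ u, e u ∈ O) (inv : O → U) (hinv : Continuous inv) (h2 : ∀ u, inv ⟨e u, h1 u⟩ = u)
    (h3 : ∀ v : O, e (inv v) = v) : IsOpenEmbedding e := by
  let h : U ≃ₜ O :=
    { toFun := fun u => ⟨e u, h1 u⟩
      invFun := inv
      left_inv := h2
      right_inv := fun v => Subtype.ext (h3 v)
      continuous_toFun := he.subtype_mk h1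
      continuous_invFun := hinv }
  exact hO.isOpenEmbedding_subtypeVal.comp h.isOpenEmbedding


/-- The pointed map of a proper map. -/
def ofProper (f : U → V) (hf : IsProperMap f) : PMap U V where
  toFun := OnePoint.map f
  cont := OnePoint.continuous_map hf.continuous (by
    rw [hasBasis_coclosedCompact.tendsto_iff hasBasis_coclosedCompact]
    rintro K ⟨hK, hK'⟩
    exact ⟨f ⁻¹' K, ⟨hK.preimage hf.continuous, hf.isCompact_preimage hK'⟩, fun x hx => hx⟩)
  map_inf := rfl

@[simp] theorem ofProper_coe (f : U → V) (hf : IsProperMap f) (x : U) :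
    ofProper f hf x = (f x : OnePoint V) := rfl

/-- A continuous map from a compact space. -/
def ofCont [CompactSpace U] [T2Space V] (f : U → V) (hf : Continuous f) : PMap U V :=
  ofProper f hf.isProperMap

@[simp] theorem ofCont_coe [CompactSpace U] [T2Space V] (f : U → V) (hf : Continuous f) (x : U) :
    ofCont f hf x = (f x : OnePoint V) := rfl

/-- A pointed map with a parameter is a homotopy. -/
theorem homotopic_of_param [T2Space U] {f₀ f₁ : PMap U V} (f : PMap (I × U) V)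
    (h0 : ∀ x : U, f ((0, x) : I × U) = f₀ x) (h1 : ∀ x : U, f ((1, x) : I × U) = f₁ x) :
    f₀.Homotopic f₁ := by
  refine PMap.Homotopic.of (fun p => f (sm (p.1 : OnePoint I) p.2)) ?_ h0 h1 fun t => ?_
  · exact f.cont.comp ((OnePoint.continuous_coe.comp continuous_fst).sm962 continuous_snd)
  · change f (sm (t : OnePoint I) OnePoint.infty) = OnePoint.infty
    simp

/-- Proper maps from a closed embedding after composition. -/
theorem isProperMap_of_comp [T2Space V] {f : U → V} {g : V → W} (hf : Continuous f)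
    (hg : Continuous g) (h : IsProperMap (g ∘ f)) : IsProperMap f :=
  isProperMap_of_comp_of_t2 hf hg h

end Crest.Agent.R090.TopA491
end

-- ▼ part R090/TopB_491
section

/-!
# Row 90, TOPCELL (helper491), part B: algebra of lines

* `exists_vec` : a projection of trace one is `α α*`, `|α| = 1`;
* `nq v = Σ |v i|²`, `ρ L w s = √(|L w|² + s²)`;
* `bl L w s` : the line of `L ⊕ ℂ` with Bloch vector `(L w, s)/ρ`; `isPr_bl`;
* `Rf b = (b + √(b² + 4))/2`, the inverse of `ρ ↦ ρ - 1/ρ`.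
-/

set_option autoImplicit false
set_option linter.unusedSectionVars false

open Topology Filter Set Matrix
open Crest.Agent.R090.Sp962 Crest.Agent.R090.I0core275

noncomputable section

namespace Crest.Agent.R090.TopB491

variable {ι : Type*} [Fintype ι] [DecidableEq ι]

/-- `|v|²`. -/
def nq (v : ι → ℂ) : ℝ := ∑ i, ‖v i‖ ^ 2

theorem nq_nonneg (v : ι → ℂ) : 0 ≤ nq v := Finset.sum_nonneg fun i _ => by positivity

theorem nq_cast (v : ι → ℂ) : ((nq v : ℝ) : ℂ) = ∑ i, star (v i) * v i := by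
  unfold nq
  push_cast
  refine Finset.sum_congr rfl fun i _ => ?_
  rw [Complex.star_def, mul_comm, Complex.mul_conj, Complex.normSq_eq_norm_sq]
  push_cast
  rfl

theorem nq_smul (c : ℂ) (v : ι → ℂ) : nq (c • v) = ‖c‖ ^ 2 * nq v := by
  unfold nq
  rw [Finset.mul_sum]
  refine Finset.sum_congr rfl fun i _ => ?_
  rw [Pi.smul_apply, smul_eq_mul, norm_mul, mul_pow]

theorem continuous_nq : Continuous (nq : (ι → ℂ) → ℝ) := by
  unfold nq
  fun_prop

theorem nq_eq_zero {v : ι → ℂ} : nq v = 0 ↔ v = 0 := by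
  unfold nq
  rw [Finset.sum_eq_zero_iff_of_nonneg fun i _ => by positivity]
  constructor
  · intro h
    funext i
    have := h i (Finset.mem_univ i)
    simpa using this
  · rintro rfl i _
    simp

open scoped ComplexOrder in
/-- Hermitian idempotents of trace zero vanish. -/
theorem eq_zero_of_trace {R : Matrix ι ι ℂ} (h1 : Rᴴ = R) (h2 : R * R = R) (h3 : R.trace = 0) :
    R = 0 := by
  have h4 : (Rᴴ * R).trace = 0 := by rw [h1, h2, h3]
  exact Matrix.trace_conjTranspose_mul_self_eq_zero_iff.1 h4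

/-- A projection of trace one is `α α*`. -/
theorem exists_vec {L : Matrix ι ι ℂ} (h : IsPr 1 L) :
    ∃ α : ι → ℂ, nq α = 1 ∧ L = vecMulVec α (star α) := by
  have h0 : ∃ i, L i i ≠ 0 := by
    by_contra hn
    push Not at hn
    have h1 := h.tr
    rw [Matrix.trace] at h1
    simp [hn] at h1
  obtain ⟨i, hi⟩ := h0
  have hs := h.sum_sq i
  set t : ℝ := ∑ j, ‖L i j‖ ^ 2 with ht
  have htpos : 0 < t := by
    have h1 : 0 ≤ t := Finset.sum_nonneg fun j _ => by positivity
    rcases h1.lt_or_eq with h2 | h2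
    · exact h2
    · exfalso
      apply hi
      rw [← hs, ← h2]
      simp
  have hsq : Real.sqrt t ≠ 0 := (Real.sqrt_pos.2 htpos).ne'
  have hst : (Real.sqrt t : ℂ) * (Real.sqrt t : ℂ) = L i i := by
    rw [← Complex.ofReal_mul, Real.mul_self_sqrt htpos.le, hs]
  have hherm : ∀ j k, star (L j k) = L k j := fun j k => by
    have := congrFun (congrFun h.herm k) j
    rw [Matrix.conjTranspose_apply] at this
    exact this
  set α : ι → ℂ := fun j => L j i / (Real.sqrt t : ℂ) with hα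
  have hsqC : (Real.sqrt t : ℂ) ≠ 0 := by exact_mod_cast hsq
  have hαα : ∀ j k, α j * star (α k) = L j i * L i k / L i i := by
    intro j k
    rw [hα]
    simp only [star_div₀, hherm]
    have : star (Real.sqrt t : ℂ) = (Real.sqrt t : ℂ) := by
      rw [Complex.star_def, Complex.conj_ofReal]
    rw [this, div_mul_div_comm, hst]
  have hn : nq α = 1 := by
    have h1 : nq α = (∑ j, ‖L j i‖ ^ 2) / t := by
      unfold nq
      rw [Finset.sum_div]
      refine Finset.sum_congr rfl fun j _ => ?_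
      rw [hα]
      simp only [norm_div, div_pow]
      rw [Complex.norm_real, Real.norm_eq_abs, sq_abs, Real.sq_sqrt htpos.le]
    have h2 : ∑ j, ‖L j i‖ ^ 2 = t := by
      rw [ht]
      refine Finset.sum_congr rfl fun j _ => ?_
      rw [← hherm i j, norm_star]
    rw [h1, h2, div_self htpos.ne']
  refine ⟨α, hn, ?_⟩
  set Q : Matrix ι ι ℂ := vecMulVec α (star α) with hQ
  have hQe : ∀ j k, Q j k = L j i * L i k / L i i := fun j k => hαα j k
  have hLQ : L * Q = Q := by
    ext j k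
    rw [Matrix.mul_apply]
    simp only [hQe]
    have h1 : ∑ l, L j l * L l i = L j i := by
      have := congrFun (congrFun h.idem j) i
      rwa [Matrix.mul_apply] at this
    calc ∑ l, L j l * (L l i * L i k / L i i) = (∑ l, L j l * L l i) * (L i k / L i i) := by
          rw [Finset.sum_mul]
          exact Finset.sum_congr rfl fun l _ => by ring
      _ = _ := by rw [h1]; ring
  have hQH : Qᴴ = Q := by
    ext j k
    rw [Matrix.conjTranspose_apply, hQe, hQe, star_div₀, star_mul', hherm, hherm, hherm]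
    ring
  have hQL : Q * L = Q := by
    have := congrArg conjTranspose hLQ
    rwa [Matrix.conjTranspose_mul, h.herm, hQH] at this
  have hQQ : Q * Q = Q := by
    rw [hQ, vecMulVec_mul_vecMulVec]
    have : star α ⬝ᵥ α = 1 := by
      rw [dotProduct]
      have := nq_cast α
      rw [hn] at this
      simpa using this.symm
    rw [this]
    simp
  have hQt : Q.trace = 1 := by
    rw [Matrix.trace]
    have := nq_cast α
    rw [hn] at this
    simp only [Matrix.diag_apply, hQ, vecMulVec_apply, Pi.star_apply]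
    rw [Complex.ofReal_one] at this
    rw [this]
    exact Finset.sum_congr rfl fun l _ => mul_comm _ _
  have h3 : L - Q = 0 := by
    refine eq_zero_of_trace ?_ ?_ ?_
    · rw [Matrix.conjTranspose_sub, h.herm, hQH]
    · rw [sub_mul, mul_sub, mul_sub, h.idem, hLQ, hQL, hQQ]
      abel
    · rw [Matrix.trace_sub, h.tr, hQt]
      simp
  exact sub_eq_zero.1 h3

theorem isPr_vec {α : ι → ℂ} (h : nq α = 1) : IsPr 1 (vecMulVec α (star α)) := by
  have h1 : star α ⬝ᵥ α = 1 := by
    rw [dotProduct]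
    have := nq_cast α
    rw [h] at this
    simpa using this.symm
  refine ⟨?_, ?_, ?_⟩
  · ext j k
    rw [Matrix.conjTranspose_apply, vecMulVec_apply, vecMulVec_apply, star_mul', Pi.star_apply,
      Pi.star_apply, star_star, mul_comm]
  · rw [vecMulVec_mul_vecMulVec, h1]
    simp
  · rw [Matrix.trace_vecMulVec, dotProduct_comm, h1]
    simp

theorem mulVec_vec (α w : ι → ℂ) : vecMulVec α (star α) *ᵥ w = (star α ⬝ᵥ w) • α := by
  funext i
  rw [Matrix.mulVec, dotProduct]
  simp only [vecMulVec_apply, Pi.star_apply, Pi.smul_apply, smul_eq_mul, dotProduct,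
    Finset.sum_mul]
  exact Finset.sum_congr rfl fun j _ => by ring

/-- Vectors of a line. -/
theorem line_mul {L : Matrix ι ι ℂ} (h : IsPr 1 L) {v : ι → ℂ} (hv : L *ᵥ v = v) (i j : ι) :
    v i * star (v j) = (nq v : ℂ) * L i j := by
  obtain ⟨α, hα, rfl⟩ := exists_vec h
  rw [mulVec_vec] at hv
  set l := star α ⬝ᵥ v with hl
  rw [← hv, nq_smul, hα, mul_one]
  simp only [Pi.smul_apply, smul_eq_mul, star_mul', vecMulVec_apply, Pi.star_apply]
  have : ((‖l‖ ^ 2 : ℝ) : ℂ) = l * star l := by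
    rw [Complex.star_def, Complex.mul_conj, Complex.normSq_eq_norm_sq]
  rw [this]
  ring

theorem mulVec_idem {k : ℕ} {L : Matrix ι ι ℂ} (h : IsPr k L) (w : ι → ℂ) :
    L *ᵥ (L *ᵥ w) = L *ᵥ w := by
  rw [Matrix.mulVec_mulVec, h.idem]

theorem herm_apply {k : ℕ} {L : Matrix ι ι ℂ} (h : IsPr k L) (i j : ι) : star (L i j) = L j i := by
  have := congrFun (congrFun h.herm j) i
  rwa [Matrix.conjTranspose_apply] at this

/-- The radius. -/
def rr (L : Matrix ι ι ℂ) (w : ι → ℂ) (s : ℝ) : ℝ := Real.sqrt (nq (L *ᵥ w) + s ^ 2)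

theorem rr_nonneg (L : Matrix ι ι ℂ) (w : ι → ℂ) (s : ℝ) : 0 ≤ rr L w s := Real.sqrt_nonneg _

theorem rr_sq (L : Matrix ι ι ℂ) (w : ι → ℂ) (s : ℝ) :
    rr L w s ^ 2 = nq (L *ᵥ w) + s ^ 2 := by
  unfold rr
  rw [Real.sq_sqrt]
  have := nq_nonneg (L *ᵥ w)
  positivity

/-- The line of `L ⊕ ℂ` with Bloch vector `(v, s)/r`. -/
def bl (L : Matrix ι ι ℂ) (v : ι → ℂ) (r s : ℝ) : Matrix (ι ⊕ Unit) (ι ⊕ Unit) ℂ :=
  fromBlocks ((((1 + s / r) / 2 : ℝ) : ℂ) • L) (of fun i _ => ((1 / (2 * r) : ℝ) : ℂ) * v i)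
    (of fun _ i => ((1 / (2 * r) : ℝ) : ℂ) * star (v i)) (of fun _ _ => (((1 - s / r) / 2 : ℝ) : ℂ))

theorem isPr_bl {L : Matrix ι ι ℂ} (hL : IsPr 1 L) {v : ι → ℂ} (hv : L *ᵥ v = v) {r s : ℝ}
    (hr : 0 < r) (h : nq v + s ^ 2 = r ^ 2) : IsPr 1 (bl L v r s) := by
  have hrC : (r : ℂ) ≠ 0 := by exact_mod_cast hr.ne'
  have hnq : (nq v : ℂ) = (r : ℂ) ^ 2 - (s : ℂ) ^ 2 := by
    have : nq v = r ^ 2 - s ^ 2 := by linarith
    rw [this]
    push_cast
    ring
  have hrow : ∀ i, ∑ j, star (v j) * L j i = star (v i) := by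
    intro i
    have h1 : star ((L *ᵥ v) i) = star (v i) := by rw [hv]
    rw [← h1, Matrix.mulVec, dotProduct, star_sum]
    refine Finset.sum_congr rfl fun j _ => ?_
    rw [star_mul', herm_apply hL, mul_comm]
  have hcol : ∀ i, ∑ j, L i j * v j = v i := fun i => congrFun hv i
  refine ⟨?_, ?_, ?_⟩
  · unfold bl
    rw [fromBlocks_conjTranspose]
    congr 1
    · rw [Matrix.conjTranspose_smul, hL.herm, Complex.star_def, Complex.conj_ofReal]
    · ext i j
      rw [Matrix.conjTranspose_apply, of_apply, of_apply, star_mul', star_star, Complex.star_def,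
        Complex.conj_ofReal]
    · ext i j
      rw [Matrix.conjTranspose_apply, of_apply, of_apply, star_mul', Complex.star_def,
        Complex.conj_ofReal]
    · ext i j
      rw [Matrix.conjTranspose_apply, of_apply, Complex.star_def, Complex.conj_ofReal]
  · unfold bl
    rw [fromBlocks_multiply]
    congr 1
    · ext i j
      rw [Matrix.add_apply, Matrix.smul_mul, Matrix.mul_smul, hL.idem, Matrix.smul_apply,
        Matrix.smul_apply, Matrix.mul_apply]
      simp only [Finset.univ_unique, Finset.sum_singleton, of_apply, smul_eq_mul]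
      have h1 := line_mul hL hv i j
      have e1 : ((1 / (2 * r) : ℝ) : ℂ) * v i * (((1 / (2 * r) : ℝ) : ℂ) * star (v j)) =
          ((1 / (2 * r) : ℝ) : ℂ) ^ 2 * ((nq v : ℂ) * L i j) := by
        rw [← h1]
        ring
      rw [e1, hnq]
      push_cast
      field_simp
      ring
    · ext i j
      rw [Matrix.add_apply, Matrix.smul_mul, Matrix.smul_apply, Matrix.mul_apply,
        Matrix.mul_apply]
      simp only [Finset.univ_unique, Finset.sum_singleton, of_apply, smul_eq_mul]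
      have e1 : ∑ x, L i x * (((1 / (2 * r) : ℝ) : ℂ) * v x) =
          ((1 / (2 * r) : ℝ) : ℂ) * v i := by
        rw [← hcol i, Finset.mul_sum]
        exact Finset.sum_congr rfl fun x _ => by ring
      rw [e1]
      push_cast
      field_simp
      ring
    · ext i j
      rw [Matrix.add_apply, Matrix.mul_smul, Matrix.smul_apply, Matrix.mul_apply,
        Matrix.mul_apply]
      simp only [Finset.univ_unique, Finset.sum_singleton, of_apply, smul_eq_mul]
      have e1 : ∑ x, (((1 / (2 * r) : ℝ) : ℂ) * star (v x)) * L x j =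
          ((1 / (2 * r) : ℝ) : ℂ) * star (v j) := by
        rw [← hrow j, Finset.mul_sum]
        exact Finset.sum_congr rfl fun x _ => by ring
      rw [e1]
      push_cast
      field_simp
      ring
    · ext i j
      rw [Matrix.add_apply, Matrix.mul_apply, Matrix.mul_apply]
      simp only [Finset.univ_unique, Finset.sum_singleton, of_apply]
      have e1 : ∑ x, (((1 / (2 * r) : ℝ) : ℂ) * star (v x)) * (((1 / (2 * r) : ℝ) : ℂ) * v x) =
          ((1 / (2 * r) : ℝ) : ℂ) ^ 2 * (nq v : ℂ) := by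
        rw [nq_cast, Finset.mul_sum]
        exact Finset.sum_congr rfl fun x _ => by ring
      rw [e1, hnq]
      push_cast
      field_simp
      ring
  · unfold bl
    have h1 := hL.tr
    rw [Matrix.trace] at h1 ⊢
    simp only [Matrix.diag_apply] at h1 ⊢
    rw [Fintype.sum_sum_type]
    simp only [fromBlocks_apply₁₁, fromBlocks_apply₂₂, Finset.univ_unique, Finset.sum_singleton,
      of_apply, Matrix.smul_apply, smul_eq_mul]
    rw [← Finset.mul_sum, h1]
    push_cast
    ring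

theorem le_bl {L : Matrix ι ι ℂ} (hL : IsPr 1 L) {v : ι → ℂ} (hv : L *ᵥ v = v) (r s : ℝ) :
    fromBlocks L 0 0 1 * bl L v r s = bl L v r s := by
  unfold bl
  rw [fromBlocks_multiply]
  have hcol : ∀ i, ∑ j, L i j * v j = v i := fun i => congrFun hv i
  congr 1
  · rw [Matrix.mul_smul, hL.idem, Matrix.zero_mul, add_zero]
  · rw [Matrix.zero_mul, add_zero]
    ext i j
    rw [Matrix.mul_apply]
    simp only [of_apply]
    calc ∑ x, L i x * (((1 / (2 * r) : ℝ) : ℂ) * v x) =
        ((1 / (2 * r) : ℝ) : ℂ) * ∑ x, L i x * v x := by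
          rw [Finset.mul_sum]
          exact Finset.sum_congr rfl fun x _ => by ring
      _ = _ := by rw [hcol i]
  · rw [Matrix.zero_mul, zero_add, Matrix.one_mul]
  · rw [Matrix.zero_mul, zero_add, Matrix.one_mul]

/-- Structure of a line in `L ⊕ ℂ`. -/
theorem line_struct {L : Matrix ι ι ℂ} (hL : IsPr 1 L) {Q : Matrix (ι ⊕ Unit) (ι ⊕ Unit) ℂ}
    (hQ : IsPr 1 Q) (h : fromBlocks L 0 0 1 * Q = Q) :
    (L *ᵥ (fun i => Q (Sum.inl i) (Sum.inr ())) = fun i => Q (Sum.inl i) (Sum.inr ())) ∧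
    nq (fun i => Q (Sum.inl i) (Sum.inr ())) =
      (Q (Sum.inr ()) (Sum.inr ())).re - (Q (Sum.inr ()) (Sum.inr ())).re ^ 2 ∧
    ∀ R : ℝ, 0 < R → bl L (fun i => ((2 * R : ℝ) : ℂ) * Q (Sum.inl i) (Sum.inr ())) R
      (R * (1 - 2 * (Q (Sum.inr ()) (Sum.inr ())).re)) = Q := by
  obtain ⟨u, hu, hQu⟩ := exists_vec hQ
  set x : ι → ℂ := fun i => u (Sum.inl i) with hx
  set c : ℂ := u (Sum.inr ()) with hc
  have hQe : ∀ i j, Q i j = u i * star (u j) := fun i j => by
    rw [hQu, vecMulVec_apply, Pi.star_apply]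
  have hsum : nq x + ‖c‖ ^ 2 = 1 := by
    rw [← hu]
    unfold nq
    rw [Fintype.sum_sum_type]
    simp [hx, hc]
  have hQuu : Q *ᵥ u = u := by
    rw [hQu, mulVec_vec]
    have h1 : star u ⬝ᵥ u = 1 := by
      rw [dotProduct]
      have := nq_cast u
      rw [hu] at this
      simpa using this.symm
    rw [h1, one_smul]
  have hLx : L *ᵥ x = x := by
    have h1 : fromBlocks L 0 0 1 *ᵥ u = u := by
      conv_lhs => rw [← hQuu, Matrix.mulVec_mulVec, h, hQuu]
    funext i
    have h2 := congrFun h1 (Sum.inl i)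
    rw [Matrix.mulVec, dotProduct, Fintype.sum_sum_type] at h2
    change ∑ a, L i a * u (Sum.inl a) = u (Sum.inl i)
    simpa using h2
  have hcc : star c * c = ((‖c‖ ^ 2 : ℝ) : ℂ) := by
    rw [Complex.star_def, mul_comm, Complex.mul_conj, Complex.normSq_eq_norm_sq]
  have hee : Q (Sum.inr ()) (Sum.inr ()) = ((‖c‖ ^ 2 : ℝ) : ℂ) := by
    rw [hQe, mul_comm]
    exact hcc
  have hcolv : (fun i => Q (Sum.inl i) (Sum.inr ())) = star c • x := by
    funext i
    rw [hQe, Pi.smul_apply, smul_eq_mul, mul_comm]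
  have hre : (Q (Sum.inr ()) (Sum.inr ())).re = ‖c‖ ^ 2 := by
    rw [hee, Complex.ofReal_re]
  refine ⟨?_, ?_, fun R hR => ?_⟩
  · rw [hcolv, Matrix.mulVec_smul, hLx]
  · rw [hcolv, nq_smul, norm_star, hre]
    have : nq x = 1 - ‖c‖ ^ 2 := by linarith
    rw [this]
    ring
  · have hRC : (R : ℂ) ≠ 0 := by exact_mod_cast hR.ne'
    rw [hre]
    have h1 : Q = fromBlocks Q.toBlocks₁₁ Q.toBlocks₁₂ Q.toBlocks₂₁ Q.toBlocks₂₂ :=
      (fromBlocks_toBlocks Q).symm
    rw [h1]
    unfold bl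
    congr 1
    · ext i j
      rw [Matrix.smul_apply, smul_eq_mul]
      change _ = Q (Sum.inl i) (Sum.inl j)
      rw [hQe]
      have h2 := line_mul hL hLx i j
      change _ = x i * star (x j)
      rw [h2]
      have h3 : nq x = 1 - ‖c‖ ^ 2 := by linarith
      rw [h3]
      push_cast
      field_simp
      ring
    · ext i j
      rw [of_apply]
      change _ = Q (Sum.inl i) (Sum.inr ())
      rw [fromBlocks_toBlocks]
      push_cast
      field_simp
    · ext i j
      rw [of_apply]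
      change _ = Q (Sum.inr ()) (Sum.inl j)
      rw [fromBlocks_toBlocks, star_mul', herm_apply hQ, Complex.star_def, Complex.conj_ofReal]
      push_cast
      field_simp
    · ext i j
      rw [of_apply]
      change _ = Q (Sum.inr ()) (Sum.inr ())
      rw [hee]
      push_cast
      field_simp
      ring

/-- The inverse of `r ↦ r - 1/r`. -/
def Rf (b : ℝ) : ℝ := (b + Real.sqrt (b ^ 2 + 4)) / 2

theorem Rf_sq (b : ℝ) : Rf b ^ 2 = b * Rf b + 1 := by
  unfold Rf
  have h : Real.sqrt (b ^ 2 + 4) ^ 2 = b ^ 2 + 4 := Real.sq_sqrt (by positivity)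
  nlinarith

theorem Rf_pos (b : ℝ) : 0 < Rf b := by
  unfold Rf
  have h1 : |b| < Real.sqrt (b ^ 2 + 4) := by
    rw [← Real.sqrt_sq_eq_abs]
    exact Real.sqrt_lt_sqrt (by positivity) (by linarith)
  have h2 := neg_abs_le b
  linarith

theorem Rf_sub_inv (b : ℝ) : Rf b - 1 / Rf b = b := by
  have h1 := Rf_pos b
  have h2 := Rf_sq b
  field_simp
  linarith

theorem Rf_of {x : ℝ} (hx : 0 < x) : Rf (x - 1 / x) = x := by
  unfold Rf
  have h1 : (x - 1 / x) ^ 2 + 4 = (x + 1 / x) ^ 2 := by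
    field_simp
    ring
  have h2 : 0 ≤ x + 1 / x := by positivity
  rw [h1, Real.sqrt_sq h2]
  ring

theorem continuous_Rf : Continuous Rf := by
  unfold Rf
  fun_prop

end Crest.Agent.R090.TopB491
end
end

-- ▼ part R090/TopC_491
section

/-!
# Row 90, TOPCELL (helper491), part C: the step collapse

`stepP L : PMap (A × (ℂ^ι × ℂ)) (Y L)`, `(a, w, z) ↦ (a, line of L_a ⊕ ℂ with Bloch vector
(L_a w, Re z)/ρ, w - L_a w, ρ - 1/ρ + i Im z)`, `∞` if `ρ = 0`.
-/

set_option autoImplicit false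
set_option linter.unusedSectionVars false

open Topology Filter Set Matrix
open Crest.Agent.R090.Sp962 Crest.Agent.R090.I0core275
open Crest.Agent.R090.TopA491 Crest.Agent.R090.TopB491

noncomputable section

namespace Crest.Agent.R090.TopC491

variable {ι : Type*} [Fintype ι] [DecidableEq ι] {A : Type*} [TopologicalSpace A]

/-- Lines of `L_a ⊕ ℂ`, a vector orthogonal to `L_a`, a complex number. -/
def Y (L : A → Matrix ι ι ℂ) : Type _ :=
  {p : A × (Matrix (ι ⊕ Unit) (ι ⊕ Unit) ℂ × ((ι → ℂ) × ℂ)) //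
    IsPr 1 p.2.1 ∧ fromBlocks (L p.1) 0 0 1 * p.2.1 = p.2.1 ∧ L p.1 *ᵥ p.2.2.1 = 0}

instance (L : A → Matrix ι ι ℂ) : TopologicalSpace (Y L) :=
  inferInstanceAs (TopologicalSpace {p : A × (Matrix (ι ⊕ Unit) (ι ⊕ Unit) ℂ × ((ι → ℂ) × ℂ)) //
    IsPr 1 p.2.1 ∧ fromBlocks (L p.1) 0 0 1 * p.2.1 = p.2.1 ∧ L p.1 *ᵥ p.2.2.1 = 0})

variable {L : A → Matrix ι ι ℂ}

theorem isClosed_Y [T2Space A] (hL : Continuous L) :
    IsClosed {p : A × (Matrix (ι ⊕ Unit) (ι ⊕ Unit) ℂ × ((ι → ℂ) × ℂ)) |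
      IsPr 1 p.2.1 ∧ fromBlocks (L p.1) 0 0 1 * p.2.1 = p.2.1 ∧ L p.1 *ᵥ p.2.2.1 = 0} := by
  have h1 : IsClosed {p : A × (Matrix (ι ⊕ Unit) (ι ⊕ Unit) ℂ × ((ι → ℂ) × ℂ)) | IsPr 1 p.2.1} :=
    (isClosed_isPr 1).preimage (continuous_fst.comp continuous_snd)
  have h2 : IsClosed {p : A × (Matrix (ι ⊕ Unit) (ι ⊕ Unit) ℂ × ((ι → ℂ) × ℂ)) |
      fromBlocks (L p.1) 0 0 1 * p.2.1 = p.2.1} := by
    refine isClosed_eq ?_ (continuous_fst.comp continuous_snd)
    exact ((hL.comp continuous_fst).matrix_fromBlocks continuous_const continuous_const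
      continuous_const).matrix_mul (continuous_fst.comp continuous_snd)
  have h3 : IsClosed {p : A × (Matrix (ι ⊕ Unit) (ι ⊕ Unit) ℂ × ((ι → ℂ) × ℂ)) |
      L p.1 *ᵥ p.2.2.1 = 0} := by
    refine isClosed_eq ?_ continuous_const
    exact (hL.comp continuous_fst).matrix_mulVec
      (continuous_fst.comp (continuous_snd.comp continuous_snd))
  exact h1.inter (h2.inter h3)

theorem isClosedEmbedding_Y [T2Space A] (hL : Continuous L) :
    IsClosedEmbedding (Subtype.val : Y L → A × (Matrix (ι ⊕ Unit) (ι ⊕ Unit) ℂ × ((ι → ℂ) × ℂ))) :=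
  (isClosed_Y hL).isClosedEmbedding_subtypeVal

instance [T2Space A] : T2Space (Y L) :=
  inferInstanceAs (T2Space {p : A × (Matrix (ι ⊕ Unit) (ι ⊕ Unit) ℂ × ((ι → ℂ) × ℂ)) //
    IsPr 1 p.2.1 ∧ fromBlocks (L p.1) 0 0 1 * p.2.1 = p.2.1 ∧ L p.1 *ᵥ p.2.2.1 = 0})


/-- The open embedding of the step. -/
def eS (p : Y L) : A × ((ι → ℂ) × ℂ) :=
  (p.1.1, (fun i => p.1.2.2.1 i +
    ((2 * Rf p.1.2.2.2.re : ℝ) : ℂ) * p.1.2.1 (Sum.inl i) (Sum.inr ()),
    ((Rf p.1.2.2.2.re * (1 - 2 * (p.1.2.1 (Sum.inr ()) (Sum.inr ())).re) : ℝ) : ℂ) +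
      (p.1.2.2.2.im : ℂ) * Complex.I))

theorem continuous_eS : Continuous (eS : Y L → A × ((ι → ℂ) × ℂ)) := by
  have h0 : Continuous (fun p : Y L => p.1) := continuous_subtype_val
  have h1 : Continuous (fun p : Y L => p.1.2.1) := continuous_fst.comp (continuous_snd.comp h0)
  have h2 : Continuous (fun p : Y L => p.1.2.2.2) :=
    continuous_snd.comp (continuous_snd.comp (continuous_snd.comp h0))
  have h3 : Continuous (fun p : Y L => p.1.2.2.1) :=
    continuous_fst.comp (continuous_snd.comp (continuous_snd.comp h0))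
  have h4 : Continuous (fun p : Y L => Rf p.1.2.2.2.re) :=
    continuous_Rf.comp (Complex.continuous_re.comp h2)
  refine (continuous_fst.comp h0).prodMk (Continuous.prodMk ?_ ?_)
  · refine continuous_pi fun i => ?_
    refine ((continuous_apply i).comp h3).add ?_
    refine (Complex.continuous_ofReal.comp (continuous_const.mul h4)).mul ?_
    exact h1.matrix_elem _ _
  · refine (Complex.continuous_ofReal.comp (h4.mul (continuous_const.sub
      (continuous_const.mul (Complex.continuous_re.comp (h1.matrix_elem _ _)))))).add ?_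
    exact (Complex.continuous_ofReal.comp (Complex.continuous_im.comp h2)).mul continuous_const

theorem eS_snd_re (p : Y L) : (eS p).2.2.re =
    Rf p.1.2.2.2.re * (1 - 2 * (p.1.2.1 (Sum.inr ()) (Sum.inr ())).re) := by
  simp [eS]

theorem eS_snd_im (p : Y L) : (eS p).2.2.im = p.1.2.2.2.im := by
  simp [eS]

theorem mulVec_eS (h1 : ∀ a, IsPr 1 (L a)) (p : Y L) : L p.1.1 *ᵥ (eS p).2.1 =
    fun i => ((2 * Rf p.1.2.2.2.re : ℝ) : ℂ) * p.1.2.1 (Sum.inl i) (Sum.inr ()) := by
  obtain ⟨hc, -, -⟩ := line_struct (h1 p.1.1) p.2.1 p.2.2.1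
  have e : (eS p).2.1 = p.1.2.2.1 + ((2 * Rf p.1.2.2.2.re : ℝ) : ℂ) •
      (fun i => p.1.2.1 (Sum.inl i) (Sum.inr ())) := by
    funext i
    rfl
  rw [e, Matrix.mulVec_add, p.2.2.2, zero_add, Matrix.mulVec_smul, hc]
  rfl

theorem rr_eS (h1 : ∀ a, IsPr 1 (L a)) (p : Y L) :
    rr (L p.1.1) (eS p).2.1 (eS p).2.2.re = Rf p.1.2.2.2.re := by
  obtain ⟨-, hn, -⟩ := line_struct (h1 p.1.1) p.2.1 p.2.2.1
  have hR := Rf_pos p.1.2.2.2.re
  unfold rr
  rw [mulVec_eS h1 p, eS_snd_re]
  have e : nq (fun i => ((2 * Rf p.1.2.2.2.re : ℝ) : ℂ) * p.1.2.1 (Sum.inl i) (Sum.inr ())) =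
      (2 * Rf p.1.2.2.2.re) ^ 2 * nq (fun i => p.1.2.1 (Sum.inl i) (Sum.inr ())) := by
    have h2 := nq_smul ((2 * Rf p.1.2.2.2.re : ℝ) : ℂ)
      (fun i => p.1.2.1 (Sum.inl i) (Sum.inr ()))
    rw [Complex.norm_real, Real.norm_eq_abs, sq_abs] at h2
    exact h2
  rw [e, hn, Real.sqrt_eq_iff_mul_self_eq_of_pos hR]
  ring

/-- The domain of the inverse. -/
def OS (L : A → Matrix ι ι ℂ) : Set (A × ((ι → ℂ) × ℂ)) :=
  {q | 0 < rr (L q.1) q.2.1 q.2.2.re}

theorem continuous_rr (hL : Continuous L) :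
    Continuous (fun q : A × ((ι → ℂ) × ℂ) => rr (L q.1) q.2.1 q.2.2.re) := by
  unfold rr
  refine Real.continuous_sqrt.comp (Continuous.add ?_ ?_)
  · exact continuous_nq.comp ((hL.comp continuous_fst).matrix_mulVec
      (continuous_fst.comp continuous_snd))
  · exact (Complex.continuous_re.comp (continuous_snd.comp continuous_snd)).pow 2

theorem isOpen_OS (hL : Continuous L) : IsOpen (OS L) :=
  isOpen_lt continuous_const (continuous_rr hL)

/-- The inverse. -/
def iS (h1 : ∀ a, IsPr 1 (L a)) (q : OS L) : Y L :=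
  ⟨(q.1.1, (bl (L q.1.1) (L q.1.1 *ᵥ q.1.2.1) (rr (L q.1.1) q.1.2.1 q.1.2.2.re) q.1.2.2.re,
    (q.1.2.1 - L q.1.1 *ᵥ q.1.2.1,
      ((rr (L q.1.1) q.1.2.1 q.1.2.2.re - 1 / rr (L q.1.1) q.1.2.1 q.1.2.2.re : ℝ) : ℂ) +
        (q.1.2.2.im : ℂ) * Complex.I))), by
    refine ⟨isPr_bl (h1 _) (mulVec_idem (h1 _) _) q.2 (rr_sq _ _ _).symm,
      le_bl (h1 _) (mulVec_idem (h1 _) _) _ _, ?_⟩
    change L q.1.1 *ᵥ (q.1.2.1 - L q.1.1 *ᵥ q.1.2.1) = 0
    rw [Matrix.mulVec_sub, mulVec_idem (h1 _), sub_self]⟩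

theorem continuous_iS (hL : Continuous L) (h1 : ∀ a, IsPr 1 (L a)) : Continuous (iS h1) := by
  have h0 : Continuous (fun q : OS L => q.1) := continuous_subtype_val
  have hr : Continuous (fun q : OS L => rr (L q.1.1) q.1.2.1 q.1.2.2.re) :=
    (continuous_rr hL).comp h0
  have hne : ∀ q : OS L, rr (L q.1.1) q.1.2.1 q.1.2.2.re ≠ 0 := fun q => (ne_of_gt q.2)
  have hLc : Continuous (fun q : OS L => L q.1.1) := hL.comp (continuous_fst.comp h0)
  have hw : Continuous (fun q : OS L => q.1.2.1) :=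
    continuous_fst.comp (continuous_snd.comp h0)
  have hz : Continuous (fun q : OS L => q.1.2.2) :=
    continuous_snd.comp (continuous_snd.comp h0)
  have hs : Continuous (fun q : OS L => q.1.2.2.re) := Complex.continuous_re.comp hz
  have hv : Continuous (fun q : OS L => L q.1.1 *ᵥ q.1.2.1) := hLc.matrix_mulVec hw
  have hsr : Continuous (fun q : OS L => q.1.2.2.re / rr (L q.1.1) q.1.2.1 q.1.2.2.re) :=
    hs.div hr hne
  have h2r : Continuous (fun q : OS L => 1 / (2 * rr (L q.1.1) q.1.2.1 q.1.2.2.re)) :=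
    continuous_const.div (continuous_const.mul hr) fun q => by
      have := hne q
      positivity
  refine Continuous.subtype_mk ?_ _
  refine (continuous_fst.comp h0).prodMk (Continuous.prodMk ?_ (Continuous.prodMk ?_ ?_))
  · unfold bl
    refine Continuous.matrix_fromBlocks ?_ ?_ ?_ ?_
    · exact (Complex.continuous_ofReal.comp ((continuous_const.add hsr).div_const 2)).smul hLc
    · refine continuous_matrix fun i j => ?_
      simp only [of_apply]
      exact (Complex.continuous_ofReal.comp h2r).mul ((continuous_apply i).comp hv)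
    · refine continuous_matrix fun i j => ?_
      simp only [of_apply]
      exact (Complex.continuous_ofReal.comp h2r).mul
        (continuous_star.comp ((continuous_apply j).comp hv))
    · refine continuous_matrix fun i j => ?_
      simp only [of_apply]
      exact Complex.continuous_ofReal.comp ((continuous_const.sub hsr).div_const 2)
  · exact hw.sub hv
  · refine (Complex.continuous_ofReal.comp (hr.sub (continuous_const.div hr hne))).add ?_
    exact (Complex.continuous_ofReal.comp (Complex.continuous_im.comp hz)).mul continuous_const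

theorem eS_mem (h1 : ∀ a, IsPr 1 (L a)) (p : Y L) : eS p ∈ OS L := by
  change 0 < rr (L p.1.1) (eS p).2.1 (eS p).2.2.re
  rw [rr_eS h1 p]
  exact Rf_pos _

theorem iS_eS (h1 : ∀ a, IsPr 1 (L a)) (p : Y L) : iS h1 ⟨eS p, eS_mem h1 p⟩ = p := by
  obtain ⟨-, -, hb⟩ := line_struct (h1 p.1.1) p.2.1 p.2.2.1
  have hR := Rf_pos p.1.2.2.2.re
  apply Subtype.ext
  have hr := rr_eS h1 p
  have hm := mulVec_eS h1 p
  have e1 : (iS h1 ⟨eS p, eS_mem h1 p⟩).1 = (p.1.1, (bl (L p.1.1) (L p.1.1 *ᵥ (eS p).2.1)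
      (rr (L p.1.1) (eS p).2.1 (eS p).2.2.re) (eS p).2.2.re,
      ((eS p).2.1 - L p.1.1 *ᵥ (eS p).2.1,
      ((rr (L p.1.1) (eS p).2.1 (eS p).2.2.re - 1 / rr (L p.1.1) (eS p).2.1 (eS p).2.2.re : ℝ) : ℂ)
        + ((eS p).2.2.im : ℂ) * Complex.I))) := rfl
  rw [e1, hr, hm, eS_snd_re, eS_snd_im, hb _ hR, Rf_sub_inv]
  refine Prod.ext rfl (Prod.ext rfl (Prod.ext ?_ ?_))
  · funext i
    change (p.1.2.2.1 i + _) - _ = _
    rw [add_sub_cancel_right]
  · exact Complex.re_add_im _

theorem eS_iS (h1 : ∀ a, IsPr 1 (L a)) (q : OS L) : eS (iS h1 q) = q.1 := by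
  have hr : 0 < rr (L q.1.1) q.1.2.1 q.1.2.2.re := q.2
  have hrC : (rr (L q.1.1) q.1.2.1 q.1.2.2.re : ℂ) ≠ 0 := by exact_mod_cast hr.ne'
  have hre : (iS h1 q).1.2.2.2.re =
      rr (L q.1.1) q.1.2.1 q.1.2.2.re - 1 / rr (L q.1.1) q.1.2.1 q.1.2.2.re := by
    change (((rr (L q.1.1) q.1.2.1 q.1.2.2.re - 1 / rr (L q.1.1) q.1.2.1 q.1.2.2.re : ℝ) : ℂ) +
        (q.1.2.2.im : ℂ) * Complex.I).re = _
    simp
  have him : (iS h1 q).1.2.2.2.im = q.1.2.2.im := by
    change (((rr (L q.1.1) q.1.2.1 q.1.2.2.re - 1 / rr (L q.1.1) q.1.2.1 q.1.2.2.re : ℝ) : ℂ) +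
        (q.1.2.2.im : ℂ) * Complex.I).im = _
    simp
  refine Prod.ext rfl (Prod.ext ?_ ?_)
  · funext i
    change (q.1.2.1 - L q.1.1 *ᵥ q.1.2.1) i + ((2 * Rf (iS h1 q).1.2.2.2.re : ℝ) : ℂ) *
      (((1 / (2 * rr (L q.1.1) q.1.2.1 q.1.2.2.re) : ℝ) : ℂ) * (L q.1.1 *ᵥ q.1.2.1) i) = q.1.2.1 i
    rw [hre, Rf_of hr, Pi.sub_apply]
    push_cast
    field_simp
    ring
  · change ((Rf (iS h1 q).1.2.2.2.re *
      (1 - 2 * ((((1 - q.1.2.2.re / rr (L q.1.1) q.1.2.1 q.1.2.2.re) / 2 : ℝ) :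
      ℂ)).re) : ℝ) : ℂ) + ((iS h1 q).1.2.2.2.im : ℂ) * Complex.I = q.1.2.2
    rw [hre, him, Rf_of hr, Complex.ofReal_re]
    have e : rr (L q.1.1) q.1.2.1 q.1.2.2.re *
        (1 - 2 * ((1 - q.1.2.2.re / rr (L q.1.1) q.1.2.1 q.1.2.2.re) / 2)) = q.1.2.2.re := by
      field_simp
      ring
    rw [e, Complex.re_add_im]

theorem isOpenEmbedding_eS (hL : Continuous L) (h1 : ∀ a, IsPr 1 (L a)) :
    IsOpenEmbedding (eS : Y L → A × ((ι → ℂ) × ℂ)) :=
  isOpenEmbedding_of_inv (isOpen_OS hL) continuous_eS (eS_mem h1) (iS h1) (continuous_iS hL h1)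
    (iS_eS h1) (eS_iS h1)

/-- The step collapse. -/
def stepP [T2Space A] (hL : Continuous L) (h1 : ∀ a, IsPr 1 (L a)) :
    PMap (A × ((ι → ℂ) × ℂ)) (Y L) := PMap.ofOpen eS (isOpenEmbedding_eS hL h1)

theorem stepP_of_pos [T2Space A] (hL : Continuous L) (h1 : ∀ a, IsPr 1 (L a))
    (q : A × ((ι → ℂ) × ℂ)) (hq : q ∈ OS L) :
    stepP hL h1 (q : OnePoint (A × ((ι → ℂ) × ℂ))) = (iS h1 ⟨q, hq⟩ : OnePoint (Y L)) := by
  refine (PMap.collapse_eq_coe eS (isOpenEmbedding_eS hL h1)).2 ?_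
  rw [eS_iS]

theorem stepP_of_not [T2Space A] (hL : Continuous L) (h1 : ∀ a, IsPr 1 (L a))
    (q : A × ((ι → ℂ) × ℂ)) (hq : q ∉ OS L) :
    stepP hL h1 (q : OnePoint (A × ((ι → ℂ) × ℂ))) = OnePoint.infty := by
  refine PMap.ofOpen_of_notMem _ _ ?_
  rintro ⟨p, rfl⟩
  exact hq (eS_mem h1 p)

end Crest.Agent.R090.TopC491
end
end

-- ▼ part R090/TopD_491
section

/-!
# Row 90, TOPCELL (helper491), part D: the chart and the linearising family

* `Pa a` : the line of `(1, a)`, inverse of `slope`;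
* `famP` : `(a, w, z) ↦ (a, conj (L w)_{i₀}/(κ(r + 1 + lam s)), w - L w, q/r + i Im z)`, `s = Re z - 1`,
  `r² = lam²|L w|² + (1 + lam s)²`, `q = 2 s + lam (s² + |L w|²)`.
-/

set_option autoImplicit false
set_option linter.unusedSectionVars false

open Topology Filter Set Matrix
open Crest.Agent.R090.Sp962 Crest.Agent.R090.I0core275
open Crest.Agent.R090.TopA491 Crest.Agent.R090.TopB491

noncomputable section

namespace Crest.Agent.R090.TopD491

section chart

variable {m : Type*} [Fintype m] [DecidableEq m]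

/-- `(1, a)`. -/
def vec1 (a : m → ℂ) : Option m → ℂ := fun i => i.elim 1 a

theorem nq_vec1 (a : m → ℂ) : nq (vec1 a) = 1 + nq a := by
  unfold nq
  rw [Fintype.sum_option]
  simp [vec1]

theorem one_add_nq_pos (a : m → ℂ) : 0 < 1 + nq a := by
  have := nq_nonneg a
  linarith

/-- The line of `(1, a)`. -/
def Pa (a : m → ℂ) : Matrix (Option m) (Option m) ℂ :=
  fun i j => ((1 / (1 + nq a) : ℝ) : ℂ) * (vec1 a i * star (vec1 a j))

theorem Pa_eq (a : m → ℂ) : Pa a = vecMulVec (((1 / Real.sqrt (1 + nq a) : ℝ) : ℂ) • vec1 a)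
    (star (((1 / Real.sqrt (1 + nq a) : ℝ) : ℂ) • vec1 a)) := by
  have h := one_add_nq_pos a
  have h2 : Real.sqrt (1 + nq a) * Real.sqrt (1 + nq a) = 1 + nq a := Real.mul_self_sqrt h.le
  ext i j
  rw [vecMulVec_apply, Pi.star_apply, Pi.smul_apply, Pi.smul_apply, smul_eq_mul, smul_eq_mul,
    star_mul', Complex.star_def, Complex.conj_ofReal]
  unfold Pa
  have h3 : ((1 / (1 + nq a) : ℝ) : ℂ) =
      ((1 / Real.sqrt (1 + nq a) : ℝ) : ℂ) * ((1 / Real.sqrt (1 + nq a) : ℝ) : ℂ) := by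
    rw [← Complex.ofReal_mul, ← h2]
    congr 1
    rw [Real.sqrt_mul_self (Real.sqrt_nonneg _)]
    rw [div_mul_div_comm, one_mul]
  rw [h3, Complex.star_def]
  ring

theorem isPr_Pa (a : m → ℂ) : IsPr 1 (Pa a) := by
  rw [Pa_eq]
  refine isPr_vec ?_
  have h := one_add_nq_pos a
  rw [nq_smul, nq_vec1, Complex.norm_real, Real.norm_eq_abs, sq_abs, div_pow, one_pow,
    Real.sq_sqrt h.le]
  field_simp

theorem Pa_none (a : m → ℂ) : Pa a none none = ((1 / (1 + nq a) : ℝ) : ℂ) := by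
  simp [Pa, vec1]



theorem continuous_Pa : Continuous (Pa : (m → ℂ) → Matrix (Option m) (Option m) ℂ) := by
  refine continuous_matrix fun i j => ?_
  unfold Pa
  have h1 : ∀ i : Option m, Continuous fun a : m → ℂ => vec1 a i := by
    intro i
    cases i with
    | none => exact continuous_const
    | some i => exact continuous_apply i
  refine (Complex.continuous_ofReal.comp ?_).mul ((h1 i).mul (continuous_star.comp (h1 j)))
  exact continuous_const.div (continuous_const.add continuous_nq) fun a => (one_add_nq_pos a).ne'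

theorem Pa_of {L : Matrix (Option m) (Option m) ℂ} (h : IsPr 1 L) (h0 : L none none ≠ 0) :
    Pa (fun i => L (some i) none / L none none) = L := by
  obtain ⟨α, hα, hL⟩ := exists_vec h
  have he : ∀ i j, L i j = α i * star (α j) := fun i j => by rw [hL, vecMulVec_apply, Pi.star_apply]
  have hα0 : α none ≠ 0 := by
    intro h1
    apply h0
    rw [he, h1, zero_mul]
  have hv : vec1 (fun i => L (some i) none / L none none) = (α none)⁻¹ • α := by
    funext i
    cases i with
    | none =>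
      simp [vec1, hα0]
    | some i =>
      simp only [vec1, Option.elim, Pi.smul_apply, smul_eq_mul, he]
      have : star (α none) ≠ 0 := star_ne_zero.2 hα0
      field_simp
  have hn : 1 + nq (fun i => L (some i) none / L none none) = ‖α none‖⁻¹ ^ 2 := by
    rw [← nq_vec1, hv, nq_smul, hα, norm_inv, mul_one]
  ext i j
  unfold Pa
  rw [hn, hv, he]
  simp only [Pi.smul_apply, smul_eq_mul, star_mul']
  have h1 : ((1 / ‖α none‖⁻¹ ^ 2 : ℝ) : ℂ) = α none * star (α none) := by
    rw [Complex.star_def, Complex.mul_conj, Complex.normSq_eq_norm_sq]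
    congr 1
    rw [inv_pow, one_div, inv_inv]
  have h2 : star (α none) ≠ 0 := star_ne_zero.2 hα0
  rw [h1, star_inv₀]
  field_simp

end chart

/-! ## The family -/

section family

variable {ι : Type*} [Fintype ι] [DecidableEq ι] {A : Type*} [TopologicalSpace A]

/-- The column of a line. -/
theorem col_facts {L : Matrix ι ι ℂ} (h : IsPr 1 L) (i0 : ι) :
    (L *ᵥ (fun i => L i i0) = fun i => L i i0) ∧ nq (fun i => L i i0) = (L i0 i0).re ∧
    L i0 i0 = (((L i0 i0).re : ℝ) : ℂ) ∧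
    ∀ w : ι → ℂ, ‖(L *ᵥ w) i0‖ ^ 2 = (L i0 i0).re * nq (L *ᵥ w) ∧
      (L *ᵥ w) i0 • (fun i => L i i0) = (L i0 i0) • (L *ᵥ w) := by
  obtain ⟨α, hα, hL⟩ := exists_vec h
  have he : ∀ i j, L i j = α i * star (α j) := fun i j => by rw [hL, vecMulVec_apply, Pi.star_apply]
  have h00 : L i0 i0 = ((‖α i0‖ ^ 2 : ℝ) : ℂ) := by
    rw [he, Complex.star_def, Complex.mul_conj, Complex.normSq_eq_norm_sq]
  have hre : (L i0 i0).re = ‖α i0‖ ^ 2 := by rw [h00, Complex.ofReal_re]
  have hcol : (fun i => L i i0) = star (α i0) • α := by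
    funext i
    rw [he, Pi.smul_apply, smul_eq_mul, mul_comm]
  have hLw : ∀ w : ι → ℂ, L *ᵥ w = (star α ⬝ᵥ w) • α := fun w => by rw [hL, mulVec_vec]
  refine ⟨?_, ?_, ?_, fun w => ⟨?_, ?_⟩⟩
  · funext i
    have := congrFun (congrFun h.idem i) i0
    rwa [Matrix.mul_apply] at this
  · rw [hcol, nq_smul, hα, norm_star, hre, mul_one]
  · rw [hre, h00]
  · rw [hLw w, nq_smul, hα, hre, Pi.smul_apply, smul_eq_mul, norm_mul, mul_pow]
    ring
  · rw [hLw w, hcol, he]
    funext i
    simp only [Pi.smul_apply, smul_eq_mul]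
    ring

/-- Target of the family. -/
def Y2 (L : A → Matrix ι ι ℂ) : Type _ :=
  {p : A × (ℂ × ((ι → ℂ) × ℂ)) // L p.1 *ᵥ p.2.2.1 = 0}

instance (L : A → Matrix ι ι ℂ) : TopologicalSpace (Y2 L) :=
  inferInstanceAs (TopologicalSpace {p : A × (ℂ × ((ι → ℂ) × ℂ)) // L p.1 *ᵥ p.2.2.1 = 0})

instance (L : A → Matrix ι ι ℂ) [T2Space A] : T2Space (Y2 L) :=
  inferInstanceAs (T2Space {p : A × (ℂ × ((ι → ℂ) × ℂ)) // L p.1 *ᵥ p.2.2.1 = 0})

variable {L : A → Matrix ι ι ℂ} {lam : A → ℝ} {i0 : ι}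

theorem isClosedEmbedding_Y2 [T2Space A] (hL : Continuous L) :
    IsClosedEmbedding (Subtype.val : Y2 L → A × (ℂ × ((ι → ℂ) × ℂ))) := by
  have h3 : IsClosed {p : A × (ℂ × ((ι → ℂ) × ℂ)) | L p.1 *ᵥ p.2.2.1 = 0} := by
    refine isClosed_eq ?_ continuous_const
    exact (hL.comp continuous_fst).matrix_mulVec
      (continuous_fst.comp (continuous_snd.comp continuous_snd))
  exact h3.isClosedEmbedding_subtypeVal

/-- `r`. -/
def rl (l : ℝ) (L : Matrix ι ι ℂ) (w : ι → ℂ) (s : ℝ) : ℝ :=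
  Real.sqrt (l ^ 2 * nq (L *ᵥ w) + (1 + l * s) ^ 2)

theorem rl_sq (l : ℝ) (L : Matrix ι ι ℂ) (w : ι → ℂ) (s : ℝ) :
    rl l L w s ^ 2 = l ^ 2 * nq (L *ᵥ w) + (1 + l * s) ^ 2 := by
  unfold rl
  rw [Real.sq_sqrt]
  have := nq_nonneg (L *ᵥ w)
  positivity

theorem rl_nonneg (l : ℝ) (L : Matrix ι ι ℂ) (w : ι → ℂ) (s : ℝ) : 0 ≤ rl l L w s :=
  Real.sqrt_nonneg _

theorem rl_pos {l : ℝ} {L : Matrix ι ι ℂ} {w : ι → ℂ} {s : ℝ}
    (h : 0 < rl l L w s + (1 + l * s)) : 0 < rl l L w s := by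
  rcases (rl_nonneg l L w s).lt_or_eq with h1 | h1
  · exact h1
  · exfalso
    have h2 := rl_sq l L w s
    rw [← h1] at h2 h
    have h3 := nq_nonneg (L *ᵥ w)
    have h4 : (1 + l * s) ^ 2 = 0 := by
      have : 0 ≤ l ^ 2 * nq (L *ᵥ w) := by positivity
      nlinarith [sq_nonneg (1 + l * s)]
    have h5 : 1 + l * s = 0 := by
      rw [sq_eq_zero_iff] at h4
      exact h4
    rw [h5] at h
    simp at h

/-- The `s`-component of the forward map. -/
def sf (l k n b : ℝ) : ℝ :=
  (b * Rf (l * b) / (Rf (l * b) + 1) - l * k * n * (Rf (l * b) + 1)) / (1 + l ^ 2 * k * n)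

/-- `D`. -/
def Df (l k n b : ℝ) : ℝ := 2 * Rf (l * b) / (1 + l ^ 2 * k * n)

/-- Real identities of the forward map, `n = |c|²`. -/
theorem real_fwd {l k n b : ℝ} (hk : 0 ≤ k) (hn : 0 ≤ n) :
    0 < Df l k n b ∧
    l ^ 2 * (n * Df l k n b ^ 2 * k) + (1 + l * sf l k n b) ^ 2 = Rf (l * b) ^ 2 ∧
    Rf (l * b) + (1 + l * sf l k n b) = Df l k n b ∧
    (2 * sf l k n b + l * (sf l k n b ^ 2 + n * Df l k n b ^ 2 * k)) / Rf (l * b) = b := by
  have hR := Rf_pos (l * b)
  have hR2 := Rf_sq (l * b)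
  set R := Rf (l * b) with hRdef
  have hkn : 0 < 1 + l ^ 2 * k * n := by positivity
  have hR1 : 0 < R + 1 := by linarith
  have hR1' : R + 1 ≠ 0 := hR1.ne'
  have h1 : 1 + l * sf l k n b = R * (1 - l ^ 2 * k * n) / (1 + l ^ 2 * k * n) := by
    unfold sf
    rw [← hRdef]
    have e1 : l * (b * R / (R + 1)) = R - 1 := by
      field_simp
      nlinarith
    have e2 : l * ((b * R / (R + 1) - l * k * n * (R + 1)) / (1 + l ^ 2 * k * n)) =
        (l * (b * R / (R + 1)) - l ^ 2 * k * n * (R + 1)) / (1 + l ^ 2 * k * n) := by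
      field_simp
    rw [e2, e1]
    field_simp
    ring
  have h2 : Df l k n b = 2 * R / (1 + l ^ 2 * k * n) := rfl
  have h3 : l ^ 2 * (n * Df l k n b ^ 2 * k) + (1 + l * sf l k n b) ^ 2 = R ^ 2 := by
    rw [h1, h2]
    field_simp
    ring
  refine ⟨?_, h3, ?_, ?_⟩
  · rw [h2]
    positivity
  · rw [h1, h2]
    field_simp
    ring
  · rcases eq_or_ne l 0 with hl | hl
    · subst hl
      have hR0 : R = 1 := by
        rw [hRdef, zero_mul]
        unfold Rf
        norm_num
      have hs : sf 0 k n b = b / 2 := by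
        unfold sf
        rw [← hRdef, hR0]
        norm_num
      rw [hs, hR0]
      ring
    · rw [div_eq_iff hR.ne']
      have h4 : l * (2 * sf l k n b + l * (sf l k n b ^ 2 + n * Df l k n b ^ 2 * k)) =
          l * (b * R) := by
        nlinarith
      exact mul_left_cancel₀ hl h4

/-- Real identities of the inverse map. -/
theorem real_inv {l k N s r : ℝ} (hk : 0 < k)
    (hsq : r ^ 2 = l ^ 2 * N + (1 + l * s) ^ 2) (hD : 0 < r + (1 + l * s)) (hr0 : 0 < r) :
    Rf (l * ((2 * s + l * (s ^ 2 + N)) / r)) = r ∧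
    Df l k (N / (k * (r + (1 + l * s)) ^ 2)) ((2 * s + l * (s ^ 2 + N)) / r) =
      r + (1 + l * s) ∧
    sf l k (N / (k * (r + (1 + l * s)) ^ 2)) ((2 * s + l * (s ^ 2 + N)) / r) = s := by
  set q := 2 * s + l * (s ^ 2 + N) with hq
  have h1 : l * (q / r) = r - 1 / r := by
    field_simp
    nlinarith
  have hR : Rf (l * (q / r)) = r := by rw [h1, Rf_of hr0]
  set D := r + (1 + l * s) with hDdef
  have hkn : 1 + l ^ 2 * k * (N / (k * D ^ 2)) = 2 * r / D := by
    have e1 : l ^ 2 * k * (N / (k * D ^ 2)) = (l ^ 2 * N) / D ^ 2 := by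
      field_simp
    rw [e1]
    have e2 : l ^ 2 * N = (r - (1 + l * s)) * D := by
      rw [hDdef]
      nlinarith
    rw [e2]
    field_simp
    rw [hDdef]
    ring
  refine ⟨hR, ?_, ?_⟩
  · unfold Df
    rw [hR, hkn]
    field_simp
  · unfold sf
    rw [hR, hkn]
    have hr1 : 0 < r + 1 := by linarith
    have e3 : l * k * (N / (k * D ^ 2)) = l * N / D ^ 2 := by
      field_simp
    rw [e3]
    rcases eq_or_ne l 0 with hl | hl
    · subst hl
      have hr2 : r = 1 := by
        have : r ^ 2 = 1 := by rw [hsq]; ring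
        nlinarith
      have hD2 : D = 2 := by rw [hDdef, hr2]; ring
      rw [hq, hr2, hD2]
      ring
    · have h4 : l * ((q / r * r / (r + 1) - l * N / D ^ 2 * (r + 1)) / (2 * r / D)) = l * s := by
        have e4 : q / r * r / (r + 1) = q / (r + 1) := by
          field_simp
        have e5 : l * (q / (r + 1)) = r - 1 := by
          have : l * q = (r - 1) * (r + 1) := by
            rw [hq]
            nlinarith
          rw [← mul_div_assoc, this]
          field_simp
        have e6 : l * (l * N / D ^ 2 * (r + 1)) = (r - (1 + l * s)) / D * (r + 1) := by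
          have : l ^ 2 * N = (r - (1 + l * s)) * D := by
            rw [hDdef]
            nlinarith
          have e7 : l * (l * N / D ^ 2 * (r + 1)) = (l ^ 2 * N) / D ^ 2 * (r + 1) := by ring
          rw [e7, this]
          field_simp
        have e8 : l * ((q / r * r / (r + 1) - l * N / D ^ 2 * (r + 1)) / (2 * r / D)) =
            (l * (q / (r + 1)) - l * (l * N / D ^ 2 * (r + 1))) / (2 * r / D) := by
          rw [e4]
          ring
        rw [e8, e5, e6]
        have hD' : r + (1 + l * s) ≠ 0 := hD.ne'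
        rw [hDdef]
        field_simp
        ring
      exact mul_left_cancel₀ hl h4

/-- The forward map of the family. -/
def e2 (L : A → Matrix ι ι ℂ) (lam : A → ℝ) (i0 : ι) (p : Y2 L) : A × ((ι → ℂ) × ℂ) :=
  (p.1.1, (fun i => p.1.2.2.1 i +
    (star p.1.2.1 * ((Df (lam p.1.1) (L p.1.1 i0 i0).re (‖p.1.2.1‖ ^ 2) p.1.2.2.2.re : ℝ) : ℂ)) *
      L p.1.1 i i0,
    ((1 + sf (lam p.1.1) (L p.1.1 i0 i0).re (‖p.1.2.1‖ ^ 2) p.1.2.2.2.re : ℝ) : ℂ) +
      (p.1.2.2.2.im : ℂ) * Complex.I))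

theorem e2_re (L : A → Matrix ι ι ℂ) (lam : A → ℝ) (i0 : ι) (p : Y2 L) :
    (e2 L lam i0 p).2.2.re =
      1 + sf (lam p.1.1) (L p.1.1 i0 i0).re (‖p.1.2.1‖ ^ 2) p.1.2.2.2.re := by
  simp [e2]

theorem e2_im (L : A → Matrix ι ι ℂ) (lam : A → ℝ) (i0 : ι) (p : Y2 L) :
    (e2 L lam i0 p).2.2.im = p.1.2.2.2.im := by
  simp [e2]

/-- `D` at a point of the source. -/
def DD (L : A → Matrix ι ι ℂ) (lam : A → ℝ) (q : A × ((ι → ℂ) × ℂ)) : ℝ :=
  rl (lam q.1) (L q.1) q.2.1 (q.2.2.re - 1) + (1 + lam q.1 * (q.2.2.re - 1))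

/-- The open set. -/
def O2 (L : A → Matrix ι ι ℂ) (lam : A → ℝ) : Set (A × ((ι → ℂ) × ℂ)) := {q | 0 < DD L lam q}

theorem continuous_rl (hL : Continuous L) (hlam : Continuous lam) :
    Continuous (fun q : A × ((ι → ℂ) × ℂ) => rl (lam q.1) (L q.1) q.2.1 (q.2.2.re - 1)) := by
  have hs : Continuous (fun q : A × ((ι → ℂ) × ℂ) => q.2.2.re - 1) :=
    (Complex.continuous_re.comp (continuous_snd.comp continuous_snd)).sub continuous_const
  have hl : Continuous (fun q : A × ((ι → ℂ) × ℂ) => lam q.1) := hlam.comp continuous_fst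
  have hn : Continuous (fun q : A × ((ι → ℂ) × ℂ) => nq (L q.1 *ᵥ q.2.1)) :=
    continuous_nq.comp ((hL.comp continuous_fst).matrix_mulVec
      (continuous_fst.comp continuous_snd))
  unfold rl
  exact Real.continuous_sqrt.comp (((hl.pow 2).mul hn).add
    ((continuous_const.add (hl.mul hs)).pow 2))

theorem continuous_DD (hL : Continuous L) (hlam : Continuous lam) : Continuous (DD L lam) := by
  have hs : Continuous (fun q : A × ((ι → ℂ) × ℂ) => q.2.2.re - 1) :=
    (Complex.continuous_re.comp (continuous_snd.comp continuous_snd)).sub continuous_const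
  have hl : Continuous (fun q : A × ((ι → ℂ) × ℂ) => lam q.1) := hlam.comp continuous_fst
  exact (continuous_rl hL hlam).add (continuous_const.add (hl.mul hs))

theorem isOpen_O2 (hL : Continuous L) (hlam : Continuous lam) : IsOpen (O2 L lam) :=
  isOpen_lt continuous_const (continuous_DD hL hlam)

/-- The inverse. -/
def i2 (h1 : ∀ a, IsPr 1 (L a)) (lam : A → ℝ) (i0 : ι) (q : O2 L lam) : Y2 L :=
  ⟨(q.1.1, (star ((L q.1.1 *ᵥ q.1.2.1) i0) / (((L q.1.1 i0 i0).re * DD L lam q.1 : ℝ) : ℂ),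
    (q.1.2.1 - L q.1.1 *ᵥ q.1.2.1,
      (((2 * (q.1.2.2.re - 1) + lam q.1.1 * ((q.1.2.2.re - 1) ^ 2 + nq (L q.1.1 *ᵥ q.1.2.1))) /
        rl (lam q.1.1) (L q.1.1) q.1.2.1 (q.1.2.2.re - 1) : ℝ) : ℂ) +
        (q.1.2.2.im : ℂ) * Complex.I))), by
    change L q.1.1 *ᵥ (q.1.2.1 - L q.1.1 *ᵥ q.1.2.1) = 0
    rw [Matrix.mulVec_sub, mulVec_idem (h1 _), sub_self]⟩

theorem rl_pos' (q : O2 L lam) : 0 < rl (lam q.1.1) (L q.1.1) q.1.2.1 (q.1.2.2.re - 1) :=
  rl_pos q.2

theorem continuous_i2 (hL : Continuous L) (h1 : ∀ a, IsPr 1 (L a)) (hlam : Continuous lam)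
    (hk : ∀ a, 0 < (L a i0 i0).re) : Continuous (i2 h1 lam i0) := by
  have h0 : Continuous (fun q : O2 L lam => q.1) := continuous_subtype_val
  have hLc : Continuous (fun q : O2 L lam => L q.1.1) := hL.comp (continuous_fst.comp h0)
  have hw : Continuous (fun q : O2 L lam => q.1.2.1) :=
    continuous_fst.comp (continuous_snd.comp h0)
  have hz : Continuous (fun q : O2 L lam => q.1.2.2) :=
    continuous_snd.comp (continuous_snd.comp h0)
  have hs : Continuous (fun q : O2 L lam => q.1.2.2.re - 1) :=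
    (Complex.continuous_re.comp hz).sub continuous_const
  have hl : Continuous (fun q : O2 L lam => lam q.1.1) := hlam.comp (continuous_fst.comp h0)
  have hv : Continuous (fun q : O2 L lam => L q.1.1 *ᵥ q.1.2.1) := hLc.matrix_mulVec hw
  have hr : Continuous (fun q : O2 L lam =>
      rl (lam q.1.1) (L q.1.1) q.1.2.1 (q.1.2.2.re - 1)) := (continuous_rl hL hlam).comp h0
  have hD : Continuous (fun q : O2 L lam => DD L lam q.1) := (continuous_DD hL hlam).comp h0
  refine Continuous.subtype_mk ?_ _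
  refine (continuous_fst.comp h0).prodMk (Continuous.prodMk ?_ (Continuous.prodMk ?_ ?_))
  · refine (continuous_star.comp ((continuous_apply i0).comp hv)).div ?_ ?_
    · exact Complex.continuous_ofReal.comp
        ((Complex.continuous_re.comp (hLc.matrix_elem _ _)).mul hD)
    · intro q
      have h2 : 0 < (L q.1.1 i0 i0).re * DD L lam q.1 := mul_pos (hk _) q.2
      exact_mod_cast h2.ne'
  · exact hw.sub hv
  · refine (Complex.continuous_ofReal.comp (Continuous.div ?_ hr fun q => (rl_pos' q).ne')).add ?_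
    · exact (continuous_const.mul hs).add (hl.mul ((hs.pow 2).add (continuous_nq.comp hv)))
    · exact (Complex.continuous_ofReal.comp (Complex.continuous_im.comp hz)).mul continuous_const

theorem continuous_e2 (hL : Continuous L) (hlam : Continuous lam)
    (hk : ∀ a, 0 < (L a i0 i0).re) : Continuous (e2 L lam i0) := by
  have h0 : Continuous (fun p : Y2 L => p.1) := continuous_subtype_val
  have hLc : Continuous (fun p : Y2 L => L p.1.1) := hL.comp (continuous_fst.comp h0)
  have hc : Continuous (fun p : Y2 L => p.1.2.1) :=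
    continuous_fst.comp (continuous_snd.comp h0)
  have hy : Continuous (fun p : Y2 L => p.1.2.2.1) :=
    continuous_fst.comp (continuous_snd.comp (continuous_snd.comp h0))
  have hz : Continuous (fun p : Y2 L => p.1.2.2.2) :=
    continuous_snd.comp (continuous_snd.comp (continuous_snd.comp h0))
  have hl : Continuous (fun p : Y2 L => lam p.1.1) := hlam.comp (continuous_fst.comp h0)
  have hκ : Continuous (fun p : Y2 L => (L p.1.1 i0 i0).re) :=
    Complex.continuous_re.comp (hLc.matrix_elem _ _)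
  have hn : Continuous (fun p : Y2 L => ‖p.1.2.1‖ ^ 2) := hc.norm.pow 2
  have hb : Continuous (fun p : Y2 L => p.1.2.2.2.re) := Complex.continuous_re.comp hz
  have hR : Continuous (fun p : Y2 L => Rf (lam p.1.1 * p.1.2.2.2.re)) :=
    continuous_Rf.comp (hl.mul hb)
  have hden : Continuous (fun p : Y2 L =>
      1 + lam p.1.1 ^ 2 * (L p.1.1 i0 i0).re * ‖p.1.2.1‖ ^ 2) :=
    continuous_const.add (((hl.pow 2).mul hκ).mul hn)
  have hden0 : ∀ p : Y2 L, 1 + lam p.1.1 ^ 2 * (L p.1.1 i0 i0).re * ‖p.1.2.1‖ ^ 2 ≠ 0 := by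
    intro p
    have h2 := hk p.1.1
    positivity
  have hD : Continuous (fun p : Y2 L =>
      Df (lam p.1.1) (L p.1.1 i0 i0).re (‖p.1.2.1‖ ^ 2) p.1.2.2.2.re) := by
    unfold Df
    exact (continuous_const.mul hR).div hden hden0
  have hS : Continuous (fun p : Y2 L =>
      sf (lam p.1.1) (L p.1.1 i0 i0).re (‖p.1.2.1‖ ^ 2) p.1.2.2.2.re) := by
    unfold sf
    refine Continuous.div (Continuous.sub ?_ ?_) hden hden0
    · refine (hb.mul hR).div (hR.add continuous_const) fun p => ?_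
      have := Rf_pos (lam p.1.1 * p.1.2.2.2.re)
      positivity
    · exact ((hl.mul hκ).mul hn).mul (hR.add continuous_const)
  refine (continuous_fst.comp h0).prodMk (Continuous.prodMk ?_ ?_)
  · refine continuous_pi fun i => ?_
    refine ((continuous_apply i).comp hy).add ?_
    exact ((continuous_star.comp hc).mul (Complex.continuous_ofReal.comp hD)).mul
      (hLc.matrix_elem _ _)
  · refine (Complex.continuous_ofReal.comp (continuous_const.add hS)).add ?_
    exact (Complex.continuous_ofReal.comp (Complex.continuous_im.comp hz)).mul continuous_const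

theorem mulVec_e2 (h1 : ∀ a, IsPr 1 (L a)) (p : Y2 L) :
    L p.1.1 *ᵥ (e2 L lam i0 p).2.1 =
      (star p.1.2.1 * ((Df (lam p.1.1) (L p.1.1 i0 i0).re (‖p.1.2.1‖ ^ 2) p.1.2.2.2.re : ℝ) : ℂ)) •
        (fun i => L p.1.1 i i0) := by
  obtain ⟨hc, -, -, -⟩ := col_facts (h1 p.1.1) i0
  have e : (e2 L lam i0 p).2.1 = p.1.2.2.1 +
      (star p.1.2.1 * ((Df (lam p.1.1) (L p.1.1 i0 i0).re (‖p.1.2.1‖ ^ 2) p.1.2.2.2.re : ℝ) : ℂ)) •
        (fun i => L p.1.1 i i0) := by
    funext i
    rfl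
  rw [e, Matrix.mulVec_add, p.2, zero_add, Matrix.mulVec_smul, hc]

theorem nq_e2 (h1 : ∀ a, IsPr 1 (L a)) (p : Y2 L) :
    nq (L p.1.1 *ᵥ (e2 L lam i0 p).2.1) = ‖p.1.2.1‖ ^ 2 *
      Df (lam p.1.1) (L p.1.1 i0 i0).re (‖p.1.2.1‖ ^ 2) p.1.2.2.2.re ^ 2 * (L p.1.1 i0 i0).re := by
  obtain ⟨-, hn, -, -⟩ := col_facts (h1 p.1.1) i0
  rw [mulVec_e2 h1, nq_smul, hn, norm_mul, norm_star, mul_pow, Complex.norm_real,
    Real.norm_eq_abs, sq_abs]

theorem rl_e2 (h1 : ∀ a, IsPr 1 (L a)) (hk : ∀ a, 0 < (L a i0 i0).re) (p : Y2 L) :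
    rl (lam p.1.1) (L p.1.1) (e2 L lam i0 p).2.1 ((e2 L lam i0 p).2.2.re - 1) =
      Rf (lam p.1.1 * p.1.2.2.2.re) := by
  obtain ⟨-, h2, -, -⟩ := real_fwd (l := lam p.1.1) (b := p.1.2.2.2.re) (hk p.1.1).le
    (sq_nonneg ‖p.1.2.1‖)
  have hR := Rf_pos (lam p.1.1 * p.1.2.2.2.re)
  unfold rl
  rw [nq_e2 h1, e2_re, add_sub_cancel_left, h2, Real.sqrt_sq hR.le]

theorem DD_e2 (h1 : ∀ a, IsPr 1 (L a)) (hk : ∀ a, 0 < (L a i0 i0).re) (p : Y2 L) :
    DD L lam (e2 L lam i0 p) =
      Df (lam p.1.1) (L p.1.1 i0 i0).re (‖p.1.2.1‖ ^ 2) p.1.2.2.2.re := by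
  obtain ⟨-, -, h3, -⟩ := real_fwd (l := lam p.1.1) (b := p.1.2.2.2.re) (hk p.1.1).le
    (sq_nonneg ‖p.1.2.1‖)
  have h4 : DD L lam (e2 L lam i0 p) =
      rl (lam p.1.1) (L p.1.1) (e2 L lam i0 p).2.1 ((e2 L lam i0 p).2.2.re - 1) +
        (1 + lam p.1.1 * ((e2 L lam i0 p).2.2.re - 1)) := rfl
  rw [h4, rl_e2 h1 hk, e2_re, add_sub_cancel_left, h3]

theorem e2_mem (h1 : ∀ a, IsPr 1 (L a)) (hk : ∀ a, 0 < (L a i0 i0).re) (p : Y2 L) :
    e2 L lam i0 p ∈ O2 L lam := by
  obtain ⟨h2, -, -, -⟩ := real_fwd (l := lam p.1.1) (b := p.1.2.2.2.re) (hk p.1.1).le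
    (sq_nonneg ‖p.1.2.1‖)
  change 0 < DD L lam (e2 L lam i0 p)
  rw [DD_e2 h1 hk]
  exact h2

theorem i2_e2 (h1 : ∀ a, IsPr 1 (L a)) (hk : ∀ a, 0 < (L a i0 i0).re) (p : Y2 L) :
    i2 h1 lam i0 ⟨e2 L lam i0 p, e2_mem h1 hk p⟩ = p := by
  obtain ⟨hD0, -, -, h4⟩ := real_fwd (l := lam p.1.1) (b := p.1.2.2.2.re) (hk p.1.1).le
    (sq_nonneg ‖p.1.2.1‖)
  obtain ⟨-, -, h00, -⟩ := col_facts (h1 p.1.1) i0
  have hκ := hk p.1.1
  apply Subtype.ext
  have e1 : (i2 h1 lam i0 ⟨e2 L lam i0 p, e2_mem h1 hk p⟩).1 = (p.1.1,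
      (star ((L p.1.1 *ᵥ (e2 L lam i0 p).2.1) i0) /
        (((L p.1.1 i0 i0).re * DD L lam (e2 L lam i0 p) : ℝ) : ℂ),
      ((e2 L lam i0 p).2.1 - L p.1.1 *ᵥ (e2 L lam i0 p).2.1,
      (((2 * ((e2 L lam i0 p).2.2.re - 1) + lam p.1.1 * (((e2 L lam i0 p).2.2.re - 1) ^ 2 +
        nq (L p.1.1 *ᵥ (e2 L lam i0 p).2.1))) /
        rl (lam p.1.1) (L p.1.1) (e2 L lam i0 p).2.1 ((e2 L lam i0 p).2.2.re - 1) : ℝ) : ℂ) +
        ((e2 L lam i0 p).2.2.im : ℂ) * Complex.I))) := rfl
  rw [e1, DD_e2 h1 hk, rl_e2 h1 hk, nq_e2 h1, e2_re, e2_im, add_sub_cancel_left, h4,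
    mulVec_e2 h1]
  set D := Df (lam p.1.1) (L p.1.1 i0 i0).re (‖p.1.2.1‖ ^ 2) p.1.2.2.2.re with hDdef
  refine Prod.ext rfl (Prod.ext ?_ (Prod.ext ?_ ?_))
  · change star ((star p.1.2.1 * (D : ℂ)) * L p.1.1 i0 i0) /
      (((L p.1.1 i0 i0).re * D : ℝ) : ℂ) = p.1.2.1
    have hne : (((L p.1.1 i0 i0).re * D : ℝ) : ℂ) ≠ 0 := by
      exact_mod_cast (mul_pos hκ hD0).ne'
    have e5 : star (L p.1.1 i0 i0) = (((L p.1.1 i0 i0).re : ℝ) : ℂ) := by
      conv_lhs => rw [h00]
      exact Complex.conj_ofReal _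
    have e6 : star (D : ℂ) = (D : ℂ) := Complex.conj_ofReal _
    rw [div_eq_iff hne, star_mul', star_mul', star_star, e5, e6]
    push_cast
    ring
  · funext i
    change (p.1.2.2.1 i + _) - _ = _
    rw [add_sub_assoc]
    refine add_eq_left.2 ?_
    exact sub_self _
  · exact Complex.re_add_im _

theorem e2_i2 (h1 : ∀ a, IsPr 1 (L a)) (hk : ∀ a, 0 < (L a i0 i0).re) (q : O2 L lam) :
    e2 L lam i0 (i2 h1 lam i0 q) = q.1 := by
  obtain ⟨-, -, h00, hcf⟩ := col_facts (h1 q.1.1) i0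
  obtain ⟨hn1, hcol⟩ := hcf q.1.2.1
  have hκ := hk q.1.1
  have hD0 : 0 < DD L lam q.1 := q.2
  have hr0 := rl_pos' q
  obtain ⟨hR, hD, hS⟩ := real_inv (l := lam q.1.1) (N := nq (L q.1.1 *ᵥ q.1.2.1))
    (s := q.1.2.2.re - 1) hκ (rl_sq (lam q.1.1) (L q.1.1) q.1.2.1 (q.1.2.2.re - 1)) q.2 hr0
  have hre : (i2 h1 lam i0 q).1.2.2.2.re =
      (2 * (q.1.2.2.re - 1) + lam q.1.1 * ((q.1.2.2.re - 1) ^ 2 + nq (L q.1.1 *ᵥ q.1.2.1))) /
        rl (lam q.1.1) (L q.1.1) q.1.2.1 (q.1.2.2.re - 1) := by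
    change ((((2 * (q.1.2.2.re - 1) + lam q.1.1 * ((q.1.2.2.re - 1) ^ 2 +
      nq (L q.1.1 *ᵥ q.1.2.1))) /
        rl (lam q.1.1) (L q.1.1) q.1.2.1 (q.1.2.2.re - 1) : ℝ) : ℂ) +
        (q.1.2.2.im : ℂ) * Complex.I).re = _
    rw [Complex.add_re, Complex.ofReal_re, Complex.mul_re, Complex.I_re, Complex.I_im,
      Complex.ofReal_im]
    ring
  have him : (i2 h1 lam i0 q).1.2.2.2.im = q.1.2.2.im := by
    change ((((2 * (q.1.2.2.re - 1) + lam q.1.1 * ((q.1.2.2.re - 1) ^ 2 +
      nq (L q.1.1 *ᵥ q.1.2.1))) /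
        rl (lam q.1.1) (L q.1.1) q.1.2.1 (q.1.2.2.re - 1) : ℝ) : ℂ) +
        (q.1.2.2.im : ℂ) * Complex.I).im = _
    rw [Complex.add_im, Complex.ofReal_im, Complex.mul_im, Complex.I_re, Complex.I_im,
      Complex.ofReal_re]
    ring
  have hc : (i2 h1 lam i0 q).1.2.1 = star ((L q.1.1 *ᵥ q.1.2.1) i0) /
      (((L q.1.1 i0 i0).re * DD L lam q.1 : ℝ) : ℂ) := rfl
  have hnc : ‖(i2 h1 lam i0 q).1.2.1‖ ^ 2 = nq (L q.1.1 *ᵥ q.1.2.1) /
      ((L q.1.1 i0 i0).re * (rl (lam q.1.1) (L q.1.1) q.1.2.1 (q.1.2.2.re - 1) +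
        (1 + lam q.1.1 * (q.1.2.2.re - 1))) ^ 2) := by
    rw [hc, norm_div, norm_star, div_pow, hn1, Complex.norm_real, Real.norm_eq_abs, sq_abs]
    change _ / ((L q.1.1 i0 i0).re * DD L lam q.1) ^ 2 = _ /
      ((L q.1.1 i0 i0).re * (DD L lam q.1) ^ 2)
    field_simp
  have ha : (i2 h1 lam i0 q).1.1 = q.1.1 := rfl
  refine Prod.ext rfl (Prod.ext ?_ ?_)
  · funext i
    change (q.1.2.1 - L q.1.1 *ᵥ q.1.2.1) i + (star (i2 h1 lam i0 q).1.2.1 *
      ((Df (lam q.1.1) (L q.1.1 i0 i0).re (‖(i2 h1 lam i0 q).1.2.1‖ ^ 2)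
        (i2 h1 lam i0 q).1.2.2.2.re : ℝ) : ℂ)) * L q.1.1 i i0 = q.1.2.1 i
    rw [hnc, hre, hD, hc]
    have hcol' : (L q.1.1 *ᵥ q.1.2.1) i0 * L q.1.1 i i0 =
        L q.1.1 i0 i0 * (L q.1.1 *ᵥ q.1.2.1) i := congrFun hcol i
    change (q.1.2.1 - L q.1.1 *ᵥ q.1.2.1) i + (star (star ((L q.1.1 *ᵥ q.1.2.1) i0) /
      (((L q.1.1 i0 i0).re * DD L lam q.1 : ℝ) : ℂ)) * ((DD L lam q.1 : ℝ) : ℂ)) *
        L q.1.1 i i0 = q.1.2.1 i
    have hκC : ((L q.1.1 i0 i0).re : ℂ) ≠ 0 := by exact_mod_cast hκ.ne'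
    have hDC : ((DD L lam q.1 : ℝ) : ℂ) ≠ 0 := by exact_mod_cast hD0.ne'
    rw [star_div₀, star_star, Complex.star_def, Complex.conj_ofReal, Pi.sub_apply,
      Complex.ofReal_mul]
    have e3 : (L q.1.1 *ᵥ q.1.2.1) i0 / (((L q.1.1 i0 i0).re : ℂ) * ((DD L lam q.1 : ℝ) : ℂ)) *
        ((DD L lam q.1 : ℝ) : ℂ) * L q.1.1 i i0 =
        ((L q.1.1 *ᵥ q.1.2.1) i0 * L q.1.1 i i0) / ((L q.1.1 i0 i0).re : ℂ) := by
      field_simp
    have e4 : L q.1.1 i0 i0 * (L q.1.1 *ᵥ q.1.2.1) i / ((L q.1.1 i0 i0).re : ℂ) =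
        (L q.1.1 *ᵥ q.1.2.1) i := by
      rw [div_eq_iff hκC]
      conv_lhs => rw [h00]
      ring
    rw [e3, hcol', e4, sub_add_cancel]
  · change ((1 + sf (lam q.1.1) (L q.1.1 i0 i0).re (‖(i2 h1 lam i0 q).1.2.1‖ ^ 2)
        (i2 h1 lam i0 q).1.2.2.2.re : ℝ) : ℂ) +
        ((i2 h1 lam i0 q).1.2.2.2.im : ℂ) * Complex.I = q.1.2.2
    rw [hnc, hre, hS, him, add_sub_cancel, Complex.re_add_im]

theorem isOpenEmbedding_e2 (hL : Continuous L) (h1 : ∀ a, IsPr 1 (L a)) (hlam : Continuous lam)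
    (hk : ∀ a, 0 < (L a i0 i0).re) : IsOpenEmbedding (e2 L lam i0) :=
  isOpenEmbedding_of_inv (isOpen_O2 hL hlam) (continuous_e2 hL hlam hk) (e2_mem h1 hk)
    (i2 h1 lam i0) (continuous_i2 hL h1 hlam hk) (i2_e2 h1 hk) (e2_i2 h1 hk)

/-- The family. -/
def famP [T2Space A] (hL : Continuous L) (h1 : ∀ a, IsPr 1 (L a)) (hlam : Continuous lam)
    (hk : ∀ a, 0 < (L a i0 i0).re) : PMap (A × ((ι → ℂ) × ℂ)) (Y2 L) :=
  PMap.ofOpen (e2 L lam i0) (isOpenEmbedding_e2 hL h1 hlam hk)

theorem famP_of_pos [T2Space A] (hL : Continuous L) (h1 : ∀ a, IsPr 1 (L a))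
    (hlam : Continuous lam) (hk : ∀ a, 0 < (L a i0 i0).re)
    (q : A × ((ι → ℂ) × ℂ)) (hq : q ∈ O2 L lam) :
    famP hL h1 hlam hk (q : OnePoint (A × ((ι → ℂ) × ℂ))) =
      (i2 h1 lam i0 ⟨q, hq⟩ : OnePoint (Y2 L)) := by
  refine (PMap.collapse_eq_coe (e2 L lam i0) (isOpenEmbedding_e2 hL h1 hlam hk)).2 ?_
  rw [e2_i2 h1 hk]

theorem famP_of_not [T2Space A] (hL : Continuous L) (h1 : ∀ a, IsPr 1 (L a))
    (hlam : Continuous lam) (hk : ∀ a, 0 < (L a i0 i0).re)
    (q : A × ((ι → ℂ) × ℂ)) (hq : q ∉ O2 L lam) :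
    famP hL h1 hlam hk (q : OnePoint (A × ((ι → ℂ) × ℂ))) = OnePoint.infty := by
  refine PMap.ofOpen_of_notMem _ _ ?_
  rintro ⟨p, rfl⟩
  exact hq (e2_mem h1 hk p)

end family

end Crest.Agent.R090.TopD491
end
end

-- ▼ part R090/TopE_491
section

/-!
# Row 90, TOPCELL (helper491), part E: block sums, the two proper maps

* `bsum` : block sum `T_k × {(L, y, ζ)} → T_{k + |ι|}`;
* `Bn L` : lines of `L_b ⊕ ℂ`, the next base; `k1`, `k2` proper.
-/

set_option autoImplicit false
set_option linter.unusedSectionVars false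

open Topology Filter Set Matrix
open Crest.Agent.R090.Sp962 Crest.Agent.R090.I0core275 Crest.Agent.R090.I0Defs417
  Crest.Agent.R090.I0Glue417
open Crest.Agent.R090.TopA491 Crest.Agent.R090.TopB491 Crest.Agent.R090.TopC491
  Crest.Agent.R090.TopD491
open scoped unitInterval

noncomputable section

namespace Crest.Agent.R090.TopE491

section blocks

variable {ι κ : Type*} [Fintype ι] [DecidableEq ι] [Fintype κ] [DecidableEq κ]

/-- `(1 - L) ⊕ 1`. -/
def cb (L : Matrix ι ι ℂ) : Matrix (ι ⊕ Unit) (ι ⊕ Unit) ℂ := fromBlocks (1 - L) 0 0 1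

theorem isPr_cb {L : Matrix ι ι ℂ} (h : IsPr 1 L) : IsPr (Fintype.card ι) (cb L) := by
  refine ⟨?_, ?_, ?_⟩
  · rw [cb, fromBlocks_conjTranspose, conjTranspose_sub, conjTranspose_one, h.herm]
    simp
  · rw [cb, fromBlocks_multiply]
    have : (1 - L) * (1 - L) = 1 - L := by
      rw [Matrix.sub_mul, Matrix.one_mul, Matrix.mul_sub, Matrix.mul_one, h.idem, sub_self,
        sub_zero]
    rw [this]
    simp
  · rw [trace, Fintype.sum_sum_type]
    simp only [cb, diag_apply, fromBlocks_apply₁₁, fromBlocks_apply₂₂]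
    have h1 : ∑ x, (1 - L) x x = (1 - L).trace := rfl
    rw [h1, trace_sub, trace_one, h.tr]
    simp

/-- The block sum. -/
def bsum {k k' : ℕ} (hk : k + Fintype.card ι = k') (t : Th k κ) (L : Matrix ι ι ℂ)
    (h : IsPr 1 L) (y : ι → ℂ) (hy : L *ᵥ y = 0) (ζ : ℂ) : Th k' (κ ⊕ (ι ⊕ Unit)) :=
  ⟨(fromBlocks t.1.1 0 0 (cb L), Sum.elim t.1.2 (Sum.elim y fun _ => ζ)), by
    subst hk
    exact isPr_fromBlocks t.2.1 (isPr_cb h), by
    rw [fromBlocks_diag_mulVec, t.2.2, cb, fromBlocks_diag_mulVec, sub_mulVec, one_mulVec, hy,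
      sub_zero, one_mulVec]⟩

theorem bsum_congr {k k' : ℕ} (hk : k + Fintype.card ι = k') (t : Th k κ) {L L' : Matrix ι ι ℂ}
    (h : IsPr 1 L) (h' : IsPr 1 L') {y y' : ι → ℂ} (hy : L *ᵥ y = 0) (hy' : L' *ᵥ y' = 0)
    {ζ ζ' : ℂ} (eL : L = L') (ey : y = y') (eζ : ζ = ζ') :
    bsum hk t L h y hy ζ = bsum hk t L' h' y' hy' ζ' := by
  subst eL
  subst ey
  subst eζ
  rfl

theorem continuous_bsum {X : Type*} [TopologicalSpace X] {k k' : ℕ}
    (hk : k + Fintype.card ι = k') {t : X → Th k κ} {L : X → Matrix ι ι ℂ}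
    (h : ∀ x, IsPr 1 (L x)) {y : X → ι → ℂ} (hy : ∀ x, L x *ᵥ y x = 0) {ζ : X → ℂ}
    (ht : Continuous t) (hL : Continuous L) (hyc : Continuous y) (hζ : Continuous ζ) :
    Continuous fun x => bsum hk (t x) (L x) (h x) (y x) (hy x) (ζ x) := by
  have ht0 : Continuous fun x => (t x).1 := continuous_subtype_val.comp ht
  refine Continuous.subtype_mk (Continuous.prodMk ?_ ?_) _
  · refine Continuous.matrix_fromBlocks (continuous_fst.comp ht0) continuous_const
      continuous_const ?_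
    exact (continuous_const.sub hL).matrix_fromBlocks continuous_const continuous_const
      continuous_const
  · exact continuous_sumElim (continuous_snd.comp ht0)
      (continuous_sumElim hyc (continuous_pi fun _ => hζ))

/-- Reading off the data. -/
def rT {k' : ℕ} (t : Th k' (κ ⊕ (ι ⊕ Unit))) :
    (Matrix κ κ ℂ × (κ → ℂ)) × ((ι → ℂ) × ℂ) :=
  ((fun i j => t.1.1 (Sum.inl i) (Sum.inl j), fun i => t.1.2 (Sum.inl i)),
    (fun i => t.1.2 (Sum.inr (Sum.inl i)), t.1.2 (Sum.inr (Sum.inr ()))))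

theorem continuous_rT {k' : ℕ} : Continuous (rT : Th k' (κ ⊕ (ι ⊕ Unit)) → _) := by
  have h0 : Continuous fun t : Th k' (κ ⊕ (ι ⊕ Unit)) => t.1 := continuous_subtype_val
  have h1 : Continuous fun t : Th k' (κ ⊕ (ι ⊕ Unit)) => t.1.1 := continuous_fst.comp h0
  have h2 : Continuous fun t : Th k' (κ ⊕ (ι ⊕ Unit)) => t.1.2 := continuous_snd.comp h0
  refine Continuous.prodMk (Continuous.prodMk ?_ ?_) (Continuous.prodMk ?_ ?_)
  · exact continuous_matrix fun i j => h1.matrix_elem _ _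
  · exact continuous_pi fun i => (continuous_apply _).comp h2
  · exact continuous_pi fun i => (continuous_apply _).comp h2
  · exact (continuous_apply _).comp h2


end blocks

section base

variable {ι κ : Type*} [Fintype ι] [DecidableEq ι] [Fintype κ] [DecidableEq κ]
variable {B : Type*} [TopologicalSpace B] {L : B → Matrix ι ι ℂ}

/-- The next base. -/
def Bn (L : B → Matrix ι ι ℂ) : Type _ :=
  {p : B × Matrix (ι ⊕ Unit) (ι ⊕ Unit) ℂ // IsPr 1 p.2 ∧ fromBlocks (L p.1) 0 0 1 * p.2 = p.2}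

instance (L : B → Matrix ι ι ℂ) : TopologicalSpace (Bn L) :=
  inferInstanceAs (TopologicalSpace {p : B × Matrix (ι ⊕ Unit) (ι ⊕ Unit) ℂ //
    IsPr 1 p.2 ∧ fromBlocks (L p.1) 0 0 1 * p.2 = p.2})

instance (L : B → Matrix ι ι ℂ) [T2Space B] : T2Space (Bn L) :=
  inferInstanceAs (T2Space {p : B × Matrix (ι ⊕ Unit) (ι ⊕ Unit) ℂ //
    IsPr 1 p.2 ∧ fromBlocks (L p.1) 0 0 1 * p.2 = p.2})

theorem compactSpace_Bn [CompactSpace B] [T2Space B] (hL : Continuous L) :
    CompactSpace (Bn L) := by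
  have h1 : IsCompact {M : Matrix (ι ⊕ Unit) (ι ⊕ Unit) ℂ | ∀ i j, ‖M i j‖ ≤ 1} := by
    have : {M : Matrix (ι ⊕ Unit) (ι ⊕ Unit) ℂ | ∀ i j, ‖M i j‖ ≤ 1} =
        (Set.univ.pi fun _ : ι ⊕ Unit => Set.univ.pi fun _ : ι ⊕ Unit =>
          Metric.closedBall (0 : ℂ) 1) := by
      ext M
      constructor
      · intro h i _ j _
        exact mem_closedBall_zero_iff.2 (h i j)
      · intro h i j
        exact mem_closedBall_zero_iff.1 (h i (mem_univ i) j (mem_univ j))
    rw [this]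
    exact isCompact_univ_pi fun _ => isCompact_univ_pi fun _ => isCompact_closedBall _ _
  have h2 : IsClosed {p : B × Matrix (ι ⊕ Unit) (ι ⊕ Unit) ℂ |
      IsPr 1 p.2 ∧ fromBlocks (L p.1) 0 0 1 * p.2 = p.2} := by
    refine ((isClosed_isPr 1).preimage continuous_snd).inter ?_
    refine isClosed_eq ?_ continuous_snd
    exact ((hL.comp continuous_fst).matrix_fromBlocks continuous_const continuous_const
      continuous_const).matrix_mul continuous_snd
  refine isCompact_iff_compactSpace.1 ((isCompact_univ.prod h1).of_isClosed_subset h2 ?_)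
  rintro p ⟨hp, -⟩
  exact ⟨trivial, fun i j => hp.norm_entry_le i j⟩

variable {k k' : ℕ}

/-- The first proper map. -/
def k1 (hP : ∀ b, IsPr 1 (L b)) (hk : k + Fintype.card ι = k')
    (p : Y (fun q : B × Th k κ => L q.1)) : Bn L × Th k' (κ ⊕ (ι ⊕ Unit)) :=
  (⟨(p.1.1.1, p.1.2.1), p.2.1, p.2.2.1⟩,
    bsum hk p.1.1.2 (L p.1.1.1) (hP _) p.1.2.2.1 p.2.2.2 p.1.2.2.2)

theorem continuous_k1 (hL : Continuous L) (hP : ∀ b, IsPr 1 (L b))
    (hk : k + Fintype.card ι = k') : Continuous (k1 (κ := κ) hP hk) := by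
  have h0 : Continuous fun p : Y (fun q : B × Th k κ => L q.1) => p.1 := continuous_subtype_val
  have h1 : Continuous fun p : Y (fun q : B × Th k κ => L q.1) => p.1.1 := continuous_fst.comp h0
  have h2 : Continuous fun p : Y (fun q : B × Th k κ => L q.1) => p.1.2 := continuous_snd.comp h0
  refine Continuous.prodMk (Continuous.subtype_mk ?_ _) ?_
  · exact (continuous_fst.comp h1).prodMk (continuous_fst.comp h2)
  · exact continuous_bsum hk _ _ (continuous_snd.comp h1) (hL.comp (continuous_fst.comp h1))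
      (continuous_fst.comp (continuous_snd.comp h2)) (continuous_snd.comp (continuous_snd.comp h2))

theorem isProperMap_k1 [T2Space B] (hL : Continuous L) (hP : ∀ b, IsPr 1 (L b))
    (hk : k + Fintype.card ι = k') : IsProperMap (k1 (κ := κ) hP hk) := by
  let g : Bn L × Th k' (κ ⊕ (ι ⊕ Unit)) → (B × (Matrix κ κ ℂ × (κ → ℂ))) ×
      (Matrix (ι ⊕ Unit) (ι ⊕ Unit) ℂ × ((ι → ℂ) × ℂ)) :=
    fun q => ((q.1.1.1, (rT q.2).1), (q.1.1.2, (rT q.2).2))
  have hg : Continuous g := by
    have h0 : Continuous fun q : Bn L × Th k' (κ ⊕ (ι ⊕ Unit)) => q.1.1 :=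
      continuous_subtype_val.comp continuous_fst
    have h1 : Continuous fun q : Bn L × Th k' (κ ⊕ (ι ⊕ Unit)) => rT q.2 :=
      continuous_rT.comp continuous_snd
    exact ((continuous_fst.comp h0).prodMk (continuous_fst.comp h1)).prodMk
      ((continuous_snd.comp h0).prodMk (continuous_snd.comp h1))
  refine isProperMap_of_comp (continuous_k1 hL hP hk) hg ?_
  have e : g ∘ k1 (κ := κ) hP hk = (Prod.map (Prod.map id Subtype.val) id) ∘
      (Subtype.val : Y (fun q : B × Th k κ => L q.1) → _) := rfl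
  rw [e]
  exact ((isProperMap_id.prodMap (isClosedEmbedding_val k).isProperMap).prodMap
    isProperMap_id).comp (isClosedEmbedding_Y (hL.comp continuous_fst)).isProperMap

end base

section fam

variable {m κ : Type*} [Fintype m] [DecidableEq m] [Fintype κ] [DecidableEq κ] {k k' : ℕ}

/-- The family of lines. -/
def Lf (m : Type*) [Fintype m] [DecidableEq m] (T : Type*) (a : I × ((m → ℂ) × T)) :
    Matrix (Option m) (Option m) ℂ := Pa (((a.1 : ℝ) : ℂ) • a.2.1)

/-- The parameter. -/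
def lf (m T : Type*) (a : I × ((m → ℂ) × T)) : ℝ := a.1

theorem continuous_Lf (T : Type*) [TopologicalSpace T] : Continuous (Lf m T) := by
  refine continuous_Pa.comp ?_
  exact (Complex.continuous_ofReal.comp (continuous_subtype_val.comp continuous_fst)).smul
    (continuous_fst.comp continuous_snd)

theorem continuous_lf (T : Type*) [TopologicalSpace T] : Continuous (lf m T) :=
  continuous_subtype_val.comp continuous_fst

theorem isPr_Lf (T : Type*) (a : I × ((m → ℂ) × T)) : IsPr 1 (Lf m T a) := isPr_Pa _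

theorem Lf_pos (T : Type*) (a : I × ((m → ℂ) × T)) : 0 < (Lf m T a none none).re := by
  unfold Lf
  rw [Pa_none, Complex.ofReal_re]
  have := one_add_nq_pos (((a.1 : ℝ) : ℂ) • a.2.1)
  positivity

/-- The second proper map. -/
def k2 (hk : k + Fintype.card (Option m) = k') (p : Y2 (Lf m (Th k κ))) :
    ((m ⊕ Unit) → ℂ) × Th k' (κ ⊕ (Option m ⊕ Unit)) :=
  (Sum.elim p.1.1.2.1 (fun _ => p.1.2.1),
    bsum hk p.1.1.2.2 (Lf m (Th k κ) p.1.1) (isPr_Lf _ _) p.1.2.2.1 p.2 p.1.2.2.2)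

theorem continuous_k2 (hk : k + Fintype.card (Option m) = k') :
    Continuous (k2 (κ := κ) hk) := by
  have h0 : Continuous fun p : Y2 (Lf m (Th k κ)) => p.1 := continuous_subtype_val
  have h1 : Continuous fun p : Y2 (Lf m (Th k κ)) => p.1.1 := continuous_fst.comp h0
  have h2 : Continuous fun p : Y2 (Lf m (Th k κ)) => p.1.2 := continuous_snd.comp h0
  refine Continuous.prodMk ?_ ?_
  · exact continuous_sumElim (continuous_fst.comp (continuous_snd.comp h1))
      (continuous_pi fun _ => continuous_fst.comp h2)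
  · exact continuous_bsum hk _ _ (continuous_snd.comp (continuous_snd.comp h1))
      ((continuous_Lf _).comp h1)
      (continuous_fst.comp (continuous_snd.comp h2)) (continuous_snd.comp (continuous_snd.comp h2))

theorem isProperMap_k2 (hk : k + Fintype.card (Option m) = k') :
    IsProperMap (k2 (κ := κ) hk) := by
  let g : ((m ⊕ Unit) → ℂ) × Th k' (κ ⊕ (Option m ⊕ Unit)) →
      ((m → ℂ) × (Matrix κ κ ℂ × (κ → ℂ))) × (ℂ × ((Option m → ℂ) × ℂ)) :=
    fun q => ((fun i => q.1 (Sum.inl i), (rT q.2).1), (q.1 (Sum.inr ()), (rT q.2).2))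
  have hg : Continuous g := by
    have h0 : ∀ i, Continuous fun q : ((m ⊕ Unit) → ℂ) × Th k' (κ ⊕ (Option m ⊕ Unit)) => q.1 i :=
      fun i => (continuous_apply i).comp continuous_fst
    have h1 : Continuous fun q : ((m ⊕ Unit) → ℂ) × Th k' (κ ⊕ (Option m ⊕ Unit)) => rT q.2 :=
      continuous_rT.comp continuous_snd
    exact ((continuous_pi fun i => h0 _).prodMk (continuous_fst.comp h1)).prodMk
      ((h0 _).prodMk (continuous_snd.comp h1))
  refine isProperMap_of_comp (continuous_k2 hk) hg ?_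
  have e : g ∘ k2 (κ := κ) hk = (Prod.map (Prod.map id Subtype.val) id) ∘
      (Prod.map Prod.snd id) ∘ (Subtype.val : Y2 (Lf m (Th k κ)) → _) := rfl
  rw [e]
  exact ((isProperMap_id.prodMap (isClosedEmbedding_val k).isProperMap).prodMap
    isProperMap_id).comp ((isProperMap_snd_of_compactSpace.prodMap isProperMap_id).comp
      (isClosedEmbedding_Y2 (continuous_Lf _)).isProperMap)

/-- The homotopy as a pointed map. -/
def GG (hk : k + Fintype.card (Option m) = k') :
    PMap (I × (((m → ℂ) × Th k κ) × ((Option m → ℂ) × ℂ)))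
      (((m ⊕ Unit) → ℂ) × Th k' (κ ⊕ (Option m ⊕ Unit))) :=
  (ofProper (k2 hk) (isProperMap_k2 hk)).comp
    ((famP (continuous_Lf (Th k κ)) (isPr_Lf _) (continuous_lf _) (i0 := none) (Lf_pos _)).comp
      (PMap.ofHomeo (Homeomorph.prodAssoc I ((m → ℂ) × Th k κ) ((Option m → ℂ) × ℂ)).symm))

theorem GG_of_pos (hk : k + Fintype.card (Option m) = k') (u : I) (a : m → ℂ) (t : Th k κ)
    (w : Option m → ℂ) (z : ℂ) (hq : ((u, (a, t)), (w, z)) ∈ O2 (Lf m (Th k κ)) (lf m (Th k κ))) :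
    GG (κ := κ) hk ((u, ((a, t), (w, z))) : I × (((m → ℂ) × Th k κ) × ((Option m → ℂ) × ℂ))) =
      (k2 hk (i2 (isPr_Lf _) (lf m (Th k κ)) none ⟨((u, (a, t)), (w, z)), hq⟩) :
        OnePoint (((m ⊕ Unit) → ℂ) × Th k' (κ ⊕ (Option m ⊕ Unit)))) := by
  change ofProper (k2 hk) (isProperMap_k2 hk) (famP (continuous_Lf (Th k κ)) (isPr_Lf _)
    (continuous_lf _) (i0 := none) (Lf_pos _) (((u, (a, t)), (w, z)) :
      (I × ((m → ℂ) × Th k κ)) × ((Option m → ℂ) × ℂ))) = _
  rw [famP_of_pos _ _ _ _ _ hq]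
  rfl

theorem GG_of_not (hk : k + Fintype.card (Option m) = k') (u : I) (a : m → ℂ) (t : Th k κ)
    (w : Option m → ℂ) (z : ℂ) (hq : ((u, (a, t)), (w, z)) ∉ O2 (Lf m (Th k κ)) (lf m (Th k κ))) :
    GG (κ := κ) hk ((u, ((a, t), (w, z))) : I × (((m → ℂ) × Th k κ) × ((Option m → ℂ) × ℂ))) =
      OnePoint.infty := by
  change ofProper (k2 hk) (isProperMap_k2 hk) (famP (continuous_Lf (Th k κ)) (isPr_Lf _)
    (continuous_lf _) (i0 := none) (Lf_pos _) (((u, (a, t)), (w, z)) :
      (I × ((m → ℂ) × Th k κ)) × ((Option m → ℂ) × ℂ))) = _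
  rw [famP_of_not _ _ _ _ _ hq]
  rfl

end fam

end Crest.Agent.R090.TopE491
end
end

-- ▼ part R090/TopF_491
section

/-!
# Row 90, TOPCELL (helper491), part F: the step identity
-/

set_option autoImplicit false
set_option linter.unusedSectionVars false

open Topology Filter Set Matrix
open Crest.Agent.R090.Sp962 Crest.Agent.R090.I0core275 Crest.Agent.R090.I0Defs417
  Crest.Agent.R090.I0Glue417
open Crest.Agent.R090.TopA491 Crest.Agent.R090.TopB491 Crest.Agent.R090.TopC491
  Crest.Agent.R090.TopD491 Crest.Agent.R090.TopE491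
open scoped unitInterval

noncomputable section

namespace Crest.Agent.R090.TopF491

/-- The index equivalence. -/
def eI (m : Type*) : Option m ⊕ Unit ≃ Option (m ⊕ Unit) where
  toFun x := match x with
    | .inl none => none
    | .inl (some i) => some (.inl i)
    | .inr _ => some (.inr ())
  invFun x := match x with
    | none => .inl none
    | some (.inl i) => .inl (some i)
    | some (.inr _) => .inr ()
  left_inv x := by rcases x with (_ | i) | _ <;> rfl
  right_inv x := by rcases x with _ | (i | _) <;> rfl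

section step

variable {m κ : Type*} [Fintype m] [DecidableEq m] [Fintype κ] [DecidableEq κ] {k k' : ℕ}
variable {B : Type*} [TopologicalSpace B]

/-- The next family. -/
def Ln (L : B → Matrix (Option m) (Option m) ℂ) (p : Bn L) :
    Matrix (Option (m ⊕ Unit)) (Option (m ⊕ Unit)) ℂ := Matrix.reindex (eI m) (eI m) p.1.2

theorem continuous_Ln (L : B → Matrix (Option m) (Option m) ℂ) : Continuous (Ln L) :=
  (continuous_snd.comp continuous_subtype_val).matrix_reindex _ _

theorem isPr_Ln (L : B → Matrix (Option m) (Option m) ℂ) (p : Bn L) : IsPr 1 (Ln L p) :=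
  isPr_reindex p.2.1 _

/-- `y ↦ (u, y)`. -/
def incI {U : Type*} [TopologicalSpace U] [T2Space U] (u : I) : PMap U (I × U) where
  toFun y := sm (u : OnePoint I) y
  cont := continuous_const.sm962 continuous_id
  map_inf := sm_inf_right _

theorem GG_homotopic (hk : k + Fintype.card (Option m) = k') :
    ((GG (κ := κ) hk).comp (incI 0)).Homotopic ((GG (κ := κ) hk).comp (incI 1)) :=
  homotopic_of_param (GG hk) (fun _ => rfl) (fun _ => rfl)

theorem rl_one (L : Matrix (Option m) (Option m) ℂ) (w : Option m → ℂ) (s : ℝ) :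
    rl 1 L w (s - 1) = rr L w s := by
  unfold rl rr
  congr 1
  ring

theorem Lf_one (T : Type*) {L : Matrix (Option m) (Option m) ℂ} (h : IsPr 1 L)
    (h0 : L none none ≠ 0) (t : T) : Lf m T (1, (I0Defs417.slope L, t)) = L := by
  change Pa (((1 : ℝ) : ℂ) • I0Defs417.slope L) = L
  rw [Complex.ofReal_one, one_smul]
  exact Pa_of h h0

theorem abs_le_rr (L : Matrix (Option m) (Option m) ℂ) (w : Option m → ℂ) (s : ℝ) :
    |s| ≤ rr L w s := by
  have h1 := rr_sq L w s
  have h2 := nq_nonneg (L *ᵥ w)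
  have h3 := rr_nonneg L w s
  refine abs_le_of_sq_le_sq ?_ h3
  rw [h1]
  linarith

theorem pch_bl_inf (L : Matrix (Option m) (Option m) ℂ) (v : Option m → ℂ) (r s : ℝ)
    (h : (((1 + s / r) / 2 : ℝ) : ℂ) * L none none = 0) :
    pch (Matrix.reindex (eI m) (eI m) (bl L v r s)) = OnePoint.infty := pch_of_eq h

theorem pch_bl {L : Matrix (Option m) (Option m) ℂ} (hL : IsPr 1 L) (h0 : L none none ≠ 0)
    (v : Option m → ℂ) {r s : ℝ} (hr : 0 < r) (hD : 0 < r + s) :
    pch (Matrix.reindex (eI m) (eI m) (bl L v r s)) =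
      ((Sum.elim (I0Defs417.slope L) (fun _ => star (v none) /
        (((L none none).re * (r + s) : ℝ) : ℂ)) : m ⊕ Unit → ℂ) : OnePoint (m ⊕ Unit → ℂ)) := by
  obtain ⟨-, -, h00, -⟩ := col_facts hL none
  have h1 : ((1 + s / r) / 2 : ℝ) ≠ 0 := by
    have : (1 + s / r) / 2 = (r + s) / (2 * r) := by
      field_simp
    rw [this]
    positivity
  have h1C : (((1 + s / r) / 2 : ℝ) : ℂ) ≠ 0 := by exact_mod_cast h1
  have h2 : Matrix.reindex (eI m) (eI m) (bl L v r s) none none =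
      (((1 + s / r) / 2 : ℝ) : ℂ) * L none none := rfl
  rw [pch_of_ne (by rw [h2]; exact mul_ne_zero h1C h0)]
  refine congrArg _ (funext fun i => ?_)
  have h3 : I0Defs417.slope (Matrix.reindex (eI m) (eI m) (bl L v r s)) i =
      Matrix.reindex (eI m) (eI m) (bl L v r s) (some i) none /
        ((((1 + s / r) / 2 : ℝ) : ℂ) * L none none) := rfl
  rw [h3]
  rcases i with i | i
  · change ((((1 + s / r) / 2 : ℝ) : ℂ) * L (some i) none) /
      ((((1 + s / r) / 2 : ℝ) : ℂ) * L none none) = L (some i) none / L none none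
    rw [mul_div_mul_left _ _ h1C]
  · change (((1 / (2 * r) : ℝ) : ℂ) * star (v none)) /
      ((((1 + s / r) / 2 : ℝ) : ℂ) * L none none) = star (v none) /
        (((L none none).re * (r + s) : ℝ) : ℂ)
    have h4 : ((L none none).re : ℝ) ≠ 0 := by
      intro h5
      rw [h5] at h00
      exact h0 (by rw [h00, Complex.ofReal_zero])
    have h6 : (((1 + s / r) / 2 : ℝ) : ℂ) * L none none =
        (((1 / (2 * r)) * ((L none none).re * (r + s)) : ℝ) : ℂ) := by
      have h7 : (1 + s / r) / 2 * (L none none).re =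
          (1 / (2 * r)) * ((L none none).re * (r + s)) := by
        field_simp
      rw [← h7]
      conv_lhs => rw [h00]
      push_cast
      ring
    rw [h6, Complex.ofReal_mul]
    have h8 : ((1 / (2 * r) : ℝ) : ℂ) ≠ 0 := by
      have : (1 / (2 * r) : ℝ) ≠ 0 := by positivity
      exact_mod_cast this
    rw [mul_div_mul_left _ _ h8]

variable [T2Space B] {L : B → Matrix (Option m) (Option m) ℂ}

theorem step_eq [CompactSpace B] [CompactSpace (Bn L)] (hL : Continuous L)
    (hP : ∀ b, IsPr 1 (L b)) (hk : k + Fintype.card (Option m) = k')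
    (x : (B × Th k κ) × ((Option m → ℂ) × ℂ)) :
    ((pinch (Ln L) (continuous_Ln L) (isPr_Ln L)).smash
      (PMap.id (Th k' (κ ⊕ (Option m ⊕ Unit))))) ((ofProper (k1 hP hk) (isProperMap_k1 hL hP hk))
        (stepP (A := B × Th k κ) (L := fun q => L q.1) (hL.comp continuous_fst)
          (fun q => hP q.1) (x : OnePoint ((B × Th k κ) × ((Option m → ℂ) × ℂ))))) =
    ((GG (κ := κ) hk).comp (incI 1)) ((((pinch L hL hP).smash (PMap.id (Th k κ))).smash
      (PMap.id ((Option m → ℂ) × ℂ))) (x : OnePoint ((B × Th k κ) × ((Option m → ℂ) × ℂ)))) := by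
  obtain ⟨⟨b, t⟩, ⟨w, z⟩⟩ := x
  change _ = GG (κ := κ) hk (sm ((1 : I) : OnePoint I) (sm (sm (pch (L b)) (t : OnePoint (Th k κ)))
    (((w, z) : (Option m → ℂ) × ℂ) : OnePoint ((Option m → ℂ) × ℂ))))
  by_cases h0 : L b none none = 0
  · rw [pch_of_eq h0, sm_inf_left, sm_inf_left, sm_inf_right, PMap.map_inf]
    by_cases hS : (((b, t), (w, z)) : (B × Th k κ) × ((Option m → ℂ) × ℂ)) ∈ OS (fun q => L q.1)
    · rw [stepP_of_pos _ _ _ hS]
      have h1 : pch (Ln L (k1 hP hk (iS (A := B × Th k κ) (L := fun q => L q.1)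
          (fun q => hP q.1) ⟨((b, t), (w, z)), hS⟩)).1) = OnePoint.infty := by
        refine pch_bl_inf _ _ _ _ ?_
        change _ * L b none none = 0
        rw [h0, mul_zero]
      change sm (pch (Ln L (k1 hP hk (iS (A := B × Th k κ) (L := fun q => L q.1)
          (fun q => hP q.1) ⟨((b, t), (w, z)), hS⟩)).1)) _ = _
      rw [h1, sm_inf_left]
    · rw [stepP_of_not _ _ _ hS]
      simp
  · have e0 : sm ((1 : I) : OnePoint I) (sm (sm (pch (L b)) (t : OnePoint (Th k κ)))
        (((w, z) : (Option m → ℂ) × ℂ) : OnePoint ((Option m → ℂ) × ℂ))) =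
        ((1, ((I0Defs417.slope (L b), t), (w, z))) :
          I × (((m → ℂ) × Th k κ) × ((Option m → ℂ) × ℂ))) := by
      rw [pch_of_ne h0]
      rfl
    rw [e0]
    have hLf : Lf m (Th k κ) (1, (I0Defs417.slope (L b), t)) = L b := Lf_one _ (hP b) h0 t
    have hDD : DD (Lf m (Th k κ)) (lf m (Th k κ)) ((1, (I0Defs417.slope (L b), t)), (w, z)) =
        rr (L b) w z.re + z.re := by
      change rl 1 (Lf m (Th k κ) (1, (I0Defs417.slope (L b), t))) w (z.re - 1) +
        (1 + 1 * (z.re - 1)) = _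
      rw [hLf, rl_one]
      ring
    by_cases hO : ((1, (I0Defs417.slope (L b), t)), (w, z)) ∈ O2 (Lf m (Th k κ)) (lf m (Th k κ))
    · have hD : 0 < rr (L b) w z.re + z.re := by
        rw [← hDD]
        exact hO
      have hr : 0 < rr (L b) w z.re := by
        have := rl_pos' ⟨_, hO⟩
        change 0 < rl 1 (Lf m (Th k κ) (1, (I0Defs417.slope (L b), t))) w (z.re - 1) at this
        rwa [hLf, rl_one] at this
      have hS : (((b, t), (w, z)) : (B × Th k κ) × ((Option m → ℂ) × ℂ)) ∈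
          OS (fun q => L q.1) := hr
      rw [stepP_of_pos _ _ _ hS, GG_of_pos hk _ _ _ _ _ hO]
      change sm (pch (Ln L (k1 hP hk (iS (A := B × Th k κ) (L := fun q => L q.1)
          (fun q => hP q.1) ⟨((b, t), (w, z)), hS⟩)).1)) (((k1 hP hk (iS (A := B × Th k κ)
          (L := fun q => L q.1) (fun q => hP q.1) ⟨((b, t), (w, z)), hS⟩)).2 :
            OnePoint (Th k' (κ ⊕ (Option m ⊕ Unit))))) = _
      have h1 : pch (Ln L (k1 hP hk (iS (A := B × Th k κ) (L := fun q => L q.1)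
          (fun q => hP q.1) ⟨((b, t), (w, z)), hS⟩)).1) = _ :=
        pch_bl (hP b) h0 (L b *ᵥ w) hr hD
      rw [h1]
      refine congrArg (fun q : ((m ⊕ Unit) → ℂ) × Th k' (κ ⊕ (Option m ⊕ Unit)) =>
        (q : OnePoint (((m ⊕ Unit) → ℂ) × Th k' (κ ⊕ (Option m ⊕ Unit))))) (Prod.ext ?_ ?_)
      · change _ = Sum.elim (I0Defs417.slope (L b)) (fun _ =>
          star ((Lf m (Th k κ) (1, (I0Defs417.slope (L b), t)) *ᵥ w) none) /
          (((Lf m (Th k κ) (1, (I0Defs417.slope (L b), t)) none none).re *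
            DD (Lf m (Th k κ)) (lf m (Th k κ)) ((1, (I0Defs417.slope (L b), t)), (w, z)) : ℝ) : ℂ))
        rw [hDD, hLf]
      · refine bsum_congr hk t (hP b) (isPr_Lf _ _)
          (iS (A := B × Th k κ) (L := fun q => L q.1) (fun q => hP q.1)
            ⟨((b, t), (w, z)), hS⟩).2.2.2
          (i2 (isPr_Lf _) (lf m (Th k κ)) none ⟨_, hO⟩).2 hLf.symm ?_ ?_
        · change w - L b *ᵥ w = w - Lf m (Th k κ) (1, (I0Defs417.slope (L b), t)) *ᵥ w
          rw [hLf]
        · change ((rr (L b) w z.re - 1 / rr (L b) w z.re : ℝ) : ℂ) + (z.im : ℂ) * Complex.I =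
            (((2 * (z.re - 1) + 1 * ((z.re - 1) ^ 2 +
              nq (Lf m (Th k κ) (1, (I0Defs417.slope (L b), t)) *ᵥ w))) /
              rl 1 (Lf m (Th k κ) (1, (I0Defs417.slope (L b), t))) w (z.re - 1) : ℝ) : ℂ) +
              (z.im : ℂ) * Complex.I
          rw [hLf, rl_one]
          congr 2
          have h2 := rr_sq (L b) w z.re
          rw [eq_div_iff hr.ne', sub_mul, div_mul_cancel₀ _ hr.ne']
          nlinarith
    · rw [GG_of_not hk _ _ _ _ _ hO]
      by_cases hS : (((b, t), (w, z)) : (B × Th k κ) × ((Option m → ℂ) × ℂ)) ∈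
          OS (fun q => L q.1)
      · rw [stepP_of_pos _ _ _ hS]
        have hr : 0 < rr (L b) w z.re := hS
        have hD : rr (L b) w z.re + z.re ≤ 0 := by
          rw [← hDD]
          exact not_lt.1 hO
        have h2 := abs_le_rr (L b) w z.re
        have h3 : z.re = - rr (L b) w z.re := by
          have := neg_le_of_abs_le h2
          linarith
        have h1 : pch (Ln L (k1 hP hk (iS (A := B × Th k κ) (L := fun q => L q.1)
            (fun q => hP q.1) ⟨((b, t), (w, z)), hS⟩)).1) = OnePoint.infty := by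
          refine pch_bl_inf _ _ _ _ ?_
          change (((1 + z.re / rr (L b) w z.re) / 2 : ℝ) : ℂ) * L b none none = 0
          have h4 : (1 + z.re / rr (L b) w z.re) / 2 = 0 := by
            have h5 : z.re / rr (L b) w z.re = -1 := by
              rw [div_eq_iff hr.ne']
              linarith
            rw [h5]
            norm_num
          rw [h4, Complex.ofReal_zero, zero_mul]
        change sm (pch (Ln L (k1 hP hk (iS (A := B × Th k κ) (L := fun q => L q.1)
            (fun q => hP q.1) ⟨((b, t), (w, z)), hS⟩)).1)) _ = _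
        rw [h1, sm_inf_left]
      · rw [stepP_of_not _ _ _ hS]
        simp

end step

end Crest.Agent.R090.TopF491
end
end

-- ▼ part R090/TopG_491

/-!
# Row 90, TOPCELL (helper491), part G: the induction, `TopCellIn (Fin M)`
-/

set_option autoImplicit false
set_option linter.unusedSectionVars false

open Topology Filter Set Matrix
open Crest.Agent.R090.Sp962 Crest.Agent.R090.I0core275 Crest.Agent.R090.I0Defs417
  Crest.Agent.R090.I0Glue417
open Crest.Agent.R090.TopA491 Crest.Agent.R090.TopB491 Crest.Agent.R090.TopC491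
  Crest.Agent.R090.TopD491 Crest.Agent.R090.TopE491 Crest.Agent.R090.TopF491
open scoped unitInterval

noncomputable section

namespace Crest.Agent.R090.TopG491

section zero

variable {m κ γ : Type*} [Fintype m] [DecidableEq m] [Fintype κ] [DecidableEq κ] [Fintype γ]
  {k k' : ℕ}

/-- The coordinate change. -/
def th (m γ : Type*) : ((m → ℂ) × (γ → ℂ)) × ((Option m → ℂ) × ℂ) ≃ₜ
    ((m ⊕ Unit) → ℂ) × ((γ ⊕ (m ⊕ Unit)) → ℂ) where
  toFun x := (Sum.elim x.1.1 (fun _ => star (x.2.1 none) / 2),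
    Sum.elim x.1.2 (Sum.elim (fun i => x.2.1 (some i))
      (fun _ => ((2 * (x.2.2.re - 1) : ℝ) : ℂ) + (x.2.2.im : ℂ) * Complex.I)))
  invFun y := ((fun i => y.1 (Sum.inl i), fun i => y.2 (Sum.inl i)),
    (fun i => i.elim (2 * star (y.1 (Sum.inr ()))) (fun i => y.2 (Sum.inr (Sum.inl i))),
      (((y.2 (Sum.inr (Sum.inr ()))).re / 2 + 1 : ℝ) : ℂ) +
        ((y.2 (Sum.inr (Sum.inr ()))).im : ℂ) * Complex.I))
  left_inv x := by
    obtain ⟨⟨a, v⟩, ⟨w, z⟩⟩ := x
    refine Prod.ext rfl (Prod.ext ?_ ?_)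
    · funext i
      cases i with
      | none =>
        change 2 * star (star (w none) / 2) = w none
        rw [star_div₀, star_star]
        have : star (2 : ℂ) = 2 := Complex.conj_ofNat 2
        rw [this]
        ring
      | some i => rfl
    · change (((((2 * (z.re - 1) : ℝ) : ℂ) + (z.im : ℂ) * Complex.I).re / 2 + 1 : ℝ) : ℂ) +
        ((((2 * (z.re - 1) : ℝ) : ℂ) + (z.im : ℂ) * Complex.I).im : ℂ) * Complex.I = z
      apply Complex.ext
      · simp
      · simp
  right_inv y := by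
    obtain ⟨a, v⟩ := y
    refine Prod.ext ?_ ?_
    · funext i
      rcases i with i | i
      · rfl
      · change star (2 * star (a (Sum.inr ()))) / 2 = a (Sum.inr ())
        rw [star_mul', star_star]
        have : star (2 : ℂ) = 2 := Complex.conj_ofNat 2
        rw [this]
        ring
    · funext i
      rcases i with i | (i | i)
      · rfl
      · rfl
      · cases i
        apply Complex.ext
        · simp
          ring
        · simp
  continuous_toFun := by
    have h1 : Continuous fun x : ((m → ℂ) × (γ → ℂ)) × ((Option m → ℂ) × ℂ) => x.2.2 :=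
      continuous_snd.comp continuous_snd
    have h2 : ∀ i, Continuous fun x : ((m → ℂ) × (γ → ℂ)) × ((Option m → ℂ) × ℂ) => x.2.1 i :=
      fun i => (continuous_apply i).comp (continuous_fst.comp continuous_snd)
    refine Continuous.prodMk (continuous_pi fun i => ?_) (continuous_pi fun i => ?_)
    · rcases i with i | i
      · exact (continuous_apply i).comp (continuous_fst.comp continuous_fst)
      · exact (continuous_star.comp (h2 none)).div_const 2
    · rcases i with i | (i | i)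
      · exact (continuous_apply i).comp (continuous_snd.comp continuous_fst)
      · exact h2 _
      · exact (Complex.continuous_ofReal.comp (continuous_const.mul
          ((Complex.continuous_re.comp h1).sub continuous_const))).add
          ((Complex.continuous_ofReal.comp (Complex.continuous_im.comp h1)).mul continuous_const)
  continuous_invFun := by
    have h1 : ∀ i, Continuous fun y : ((m ⊕ Unit) → ℂ) × ((γ ⊕ (m ⊕ Unit)) → ℂ) => y.1 i :=
      fun i => (continuous_apply i).comp continuous_fst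
    have h2 : ∀ i, Continuous fun y : ((m ⊕ Unit) → ℂ) × ((γ ⊕ (m ⊕ Unit)) → ℂ) => y.2 i :=
      fun i => (continuous_apply i).comp continuous_snd
    refine Continuous.prodMk (Continuous.prodMk (continuous_pi fun i => h1 _)
      (continuous_pi fun i => h2 _)) (Continuous.prodMk (continuous_pi fun i => ?_) ?_)
    · cases i with
      | none => exact continuous_const.mul (continuous_star.comp (h1 _))
      | some i => exact h2 _
    · exact (Complex.continuous_ofReal.comp (((Complex.continuous_re.comp (h2 _)).div_const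
        2).add continuous_const)).add
          ((Complex.continuous_ofReal.comp (Complex.continuous_im.comp (h2 _))).mul
            continuous_const)

theorem Pa_zero_apply (i j : Option m) :
    Pa (0 : m → ℂ) i j = if i = none ∧ j = none then 1 else 0 := by
  have h : nq (0 : m → ℂ) = 0 := nq_eq_zero.2 rfl
  unfold Pa
  rw [h]
  cases i <;> cases j <;> simp [vec1]

theorem Pa_zero_mulVec (w : Option m → ℂ) (i : Option m) :
    (Pa (0 : m → ℂ) *ᵥ w) i = if i = none then w none else 0 := by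
  rw [mulVec, dotProduct, Fintype.sum_option]
  simp only [Pa_zero_apply]
  cases i <;> simp

theorem one_sub_Pa_zero : (1 : Matrix (Option m) (Option m) ℂ) - Pa 0 = pJ some := by
  classical
  ext i j
  rw [Matrix.sub_apply, Pa_zero_apply, pJ, Matrix.diagonal_apply, Matrix.one_apply]
  cases i <;> cases j <;> simp

theorem pJ_id : pJ (id : Unit → Unit) = 1 := by
  classical
  ext i j
  rw [pJ, Matrix.diagonal_apply, Matrix.one_apply]
  simp

theorem cb_Pa_zero : cb (Pa (0 : m → ℂ)) = pJ (Sum.map some id) := by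
  rw [← pJ_sum, one_sub_Pa_zero.symm, pJ_id]
  rfl

theorem Lf_zero (T : Type*) (a : m → ℂ) (t : T) : Lf m T (0, (a, t)) = Pa 0 := by
  change Pa (((0 : ℝ) : ℂ) • a) = Pa 0
  rw [Complex.ofReal_zero, zero_smul]

theorem rl_zero (L : Matrix (Option m) (Option m) ℂ) (w : Option m → ℂ) (s : ℝ) :
    rl 0 L w s = 1 := by
  unfold rl
  norm_num

theorem injective_sm {s : γ → κ} (hs : Function.Injective s) :
    Function.Injective (Sum.map s (Sum.map (some : m → Option m) (id : Unit → Unit))) :=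
  hs.sumMap ((Option.some_injective _).sumMap Function.injective_id)

theorem GG_zero (hk : Fintype.card γ + Fintype.card (Option m) = Fintype.card (γ ⊕ (m ⊕ Unit)))
    (s : γ → κ) (hs : Function.Injective s) :
    ((GG (κ := κ) hk).comp (incI 0)).comp (((PMap.id (m → ℂ)).smash (fibJ s hs)).smash
      (PMap.id ((Option m → ℂ) × ℂ))) =
    ((PMap.id ((m ⊕ Unit) → ℂ)).smash (fibJ (Sum.map s (Sum.map some id))
      (injective_sm hs))).comp (PMap.ofHomeo (th m γ)) := by
  refine PMap.ext fun x => ?_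
  obtain ⟨⟨a, v⟩, ⟨w, z⟩⟩ := x
  change GG (κ := κ) hk ((0, ((a, (⟨(pJ s, Function.extend s v 0), isPr_pJ hs,
      pJ_mulVec_extLin s hs v⟩ : Th (Fintype.card γ) κ)), (w, z))) :
        I × (((m → ℂ) × Th (Fintype.card γ) κ) × ((Option m → ℂ) × ℂ))) = _
  set t : Th (Fintype.card γ) κ := ⟨(pJ s, Function.extend s v 0), isPr_pJ hs,
      pJ_mulVec_extLin s hs v⟩ with ht
  have hLf : Lf m (Th (Fintype.card γ) κ) (0, (a, t)) = Pa 0 := Lf_zero _ a t
  have hDD : DD (Lf m (Th (Fintype.card γ) κ)) (lf m (Th (Fintype.card γ) κ))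
      ((0, (a, t)), (w, z)) = 2 := by
    change rl 0 _ w (z.re - 1) + (1 + 0 * (z.re - 1)) = _
    rw [rl_zero]
    ring
  have hO : ((0, (a, t)), (w, z)) ∈ O2 (Lf m (Th (Fintype.card γ) κ))
      (lf m (Th (Fintype.card γ) κ)) := by
    change 0 < DD (Lf m (Th (Fintype.card γ) κ)) (lf m (Th (Fintype.card γ) κ))
      ((0, (a, t)), (w, z))
    rw [hDD]
    norm_num
  rw [GG_of_pos hk _ _ _ _ _ hO]
  change _ = (((((th m γ) ((a, v), (w, z))).1,
    (⟨(pJ (Sum.map s (Sum.map some id)), Function.extend (Sum.map s (Sum.map some id))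
      ((th m γ) ((a, v), (w, z))).2 0), isPr_pJ (injective_sm hs),
      pJ_mulVec_extLin _ (injective_sm hs) _⟩ :
        Th (Fintype.card (γ ⊕ (m ⊕ Unit))) (κ ⊕ (Option m ⊕ Unit)))) :
    ((m ⊕ Unit) → ℂ) × Th (Fintype.card (γ ⊕ (m ⊕ Unit))) (κ ⊕ (Option m ⊕ Unit))) :
    OnePoint (((m ⊕ Unit) → ℂ) × Th (Fintype.card (γ ⊕ (m ⊕ Unit))) (κ ⊕ (Option m ⊕ Unit))))
  refine congrArg (fun q : ((m ⊕ Unit) → ℂ) × Th (Fintype.card (γ ⊕ (m ⊕ Unit)))
    (κ ⊕ (Option m ⊕ Unit)) => (q : OnePoint (((m ⊕ Unit) → ℂ) ×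
      Th (Fintype.card (γ ⊕ (m ⊕ Unit))) (κ ⊕ (Option m ⊕ Unit))))) (Prod.ext ?_ ?_)
  · change Sum.elim a (fun _ => star ((Lf m (Th (Fintype.card γ) κ) (0, (a, t)) *ᵥ w) none) /
      (((Lf m (Th (Fintype.card γ) κ) (0, (a, t)) none none).re *
        DD (Lf m (Th (Fintype.card γ) κ)) (lf m (Th (Fintype.card γ) κ))
          ((0, (a, t)), (w, z)) : ℝ) : ℂ)) = Sum.elim a (fun _ => star (w none) / 2)
    rw [hDD, hLf, Pa_zero_mulVec, Pa_zero_apply]
    simp
  · apply Subtype.ext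
    refine Prod.ext ?_ ?_
    · change fromBlocks (pJ s) 0 0 (cb (Lf m (Th (Fintype.card γ) κ) (0, (a, t)))) = _
      rw [hLf, cb_Pa_zero]
      exact pJ_sum _ _
    · change Sum.elim (Function.extend s v 0) (Sum.elim
        (w - Lf m (Th (Fintype.card γ) κ) (0, (a, t)) *ᵥ w)
        (fun _ => ((((2 * (z.re - 1) + 0 * ((z.re - 1) ^ 2 +
          nq (Lf m (Th (Fintype.card γ) κ) (0, (a, t)) *ᵥ w))) /
          rl 0 (Lf m (Th (Fintype.card γ) κ) (0, (a, t))) w (z.re - 1) : ℝ) : ℂ) +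
          (z.im : ℂ) * Complex.I))) = Function.extend (Sum.map s (Sum.map some id))
          (Sum.elim v (Sum.elim (fun i => w (some i))
      (fun _ => ((2 * (z.re - 1) : ℝ) : ℂ) + (z.im : ℂ) * Complex.I))) 0
      have e1 : w - Lf m (Th (Fintype.card γ) κ) (0, (a, t)) *ᵥ w =
          Function.extend (some : m → Option m) (fun i => w (some i)) 0 := by
        rw [hLf]
        funext i
        rw [Pi.sub_apply, Pa_zero_mulVec]
        cases i with
        | none =>
          rw [Function.extend_apply' _ _ _ (by simp)]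
          simp
        | some i =>
          rw [(Option.some_injective m).extend_apply]
          simp
      have e2 : ∀ f : Unit → ℂ, f = Function.extend (id : Unit → Unit) f 0 := by
        intro f
        funext i
        exact (Function.injective_id.extend_apply f 0 i).symm
      rw [rl_zero, e1, zero_mul, add_zero, div_one, ← extend_sum hs
        ((Option.some_injective _).sumMap Function.injective_id),
        ← extend_sum (Option.some_injective _) Function.injective_id, ← e2]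

end zero

/-! ## The induction -/

/-- The statement for a general finite type. -/
def TC (m : Type) [Fintype m] [DecidableEq m] : Prop :=
  ∃ (B : Type) (_ : TopologicalSpace B) (_ : CompactSpace B) (_ : T2Space B)
    (L : B → Matrix (Option m) (Option m) ℂ) (hL : Continuous L) (hP : ∀ b, IsPr 1 (L b))
    (κ : Type) (_ : Fintype κ) (_ : DecidableEq κ) (γ : Type) (_ : Fintype γ) (s : γ → κ)
    (hs : Function.Injective s)
    (τ : PMap ((m → ℂ) × (γ → ℂ)) (B × Th (Fintype.card γ) κ)),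
    (((pinch L hL hP).smash (PMap.id (Th (Fintype.card γ) κ))).comp τ).Homotopic
      ((PMap.id (m → ℂ)).smash (fibJ s hs))

theorem step {m : Type} [Fintype m] [DecidableEq m] (h : TC m) : TC (m ⊕ Unit) := by
  obtain ⟨B, _, _, _, L, hL, hP, κ, _, _, γ, _, s, hs, τ, hτ⟩ := h
  have := compactSpace_Bn hL
  have hk : Fintype.card γ + Fintype.card (Option m) = Fintype.card (γ ⊕ (m ⊕ Unit)) := by
    simp
  refine ⟨Bn L, inferInstance, inferInstance, inferInstance, Ln L, continuous_Ln L, isPr_Ln L,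
    κ ⊕ (Option m ⊕ Unit), inferInstance, inferInstance, γ ⊕ (m ⊕ Unit), inferInstance,
    Sum.map s (Sum.map some id), injective_sm hs,
    ((ofProper (k1 hP hk) (isProperMap_k1 hL hP hk)).comp
      ((stepP (A := B × Th (Fintype.card γ) κ) (L := fun q => L q.1) (hL.comp continuous_fst)
        (fun q => hP q.1)).comp (τ.smash (PMap.id ((Option m → ℂ) × ℂ))))).comp
      (PMap.ofHomeo (th m γ).symm), ?_⟩
  have e1 : ((pinch (Ln L) (continuous_Ln L) (isPr_Ln L)).smash
      (PMap.id (Th (Fintype.card (γ ⊕ (m ⊕ Unit))) (κ ⊕ (Option m ⊕ Unit))))).comp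
      ((ofProper (k1 hP hk) (isProperMap_k1 hL hP hk)).comp
        (stepP (A := B × Th (Fintype.card γ) κ) (L := fun q => L q.1) (hL.comp continuous_fst)
          (fun q => hP q.1))) =
      ((GG (κ := κ) hk).comp (incI 1)).comp
        (((pinch L hL hP).smash (PMap.id (Th (Fintype.card γ) κ))).smash
          (PMap.id ((Option m → ℂ) × ℂ))) :=
    PMap.ext fun x => step_eq hL hP hk x
  have e2 : ((pinch (Ln L) (continuous_Ln L) (isPr_Ln L)).smash
      (PMap.id (Th (Fintype.card (γ ⊕ (m ⊕ Unit))) (κ ⊕ (Option m ⊕ Unit))))).comp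
      (((ofProper (k1 hP hk) (isProperMap_k1 hL hP hk)).comp
        ((stepP (A := B × Th (Fintype.card γ) κ) (L := fun q => L q.1) (hL.comp continuous_fst)
        (fun q => hP q.1)).comp (τ.smash (PMap.id ((Option m → ℂ) × ℂ))))).comp
        (PMap.ofHomeo (th m γ).symm)) =
      (((GG (κ := κ) hk).comp (incI 1)).comp
        (((((pinch L hL hP).smash (PMap.id (Th (Fintype.card γ) κ))).comp τ).smash
          (PMap.id ((Option m → ℂ) × ℂ))))).comp (PMap.ofHomeo (th m γ).symm) := by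
    have e3 : (((pinch L hL hP).smash (PMap.id (Th (Fintype.card γ) κ))).comp τ).smash
          (PMap.id ((Option m → ℂ) × ℂ)) =
        (((pinch L hL hP).smash (PMap.id (Th (Fintype.card γ) κ))).smash
          (PMap.id ((Option m → ℂ) × ℂ))).comp (τ.smash (PMap.id ((Option m → ℂ) × ℂ))) := by
      rw [PMap.smash_comp]
      rfl
    rw [e3]
    exact congrArg (fun f => (f.comp (τ.smash (PMap.id ((Option m → ℂ) × ℂ)))).comp
      (PMap.ofHomeo (th m γ).symm)) e1
  rw [e2]
  have h2 := ((GG_homotopic (m := m) (κ := κ) hk).symm.comp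
    (hτ.smash (PMap.Homotopic.refl (PMap.id ((Option m → ℂ) × ℂ))))).comp_right
      (PMap.ofHomeo (th m γ).symm)
  rw [GG_zero hk s hs] at h2
  refine h2.trans (.of_eq ?_)
  rw [PMap.comp_assoc, PMap.ofHomeo_comp_symm, PMap.comp_id]

theorem base : TC (Fin 0) := by
  have hP : ∀ b : Unit, IsPr 1 ((fun _ => 1 : Unit → Matrix (Option (Fin 0)) (Option (Fin 0)) ℂ) b) :=
    fun _ => ⟨by simp, by simp, by simp⟩
  let e : (Fin 0 → ℂ) ≃ₜ Unit := Homeomorph.homeomorphOfUnique _ _
  refine ⟨Unit, inferInstance, inferInstance, inferInstance, fun _ => 1, continuous_const, hP,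
    Fin 0, inferInstance, inferInstance, Fin 0, inferInstance, id, Function.injective_id,
    (PMap.ofHomeo e).smash (fibJ id Function.injective_id), .of_eq ?_⟩
  rw [PMap.smash_comp, PMap.id_comp]
  congr 1
  refine PMap.ext fun x => ?_
  change pch (1 : Matrix (Option (Fin 0)) (Option (Fin 0)) ℂ) = _
  rw [pch_of_ne (by simp)]
  exact congrArg _ (Subsingleton.elim _ _)

theorem transport {m m' : Type} [Fintype m] [DecidableEq m] [Fintype m'] [DecidableEq m']
    (e : m ≃ m') (h : TC m) : TC m' := by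
  obtain ⟨B, _, _, _, L, hL, hP, κ, _, _, γ, _, s, hs, τ, hτ⟩ := h
  have hL' : Continuous fun b => Matrix.reindex e.optionCongr e.optionCongr (L b) :=
    hL.matrix_reindex _ _
  have hP' : ∀ b, IsPr 1 (Matrix.reindex e.optionCongr e.optionCongr (L b)) :=
    fun b => isPr_reindex (hP b) _
  refine ⟨B, inferInstance, inferInstance, inferInstance, _, hL', hP', κ, inferInstance,
    inferInstance, γ, inferInstance, s, hs,
    τ.comp ((PMap.ofHomeo (funH e).symm).smash (PMap.id (γ → ℂ))), ?_⟩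
  have e1 : pinch _ hL' hP' = (PMap.ofHomeo (funH e)).comp (pinch L hL hP) := by
    refine PMap.ext fun b => ?_
    change pch (Matrix.reindex e.optionCongr e.optionCongr (L b)) =
      PMap.ofHomeo (funH e) (pch (L b))
    by_cases h0 : L b none none = 0
    · rw [pch_of_eq h0, pch_of_eq, PMap.map_inf]
      exact h0
    · rw [pch_of_ne h0, pch_of_ne]
      · refine congrArg _ (funext fun i => ?_)
        rfl
      · exact h0
  have e2 : ((pinch _ hL' hP').smash (PMap.id (Th (Fintype.card γ) κ))).comp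
      (τ.comp ((PMap.ofHomeo (funH e).symm).smash (PMap.id (γ → ℂ)))) =
      ((PMap.ofHomeo (funH e)).smash (PMap.id (Th (Fintype.card γ) κ))).comp
        ((((pinch L hL hP).smash (PMap.id (Th (Fintype.card γ) κ))).comp τ).comp
          ((PMap.ofHomeo (funH e).symm).smash (PMap.id (γ → ℂ)))) := by
    rw [e1]
    have e3 : ((PMap.ofHomeo (funH e)).comp (pinch L hL hP)).smash
        (PMap.id (Th (Fintype.card γ) κ)) =
        ((PMap.ofHomeo (funH e)).smash (PMap.id (Th (Fintype.card γ) κ))).comp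
          ((pinch L hL hP).smash (PMap.id (Th (Fintype.card γ) κ))) := by
      rw [PMap.smash_comp]
      rfl
    rw [e3]
    rfl
  rw [e2]
  refine ((hτ.comp_right _).comp_left _).trans (.of_eq ?_)
  rw [PMap.smash_comp, PMap.smash_comp, PMap.id_comp, PMap.id_comp, PMap.ofHomeo_comp_symm,
    PMap.comp_id]

theorem all (M : ℕ) : TC (Fin M) := by
  induction M with
  | zero => exact base
  | succ M ih => exact transport (Fintype.equivOfCardEq (by simp)) (step ih)

/-- **TOPCELL**, the input of the block (I0). -/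
theorem topCell (M : ℕ) : TopCellIn (Fin M) := by
  obtain ⟨B, _, _, _, L, hL, hP, κ, _, _, γ, _, s, hs, τ, hτ⟩ := all M
  let e : Fin (Fintype.card γ) ≃ γ := (Fintype.equivFin γ).symm
  have hs' : Function.Injective (s ∘ e) := hs.comp e.injective
  refine ⟨B, inferInstance, inferInstance, inferInstance, L, hL, hP, κ, inferInstance,
    inferInstance, Fintype.card γ, s ∘ e, hs',
    τ.comp ((PMap.id (Fin M → ℂ)).smash (PMap.ofHomeo (funH e))), ?_⟩
  refine (hτ.comp_right _).trans (.of_eq ?_)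
  rw [PMap.smash_comp, PMap.id_comp]
  congr 1
  refine PMap.ext fun x => ?_
  refine congrArg (fun y : Th (Fintype.card γ) κ => (y : OnePoint (Th (Fintype.card γ) κ)))
    (Subtype.ext ?_)
  refine Eq.trans ?_ (castTh_val (Fintype.card_fin _) _).symm
  refine Prod.ext ?_ ?_
  · exact (pJ_comp_equiv s e).symm
  · exact (extend_comp_equiv hs e x).symm

end Crest.Agent.R090.TopG491
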